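import Mathlib

-- ▼ part R163/Bern
section

/-! Row 163: kernel checker for the nonnegativity on boxes of bilinear polynomial expressions
`∑ C a b * f_a (r, y) * f_b (r', y')` by Bernstein coefficients. -/

set_option autoImplicit false

namespace Crest.Agent.R163.Bern

/-! ### integer vectors -/

/-- scalar multiple -/
def smul (c : Int) : List Int → List Int
  | [] => []
  | a :: as => Int.mul c a :: smul c as

/-- sum -/
def add : List Int → List Int → List Int
  | [], bs => bs
  | a :: as, [] => a :: as
  | a :: as, b :: bs => Int.add a b :: add as bs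

/-- dot product of integer lists -/
def dotI : List Int → List Int → Int
  | [], _ => Int.ofNat 0
  | _ :: _, [] => Int.ofNat 0
  | a :: as, b :: bs => Int.add (Int.mul a b) (dotI as bs)

/-- `∑ |a_i| b_i` -/
def dotAbs : List Int → List Nat → Nat
  | [], _ => 0
  | _ :: _, [] => 0
  | a :: as, b :: bs => Nat.add (Nat.mul (Int.natAbs a) b) (dotAbs as bs)

/-- maximum of absolute values -/
def maxAbs : List Int → Nat
  | [] => 0
  | a :: as => Nat.add (Int.natAbs a) (maxAbs as)

/-- auxiliary for `mulLin` -/
def mulLinAux (a b prev : Int) : List Int → List Int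
  | [] => [Int.mul b prev]
  | x :: xs => Int.add (Int.mul a x) (Int.mul b prev) :: mulLinAux a b x xs

/-- multiplication by `a u + b v` of a homogeneous polynomial in `(u, v)` -/
def mulLin (a b : Int) : List Int → List Int
  | [] => []
  | x :: xs => Int.mul a x :: mulLinAux a b x xs

/-- pair of the transform of `q` (substitution of `X / Y`, `X = a u + b v`, `Y = c (u + v)`,
multiplied by `Y ^ deg`) and of `Y ^ length q` -/
def tr (a b c : Int) : List Int → List Int × List Int
  | [] => ([], [Int.ofNat 1])
  | q0 :: q => (add (smul q0 (tr a b c q).2) (mulLin a b (tr a b c q).1),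
      mulLin c c (tr a b c q).2)

/-- evaluation of a homogeneous polynomial -/
noncomputable def hev (u v : ℝ) : List Int → ℝ
  | [] => 0
  | a :: as => (a : ℝ) * u ^ as.length + v * hev u v as

/-- evaluation of a polynomial -/
noncomputable def ev (t : ℝ) : List Int → ℝ
  | [] => 0
  | a :: as => (a : ℝ) + t * ev t as

lemma length_smul (c : Int) (l : List Int) : (smul c l).length = l.length := by
  induction l with
  | nil => rfl
  | cons a as ih => simp [smul, ih]

lemma length_add (l l' : List Int) (h : l.length = l'.length) : (add l l').length = l'.length := by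
  induction l generalizing l' with
  | nil => simp [add]
  | cons a as ih =>
    cases l' with
    | nil => simp at h
    | cons b bs => simp [add, ih bs (by simpa using h)]

lemma length_mulLinAux (a b prev : Int) (l : List Int) :
    (mulLinAux a b prev l).length = l.length + 1 := by
  induction l generalizing prev with
  | nil => rfl
  | cons x xs ih => simp [mulLinAux, ih]

lemma length_mulLin (a b : Int) (l : List Int) (h : l ≠ []) :
    (mulLin a b l).length = l.length + 1 := by
  cases l with
  | nil => exact absurd rfl h
  | cons x xs => simp [mulLin, length_mulLinAux]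

lemma hev_smul (u v : ℝ) (c : Int) (l : List Int) : hev u v (smul c l) = c * hev u v l := by
  induction l with
  | nil => simp [smul, hev]
  | cons a as ih =>
    simp only [smul, hev, ih, length_smul]
    have : ((Int.mul c a : Int) : ℝ) = c * a := by
      rw [show Int.mul c a = c * a from rfl]; push_cast; ring
    rw [this]; ring

lemma hev_add (u v : ℝ) (l l' : List Int) (h : l.length = l'.length) :
    hev u v (add l l') = hev u v l + hev u v l' := by
  induction l generalizing l' with
  | nil => simp [add, hev]
  | cons a as ih =>
    cases l' with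
    | nil => simp at h
    | cons b bs =>
      have h' : as.length = bs.length := by simpa using h
      simp only [add, hev, ih bs h', length_add as bs h', h']
      have : ((Int.add a b : Int) : ℝ) = a + b := by
        rw [show Int.add a b = a + b from rfl]; push_cast; ring
      rw [this]; ring

lemma hev_mulLinAux (u v : ℝ) (a b prev : Int) (l : List Int) :
    hev u v (mulLinAux a b prev l) = b * prev * u ^ l.length + (a * u + b * v) * hev u v l := by
  induction l generalizing prev with
  | nil =>
    simp only [mulLinAux, hev, List.length_nil, pow_zero, mul_zero, add_zero, mul_one]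
    rw [show Int.mul b prev = b * prev from rfl]; push_cast; ring
  | cons x xs ih =>
    simp only [mulLinAux, hev, ih, length_mulLinAux, List.length_cons]
    rw [show Int.add (Int.mul a x) (Int.mul b prev) = a * x + b * prev from rfl]
    push_cast
    ring

lemma hev_mulLin (u v : ℝ) (a b : Int) (l : List Int) :
    hev u v (mulLin a b l) = (a * u + b * v) * hev u v l := by
  cases l with
  | nil => simp [mulLin, hev]
  | cons x xs =>
    simp only [mulLin, hev, hev_mulLinAux, length_mulLinAux]
    rw [show Int.mul a x = a * x from rfl]
    push_cast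
    ring

lemma length_tr (a b c : Int) (q : List Int) :
    (tr a b c q).1.length = q.length ∧ (tr a b c q).2.length = q.length + 1 := by
  induction q with
  | nil => simp [tr]
  | cons q0 q ih =>
    obtain ⟨h1, h2⟩ := ih
    have h3 : (tr a b c q).2 ≠ [] := by
      intro h; rw [h] at h2; simp at h2
    have h4 : (mulLin a b (tr a b c q).1).length = q.length + (if q = [] then 0 else 1) := by
      by_cases hq : q = []
      · subst hq; simp [tr, mulLin]
      · rw [length_mulLin _ _ _ (by
          intro h; rw [h] at h1
          exact hq (List.length_eq_zero_iff.mp h1.symm)), h1]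
        simp [hq]
    constructor
    · simp only [tr]
      by_cases hq : q = []
      · subst hq; simp [tr, mulLin, smul, add]
      · rw [length_add]
        · rw [h4]; simp [hq]
        · rw [length_smul, h2, h4]; simp [hq]
    · simp only [tr]
      rw [length_mulLin _ _ _ h3, h2]
      simp

lemma hev_tr (u v : ℝ) (a b c : Int) (t : ℝ) (ht : (a : ℝ) * u + b * v = t * (c * u + c * v))
    (q : List Int) :
    hev u v (tr a b c q).2 = (c * u + c * v) ^ q.length ∧
    (q ≠ [] → hev u v (tr a b c q).1 = (c * u + c * v) ^ (q.length - 1) * ev t q) := by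
  induction q with
  | nil => simp [tr, hev]
  | cons q0 q ih =>
    obtain ⟨h1, h2⟩ := ih
    constructor
    · simp only [tr, hev_mulLin, h1, List.length_cons]
      ring
    · intro _
      simp only [tr]
      by_cases hq : q = []
      · subst hq
        simp [tr, mulLin, smul, add, hev, ev]
      · have h3 := length_tr a b c q
        have h4 : (tr a b c q).1 ≠ [] := by
          intro h; rw [h] at h3
          exact hq (List.length_eq_zero_iff.mp h3.1.symm)
        rw [hev_add]
        · rw [hev_smul, hev_mulLin, h1, h2 hq, ht]
          simp only [ev, List.length_cons, Nat.add_sub_cancel]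
          obtain ⟨n, hn⟩ : ∃ n, q.length = n + 1 :=
            ⟨q.length - 1, by
              have := List.length_pos_of_ne_nil hq
              omega⟩
          rw [hn]
          simp only [Nat.add_sub_cancel]
          ring
        · rw [length_smul, length_mulLin _ _ _ h4, h3.1, h3.2]


/-! ### dot products with real lists -/

/-- dot product of an integer list and a real list -/
noncomputable def dotR : List Int → List ℝ → ℝ
  | [], _ => 0
  | _ :: _, [] => 0
  | a :: as, x :: xs => (a : ℝ) * x + dotR as xs

/-- homogeneous basis -/
noncomputable def bas (u v : ℝ) : ℕ → List ℝ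
  | 0 => []
  | n + 1 => u ^ n :: (bas u v n).map (v * ·)

lemma length_bas (u v : ℝ) (n : ℕ) : (bas u v n).length = n := by
  induction n with
  | zero => rfl
  | succ n ih => simp [bas, ih]

lemma bas_nonneg {u v : ℝ} (hu : 0 ≤ u) (hv : 0 ≤ v) (n : ℕ) : ∀ x ∈ bas u v n, 0 ≤ x := by
  induction n with
  | zero => simp [bas]
  | succ n ih =>
    intro x hx
    simp only [bas, List.mem_cons, List.mem_map] at hx
    rcases hx with rfl | ⟨y, hy, rfl⟩
    · positivity
    · exact mul_nonneg hv (ih y hy)

lemma dotR_map_mul (l : List Int) (xs : List ℝ) (c : ℝ) :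
    dotR l (xs.map (c * ·)) = c * dotR l xs := by
  induction l generalizing xs with
  | nil => simp [dotR]
  | cons a as ih =>
    cases xs with
    | nil => simp [dotR]
    | cons x xs => simp only [List.map_cons, dotR, ih]; ring

lemma hev_eq_dotR (u v : ℝ) (l : List Int) : hev u v l = dotR l (bas u v l.length) := by
  induction l with
  | nil => simp [hev, dotR]
  | cons a as ih => simp only [hev, List.length_cons, bas, dotR, dotR_map_mul, ih]

lemma dotR_nonneg {l : List Int} {xs : List ℝ} (hl : ∀ a ∈ l, 0 ≤ a) (hx : ∀ x ∈ xs, 0 ≤ x) :
    0 ≤ dotR l xs := by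
  induction l generalizing xs with
  | nil => simp [dotR]
  | cons a as ih =>
    cases xs with
    | nil => simp [dotR]
    | cons x xs =>
      simp only [dotR]
      have h1 : (0 : ℝ) ≤ a := by exact_mod_cast hl a (by simp)
      have h2 := hx x (by simp)
      have h3 := ih (fun a ha => hl a (by simp [ha])) (xs := xs) (fun x hx' => hx x (by simp [hx']))
      positivity

lemma dotR_smul (c : Int) (l : List Int) (xs : List ℝ) : dotR (smul c l) xs = c * dotR l xs := by
  induction l generalizing xs with
  | nil => simp [smul, dotR]
  | cons a as ih =>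
    cases xs with
    | nil => simp [smul, dotR]
    | cons x xs =>
      simp only [smul, dotR, ih]
      rw [show Int.mul c a = c * a from rfl]; push_cast; ring

lemma dotR_add (l l' : List Int) (h : l.length = l'.length) (xs : List ℝ) :
    dotR (add l l') xs = dotR l xs + dotR l' xs := by
  induction l generalizing l' xs with
  | nil =>
    cases l' with
    | nil => simp [add, dotR]
    | cons b bs => simp at h
  | cons a as ih =>
    cases l' with
    | nil => simp at h
    | cons b bs =>
      cases xs with
      | nil => simp [add, dotR]
      | cons x xs =>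
        simp only [add, dotR, ih bs (by simpa using h)]
        rw [show Int.add a b = a + b from rfl]; push_cast; ring

lemma dotR_replicate (n : ℕ) (xs : List ℝ) : dotR (List.replicate n 0) xs = 0 := by
  induction n generalizing xs with
  | zero => simp [dotR]
  | succ n ih =>
    cases xs with
    | nil => simp [List.replicate_succ, dotR]
    | cons x xs => simp [List.replicate_succ, dotR, ih]

/-! ### packing -/

/-- packed vector -/
def pack (B : Int) : List Int → Int
  | [] => Int.ofNat 0
  | a :: as => Int.add a (Int.mul B (pack B as))

/-- linear combination (specification only) -/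
def lincomb (N : ℕ) : List Int → List (List Int) → List Int
  | [], _ => List.replicate N 0
  | _ :: _, [] => List.replicate N 0
  | s :: ss, w :: ws => add (smul s w) (lincomb N ss ws)

lemma length_lincomb {N : ℕ} (s : List Int) (ws : List (List Int)) (hw : ∀ w ∈ ws, w.length = N) :
    (lincomb N s ws).length = N := by
  induction s generalizing ws with
  | nil => simp [lincomb]
  | cons a as ih =>
    cases ws with
    | nil => simp [lincomb]
    | cons w ws =>
      have h1 := hw w (by simp)
      have h2 := ih ws (fun w hw' => hw w (by simp [hw']))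
      simp only [lincomb]
      rw [length_add]
      · exact h2
      · rw [length_smul, h1, h2]

lemma pack_replicate (B : Int) (n : ℕ) : pack B (List.replicate n 0) = 0 := by
  induction n with
  | zero => rfl
  | succ n ih =>
    simp only [List.replicate_succ, pack, ih]
    show 0 + B * 0 = (0 : Int)
    simp

lemma pack_smul (B c : Int) (l : List Int) : pack B (smul c l) = c * pack B l := by
  induction l with
  | nil => simp [smul, pack]
  | cons a as ih =>
    simp only [smul, pack, ih]
    show c * a + B * (c * pack B as) = c * (a + B * pack B as)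
    ring

lemma pack_add (B : Int) (l l' : List Int) (h : l.length = l'.length) :
    pack B (add l l') = pack B l + pack B l' := by
  induction l generalizing l' with
  | nil =>
    cases l' with
    | nil => rfl
    | cons b bs => simp at h
  | cons a as ih =>
    cases l' with
    | nil => simp at h
    | cons b bs =>
      simp only [add, pack, ih bs (by simpa using h)]
      show a + b + B * (pack B as + pack B bs) = (a + B * pack B as) + (b + B * pack B bs)
      ring

lemma pack_lincomb (B : Int) {N : ℕ} (s : List Int) (ws : List (List Int))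
    (hw : ∀ w ∈ ws, w.length = N) :
    pack B (lincomb N s ws) = dotI s (ws.map (pack B)) := by
  induction s generalizing ws with
  | nil => simp only [lincomb, pack_replicate]; rfl
  | cons a as ih =>
    cases ws with
    | nil => simp only [lincomb, pack_replicate]; rfl
    | cons w ws =>
      have h1 := hw w (by simp)
      have hw' : ∀ w ∈ ws, w.length = N := fun w hw' => hw w (by simp [hw'])
      have h2 := length_lincomb as ws hw'
      simp only [lincomb, List.map_cons, dotI]
      rw [pack_add _ _ _ (by rw [length_smul, h1, h2]), pack_smul, ih ws hw']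
      rfl

lemma dotR_lincomb {N : ℕ} (s : List Int) (ws : List (List Int))
    (hw : ∀ w ∈ ws, w.length = N) (β : List ℝ) :
    dotR (lincomb N s ws) β = dotR s (ws.map fun w => dotR w β) := by
  induction s generalizing ws with
  | nil => simp only [lincomb, dotR_replicate, dotR]
  | cons a as ih =>
    cases ws with
    | nil => simp only [lincomb, dotR_replicate, List.map_nil, dotR]
    | cons w ws =>
      have h1 := hw w (by simp)
      have hw' : ∀ w ∈ ws, w.length = N := fun w hw' => hw w (by simp [hw'])
      have h2 := length_lincomb as ws hw'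
      simp only [lincomb, List.map_cons, dotR]
      rw [dotR_add _ _ (by rw [length_smul, h1, h2]), dotR_smul, ih ws hw']

/-- all entries are bounded by `M` -/
lemma bound_lincomb {N : ℕ} (s : List Int) (ws : List (List Int)) (bs : List Nat)
    (hw : ∀ w ∈ ws, w.length = N) (hb : List.Forall₂ (fun w b => ∀ x ∈ w, Int.natAbs x ≤ b) ws bs) :
    ∀ x ∈ lincomb N s ws, Int.natAbs x ≤ dotAbs s bs := by
  induction s generalizing ws bs with
  | nil =>
    intro x hx
    simp only [lincomb, List.mem_replicate] at hx
    rw [hx.2]; simp
  | cons a as ih =>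
    cases hb with
    | nil =>
      intro x hx
      simp only [lincomb, List.mem_replicate] at hx
      rw [hx.2]; simp
    | @cons w b ws bs hwb hrest =>
      have h1 := hw w (by simp)
      have hw' : ∀ w ∈ ws, w.length = N := fun w hw' => hw w (by simp [hw'])
      have h2 := length_lincomb as ws hw'
      have h3 := ih ws bs hw' hrest
      simp only [lincomb, dotAbs]
      have key : ∀ (l l' : List Int) (M M' : ℕ), l.length = l'.length →
          (∀ x ∈ l, Int.natAbs x ≤ M) → (∀ x ∈ l', Int.natAbs x ≤ M') →
          ∀ x ∈ add l l', Int.natAbs x ≤ M + M' := by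
        intro l
        induction l with
        | nil =>
          intro l' M M' hl _ _ x hx
          cases l' with
          | nil => simp [add] at hx
          | cons b bs => simp at hl
        | cons a as ih' =>
          intro l' M M' hl hM hM' x hx
          cases l' with
          | nil => simp at hl
          | cons b bs =>
            simp only [add, List.mem_cons] at hx
            rcases hx with rfl | hx
            · show Int.natAbs (a + b) ≤ M + M'
              exact (Int.natAbs_add_le a b).trans (Nat.add_le_add (hM a (by simp)) (hM' b (by simp)))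
            · exact ih' bs M M' (by simpa using hl) (fun y hy => hM y (by simp [hy]))
                (fun y hy => hM' y (by simp [hy])) x hx
      have hs : ∀ (l : List Int) (M : ℕ), (∀ x ∈ l, Int.natAbs x ≤ M) →
          ∀ x ∈ smul a l, Int.natAbs x ≤ Int.natAbs a * M := by
        intro l M
        induction l with
        | nil => intro _ x hx; simp [smul] at hx
        | cons c cs ih' =>
          intro hM x hx
          simp only [smul, List.mem_cons] at hx
          rcases hx with rfl | hx
          · show Int.natAbs (a * c) ≤ _
            rw [Int.natAbs_mul]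
            exact Nat.mul_le_mul_left _ (hM c (by simp))
          · exact ih' (fun y hy => hM y (by simp [hy])) x hx
      exact key _ _ _ _ (by rw [length_smul, h1, h2]) (hs w b hwb) h3

lemma le_maxAbs (l : List Int) : ∀ x ∈ l, Int.natAbs x ≤ maxAbs l := by
  induction l with
  | nil => simp
  | cons a as ih =>
    intro x hx
    simp only [List.mem_cons] at hx
    show _ ≤ Int.natAbs a + maxAbs as
    rcases hx with rfl | hx
    · omega
    · have := ih x hx; omega

/-! ### digits -/

/-- the offset `∑_{k<n} H B^k` -/
def off (B H : Nat) : Nat → Nat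
  | 0 => 0
  | n + 1 => Nat.add H (Nat.mul B (off B H n))



/-! ### transposition -/

/-- zip a vector in front of columns -/
def zipCons : List Int → List (List Int) → List (List Int)
  | [], _ => []
  | a :: as, [] => [a] :: zipCons as []
  | a :: as, c :: cs => (a :: c) :: zipCons as cs

/-- transposition -/
def transp (n : Nat) : List (List Int) → List (List Int)
  | [] => List.replicate n []
  | v :: vs => zipCons v (transp n vs)

/-- sum over columns -/
noncomputable def sumF (F : List Int → ℝ) : List (List Int) → List ℝ → ℝ
  | [], _ => 0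
  | _ :: _, [] => 0
  | c :: cs, x :: xs => F c * x + sumF F cs xs

lemma length_zipCons (v : List Int) (cs : List (List Int)) :
    (zipCons v cs).length = v.length := by
  induction v generalizing cs with
  | nil => cases cs <;> rfl
  | cons a as ih => cases cs <;> simp [zipCons, ih]

lemma length_transp {n : Nat} (vs : List (List Int)) (h : ∀ v ∈ vs, v.length = n) :
    (transp n vs).length = n := by
  cases vs with
  | nil => simp [transp]
  | cons v vs => rw [transp, length_zipCons]; exact h v (by simp)

lemma mem_zipCons_length {v : List Int} {cs : List (List Int)} {k : ℕ}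
    (hl : v.length = cs.length) (h : ∀ c ∈ cs, c.length = k) :
    ∀ c ∈ zipCons v cs, c.length = k + 1 := by
  induction v generalizing cs with
  | nil => intro c hc; cases cs <;> simp [zipCons] at hc
  | cons a as ih =>
    cases cs with
    | nil => simp at hl
    | cons d ds =>
      intro c hc
      simp only [zipCons, List.mem_cons] at hc
      rcases hc with rfl | hc
      · simp [h d (by simp)]
      · exact ih (by simpa using hl) (fun c hc => h c (by simp [hc])) c hc

lemma mem_transp_length {n : Nat} (vs : List (List Int)) (h : ∀ v ∈ vs, v.length = n) :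
    ∀ c ∈ transp n vs, c.length = vs.length := by
  induction vs with
  | nil =>
    intro c hc
    simp only [transp, List.mem_replicate] at hc
    rw [hc.2]; rfl
  | cons v vs ih =>
    have h1 := h v (by simp)
    have h2 : ∀ v ∈ vs, v.length = n := fun v hv => h v (by simp [hv])
    rw [transp, List.length_cons]
    exact mem_zipCons_length (by rw [h1, length_transp vs h2]) (ih h2)

lemma sumF_zipCons (F G : List Int → ℝ) (κ lam : ℝ) (hF : ∀ a c, F (a :: c) = κ * a + lam * G c)
    (v : List Int) (cs : List (List Int)) (hl : v.length = cs.length) (xs : List ℝ) :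
    sumF F (zipCons v cs) xs = κ * dotR v xs + lam * sumF G cs xs := by
  induction v generalizing cs xs with
  | nil =>
    cases cs with
    | nil => simp [zipCons, sumF, dotR]
    | cons c cs => simp at hl
  | cons a as ih =>
    cases cs with
    | nil => simp at hl
    | cons c cs =>
      cases xs with
      | nil => simp [zipCons, sumF, dotR]
      | cons x xs =>
        simp only [zipCons, sumF, dotR, hF, ih cs (by simpa using hl)]
        ring

lemma sumF_replicate (F : List Int → ℝ) (hF : F [] = 0) (n : ℕ) (xs : List ℝ) :
    sumF F (List.replicate n []) xs = 0 := by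
  induction n generalizing xs with
  | zero => simp [sumF]
  | succ n ih =>
    cases xs with
    | nil => simp [List.replicate_succ, sumF]
    | cons x xs => simp [List.replicate_succ, sumF, hF, ih]

/-- evaluation of a list of rows -/
noncomputable def evRows (t : ℝ) (G : List Int → ℝ) : List (List Int) → ℝ
  | [] => 0
  | v :: vs => G v + t * evRows t G vs

lemma sumF_transp_ev (t : ℝ) {n : Nat} (vs : List (List Int)) (h : ∀ v ∈ vs, v.length = n)
    (xs : List ℝ) : sumF (ev t) (transp n vs) xs = evRows t (fun v => dotR v xs) vs := by
  induction vs with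
  | nil => simp [transp, evRows, sumF_replicate (ev t) rfl]
  | cons v vs ih =>
    have h1 := h v (by simp)
    have h2 : ∀ v ∈ vs, v.length = n := fun v hv => h v (by simp [hv])
    rw [transp, sumF_zipCons (ev t) (ev t) 1 t (fun a c => by simp [ev]) v (transp n vs)
      (by rw [h1, length_transp vs h2]) xs, ih h2, evRows]
    ring

/-- `∑_a z_a * (v_a · xs)` -/
noncomputable def dotL (xs : List ℝ) : List (List Int) → List ℝ → ℝ
  | [], _ => 0
  | _ :: _, [] => 0
  | v :: vs, z :: zs => z * dotR v xs + dotL xs vs zs

lemma sumF_dotR_nil (cs : List (List Int)) (xs : List ℝ) :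
    sumF (fun c => dotR c []) cs xs = 0 := by
  induction cs generalizing xs with
  | nil => simp [sumF]
  | cons c cs ih =>
    cases xs with
    | nil => simp [sumF]
    | cons x xs =>
      simp only [sumF, ih]
      cases c <;> simp [dotR]

lemma sumF_transp_dot {n : Nat} (vs : List (List Int)) (h : ∀ v ∈ vs, v.length = n)
    (xs zs : List ℝ) : sumF (fun c => dotR c zs) (transp n vs) xs = dotL xs vs zs := by
  induction vs generalizing zs with
  | nil => simp [transp, dotL, sumF_replicate (fun c => dotR c zs) rfl]
  | cons v vs ih =>
    have h1 := h v (by simp)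
    have h2 : ∀ v ∈ vs, v.length = n := fun v hv => h v (by simp [hv])
    cases zs with
    | nil =>
      rw [sumF_dotR_nil, dotL]
    | cons z zs =>
      rw [transp, sumF_zipCons (fun c => dotR c (z :: zs)) (fun c => dotR c zs) z 1
        (fun a c => by simp [dotR]; ring) v (transp n vs) (by rw [h1, length_transp vs h2]) xs,
        ih h2, dotL]
      ring

end Crest.Agent.R163.Bern
private theorem rz_c0c3421269 : type_of% @_root_.Crest.Agent.R163.Bern.add.eq_def := @_root_.Crest.Agent.R163.Bern.add.eq_def -- L18
private theorem rz_faf5e4a78c : type_of% @_root_.Crest.Agent.R163.Bern.add.eq_1 := @_root_.Crest.Agent.R163.Bern.add.eq_1 -- L18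
private theorem rz_acab338e47 : type_of% @_root_.Crest.Agent.R163.Bern.bas.eq_def := @_root_.Crest.Agent.R163.Bern.bas.eq_def -- L205
private theorem rz_7501ee5f66 : type_of% @_root_.Crest.Agent.R163.Bern.bas.eq_1 := @_root_.Crest.Agent.R163.Bern.bas.eq_1 -- L205
private theorem rz_d654ee699d : type_of% @_root_.Crest.Agent.R163.Bern.dotAbs.eq_def := @_root_.Crest.Agent.R163.Bern.dotAbs.eq_def -- L30
private theorem rz_2c62d977cd : type_of% @_root_.Crest.Agent.R163.Bern.dotAbs.eq_1 := @_root_.Crest.Agent.R163.Bern.dotAbs.eq_1 -- L30
private theorem rz_3b378ee57b : type_of% @_root_.Crest.Agent.R163.Bern.dotI.eq_def := @_root_.Crest.Agent.R163.Bern.dotI.eq_def -- L24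
private theorem rz_ce1af1625d : type_of% @_root_.Crest.Agent.R163.Bern.dotI.eq_1 := @_root_.Crest.Agent.R163.Bern.dotI.eq_1 -- L24
private theorem rz_8b9962394e : type_of% @_root_.Crest.Agent.R163.Bern.dotL.eq_def := @_root_.Crest.Agent.R163.Bern.dotL.eq_def -- L622
private theorem rz_8f4ea2582d : type_of% @_root_.Crest.Agent.R163.Bern.dotL.eq_1 := @_root_.Crest.Agent.R163.Bern.dotL.eq_1 -- L622
private theorem rz_719a85363d : type_of% @_root_.Crest.Agent.R163.Bern.dotR.eq_def := @_root_.Crest.Agent.R163.Bern.dotR.eq_def -- L199
private theorem rz_e9df143fab : type_of% @_root_.Crest.Agent.R163.Bern.dotR.eq_1 := @_root_.Crest.Agent.R163.Bern.dotR.eq_1 -- L199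
private theorem rz_ed3dc4661b : type_of% @_root_.Crest.Agent.R163.Bern.ev.eq_def := @_root_.Crest.Agent.R163.Bern.ev.eq_def -- L63
private theorem rz_213ad1bdae : type_of% @_root_.Crest.Agent.R163.Bern.ev.eq_1 := @_root_.Crest.Agent.R163.Bern.ev.eq_1 -- L63
private theorem rz_65185ff79d : type_of% @_root_.Crest.Agent.R163.Bern.evRows.eq_def := @_root_.Crest.Agent.R163.Bern.evRows.eq_def -- L606
private theorem rz_936817bf71 : type_of% @_root_.Crest.Agent.R163.Bern.evRows.eq_1 := @_root_.Crest.Agent.R163.Bern.evRows.eq_1 -- L606
private theorem rz_9c44010a1d : type_of% @_root_.Crest.Agent.R163.Bern.hev.eq_def := @_root_.Crest.Agent.R163.Bern.hev.eq_def -- L58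
private theorem rz_3ea2cdf511 : type_of% @_root_.Crest.Agent.R163.Bern.hev.eq_1 := @_root_.Crest.Agent.R163.Bern.hev.eq_1 -- L58
private theorem rz_b54047e098 : type_of% @_root_.Crest.Agent.R163.Bern.lincomb.eq_def := @_root_.Crest.Agent.R163.Bern.lincomb.eq_def -- L295
private theorem rz_2606c9b84e : type_of% @_root_.Crest.Agent.R163.Bern.lincomb.eq_1 := @_root_.Crest.Agent.R163.Bern.lincomb.eq_1 -- L295
private theorem rz_55809db5cd : type_of% @_root_.Crest.Agent.R163.Bern.mulLin.eq_1 := @_root_.Crest.Agent.R163.Bern.mulLin.eq_1 -- L46
private theorem rz_4e0ba32ee9 : type_of% @_root_.Crest.Agent.R163.Bern.mulLinAux.eq_def := @_root_.Crest.Agent.R163.Bern.mulLinAux.eq_def -- L41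
private theorem rz_2e6ebb26f0 : type_of% @_root_.Crest.Agent.R163.Bern.mulLinAux.eq_1 := @_root_.Crest.Agent.R163.Bern.mulLinAux.eq_1 -- L41
private theorem rz_587e20d524 : type_of% @_root_.Crest.Agent.R163.Bern.off.eq_def := @_root_.Crest.Agent.R163.Bern.off.eq_def -- L448
private theorem rz_d5afa12820 : type_of% @_root_.Crest.Agent.R163.Bern.off.eq_1 := @_root_.Crest.Agent.R163.Bern.off.eq_1 -- L448
private theorem rz_7709205dbe : type_of% @_root_.Crest.Agent.R163.Bern.pack.eq_def := @_root_.Crest.Agent.R163.Bern.pack.eq_def -- L290
private theorem rz_26f3328fb9 : type_of% @_root_.Crest.Agent.R163.Bern.pack.eq_1 := @_root_.Crest.Agent.R163.Bern.pack.eq_1 -- L290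
private theorem rz_2f6171a437 : type_of% @_root_.Crest.Agent.R163.Bern.smul.eq_def := @_root_.Crest.Agent.R163.Bern.smul.eq_def -- L13
private theorem rz_b54e694c31 : type_of% @_root_.Crest.Agent.R163.Bern.smul.eq_1 := @_root_.Crest.Agent.R163.Bern.smul.eq_1 -- L13
private theorem rz_ec7fbcf301 : type_of% @_root_.Crest.Agent.R163.Bern.sumF.eq_def := @_root_.Crest.Agent.R163.Bern.sumF.eq_def -- L533
private theorem rz_97f655d5ee : type_of% @_root_.Crest.Agent.R163.Bern.sumF.eq_1 := @_root_.Crest.Agent.R163.Bern.sumF.eq_1 -- L533
private theorem rz_c887731629 : type_of% @_root_.Crest.Agent.R163.Bern.tr.eq_def := @_root_.Crest.Agent.R163.Bern.tr.eq_def -- L52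
private theorem rz_6c4364b2dd : type_of% @_root_.Crest.Agent.R163.Bern.tr.eq_1 := @_root_.Crest.Agent.R163.Bern.tr.eq_1 -- L52
private theorem rz_33bd32d60b : type_of% @_root_.Crest.Agent.R163.Bern.transp.eq_def := @_root_.Crest.Agent.R163.Bern.transp.eq_def -- L528
private theorem rz_120d1a8dd5 : type_of% @_root_.Crest.Agent.R163.Bern.transp.eq_1 := @_root_.Crest.Agent.R163.Bern.transp.eq_1 -- L528
private theorem rz_42d493b679 : type_of% @_root_.Crest.Agent.R163.Bern.zipCons.eq_def := @_root_.Crest.Agent.R163.Bern.zipCons.eq_def -- L522
private theorem rz_1622f11508 : type_of% @_root_.Crest.Agent.R163.Bern.zipCons.eq_1 := @_root_.Crest.Agent.R163.Bern.zipCons.eq_1 -- L522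
end

-- ▼ part R163/Bern2

/-! Row 163: Bernstein checker, part 2: the check and its soundness. -/

set_option autoImplicit false

namespace Crest.Agent.R163.Bern

/-- bilinear form `∑_a x_a ∑_b C a b y_b` -/
noncomputable def bil : List (List Int) → List ℝ → List ℝ → ℝ
  | [], _, _ => 0
  | _ :: _, [], _ => 0
  | c :: C, x :: xs, ys => x * dotR c ys + bil C xs ys


/-- all -/
def allB {α : Type*} (f : α → Bool) : List α → Bool
  | [] => true
  | a :: as => and (f a) (allB f as)

lemma allB_iff {α : Type*} (f : α → Bool) (l : List α) : allB f l = true ↔ ∀ a ∈ l, f a = true := by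
  induction l with
  | nil => simp [allB]
  | cons a as ih => simp [allB, ih]


lemma pack_add_off_nonneg {B H : Nat} (l : List Int) (hl : ∀ x ∈ l, Int.natAbs x < H) :
    0 ≤ pack B l + off B H l.length := by
  induction l with
  | nil => simp [pack, off]
  | cons c cs ih' =>
    have h3 := ih' (fun x hx => hl x (by simp [hx]))
    have h4 := hl c (by simp)
    have e1 : pack B (c :: cs) = c + B * pack B cs := rfl
    have e2 : off B H (cs.length + 1) = H + B * off B H cs.length := rfl
    rw [List.length_cons, e1, e2]
    push_cast
    have h5 : 0 ≤ (B : Int) * (pack B cs + off B H cs.length) := by positivity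
    have h6 : -(H : Int) < c := by omega
    nlinarith


/-! ### two-variable polynomials -/

/-- evaluation of a polynomial in `(r, y)`, list of rows (powers of `r`) -/
noncomputable def ev2 (r y : ℝ) (p : List (List Int)) : ℝ := evRows r (ev y) p

/-- concatenation -/
def flat : List (List Int) → List Int
  | [] => []
  | l :: ls => l ++ flat ls

/-- Bernstein transform on a box -/
def tr2 (ar br cr ay by' cy : Int) (m : Nat) (p : List (List Int)) : List Int :=
  flat ((transp m (p.map fun row => (tr ay by' cy row).1)).map fun col => (tr ar br cr col).1)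

/-- shape test -/
def shapeOK (n m : Nat) (p : List (List Int)) : Bool :=
  and (Nat.beq p.length n) (allB (fun row => Nat.beq row.length m) p)

lemma shapeOK_iff {n m : Nat} {p : List (List Int)} (h : shapeOK n m p = true) :
    p.length = n ∧ ∀ row ∈ p, row.length = m := by
  unfold shapeOK at h
  rw [Bool.and_eq_true, allB_iff] at h
  exact ⟨Nat.eq_of_beq_eq_true h.1, fun row hrow => Nat.eq_of_beq_eq_true (h.2 row hrow)⟩

/-- tensor product of the bases -/
noncomputable def kron (xs ys : List ℝ) : List ℝ := (xs.map fun x => ys.map (x * ·)).flatten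

lemma kron_nonneg {xs ys : List ℝ} (hx : ∀ x ∈ xs, 0 ≤ x) (hy : ∀ y ∈ ys, 0 ≤ y) :
    ∀ z ∈ kron xs ys, 0 ≤ z := by
  intro z hz
  unfold kron at hz
  rw [List.mem_flatten] at hz
  obtain ⟨l, hl, hz⟩ := hz
  rw [List.mem_map] at hl
  obtain ⟨x, hx', rfl⟩ := hl
  rw [List.mem_map] at hz
  obtain ⟨y, hy', rfl⟩ := hz
  exact mul_nonneg (hx x hx') (hy y hy')

lemma length_flat {k : ℕ} (ls : List (List Int)) (h : ∀ l ∈ ls, l.length = k) :
    (flat ls).length = ls.length * k := by
  induction ls with
  | nil => simp [flat]
  | cons l ls ih =>
    simp only [flat, List.length_append, List.length_cons, h l (by simp),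
      ih (fun l hl => h l (by simp [hl]))]
    ring

lemma dotR_append (l l' : List Int) (xs xs' : List ℝ) (h : l.length = xs.length) :
    dotR (l ++ l') (xs ++ xs') = dotR l xs + dotR l' xs' := by
  induction l generalizing xs with
  | nil =>
    cases xs with
    | nil => simp [dotR]
    | cons x xs => simp at h
  | cons a as ih =>
    cases xs with
    | nil => simp at h
    | cons x xs =>
      simp only [List.cons_append, dotR, ih xs (by simpa using h)]
      ring

lemma dotR_flat_kron (g : List Int → List Int) (cols : List (List Int)) (xs ys : List ℝ)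
    (hlen : cols.length = xs.length) (hg : ∀ c ∈ cols, (g c).length = ys.length) :
    dotR (flat (cols.map g)) (kron xs ys) = sumF (fun c => dotR (g c) ys) cols xs := by
  induction cols generalizing xs with
  | nil => simp [flat, dotR, sumF]
  | cons c cs ih =>
    cases xs with
    | nil => simp at hlen
    | cons x xs =>
      have h1 : kron (x :: xs) ys = ys.map (x * ·) ++ kron xs ys := by
        simp [kron]
      rw [h1, List.map_cons, flat, dotR_append _ _ _ _ (by rw [hg c (by simp)]; simp), sumF,
        ih xs (by simpa using hlen) (fun c hc => hg c (by simp [hc])), dotR_map_mul]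
      ring

lemma sumF_congr {F G : List Int → ℝ} {cs : List (List Int)} (h : ∀ c ∈ cs, F c = G c)
    (xs : List ℝ) : sumF F cs xs = sumF G cs xs := by
  induction cs generalizing xs with
  | nil => simp [sumF]
  | cons c cs ih =>
    cases xs with
    | nil => simp [sumF]
    | cons x xs =>
      simp only [sumF, h c (by simp), ih (fun c hc => h c (by simp [hc]))]

lemma sumF_const_mul (F : List Int → ℝ) (κ : ℝ) (cs : List (List Int)) (xs : List ℝ) :
    sumF (fun c => κ * F c) cs xs = κ * sumF F cs xs := by
  induction cs generalizing xs with
  | nil => simp [sumF]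
  | cons c cs ih =>
    cases xs with
    | nil => simp [sumF]
    | cons x xs => simp only [sumF, ih]; ring

lemma evRows_map (t : ℝ) (G : List Int → ℝ) (g : List Int → List Int) (p : List (List Int)) :
    evRows t G (p.map g) = evRows t (fun row => G (g row)) p := by
  induction p with
  | nil => simp [evRows]
  | cons v vs ih => simp only [List.map_cons, evRows, ih]

lemma evRows_congr {t : ℝ} {F G : List Int → ℝ} {p : List (List Int)}
    (h : ∀ row ∈ p, F row = G row) : evRows t F p = evRows t G p := by
  induction p with
  | nil => simp [evRows]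
  | cons v vs ih =>
    simp only [evRows, h v (by simp), ih (fun row hrow => h row (by simp [hrow]))]

lemma evRows_const_mul (t κ : ℝ) (G : List Int → ℝ) (p : List (List Int)) :
    evRows t (fun row => κ * G row) p = κ * evRows t G p := by
  induction p with
  | nil => simp [evRows]
  | cons v vs ih => simp only [evRows, ih]; ring

lemma length_tr2 (ar br cr ay by' cy : Int) {n m : ℕ} (p : List (List Int))
    (hp : p.length = n) (hrow : ∀ row ∈ p, row.length = m) :
    (tr2 ar br cr ay by' cy m p).length = m * n := by
  unfold tr2
  have h1 : ∀ v ∈ p.map (fun row => (tr ay by' cy row).1), v.length = m := by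
    intro v hv
    rw [List.mem_map] at hv
    obtain ⟨row, hr, rfl⟩ := hv
    rw [(length_tr ay by' cy row).1, hrow row hr]
  have h2 := mem_transp_length _ h1
  rw [length_flat (k := n)]
  · rw [List.length_map, length_transp _ h1]
  · intro l hl
    rw [List.mem_map] at hl
    obtain ⟨c, hc, rfl⟩ := hl
    rw [(length_tr ar br cr c).1, h2 c hc, List.length_map, hp]

theorem dotR_tr2 {ar br cr ay by' cy : Int} {n m : ℕ} (hn : 0 < n) (hm : 0 < m)
    (p : List (List Int)) (hp : p.length = n) (hrow : ∀ row ∈ p, row.length = m)
    (hcr : 0 < cr) (hcy : 0 < cy) (r y : ℝ) :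
    dotR (tr2 ar br cr ay by' cy m p)
      (kron (bas ((by' : ℝ) / cy - y) (y - ay / cy) m) (bas ((br : ℝ) / cr - r) (r - ar / cr) n)) =
      ((br : ℝ) - ar) ^ (n - 1) * ((by' : ℝ) - ay) ^ (m - 1) * ev2 r y p := by
  have hcr' : (cr : ℝ) ≠ 0 := by exact_mod_cast hcr.ne'
  have hcy' : (cy : ℝ) ≠ 0 := by exact_mod_cast hcy.ne'
  have h1 : ∀ v ∈ p.map (fun row => (tr ay by' cy row).1), v.length = m := by
    intro v hv
    rw [List.mem_map] at hv
    obtain ⟨row, hr, rfl⟩ := hv
    rw [(length_tr ay by' cy row).1, hrow row hr]
  have h2 := mem_transp_length _ h1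
  rw [List.length_map, hp] at h2
  unfold tr2
  rw [dotR_flat_kron (fun col => (tr ar br cr col).1) _ _ _
    (by rw [length_transp _ h1, length_bas])
    (fun c hc => by rw [(length_tr ar br cr c).1, h2 c hc, length_bas])]
  have h3 : ∀ c ∈ transp m (p.map fun row => (tr ay by' cy row).1),
      dotR (tr ar br cr c).1 (bas ((br : ℝ) / cr - r) (r - ar / cr) n) =
        ((br : ℝ) - ar) ^ (n - 1) * ev r c := by
    intro c hc
    have hlen := (length_tr ar br cr c).1
    rw [h2 c hc] at hlen
    have h4 := hev_eq_dotR ((br : ℝ) / cr - r) (r - ar / cr) (tr ar br cr c).1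
    rw [hlen] at h4
    rw [← h4]
    have h5 := (hev_tr ((br : ℝ) / cr - r) (r - ar / cr) ar br cr r (by field_simp; ring) c).2
      (by intro h; rw [h] at hc; have := h2 [] hc; simp at this; omega)
    rw [h5, h2 c hc]
    congr 2
    field_simp
    ring
  rw [sumF_congr h3, sumF_const_mul, sumF_transp_ev _ _ h1, evRows_map]
  have h6 : ∀ row ∈ p, dotR (tr ay by' cy row).1
      (bas ((by' : ℝ) / cy - y) (y - ay / cy) m) = ((by' : ℝ) - ay) ^ (m - 1) * ev y row := by
    intro row hr
    have hlen := (length_tr ay by' cy row).1
    rw [hrow row hr] at hlen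
    have h4 := hev_eq_dotR ((by' : ℝ) / cy - y) (y - ay / cy) (tr ay by' cy row).1
    rw [hlen] at h4
    rw [← h4]
    have h5 := (hev_tr ((by' : ℝ) / cy - y) (y - ay / cy) ay by' cy y (by field_simp; ring) row).2
      (by intro h; rw [h] at hr; have := hrow [] hr; simp at this; omega)
    rw [h5, hrow row hr]
    congr 2
    field_simp
    ring
  rw [evRows_congr h6, evRows_const_mul]
  unfold ev2
  ring


lemma bil_map_mul (C : List (List Int)) (α : Type*) (fs : List α) (κ κ' : ℝ) (F F' : α → ℝ)
    (hF : ∀ f ∈ fs, F' f = κ * F f) (G G' : α → ℝ) (gs : List α) (hG : ∀ g ∈ gs, G' g = κ' * G g) :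
    bil C (fs.map F') (gs.map G') = κ * κ' * bil C (fs.map F) (gs.map G) := by
  have hd : ∀ c : List Int, ∀ gs : List α, (∀ g ∈ gs, G' g = κ' * G g) →
      dotR c (gs.map G') = κ' * dotR c (gs.map G) := by
    intro c
    induction c with
    | nil => intro gs _; simp [dotR]
    | cons a as ih =>
      intro gs hG
      cases gs with
      | nil => simp [dotR]
      | cons g gs =>
        simp only [List.map_cons, dotR, ih gs (fun g hg => hG g (by simp [hg])), hG g (by simp)]
        ring
  induction C generalizing fs with
  | nil => simp [bil]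
  | cons c C ih =>
    cases fs with
    | nil => simp [bil]
    | cons f fs =>
      simp only [List.map_cons, bil, ih fs (fun f hf => hF f (by simp [hf])), hF f (by simp),
        hd c gs hG]
      ring


end Crest.Agent.R163.Bern
private theorem rz_7cb60d5df7 : type_of% @_root_.Crest.Agent.R163.Bern.allB.eq_def := @_root_.Crest.Agent.R163.Bern.allB.eq_def -- L22
private theorem rz_d89e04b412 : type_of% @_root_.Crest.Agent.R163.Bern.allB.eq_1 := @_root_.Crest.Agent.R163.Bern.allB.eq_1 -- L22
private theorem rz_7507fef8da : type_of% @_root_.Crest.Agent.R163.Bern.bil.eq_def := @_root_.Crest.Agent.R163.Bern.bil.eq_def -- L11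
private theorem rz_288fb6003b : type_of% @_root_.Crest.Agent.R163.Bern.bil.eq_1 := @_root_.Crest.Agent.R163.Bern.bil.eq_1 -- L11
private theorem rz_76e993b704 : type_of% @_root_.Crest.Agent.R163.Bern.flat.eq_def := @_root_.Crest.Agent.R163.Bern.flat.eq_def -- L147
private theorem rz_9d00150289 : type_of% @_root_.Crest.Agent.R163.Bern.flat.eq_1 := @_root_.Crest.Agent.R163.Bern.flat.eq_1 -- L147
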