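import Mathlib
import Crest.Agent.R163.Bern2

-- ▼ part R163/Bern3
section

/-! Row 163: Bernstein checker, part 3: fast version with packed big integers (Kronecker
substitution); everything is one big integer and one bit mask test. -/

set_option autoImplicit false

namespace Crest.Agent.R163.Bern

/-! ### fast Horner evaluation -/

/-- `∑_j q_j X^j ys_j` (with `ys` the descending powers of `Y`) -/
def horn (X : Int) : List Int → List Int → Int
  | [], _ => Int.ofNat 0
  | _ :: _, [] => Int.ofNat 0
  | q0 :: q, y :: ys => Int.add (Int.mul q0 y) (Int.mul X (horn X q ys))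

/-- descending powers `Y^(n-1), ..., Y, 1` -/
def pows (Y : Int) : Nat → List Int
  | 0 => []
  | n + 1 => match pows Y n with
    | [] => [Int.ofNat 1]
    | y :: ys => Int.mul Y y :: y :: ys

lemma pows_succ (Y : Int) (n : Nat) : pows Y (n + 1) = Y ^ n :: pows Y n := by
  induction n with
  | zero => rw [pow_zero]; rfl
  | succ n ih =>
    have h : pows Y (n + 2) = match pows Y (n + 1) with
      | [] => [Int.ofNat 1]
      | y :: ys => Int.mul Y y :: y :: ys := rfl
    rw [h, ih]
    show Int.mul Y (Y ^ n) :: Y ^ n :: pows Y n = _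
    rw [show Int.mul Y (Y ^ n) = Y * Y ^ n from rfl, ← pow_succ']

/-- packed value of the two-variable transform -/
def pk2 (Xr Xy : Int) (yr yy : List Int) (p : List (List Int)) : Int :=
  horn Xr (p.map fun row => horn Xy row yy) yr

/-! ### packing of the transforms -/

lemma pack_mulLinAux (B a b prev : Int) (l : List Int) :
    pack B (mulLinAux a b prev l) = b * prev + (a + b * B) * pack B l := by
  induction l generalizing prev with
  | nil =>
    show b * prev + B * 0 = b * prev + (a + b * B) * 0
    ring
  | cons x xs ih =>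
    show (a * x + b * prev) + B * pack B (mulLinAux a b x xs) =
      b * prev + (a + b * B) * (x + B * pack B xs)
    rw [ih]; ring

lemma pack_mulLin (B a b : Int) (l : List Int) :
    pack B (mulLin a b l) = (a + b * B) * pack B l := by
  cases l with
  | nil => show (0 : Int) = (a + b * B) * 0; ring
  | cons x xs =>
    show a * x + B * pack B (mulLinAux a b x xs) = (a + b * B) * (x + B * pack B xs)
    rw [pack_mulLinAux]; ring

lemma pack_tr (B a b c : Int) (q : List Int) :
    pack B (tr a b c q).2 = (c + c * B) ^ q.length ∧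
    pack B (tr a b c q).1 = horn (a + b * B) q (pows (c + c * B) q.length) := by
  induction q with
  | nil =>
    constructor
    · show (1 : Int) + B * 0 = _
      simp
    · rfl
  | cons q0 q ih =>
    obtain ⟨h1, h2⟩ := ih
    constructor
    · show pack B (mulLin c c (tr a b c q).2) = _
      rw [pack_mulLin, h1, List.length_cons, pow_succ]; ring
    · show pack B (add (smul q0 (tr a b c q).2) (mulLin a b (tr a b c q).1)) = _
      rw [List.length_cons, pows_succ]
      show _ = q0 * (c + c * B) ^ q.length + (a + b * B) * horn (a + b * B) q (pows (c + c * B) q.length)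
      by_cases hq : q = []
      · subst hq
        show pack B (add (smul q0 [1]) []) = _
        show q0 * 1 + B * 0 = q0 * (c + c * B) ^ 0 + (a + b * B) * 0
        ring
      · have h3 := length_tr a b c q
        have h4 : (tr a b c q).1 ≠ [] := by
          intro h; rw [h] at h3
          exact hq (List.length_eq_zero_iff.mp h3.1.symm)
        rw [pack_add _ _ _ (by rw [length_smul, length_mulLin _ _ _ h4, h3.1, h3.2]), pack_smul,
          pack_mulLin, h1, h2]

lemma pack_append (B : Int) (l l' : List Int) :
    pack B (l ++ l') = pack B l + B ^ l.length * pack B l' := by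
  induction l with
  | nil =>
    show pack B l' = 0 + B ^ 0 * pack B l'
    ring
  | cons a as ih =>
    show a + B * pack B (as ++ l') = (a + B * pack B as) + B ^ (as.length + 1) * pack B l'
    rw [ih]; ring

lemma pack_flat (B : Int) {k : ℕ} (ls : List (List Int)) (h : ∀ l ∈ ls, l.length = k) :
    pack B (flat ls) = pack (B ^ k) (ls.map (pack B)) := by
  induction ls with
  | nil => rfl
  | cons l ls ih =>
    show pack B (l ++ flat ls) = pack B l + B ^ k * pack (B ^ k) (ls.map (pack B))
    rw [pack_append, h l (by simp), ih (fun l hl => h l (by simp [hl]))]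

/-- linear functional of the columns -/
lemma pack_map_zipCons (B : Int) (F G : List Int → Int) (κ lam : Int)
    (hF : ∀ a c, F (a :: c) = κ * a + lam * G c) (v : List Int) (cs : List (List Int))
    (hl : v.length = cs.length) :
    pack B ((zipCons v cs).map F) = κ * pack B v + lam * pack B (cs.map G) := by
  induction v generalizing cs with
  | nil =>
    cases cs with
    | nil => show (0 : Int) = κ * 0 + lam * 0; ring
    | cons c cs => simp at hl
  | cons a as ih =>
    cases cs with
    | nil => simp at hl
    | cons c cs =>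
      show F (a :: c) + B * pack B ((zipCons as cs).map F) =
        κ * (a + B * pack B as) + lam * (G c + B * pack B (cs.map G))
      rw [hF, ih cs (by simpa using hl)]
      ring

lemma pack_map_replicate (B : Int) (F : List Int → Int) (hF : F [] = 0) (n : ℕ) :
    pack B ((List.replicate n []).map F) = 0 := by
  rw [List.map_replicate, hF, pack_replicate]

/-- columnwise Horner = Horner of the packed rows -/
lemma pack_map_horn (B X : Int) {n : ℕ} (vs : List (List Int)) (ys : List Int)
    (h : ∀ v ∈ vs, v.length = n) (hy : ys.length = vs.length) :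
    pack B ((transp n vs).map fun c => horn X c ys) = horn X (vs.map (pack B)) ys := by
  induction vs generalizing ys with
  | nil =>
    rw [transp, pack_map_replicate B _ rfl]
    rfl
  | cons v vs ih =>
    have h1 := h v (by simp)
    have h2 : ∀ v ∈ vs, v.length = n := fun v hv => h v (by simp [hv])
    cases ys with
    | nil => simp at hy
    | cons y ys =>
      rw [transp, pack_map_zipCons B (fun c => horn X c (y :: ys)) (fun c => horn X c ys) y X
        (fun a c => by show a * y + X * _ = _; ring) v (transp n vs)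
        (by rw [h1, length_transp vs h2]), ih ys h2 (by simpa using hy)]
      show _ = pack B v * y + X * horn X (vs.map (pack B)) ys
      ring

/-- columnwise dot product -/
lemma pack_map_dotI (B : Int) {n : ℕ} (vs : List (List Int)) (zs : List Int)
    (h : ∀ v ∈ vs, v.length = n) :
    pack B ((transp n vs).map fun c => dotI c zs) = dotI zs (vs.map (pack B)) := by
  induction vs generalizing zs with
  | nil =>
    rw [transp, pack_map_replicate B _ rfl]
    cases zs <;> rfl
  | cons v vs ih =>
    have h1 := h v (by simp)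
    have h2 : ∀ v ∈ vs, v.length = n := fun v hv => h v (by simp [hv])
    cases zs with
    | nil =>
      have : ∀ cs : List (List Int), pack B (cs.map fun c => dotI c []) = 0 := by
        intro cs
        induction cs with
        | nil => rfl
        | cons c cs ih =>
          show dotI c [] + B * pack B (cs.map fun c => dotI c []) = 0
          rw [ih]
          cases c <;> · show (0 : Int) + B * 0 = 0; ring
      rw [this]
      rfl
    | cons z zs =>
      rw [transp, pack_map_zipCons B (fun c => dotI c (z :: zs)) (fun c => dotI c zs) z 1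
        (fun a c => by show a * z + dotI c zs = _; ring) v (transp n vs)
        (by rw [h1, length_transp vs h2]), ih zs h2]
      show _ = z * pack B v + dotI zs (vs.map (pack B))
      ring

theorem pack_tr2 (B ar br cr ay by' cy : Int) {n m : ℕ}
    (p : List (List Int)) (hp : p.length = n) (hrow : ∀ row ∈ p, row.length = m) :
    pack B (tr2 ar br cr ay by' cy m p) =
      pk2 (ar + br * B) (ay + by' * B ^ n) (pows (cr + cr * B) n) (pows (cy + cy * B ^ n) m) p := by
  have h1 : ∀ v ∈ p.map (fun row => (tr ay by' cy row).1), v.length = m := by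
    intro v hv
    rw [List.mem_map] at hv
    obtain ⟨row, hr, rfl⟩ := hv
    rw [(length_tr ay by' cy row).1, hrow row hr]
  have h2 := mem_transp_length _ h1
  rw [List.length_map, hp] at h2
  unfold tr2
  rw [pack_flat B (k := n) _ (by
    intro l hl
    rw [List.mem_map] at hl
    obtain ⟨c, hc, rfl⟩ := hl
    rw [(length_tr ar br cr c).1, h2 c hc]), List.map_map]
  have h3 : (transp m (p.map fun row => (tr ay by' cy row).1)).map
      (pack B ∘ fun col => (tr ar br cr col).1) =
      (transp m (p.map fun row => (tr ay by' cy row).1)).map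
        fun c => horn (ar + br * B) c (pows (cr + cr * B) n) := by
    apply List.map_congr_left
    intro c hc
    rw [Function.comp_apply, (pack_tr B ar br cr c).2, h2 c hc]
  have hpl : ∀ (Y : Int) (n : ℕ), (pows Y n).length = n := by
    intro Y n
    induction n with
    | zero => rfl
    | succ n ih => rw [pows_succ, List.length_cons, ih]
  rw [h3, pack_map_horn (B ^ n) (ar + br * B) _ _ h1 (by rw [hpl, List.length_map, hp]),
    List.map_map]
  unfold pk2
  congr 1
  apply List.map_congr_left
  intro row hr
  rw [Function.comp_apply, (pack_tr (B ^ n) ay by' cy row).2, hrow row hr]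

/-! ### norm bounds -/

/-- Horner with natural numbers -/
def hornN (X : Nat) : List Nat → List Nat → Nat
  | [], _ => 0
  | _ :: _, [] => 0
  | q0 :: q, y :: ys => Nat.add (Nat.mul q0 y) (Nat.mul X (hornN X q ys))

/-- descending powers -/
def powsN (Y : Nat) : Nat → List Nat
  | 0 => []
  | n + 1 => match powsN Y n with
    | [] => [1]
    | y :: ys => Nat.mul Y y :: y :: ys

lemma powsN_succ (Y : Nat) (n : Nat) : powsN Y (n + 1) = Y ^ n :: powsN Y n := by
  induction n with
  | zero => rfl
  | succ n ih =>
    have h : powsN Y (n + 2) = match powsN Y (n + 1) with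
      | [] => [1]
      | y :: ys => Nat.mul Y y :: y :: ys := rfl
    rw [h, ih]
    show Nat.mul Y (Y ^ n) :: Y ^ n :: powsN Y n = _
    rw [show Nat.mul Y (Y ^ n) = Y * Y ^ n from rfl, ← pow_succ']

/-- norm bound of the two-variable transform -/
def nb2 (xr xy : Nat) (yr yy : List Nat) (p : List (List Int)) : Nat :=
  hornN xr (p.map fun row => hornN xy (row.map Int.natAbs) yy) yr

lemma maxAbs_smul (c : Int) (l : List Int) : maxAbs (smul c l) = Int.natAbs c * maxAbs l := by
  induction l with
  | nil => rfl
  | cons a as ih =>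
    show Int.natAbs (c * a) + maxAbs (smul c as) = Int.natAbs c * (Int.natAbs a + maxAbs as)
    rw [ih, Int.natAbs_mul]; ring

lemma maxAbs_add (l l' : List Int) (h : l.length = l'.length) :
    maxAbs (add l l') ≤ maxAbs l + maxAbs l' := by
  induction l generalizing l' with
  | nil =>
    cases l' with
    | nil => exact le_rfl
    | cons b bs => simp at h
  | cons a as ih =>
    cases l' with
    | nil => simp at h
    | cons b bs =>
      show Int.natAbs (a + b) + maxAbs (add as bs) ≤
        (Int.natAbs a + maxAbs as) + (Int.natAbs b + maxAbs bs)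
      have := ih bs (by simpa using h)
      have := Int.natAbs_add_le a b
      omega

lemma maxAbs_mulLinAux (a b prev : Int) (l : List Int) :
    maxAbs (mulLinAux a b prev l) ≤ Int.natAbs b * Int.natAbs prev +
      (Int.natAbs a + Int.natAbs b) * maxAbs l := by
  induction l generalizing prev with
  | nil =>
    show Int.natAbs (b * prev) + 0 ≤ _ + _ * 0
    rw [Int.natAbs_mul]; omega
  | cons x xs ih =>
    show Int.natAbs (a * x + b * prev) + maxAbs (mulLinAux a b x xs) ≤
      _ + (Int.natAbs a + Int.natAbs b) * (Int.natAbs x + maxAbs xs)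
    have h1 := ih x
    have h2 := Int.natAbs_add_le (a * x) (b * prev)
    rw [Int.natAbs_mul, Int.natAbs_mul] at h2
    nlinarith

lemma maxAbs_mulLin (a b : Int) (l : List Int) :
    maxAbs (mulLin a b l) ≤ (Int.natAbs a + Int.natAbs b) * maxAbs l := by
  cases l with
  | nil => exact le_rfl
  | cons x xs =>
    show Int.natAbs (a * x) + maxAbs (mulLinAux a b x xs) ≤
      (Int.natAbs a + Int.natAbs b) * (Int.natAbs x + maxAbs xs)
    have h1 := maxAbs_mulLinAux a b x xs
    rw [Int.natAbs_mul]
    nlinarith

lemma maxAbs_tr (a b c : Int) (q : List Int) :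
    maxAbs (tr a b c q).2 ≤ (Int.natAbs c + Int.natAbs c) ^ q.length ∧
    maxAbs (tr a b c q).1 ≤ hornN (Int.natAbs a + Int.natAbs b) (q.map Int.natAbs)
      (powsN (Int.natAbs c + Int.natAbs c) q.length) := by
  induction q with
  | nil =>
    constructor
    · show Int.natAbs 1 + 0 ≤ _
      simp
    · exact le_rfl
  | cons q0 q ih =>
    obtain ⟨h1, h2⟩ := ih
    constructor
    · show maxAbs (mulLin c c (tr a b c q).2) ≤ _
      refine (maxAbs_mulLin _ _ _).trans ?_
      rw [List.length_cons, pow_succ, mul_comm]
      exact Nat.mul_le_mul_right _ h1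
    · show maxAbs (add (smul q0 (tr a b c q).2) (mulLin a b (tr a b c q).1)) ≤ _
      rw [List.length_cons, powsN_succ]
      show _ ≤ Int.natAbs q0 * (Int.natAbs c + Int.natAbs c) ^ q.length +
        (Int.natAbs a + Int.natAbs b) * hornN (Int.natAbs a + Int.natAbs b) (q.map Int.natAbs)
          (powsN (Int.natAbs c + Int.natAbs c) q.length)
      by_cases hq : q = []
      · subst hq
        show maxAbs (add (smul q0 [1]) []) ≤ _
        show Int.natAbs (q0 * 1) + 0 ≤ _
        simp
      · have h3 := length_tr a b c q
        have h4 : (tr a b c q).1 ≠ [] := by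
          intro h; rw [h] at h3
          exact hq (List.length_eq_zero_iff.mp h3.1.symm)
        refine (maxAbs_add _ _ (by
          rw [length_smul, length_mulLin _ _ _ h4, h3.1, h3.2])).trans ?_
        rw [maxAbs_smul]
        have h5 := maxAbs_mulLin a b (tr a b c q).1
        have h6 := Nat.mul_le_mul_left (Int.natAbs q0) h1
        have h7 := Nat.mul_le_mul_left (Int.natAbs a + Int.natAbs b) h2
        omega

lemma maxAbs_append (l l' : List Int) : maxAbs (l ++ l') = maxAbs l + maxAbs l' := by
  induction l with
  | nil => show maxAbs l' = 0 + maxAbs l'; omega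
  | cons a as ih =>
    show Int.natAbs a + maxAbs (as ++ l') = (Int.natAbs a + maxAbs as) + maxAbs l'
    rw [ih]; omega

lemma maxAbs_flat (ls : List (List Int)) : maxAbs (flat ls) = (ls.map maxAbs).sum := by
  induction ls with
  | nil => rfl
  | cons l ls ih =>
    show maxAbs (l ++ flat ls) = _
    rw [maxAbs_append, ih]; simp

lemma sum_map_zipCons (F G : List Int → Nat) (κ lam : Nat)
    (hF : ∀ a c, F (a :: c) = κ * Int.natAbs a + lam * G c) (v : List Int) (cs : List (List Int))
    (hl : v.length = cs.length) :
    ((zipCons v cs).map F).sum = κ * maxAbs v + lam * (cs.map G).sum := by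
  induction v generalizing cs with
  | nil =>
    cases cs with
    | nil => show 0 = κ * 0 + lam * 0; ring
    | cons c cs => simp at hl
  | cons a as ih =>
    cases cs with
    | nil => simp at hl
    | cons c cs =>
      simp only [zipCons, List.map_cons, List.sum_cons]
      rw [hF, ih cs (by simpa using hl)]
      show _ = κ * (Int.natAbs a + maxAbs as) + _
      ring

lemma sum_map_hornN (X : Nat) {n : ℕ} (vs : List (List Int)) (ys : List Nat)
    (h : ∀ v ∈ vs, v.length = n) (hy : ys.length = vs.length) :
    ((transp n vs).map fun c => hornN X (c.map Int.natAbs) ys).sum =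
      hornN X (vs.map maxAbs) ys := by
  induction vs generalizing ys with
  | nil =>
    rw [transp, List.map_replicate]
    show (List.replicate n (hornN X [] ys)).sum = hornN X [] ys
    have : hornN X [] ys = 0 := rfl
    rw [this]; simp
  | cons v vs ih =>
    have h1 := h v (by simp)
    have h2 : ∀ v ∈ vs, v.length = n := fun v hv => h v (by simp [hv])
    cases ys with
    | nil => simp at hy
    | cons y ys =>
      rw [transp, sum_map_zipCons (fun c => hornN X (c.map Int.natAbs) (y :: ys))
        (fun c => hornN X (c.map Int.natAbs) ys) y X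
        (fun a c => by show Int.natAbs a * y + X * _ = _; ring) v (transp n vs)
        (by rw [h1, length_transp vs h2]), ih ys h2 (by simpa using hy)]
      show _ = maxAbs v * y + X * hornN X (vs.map maxAbs) ys
      ring

lemma hornN_mono (X : Nat) (l l' ys : List Nat) (h : List.Forall₂ (· ≤ ·) l l') :
    hornN X l ys ≤ hornN X l' ys := by
  induction h generalizing ys with
  | nil => exact le_rfl
  | @cons a b l l' hab hll ih =>
    cases ys with
    | nil => exact le_rfl
    | cons y ys =>
      show a * y + X * hornN X l ys ≤ b * y + X * hornN X l' ys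
      have h1 := Nat.mul_le_mul_right y hab
      have h2 := Nat.mul_le_mul_left X (ih ys)
      omega

lemma maxAbs_tr2 (ar br cr ay by' cy : Int) {n m : ℕ}
    (p : List (List Int)) (hp : p.length = n) (hrow : ∀ row ∈ p, row.length = m) :
    maxAbs (tr2 ar br cr ay by' cy m p) ≤
      nb2 (Int.natAbs ar + Int.natAbs br) (Int.natAbs ay + Int.natAbs by')
        (powsN (Int.natAbs cr + Int.natAbs cr) n) (powsN (Int.natAbs cy + Int.natAbs cy) m) p := by
  have h1 : ∀ v ∈ p.map (fun row => (tr ay by' cy row).1), v.length = m := by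
    intro v hv
    rw [List.mem_map] at hv
    obtain ⟨row, hr, rfl⟩ := hv
    rw [(length_tr ay by' cy row).1, hrow row hr]
  have h2 := mem_transp_length _ h1
  rw [List.length_map, hp] at h2
  have hpl : ∀ (Y : Nat) (n : ℕ), (powsN Y n).length = n := by
    intro Y n
    induction n with
    | zero => rfl
    | succ n ih => rw [powsN_succ, List.length_cons, ih]
  unfold tr2
  rw [maxAbs_flat, List.map_map]
  have h3 : ((transp m (p.map fun row => (tr ay by' cy row).1)).map
      (maxAbs ∘ fun col => (tr ar br cr col).1)).sum ≤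
      ((transp m (p.map fun row => (tr ay by' cy row).1)).map
        fun c => hornN (Int.natAbs ar + Int.natAbs br) (c.map Int.natAbs)
          (powsN (Int.natAbs cr + Int.natAbs cr) n)).sum := by
    apply List.sum_le_sum
    intro c hc
    rw [Function.comp_apply]
    have := (maxAbs_tr ar br cr c).2
    rwa [h2 c hc] at this
  refine h3.trans ?_
  rw [sum_map_hornN _ _ _ h1 (by rw [hpl, List.length_map, hp]), List.map_map]
  unfold nb2
  apply hornN_mono
  rw [List.forall₂_map_left_iff, List.forall₂_map_right_iff, List.forall₂_same]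
  intro row hr
  rw [Function.comp_apply]
  have := (maxAbs_tr ay by' cy row).2
  rwa [hrow row hr] at this


/-! ### the mask test -/

lemma off_closed (B H n : Nat) (hB : 1 < B) : off B H n = H * (B ^ n - 1) / (B - 1) := by
  have key : off B H n * (B - 1) = H * (B ^ n - 1) := by
    induction n with
    | zero => simp [off]
    | succ n ih =>
      have e : off B H (n + 1) = H + B * off B H n := rfl
      obtain ⟨b, rfl⟩ : ∃ b, B = b + 1 := ⟨B - 1, by omega⟩
      have hp : 1 ≤ (b + 1) ^ n := Nat.one_le_pow _ _ (by omega)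
      have h3 : (b + 1) ^ (n + 1) - 1 = b + (b + 1) * ((b + 1) ^ n - 1) := by
        obtain ⟨c, hc⟩ : ∃ c, (b + 1) ^ n = c + 1 := ⟨(b + 1) ^ n - 1, by omega⟩
        rw [pow_succ, hc]
        simp only [Nat.add_sub_cancel]
        have : (c + 1) * (b + 1) = b + (b + 1) * c + 1 := by ring
        omega
      rw [e, h3]
      simp only [Nat.add_sub_cancel] at ih ⊢
      calc (H + (b + 1) * off (b + 1) H n) * b = H * b + (b + 1) * (off (b + 1) H n * b) := by ring
        _ = H * b + (b + 1) * (H * ((b + 1) ^ n - 1)) := by rw [ih]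
        _ = _ := by ring
  rw [← key, Nat.mul_div_cancel _ (by omega)]

lemma and_split {k d h R S : Nat} (hd : d < 2 ^ k) (hh : h < 2 ^ k) :
    (d + 2 ^ k * R) &&& (h + 2 ^ k * S) = (d &&& h) + 2 ^ k * (R &&& S) := by
  have h1 : ((d + 2 ^ k * R) &&& (h + 2 ^ k * S)) % 2 ^ k = d &&& h := by
    rw [Nat.and_mod_two_pow, Nat.add_mul_mod_self_left, Nat.add_mul_mod_self_left,
      Nat.mod_eq_of_lt hd, Nat.mod_eq_of_lt hh]
  have h2 : ((d + 2 ^ k * R) &&& (h + 2 ^ k * S)) / 2 ^ k = R &&& S := by
    have hpos : 0 < 2 ^ k := Nat.two_pow_pos k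
    rw [Nat.and_div_two_pow, Nat.add_mul_div_left _ _ hpos, Nat.add_mul_div_left _ _ hpos,
      Nat.div_eq_of_lt hd, Nat.div_eq_of_lt hh, zero_add, zero_add]
  conv_lhs => rw [← Nat.mod_add_div ((d + 2 ^ k * R) &&& (h + 2 ^ k * S)) (2 ^ k)]
  rw [h1, h2]

lemma mask_sound {k : Nat} (l : List Int)
    (hl : ∀ x ∈ l, Int.natAbs x < 2 ^ k) (Z : Nat)
    (hZ : (Z : Int) = pack (2 ^ (k + 1) : Nat) l + off (2 ^ (k + 1)) (2 ^ k) l.length)
    (h : Z &&& off (2 ^ (k + 1)) (2 ^ k) l.length = off (2 ^ (k + 1)) (2 ^ k) l.length) :
    ∀ x ∈ l, 0 ≤ x := by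
  induction l generalizing Z with
  | nil => simp
  | cons a as ih =>
    have ha := hl a (by simp)
    have has : ∀ x ∈ as, Int.natAbs x < 2 ^ k := fun x hx => hl x (by simp [hx])
    set B := 2 ^ (k + 1) with hB
    set H := 2 ^ k with hH
    have hBH : B = 2 * H := by rw [hB, hH, pow_succ]; ring
    have hHpos : 0 < H := Nat.two_pow_pos k
    have hpk : pack B (a :: as) = a + B * pack B as := rfl
    have hoff : off B H (as.length + 1) = H + B * off B H as.length := rfl
    rw [List.length_cons, hpk, hoff] at hZ
    rw [List.length_cons, hoff] at h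
    push_cast at hZ
    have hr := pack_add_off_nonneg (B := B) (H := H) as has
    obtain ⟨R, hR⟩ := Int.eq_ofNat_of_zero_le hr
    have hd : 0 ≤ a + H := by omega
    obtain ⟨d, hd'⟩ := Int.eq_ofNat_of_zero_le hd
    have hZ2 : Z = d + B * R := by
      have : (Z : Int) = (d : Int) + B * R := by
        rw [hZ, ← hR, ← hd']; ring
      exact_mod_cast this
    have hdB : d < B := by omega
    rw [hZ2, and_split hdB (by omega), ← hB] at h
    have hand : d &&& H < B := lt_of_le_of_lt Nat.and_le_left hdB
    have hBpos : 0 < B := by omega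
    have h1 : d &&& H = H := by
      have := congrArg (· % B) h
      simp only [Nat.add_mul_mod_self_left] at this
      rwa [Nat.mod_eq_of_lt hand, Nat.mod_eq_of_lt (by omega : H < B)] at this
    have h2 : R &&& off B H as.length = off B H as.length := by
      have := congrArg (· / B) h
      simp only [Nat.add_mul_div_left _ _ hBpos] at this
      rwa [Nat.div_eq_of_lt hand, Nat.div_eq_of_lt (by omega : H < B), zero_add, zero_add] at this
    have h3 : H ≤ d := by
      calc H = d &&& H := h1.symm
        _ ≤ d := Nat.and_le_left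
    have ha0 : 0 ≤ a := by omega
    have := ih has R (by rw [← hR]) h2
    intro x hx
    simp only [List.mem_cons] at hx
    rcases hx with rfl | hx
    · exact ha0
    · exact this x hx

/-- the fast test: `k + 1` = bit size of the digits, `mask` computed in closed form -/
def fastTest (k M : Nat) (Z : Int) : Bool :=
  (fun mask : Nat => Nat.beq (Nat.land (Int.toNat (Int.add Z (Int.ofNat mask))) mask) mask)
    (Nat.div (Nat.mul (Nat.pow 2 k) (Nat.sub (Nat.pow 2 (Nat.mul (Nat.succ k) M)) 1))
      (Nat.sub (Nat.pow 2 (Nat.succ k)) 1))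

lemma fastTest_sound {k : Nat} (l : List Int) (hl : ∀ x ∈ l, Int.natAbs x < 2 ^ k)
    (h : fastTest k l.length (pack (2 ^ (k + 1) : Nat) l) = true) : ∀ x ∈ l, 0 ≤ x := by
  have hmask : Nat.div (Nat.mul (Nat.pow 2 k) (Nat.sub (Nat.pow 2 (Nat.mul (Nat.succ k) l.length)) 1))
      (Nat.sub (Nat.pow 2 (Nat.succ k)) 1) = off (2 ^ (k + 1)) (2 ^ k) l.length := by
    rw [off_closed _ _ _ (Nat.one_lt_two_pow (by omega)), ← pow_mul]
    rfl
  unfold fastTest at h
  simp only [hmask] at h
  have h1 := Nat.eq_of_beq_eq_true h
  have hnn := pack_add_off_nonneg (B := 2 ^ (k + 1)) (H := 2 ^ k) l hl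
  refine mask_sound l hl _ ?_ h1
  show ((Int.toNat (pack (2 ^ (k + 1) : Nat) l + (off (2 ^ (k + 1)) (2 ^ k) l.length : Nat)) : Nat) : Int)
    = _
  rw [Int.toNat_of_nonneg hnn]

/-! ### fast core -/

/-- dot product of naturals -/
def dotN : List Nat → List Nat → Nat
  | [], _ => 0
  | _ :: _, [] => 0
  | a :: as, b :: bs => Nat.add (Nat.mul a b) (dotN as bs)

lemma dotAbs_le_dotN (s : List Int) (bs bs' : List Nat) (sb : List Nat)
    (h : List.Forall₂ (fun x y => Int.natAbs x ≤ y) s sb) (hb : List.Forall₂ (· ≤ ·) bs bs') :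
    dotAbs s bs ≤ dotN sb bs' := by
  induction h generalizing bs bs' with
  | nil => exact Nat.zero_le _
  | @cons x y s sb hxy _ ih =>
    cases hb with
    | nil => exact Nat.zero_le _
    | @cons b b' bs bs' hbb hrest =>
      show Int.natAbs x * b + dotAbs s bs ≤ y * b' + dotN sb bs'
      have h1 := Nat.mul_le_mul hxy hbb
      have h2 := ih bs bs' hrest
      omega

/-- core soundness with packed data: it is enough to test the single integer
`dotI PW (vs.map (pack B'))` -/
theorem fast_core {k N N' : Nat} (C vs ws : List (List Int)) (bv bw : List Nat)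
    (hv : ∀ v ∈ vs, v.length = N) (hw : ∀ w ∈ ws, w.length = N')
    (hbv : List.Forall₂ (fun v b => maxAbs v ≤ b) vs bv)
    (hbw : List.Forall₂ (fun w b => maxAbs w ≤ b) ws bw)
    (hbd : dotN bv (C.map fun c => dotAbs c bw) < 2 ^ k)
    (h : fastTest k (N * N') (dotI (C.map fun c => dotI c (ws.map (pack (2 ^ (k + 1) : Nat))))
      (vs.map (pack ((2 ^ (k + 1) : Nat) ^ N' : Int)))) = true)
    (β β' : List ℝ) (hβ : ∀ x ∈ β, 0 ≤ x) (hβ' : ∀ x ∈ β', 0 ≤ x) :
    0 ≤ bil C (vs.map fun v => dotR v β) (ws.map fun w => dotR w β') := by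
  set ys := ws.map fun w => dotR w β' with hys
  set Ws := C.map (fun c => lincomb N' c ws) with hWs
  set zs := C.map (fun c => dotR c ys) with hzs
  have hWlen : ∀ W ∈ Ws, W.length = N' := by
    intro W hW
    rw [hWs, List.mem_map] at hW
    obtain ⟨c, _, rfl⟩ := hW
    exact length_lincomb c ws hw
  have hbil : ∀ (C vs : List (List Int)), bil C (vs.map fun v => dotR v β) ys =
      dotL β vs (C.map fun c => dotR c ys) := by
    intro C
    induction C with
    | nil =>
      intro vs
      cases vs <;> simp [bil, dotL]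
    | cons c C ih =>
      intro vs
      cases vs with
      | nil => simp [bil, dotL]
      | cons v vs =>
        simp only [List.map_cons, bil, dotL, ih vs]
        ring
  rw [hbil, ← sumF_transp_dot vs hv]
  -- bounds
  have hWb : List.Forall₂ (fun w b => ∀ x ∈ w, Int.natAbs x ≤ b) Ws
      (C.map fun c => dotAbs c bw) := by
    rw [hWs, List.forall₂_map_left_iff, List.forall₂_map_right_iff, List.forall₂_same]
    intro c _ x hx
    refine bound_lincomb c ws _ hw ?_ x hx
    exact hbw.imp fun w b hwb x hx => (le_maxAbs w x hx).trans hwb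
  have hrowb : ∀ s ∈ transp N vs, ∀ x ∈ lincomb N' s Ws, Int.natAbs x < 2 ^ k := by
    intro s hs x hx
    refine lt_of_le_of_lt (bound_lincomb s Ws _ hWlen hWb x hx) (lt_of_le_of_lt ?_ hbd)
    refine dotAbs_le_dotN s _ _ bv ?_ (List.forall₂_same.mpr fun _ _ => le_rfl)
    -- entries of columns are bounded
    have hcol : ∀ (vs : List (List Int)) (bv : List Nat), (∀ v ∈ vs, v.length = N) →
        List.Forall₂ (fun v b => maxAbs v ≤ b) vs bv → ∀ s ∈ transp N vs,
        List.Forall₂ (fun x y => Int.natAbs x ≤ y) s bv := by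
      intro vs bv hv hb
      induction hb with
      | nil =>
        intro s hs
        simp only [transp, List.mem_replicate] at hs
        rw [hs.2]; exact List.Forall₂.nil
      | @cons v b vs bv hvb _ ih =>
        have h1 := hv v (by simp)
        have h2 : ∀ v ∈ vs, v.length = N := fun v hv' => hv v (by simp [hv'])
        have ih' := ih h2
        have hl : v.length = (transp N vs).length := by rw [h1, length_transp vs h2]
        have hz : ∀ (v : List Int) (cs : List (List Int)), v.length = cs.length →
            (∀ x ∈ v, Int.natAbs x ≤ b) →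
            (∀ c ∈ cs, List.Forall₂ (fun x y => Int.natAbs x ≤ y) c bv) →
            ∀ c ∈ zipCons v cs, List.Forall₂ (fun x y => Int.natAbs x ≤ y) c (b :: bv) := by
          intro v
          induction v with
          | nil =>
            intro cs _ _ _ c hc
            cases cs <;> simp [zipCons] at hc
          | cons a as ih2 =>
            intro cs hl hva hcs c hc
            cases cs with
            | nil => simp at hl
            | cons d ds =>
              simp only [zipCons, List.mem_cons] at hc
              rcases hc with rfl | hc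
              · exact List.Forall₂.cons (hva a (by simp)) (hcs d (by simp))
              · exact ih2 ds (by simpa using hl) (fun x hx => hva x (by simp [hx]))
                  (fun c hc => hcs c (by simp [hc])) c hc
        exact hz v _ hl (fun x hx => (le_maxAbs v x hx).trans hvb) ih'
    exact hcol vs bv hv hbv s hs
  -- the flattened list
  set rows := (transp N vs).map (fun s => lincomb N' s Ws) with hrows
  have hrl : ∀ l ∈ rows, l.length = N' := by
    intro l hl
    rw [hrows, List.mem_map] at hl
    obtain ⟨s, _, rfl⟩ := hl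
    exact length_lincomb s Ws hWlen
  have hmemflat : ∀ (ls : List (List Int)) (x : Int), x ∈ flat ls ↔ ∃ l ∈ ls, x ∈ l := by
    intro ls x
    induction ls with
    | nil => simp [flat]
    | cons l ls ih => simp [flat, ih]
  have hlenflat : (flat rows).length = N * N' := by
    rw [length_flat rows hrl, hrows, List.length_map, length_transp vs hv]
  have hpack : pack (2 ^ (k + 1) : Nat) (flat rows) =
      dotI (C.map fun c => dotI c (ws.map (pack (2 ^ (k + 1) : Nat))))
        (vs.map (pack ((2 ^ (k + 1) : Nat) ^ N' : Int))) := by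
    rw [pack_flat _ rows hrl, hrows, List.map_map, ← pack_map_dotI _ vs _ hv]
    congr 1
    apply List.map_congr_left
    intro s _
    rw [Function.comp_apply, pack_lincomb _ _ _ hWlen, hWs, List.map_map]
    congr 1
    apply List.map_congr_left
    intro c _
    exact pack_lincomb _ c ws hw
  have hall : ∀ x ∈ flat rows, 0 ≤ x := by
    apply fastTest_sound (k := k)
    · intro x hx
      rw [hmemflat] at hx
      obtain ⟨l, hl, hx⟩ := hx
      rw [hrows, List.mem_map] at hl
      obtain ⟨s, hs, rfl⟩ := hl
      exact hrowb s hs x hx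
    · rw [hlenflat, hpack]; exact h
  have hcol : ∀ s ∈ transp N vs, 0 ≤ dotR s zs := by
    intro s hs
    have h4 : dotR s zs = dotR (lincomb N' s Ws) β' := by
      rw [dotR_lincomb s Ws hWlen, hWs, List.map_map, hzs]
      congr 1
      apply List.map_congr_left
      intro c _
      rw [Function.comp_apply, dotR_lincomb c ws hw]
    rw [h4]
    refine dotR_nonneg (fun x hx => hall x ?_) hβ'
    rw [hmemflat]
    exact ⟨_, List.mem_map_of_mem hs, hx⟩
  have hsum : ∀ (cs : List (List Int)), (∀ s ∈ cs, 0 ≤ dotR s zs) → ∀ β : List ℝ,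
      (∀ x ∈ β, 0 ≤ x) → 0 ≤ sumF (fun c => dotR c zs) cs β := by
    intro cs
    induction cs with
    | nil => intro _ β _; simp [sumF]
    | cons c cs ih =>
      intro h β hβ
      cases β with
      | nil => simp [sumF]
      | cons x xs =>
        simp only [sumF]
        have h1 := h c (by simp)
        have h2 := hβ x (by simp)
        have h3 := ih (fun s hs => h s (by simp [hs])) xs (fun x hx => hβ x (by simp [hx]))
        positivity
  exact hsum _ hcol β hβ


/-- the fast check on a product of two boxes (`B = 2^(k+1)` is the packing base) -/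
def fastBox (k n m n' m' : Nat) (C : List (List Int)) (fs gs : List (List (List Int)))
    (ar br cr ay by' cy ar' br' cr' ay' by'' cy' : Int) : Bool :=
  and (and (allB (shapeOK n m) fs) (allB (shapeOK n' m') gs))
    (and
      (Nat.ble (Nat.succ (dotN
          (fs.map (nb2 (Nat.add (Int.natAbs ar) (Int.natAbs br)) (Nat.add (Int.natAbs ay) (Int.natAbs by'))
            (powsN (Nat.add (Int.natAbs cr) (Int.natAbs cr)) n)
            (powsN (Nat.add (Int.natAbs cy) (Int.natAbs cy)) m)))
          (C.map fun c => dotAbs c
            (gs.map (nb2 (Nat.add (Int.natAbs ar') (Int.natAbs br'))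
              (Nat.add (Int.natAbs ay') (Int.natAbs by''))
              (powsN (Nat.add (Int.natAbs cr') (Int.natAbs cr')) n')
              (powsN (Nat.add (Int.natAbs cy') (Int.natAbs cy')) m'))))))
        (Nat.pow 2 k))
      (fastTest k (Nat.mul (Nat.mul m n) (Nat.mul m' n'))
        (dotI (C.map fun c => dotI c
            (gs.map (pk2
              (Int.add ar' (Int.mul br' (Int.ofNat (Nat.pow 2 (Nat.succ k)))))
              (Int.add ay' (Int.mul by'' (Int.ofNat (Nat.pow 2 (Nat.mul (Nat.succ k) n')))))
              (pows (Int.add cr' (Int.mul cr' (Int.ofNat (Nat.pow 2 (Nat.succ k))))) n')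
              (pows (Int.add cy' (Int.mul cy' (Int.ofNat (Nat.pow 2 (Nat.mul (Nat.succ k) n'))))) m'))))
          (fs.map (pk2
              (Int.add ar (Int.mul br (Int.ofNat (Nat.pow 2 (Nat.mul (Nat.succ k) (Nat.mul m' n'))))))
              (Int.add ay (Int.mul by' (Int.ofNat
                (Nat.pow 2 (Nat.mul (Nat.mul (Nat.succ k) (Nat.mul m' n')) n)))))
              (pows (Int.add cr (Int.mul cr (Int.ofNat
                (Nat.pow 2 (Nat.mul (Nat.succ k) (Nat.mul m' n')))))) n)
              (pows (Int.add cy (Int.mul cy (Int.ofNat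
                (Nat.pow 2 (Nat.mul (Nat.mul (Nat.succ k) (Nat.mul m' n')) n))))) m))))))

/-- **Soundness of the fast box check.** -/
theorem fastBox_sound {k n m n' m' : Nat} {C : List (List Int)} {fs gs : List (List (List Int))}
    {ar br cr ay by' cy ar' br' cr' ay' by'' cy' : Int}
    (hn : 0 < n) (hm : 0 < m) (hn' : 0 < n') (hm' : 0 < m')
    (hcr : 0 < cr) (hcy : 0 < cy) (hcr' : 0 < cr') (hcy' : 0 < cy')
    (hr : ar < br) (hy : ay < by') (hr' : ar' < br') (hy' : ay' < by'')
    (h : fastBox k n m n' m' C fs gs ar br cr ay by' cy ar' br' cr' ay' by'' cy' = true)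
    {r y r' y' : ℝ} (h1 : (ar : ℝ) / cr ≤ r) (h2 : r ≤ br / cr) (h3 : (ay : ℝ) / cy ≤ y)
    (h4 : y ≤ by' / cy) (h1' : (ar' : ℝ) / cr' ≤ r') (h2' : r' ≤ br' / cr')
    (h3' : (ay' : ℝ) / cy' ≤ y') (h4' : y' ≤ by'' / cy') :
    0 ≤ bil C (fs.map (ev2 r y)) (gs.map (ev2 r' y')) := by
  unfold fastBox at h
  rw [Bool.and_eq_true, Bool.and_eq_true, Bool.and_eq_true, allB_iff, allB_iff] at h
  obtain ⟨⟨hs, hs'⟩, hbd, htest⟩ := h
  have hbd' := Nat.le_of_ble_eq_true hbd
  have hvl : ∀ v ∈ fs.map (tr2 ar br cr ay by' cy m), v.length = m * n := by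
    intro v hv
    rw [List.mem_map] at hv
    obtain ⟨p, hp, rfl⟩ := hv
    obtain ⟨hp1, hp2⟩ := shapeOK_iff (hs p hp)
    exact length_tr2 ar br cr ay by' cy p hp1 hp2
  have hwl : ∀ v ∈ gs.map (tr2 ar' br' cr' ay' by'' cy' m'), v.length = m' * n' := by
    intro v hv
    rw [List.mem_map] at hv
    obtain ⟨p, hp, rfl⟩ := hv
    obtain ⟨hp1, hp2⟩ := shapeOK_iff (hs' p hp)
    exact length_tr2 ar' br' cr' ay' by'' cy' p hp1 hp2
  have hBn : ∀ j : ℕ, Int.ofNat (Nat.pow 2 (Nat.mul (Nat.succ k) j)) = ((2 ^ (k + 1) : Nat) : Int) ^ j := by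
    intro j
    show ((2 ^ ((k + 1) * j) : Nat) : Int) = _
    rw [pow_mul]; push_cast; ring
  have hBn2 : ∀ j i : ℕ, Int.ofNat (Nat.pow 2 (Nat.mul (Nat.mul (Nat.succ k) j) i)) =
      (((2 ^ (k + 1) : Nat) : Int) ^ j) ^ i := by
    intro j i
    show ((2 ^ ((k + 1) * j * i) : Nat) : Int) = _
    rw [pow_mul, pow_mul]; push_cast; ring
  have e1 := fast_core (k := k) C _ _ (hv := hvl) (hw := hwl)
    (bv := fs.map (nb2 (Int.natAbs ar + Int.natAbs br) (Int.natAbs ay + Int.natAbs by')
        (powsN (Int.natAbs cr + Int.natAbs cr) n) (powsN (Int.natAbs cy + Int.natAbs cy) m)))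
    (bw := gs.map (nb2 (Int.natAbs ar' + Int.natAbs br') (Int.natAbs ay' + Int.natAbs by'')
        (powsN (Int.natAbs cr' + Int.natAbs cr') n') (powsN (Int.natAbs cy' + Int.natAbs cy') m')))
    (by
      rw [List.forall₂_map_left_iff, List.forall₂_map_right_iff, List.forall₂_same]
      intro p hp
      obtain ⟨hp1, hp2⟩ := shapeOK_iff (hs p hp)
      exact maxAbs_tr2 ar br cr ay by' cy p hp1 hp2)
    (by
      rw [List.forall₂_map_left_iff, List.forall₂_map_right_iff, List.forall₂_same]
      intro p hp
      obtain ⟨hp1, hp2⟩ := shapeOK_iff (hs' p hp)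
      exact maxAbs_tr2 ar' br' cr' ay' by'' cy' p hp1 hp2)
    hbd'
    (by
      have e3 : (gs.map (tr2 ar' br' cr' ay' by'' cy' m')).map (pack (2 ^ (k + 1) : Nat)) =
          gs.map (pk2
              (Int.add ar' (Int.mul br' (Int.ofNat (Nat.pow 2 (Nat.succ k)))))
              (Int.add ay' (Int.mul by'' (Int.ofNat (Nat.pow 2 (Nat.mul (Nat.succ k) n')))))
              (pows (Int.add cr' (Int.mul cr' (Int.ofNat (Nat.pow 2 (Nat.succ k))))) n')
              (pows (Int.add cy' (Int.mul cy' (Int.ofNat (Nat.pow 2 (Nat.mul (Nat.succ k) n'))))) m')) := by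
        rw [List.map_map]
        apply List.map_congr_left
        intro p hp
        obtain ⟨hp1, hp2⟩ := shapeOK_iff (hs' p hp)
        rw [Function.comp_apply, pack_tr2 _ ar' br' cr' ay' by'' cy' p hp1 hp2, hBn]
        rfl
      have e4 : (fs.map (tr2 ar br cr ay by' cy m)).map
          (pack ((2 ^ (k + 1) : Nat) ^ (m' * n') : Int)) =
          fs.map (pk2
              (Int.add ar (Int.mul br (Int.ofNat (Nat.pow 2 (Nat.mul (Nat.succ k) (Nat.mul m' n'))))))
              (Int.add ay (Int.mul by' (Int.ofNat
                (Nat.pow 2 (Nat.mul (Nat.mul (Nat.succ k) (Nat.mul m' n')) n)))))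
              (pows (Int.add cr (Int.mul cr (Int.ofNat
                (Nat.pow 2 (Nat.mul (Nat.succ k) (Nat.mul m' n')))))) n)
              (pows (Int.add cy (Int.mul cy (Int.ofNat
                (Nat.pow 2 (Nat.mul (Nat.mul (Nat.succ k) (Nat.mul m' n')) n))))) m)) := by
        rw [List.map_map]
        apply List.map_congr_left
        intro p hp
        obtain ⟨hp1, hp2⟩ := shapeOK_iff (hs p hp)
        rw [Function.comp_apply, pack_tr2 _ ar br cr ay by' cy p hp1 hp2, hBn, hBn2]
        rfl
      rw [e3, e4]
      exact htest)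
    (kron (bas ((by' : ℝ) / cy - y) (y - ay / cy) m) (bas ((br : ℝ) / cr - r) (r - ar / cr) n))
    (kron (bas ((by'' : ℝ) / cy' - y') (y' - ay' / cy') m')
      (bas ((br' : ℝ) / cr' - r') (r' - ar' / cr') n'))
    (kron_nonneg (bas_nonneg (by linarith) (by linarith) _) (bas_nonneg (by linarith) (by linarith) _))
    (kron_nonneg (bas_nonneg (by linarith) (by linarith) _) (bas_nonneg (by linarith) (by linarith) _))
  rw [List.map_map, List.map_map, bil_map_mul C (List (List Int)) fs
    (((br : ℝ) - ar) ^ (n - 1) * ((by' : ℝ) - ay) ^ (m - 1))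
    (((br' : ℝ) - ar') ^ (n' - 1) * ((by'' : ℝ) - ay') ^ (m' - 1)) (ev2 r y) _
    (fun p hp => by
      obtain ⟨hp1, hp2⟩ := shapeOK_iff (hs p hp)
      exact dotR_tr2 hn hm p hp1 hp2 hcr hcy r y) (ev2 r' y') _ gs
    (fun p hp => by
      obtain ⟨hp1, hp2⟩ := shapeOK_iff (hs' p hp)
      exact dotR_tr2 hn' hm' p hp1 hp2 hcr' hcy' r' y')] at e1
  have c1 : (0 : ℝ) < br - ar := by
    have : (ar : ℝ) < br := by exact_mod_cast hr
    linarith
  have c2 : (0 : ℝ) < by' - ay := by
    have : (ay : ℝ) < by' := by exact_mod_cast hy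
    linarith
  have c3 : (0 : ℝ) < br' - ar' := by
    have : (ar' : ℝ) < br' := by exact_mod_cast hr'
    linarith
  have c4 : (0 : ℝ) < by'' - ay' := by
    have : (ay' : ℝ) < by'' := by exact_mod_cast hy'
    linarith
  have c5 : 0 < ((br : ℝ) - ar) ^ (n - 1) * ((by' : ℝ) - ay) ^ (m - 1) *
      (((br' : ℝ) - ar') ^ (n' - 1) * ((by'' : ℝ) - ay') ^ (m' - 1)) := by positivity
  exact nonneg_of_mul_nonneg_right e1 c5

end Crest.Agent.R163.Bern
end

-- ▼ part R163/Bern4

/-! Row 163: Bernstein checker, part 4: shared version, one right cell against many left cells. -/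

set_option autoImplicit false

namespace Crest.Agent.R163.Bern

noncomputable section

/-! ### fast integer operations (for the kernel) -/

/-- negative of a natural number -/
def negN (k : Nat) : Int := Nat.rec (Int.ofNat 0) (fun m _ => Int.negSucc m) k

/-- difference of natural numbers -/
def subN (m n : Nat) : Int := Nat.rec (Int.ofNat (Nat.sub m n)) (fun j _ => Int.negSucc j) (Nat.sub n m)

/-- product -/
def im (x y : Int) : Int :=
  Int.rec (fun m => Int.rec (fun n => Int.ofNat (Nat.mul m n)) (fun n => negN (Nat.mul m (Nat.succ n))) y)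
    (fun m => Int.rec (fun n => negN (Nat.mul (Nat.succ m) n))
      (fun n => Int.ofNat (Nat.mul (Nat.succ m) (Nat.succ n))) y) x

/-- sum -/
def ia (x y : Int) : Int :=
  Int.rec (fun m => Int.rec (fun n => Int.ofNat (Nat.add m n)) (fun n => subN m (Nat.succ n)) y)
    (fun m => Int.rec (fun n => subN n (Nat.succ m))
      (fun n => Int.negSucc (Nat.succ (Nat.add m n))) y) x

/-- shift -/
def shl (s : Nat) (x : Int) : Int :=
  Int.rec (fun m => Int.ofNat (Nat.shiftLeft m s))
    (fun m => negN (Nat.shiftLeft (Nat.succ m) s)) x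

lemma negN_eq (k : Nat) : negN k = -(k : Int) := by
  cases k with
  | zero => rfl
  | succ m => rfl

lemma subN_eq (m n : Nat) : subN m n = (m : Int) - n := by
  unfold subN
  rcases h : Nat.sub n m with _ | j
  · show ((Nat.sub m n : Nat) : Int) = _
    have h' : n - m = 0 := h
    show ((m - n : Nat) : Int) = _
    omega
  · show Int.negSucc j = _
    have h' : n - m = j + 1 := h
    omega

lemma im_eq (x y : Int) : im x y = x * y := by
  cases x with
  | ofNat m =>
    cases y with
    | ofNat n => rfl
    | negSucc n =>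
      show negN (m * (n + 1)) = _
      rw [negN_eq, Int.negSucc_eq]
      push_cast
      show -((m : Int) * (n + 1)) = (m : Int) * -(n + 1)
      ring
  | negSucc m =>
    cases y with
    | ofNat n =>
      show negN ((m + 1) * n) = _
      rw [negN_eq, Int.negSucc_eq]
      push_cast
      show -(((m : Int) + 1) * n) = -(m + 1) * (n : Int)
      ring
    | negSucc n => rfl

lemma ia_eq (x y : Int) : ia x y = x + y := by
  cases x with
  | ofNat m =>
    cases y with
    | ofNat n => rfl
    | negSucc n =>
      show subN m (n + 1) = _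
      rw [subN_eq, Int.negSucc_eq]
      push_cast
      show (m : Int) - (n + 1) = (m : Int) + -(n + 1)
      ring
  | negSucc m =>
    cases y with
    | ofNat n =>
      show subN n (m + 1) = _
      rw [subN_eq, Int.negSucc_eq]
      push_cast
      show (n : Int) - (m + 1) = -(m + 1) + (n : Int)
      ring
    | negSucc n =>
      show Int.negSucc (m + n + 1) = _
      rw [Int.negSucc_eq, Int.negSucc_eq, Int.negSucc_eq]
      push_cast
      ring

lemma shl_eq (s : Nat) (x : Int) : shl s x = x * 2 ^ s := by
  cases x with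
  | ofNat m =>
    show ((m <<< s : Nat) : Int) = (m : Int) * 2 ^ s
    rw [Nat.shiftLeft_eq]; push_cast; ring
  | negSucc m =>
    show negN ((m + 1) <<< s) = _
    rw [negN_eq, Nat.shiftLeft_eq, Int.negSucc_eq]; push_cast; ring

/-! ### fast list operations -/

/-- dot product -/
def fdot (xs : List Int) : List Int → Int :=
  List.rec (fun _ => Int.ofNat 0)
    (fun x _ ih ys => List.rec (Int.ofNat 0) (fun y ys _ => ia (im x y) (ih ys)) ys) xs

/-- Horner -/
def fhorn (X : Int) (xs : List Int) : List Int → Int :=
  List.rec (fun _ => Int.ofNat 0)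
    (fun x _ ih ys => List.rec (Int.ofNat 0) (fun y ys _ => ia (im x y) (im X (ih ys))) ys) xs

/-- Horner with `X = a + b 2^s` -/
def shorn (a b : Int) (s : Nat) (xs : List Int) : List Int → Int :=
  List.rec (fun _ => Int.ofNat 0)
    (fun x _ ih ys => List.rec (Int.ofNat 0)
      (fun y ys _ => ia (im x y) ((fun A : Int => ia (im a A) (shl s (im b A))) (ih ys))) ys) xs

/-- `g * x + acc` entrywise; a missing `acc` means zero -/
def addSmul (g : Int) (xs : List Int) : List Int → List Int :=
  List.rec (fun _ => [])
    (fun x _ ih acc => List.rec (im g x :: ih []) (fun A as _ => ia (im g x) A :: ih as) acc) xs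

/-- matrices -/
def addSmulM (g : Int) (xs : List (List Int)) : List (List Int) → List (List Int) :=
  List.rec (fun _ => [])
    (fun x _ ih acc => List.rec (addSmul g x [] :: ih []) (fun A as _ => addSmul g x A :: ih as) acc) xs

/-- linear combination of matrices -/
def combM (gs : List Int) : List (List (List Int)) → List (List Int) :=
  List.rec (fun _ => [])
    (fun g _ ih ps => List.rec [] (fun p ps _ => addSmulM g p (ih ps)) ps) gs

/-- `y * x + (a + b 2^s) * acc` entrywise; a missing `acc` means zero -/
def stepRow (a b : Int) (s : Nat) (y : Int) (xs : List Int) : List Int → List Int :=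
  List.rec (fun _ => [])
    (fun x _ ih acc => List.rec (im x y :: ih [])
      (fun A as _ => ia (im x y) (ia (im a A) (shl s (im b A))) :: ih as) acc) xs

/-- Horner on rows -/
def hornRow (a b : Int) (s : Nat) (rows : List (List Int)) : List Int → List Int :=
  List.rec (fun _ => [])
    (fun row _ ih ys => List.rec [] (fun y ys _ => stepRow a b s y row (ih ys)) ys) rows

lemma fdot_eq (xs ys : List Int) : fdot xs ys = dotI xs ys := by
  induction xs generalizing ys with
  | nil => rfl
  | cons x xs ih =>
    cases ys with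
    | nil => rfl
    | cons y ys =>
      show ia (im x y) (fdot xs ys) = x * y + dotI xs ys
      rw [ih, ia_eq, im_eq]

lemma fhorn_eq (X : Int) (xs ys : List Int) : fhorn X xs ys = horn X xs ys := by
  induction xs generalizing ys with
  | nil => rfl
  | cons x xs ih =>
    cases ys with
    | nil => rfl
    | cons y ys =>
      show ia (im x y) (im X (fhorn X xs ys)) = x * y + X * horn X xs ys
      rw [ih, ia_eq, im_eq, im_eq]

lemma shorn_eq (a b : Int) (s : Nat) (xs ys : List Int) :
    shorn a b s xs ys = horn (a + b * 2 ^ s) xs ys := by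
  induction xs generalizing ys with
  | nil => rfl
  | cons x xs ih =>
    cases ys with
    | nil => rfl
    | cons y ys =>
      show ia (im x y) (ia (im a (shorn a b s xs ys)) (shl s (im b (shorn a b s xs ys)))) =
        x * y + (a + b * 2 ^ s) * horn (a + b * 2 ^ s) xs ys
      rw [ih, ia_eq, ia_eq, im_eq, im_eq, im_eq, shl_eq]
      ring

lemma length_addSmul (g : Int) (xs acc : List Int) : (addSmul g xs acc).length = xs.length := by
  induction xs generalizing acc with
  | nil => rfl
  | cons x xs ih =>
    cases acc with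
    | nil =>
      show (addSmul g xs []).length + 1 = xs.length + 1
      rw [ih]
    | cons A as =>
      show (addSmul g xs as).length + 1 = xs.length + 1
      rw [ih]

lemma horn_addSmul (X g : Int) (xs acc ys : List Int) (h : acc = [] ∨ acc.length = xs.length) :
    horn X (addSmul g xs acc) ys = g * horn X xs ys + horn X acc ys := by
  induction xs generalizing acc ys with
  | nil =>
    have : acc = [] := by
      rcases h with h | h
      · exact h
      · exact List.length_eq_zero_iff.mp h
    subst this
    show (0 : Int) = g * 0 + 0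
    ring
  | cons x xs ih =>
    cases ys with
    | nil =>
      cases acc with
      | nil => show (0 : Int) = g * 0 + 0; ring
      | cons A as => show (0 : Int) = g * 0 + 0; ring
    | cons y ys =>
      cases acc with
      | nil =>
        show im g x * y + X * horn X (addSmul g xs []) ys = g * (x * y + X * horn X xs ys) + 0
        rw [ih [] ys (Or.inl rfl), im_eq]
        have : horn X [] ys = 0 := rfl
        rw [this]; ring
      | cons A as =>
        have h' : as.length = xs.length := by
          rcases h with h | h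
          · exact absurd h (by simp)
          · simpa using h
        show ia (im g x) A * y + X * horn X (addSmul g xs as) ys =
          g * (x * y + X * horn X xs ys) + (A * y + X * horn X as ys)
        rw [ih as ys (Or.inr h'), im_eq, ia_eq]
        ring

lemma horn_stepRow (X a b : Int) (s : Nat) (y : Int) (xs acc ys : List Int)
    (h : acc = [] ∨ acc.length = xs.length) :
    horn X (stepRow a b s y xs acc) ys = horn X xs ys * y + (a + b * 2 ^ s) * horn X acc ys := by
  induction xs generalizing acc ys with
  | nil =>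
    have : acc = [] := by
      rcases h with h | h
      · exact h
      · exact List.length_eq_zero_iff.mp h
    subst this
    show (0 : Int) = 0 * y + (a + b * 2 ^ s) * 0
    ring
  | cons x xs ih =>
    cases ys with
    | nil =>
      cases acc with
      | nil => show (0 : Int) = 0 * y + (a + b * 2 ^ s) * 0; ring
      | cons A as => show (0 : Int) = 0 * y + (a + b * 2 ^ s) * 0; ring
    | cons z ys =>
      cases acc with
      | nil =>
        show im x y * z + X * horn X (stepRow a b s y xs []) ys =
          (x * z + X * horn X xs ys) * y + (a + b * 2 ^ s) * 0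
        rw [ih [] ys (Or.inl rfl), im_eq]
        have : horn X [] ys = 0 := rfl
        rw [this]; ring
      | cons A as =>
        have h' : as.length = xs.length := by
          rcases h with h | h
          · exact absurd h (by simp)
          · simpa using h
        show ia (im x y) (ia (im a A) (shl s (im b A))) * z + X * horn X (stepRow a b s y xs as) ys =
          (x * z + X * horn X xs ys) * y + (a + b * 2 ^ s) * (A * z + X * horn X as ys)
        rw [ih as ys (Or.inr h'), ia_eq, ia_eq, im_eq, im_eq, im_eq, shl_eq]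
        ring

lemma length_stepRow (a b : Int) (s : Nat) (y : Int) (xs acc : List Int) :
    (stepRow a b s y xs acc).length = xs.length := by
  induction xs generalizing acc with
  | nil => rfl
  | cons x xs ih =>
    cases acc with
    | nil =>
      show (stepRow a b s y xs []).length + 1 = xs.length + 1
      rw [ih]
    | cons A as =>
      show (stepRow a b s y xs as).length + 1 = xs.length + 1
      rw [ih]

lemma hornRow_spec (X a b : Int) (s : Nat) {m : ℕ} (rows : List (List Int)) (ys yy : List Int)
    (hr : ∀ row ∈ rows, row.length = m) :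
    (hornRow a b s rows ys = [] ∨ (hornRow a b s rows ys).length = m) ∧
    horn X (hornRow a b s rows ys) yy =
      horn (a + b * 2 ^ s) (rows.map fun row => horn X row yy) ys := by
  induction rows generalizing ys with
  | nil => exact ⟨Or.inl rfl, rfl⟩
  | cons row rows ih =>
    have h1 := hr row (by simp)
    have h2 : ∀ row ∈ rows, row.length = m := fun v hv => hr v (by simp [hv])
    cases ys with
    | nil => exact ⟨Or.inl rfl, rfl⟩
    | cons y ys =>
      obtain ⟨h3, h4⟩ := ih ys h2
      have e : hornRow a b s (row :: rows) (y :: ys) = stepRow a b s y row (hornRow a b s rows ys) := rfl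
      rw [e]
      constructor
      · right; rw [length_stepRow, h1]
      · rw [horn_stepRow X a b s y row _ yy (by rw [h1]; exact h3), h4]
        rfl

/-- two-variable Horner with shifts equals `pk2` -/
lemma horn_hornRow (ar br ay by' : Int) (s t : Nat) {m : ℕ} (p : List (List Int)) (yr yy : List Int)
    (hr : ∀ row ∈ p, row.length = m) :
    shorn ay by' t (hornRow ar br s p yr) yy =
      pk2 (ar + br * 2 ^ s) (ay + by' * 2 ^ t) yr yy p := by
  rw [shorn_eq, (hornRow_spec _ ar br s p yr yy hr).2]
  rfl

lemma pk2_addSmulM (Xr Xy g : Int) (yr yy : List Int) {n m : ℕ} (p acc : List (List Int))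
    (hp : p.length = n) (hrow : ∀ row ∈ p, row.length = m)
    (ha : acc = [] ∨ (acc.length = n ∧ ∀ row ∈ acc, row.length = m)) :
    pk2 Xr Xy yr yy (addSmulM g p acc) = g * pk2 Xr Xy yr yy p + pk2 Xr Xy yr yy acc := by
  induction p generalizing acc yr n with
  | nil =>
    have : acc = [] := by
      rcases ha with h | h
      · exact h
      · rw [← hp] at h; exact List.length_eq_zero_iff.mp h.1
    subst this
    show (0 : Int) = g * 0 + 0
    ring
  | cons x xs ih =>
    have h1 := hrow x (by simp)
    have h2 : ∀ row ∈ xs, row.length = m := fun v hv => hrow v (by simp [hv])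
    cases yr with
    | nil =>
      cases acc with
      | nil => show (0 : Int) = g * 0 + 0; ring
      | cons A as => show (0 : Int) = g * 0 + 0; ring
    | cons y ys =>
      cases acc with
      | nil =>
        show horn Xy (addSmul g x []) yy * y + Xr * pk2 Xr Xy ys yy (addSmulM g xs []) =
          g * (horn Xy x yy * y + Xr * pk2 Xr Xy ys yy xs) + 0
        rw [ih ys (n := xs.length) [] rfl h2 (Or.inl rfl), horn_addSmul _ _ _ _ _ (Or.inl rfl)]
        have e1 : horn Xy [] yy = 0 := rfl
        have e2 : pk2 Xr Xy ys yy [] = 0 := rfl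
        rw [e1, e2]; ring
      | cons A as =>
        rcases ha with h | ⟨h3, h4⟩
        · exact absurd h (by simp)
        have h5 : as.length = xs.length := by
          rw [← hp] at h3; simpa using h3
        have h6 := h4 A (by simp)
        show horn Xy (addSmul g x A) yy * y + Xr * pk2 Xr Xy ys yy (addSmulM g xs as) =
          g * (horn Xy x yy * y + Xr * pk2 Xr Xy ys yy xs) +
            (horn Xy A yy * y + Xr * pk2 Xr Xy ys yy as)
        rw [ih ys (n := xs.length) as rfl h2 (Or.inr ⟨h5, fun v hv => h4 v (by simp [hv])⟩),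
          horn_addSmul _ _ _ _ _ (Or.inr (by rw [h6, h1]))]
        ring

lemma shape_addSmulM (g : Int) {n m : ℕ} (p acc : List (List Int))
    (hp : p.length = n) (hrow : ∀ row ∈ p, row.length = m) :
    (addSmulM g p acc).length = n ∧ ∀ row ∈ addSmulM g p acc, row.length = m := by
  induction p generalizing acc n with
  | nil => exact ⟨hp, by intro row h; cases h⟩
  | cons x xs ih =>
    have h1 := hrow x (by simp)
    have h2 : ∀ row ∈ xs, row.length = m := fun v hv => hrow v (by simp [hv])
    cases acc with
    | nil =>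
      obtain ⟨h3, h4⟩ := ih (n := xs.length) [] rfl h2
      constructor
      · show (addSmulM g xs []).length + 1 = n
        rw [h3, ← hp]; rfl
      · intro row h
        have h' : row ∈ addSmul g x [] :: addSmulM g xs [] := h
        rcases List.mem_cons.mp h' with rfl | h'
        · rw [length_addSmul, h1]
        · exact h4 row h'
    | cons A as =>
      obtain ⟨h3, h4⟩ := ih (n := xs.length) as rfl h2
      constructor
      · show (addSmulM g xs as).length + 1 = n
        rw [h3, ← hp]; rfl
      · intro row h
        have h' : row ∈ addSmul g x A :: addSmulM g xs as := h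
        rcases List.mem_cons.mp h' with rfl | h'
        · rw [length_addSmul, h1]
        · exact h4 row h'

lemma combM_spec (Xr Xy : Int) (yr yy : List Int) {n m : ℕ} (gs : List Int)
    (ps : List (List (List Int))) (hs : ∀ p ∈ ps, p.length = n ∧ ∀ row ∈ p, row.length = m) :
    (combM gs ps = [] ∨ ((combM gs ps).length = n ∧ ∀ row ∈ combM gs ps, row.length = m)) ∧
    pk2 Xr Xy yr yy (combM gs ps) = dotI gs (ps.map (pk2 Xr Xy yr yy)) := by
  induction gs generalizing ps with
  | nil => exact ⟨Or.inl rfl, rfl⟩
  | cons g gs ih =>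
    cases ps with
    | nil => exact ⟨Or.inl rfl, rfl⟩
    | cons p ps =>
      obtain ⟨h1, h2⟩ := hs p (by simp)
      obtain ⟨h3, h4⟩ := ih ps (fun q hq => hs q (by simp [hq]))
      have e : combM (g :: gs) (p :: ps) = addSmulM g p (combM gs ps) := rfl
      rw [e]
      constructor
      · right; exact shape_addSmulM g p _ h1 h2
      · rw [pk2_addSmulM _ _ _ _ _ p _ h1 h2 h3, h4]
        rfl

/-! ### crude bounds -/

/-- sum of a list of naturals -/
def sumN (l : List Nat) : Nat := List.rec 0 (fun x _ ih => Nat.add x ih) l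

/-- sum of the absolute values of the coefficients -/
def norm1 (p : List (List Int)) : Nat := sumN (p.map maxAbs)

lemma hornN_le (X Y M : Nat) (hX : X ≤ M) (hY : Y ≤ M) (l : List Nat) :
    hornN X l (powsN Y l.length) ≤ sumN l * M ^ (l.length - 1) := by
  induction l with
  | nil => exact Nat.zero_le _
  | cons x l ih =>
    rw [List.length_cons, powsN_succ]
    show x * Y ^ l.length + X * hornN X l (powsN Y l.length) ≤ (x + sumN l) * M ^ (l.length + 1 - 1)
    rw [Nat.add_sub_cancel]
    have h1 : x * Y ^ l.length ≤ x * M ^ l.length := Nat.mul_le_mul_left _ (Nat.pow_le_pow_left hY _)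
    have h2 : X * hornN X l (powsN Y l.length) ≤ sumN l * M ^ l.length := by
      rcases l with _ | ⟨z, l⟩
      · exact Nat.zero_le _
      · calc X * hornN X (z :: l) (powsN Y (z :: l).length) ≤
            M * (sumN (z :: l) * M ^ ((z :: l).length - 1)) := Nat.mul_le_mul hX ih
          _ = sumN (z :: l) * M ^ (z :: l).length := by
            rw [List.length_cons, Nat.add_sub_cancel, pow_succ]; ring
    calc _ ≤ x * M ^ l.length + sumN l * M ^ l.length := Nat.add_le_add h1 h2
      _ = _ := by ring

lemma sumN_map_mul (l : List Nat) (c : Nat) : sumN (l.map (· * c)) = sumN l * c := by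
  induction l with
  | nil => show 0 = 0 * c; ring
  | cons x l ih =>
    show x * c + sumN (l.map (· * c)) = (x + sumN l) * c
    rw [ih]; ring

lemma sumN_natAbs (l : List Int) : sumN (l.map Int.natAbs) = maxAbs l := by
  induction l with
  | nil => rfl
  | cons x l ih =>
    show Int.natAbs x + sumN (l.map Int.natAbs) = Int.natAbs x + maxAbs l
    rw [ih]

lemma nb2_le (xr xy cr cy XM YM : Nat) {n m : ℕ} (hxr : xr ≤ XM) (hcr : cr ≤ XM) (hxy : xy ≤ YM)
    (hcy : cy ≤ YM) (p : List (List Int)) (hp : p.length = n) (hrow : ∀ row ∈ p, row.length = m) :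
    nb2 xr xy (powsN cr n) (powsN cy m) p ≤ norm1 p * (XM ^ (n - 1) * YM ^ (m - 1)) := by
  unfold nb2
  have h1 : hornN xr (p.map fun row => hornN xy (row.map Int.natAbs) (powsN cy m)) (powsN cr n) ≤
      hornN xr ((p.map maxAbs).map (· * YM ^ (m - 1))) (powsN cr n) := by
    apply hornN_mono
    rw [List.map_map, List.forall₂_map_left_iff, List.forall₂_map_right_iff, List.forall₂_same]
    intro row hr
    have h2 := hornN_le xy cy YM hxy hcy (row.map Int.natAbs)
    rw [List.length_map, hrow row hr, sumN_natAbs] at h2
    exact h2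
  refine h1.trans ?_
  have h3 := hornN_le xr cr XM hxr hcr ((p.map maxAbs).map (· * YM ^ (m - 1)))
  rw [List.length_map, List.length_map, hp, sumN_map_mul] at h3
  refine h3.trans (le_of_eq ?_)
  unfold norm1
  ring

lemma dotAbs_le (c : List Int) (bs : List Nat) (M : Nat) (hb : ∀ b ∈ bs, b ≤ M) :
    dotAbs c bs ≤ maxAbs c * M := by
  induction c generalizing bs with
  | nil => exact Nat.zero_le _
  | cons a as ih =>
    cases bs with
    | nil => exact Nat.zero_le _
    | cons b bs =>
      show Int.natAbs a * b + dotAbs as bs ≤ (Int.natAbs a + maxAbs as) * M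
      have h1 := Nat.mul_le_mul_left (Int.natAbs a) (hb b (by simp))
      have h2 := ih bs (fun b hb' => hb b (by simp [hb']))
      nlinarith

lemma dotN_le (bv bw : List Nat) (M : Nat) (hb : ∀ b ∈ bv, b ≤ M) :
    dotN bv bw ≤ M * sumN bw := by
  induction bv generalizing bw with
  | nil => exact Nat.zero_le _
  | cons a as ih =>
    cases bw with
    | nil => exact Nat.zero_le _
    | cons b bs =>
      show a * b + dotN as bs ≤ M * (b + sumN bs)
      have h1 := Nat.mul_le_mul_right b (hb a (by simp))
      have h2 := ih bs (fun b hb' => hb b (by simp [hb']))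
      nlinarith

lemma sumN_le_map (C : List (List Int)) (F : List Int → Nat) (M : Nat)
    (h : ∀ c ∈ C, F c ≤ maxAbs c * M) : sumN (C.map F) ≤ norm1 C * M := by
  induction C with
  | nil => exact Nat.zero_le _
  | cons c C ih =>
    show F c + sumN (C.map F) ≤ (maxAbs c + norm1 C) * M
    have h1 := h c (by simp)
    have h2 := ih (fun c hc => h c (by simp [hc]))
    nlinarith

/-! ### the row test: one right cell, many left cells -/

/-- data sanity: shapes and norms -/
def dataOK (n m S : Nat) (fs : List (List (List Int))) : Bool :=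
  allB (fun p => and (shapeOK n m p) (Nat.ble (norm1 p) S)) fs

lemma dataOK_iff {n m S : Nat} {fs : List (List (List Int))} (h : dataOK n m S fs = true) :
    ∀ p ∈ fs, (p.length = n ∧ ∀ row ∈ p, row.length = m) ∧ norm1 p ≤ S := by
  intro p hp
  have := (allB_iff _ _).mp h p hp
  rw [Bool.and_eq_true] at this
  exact ⟨shapeOK_iff this.1, Nat.le_of_ble_eq_true this.2⟩

/-- interval sanity -/
def ivOK (M : Nat) (a b c : Int) : Bool :=
  and (Nat.ble (Nat.add (Int.natAbs a) (Int.natAbs b)) M) (Nat.ble (Nat.add (Int.natAbs c) (Int.natAbs c)) M)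

/-- `a + b 2^s` -/
def lin2 (a b : Int) (s : Nat) : Int := ia a (shl s b)

/-- one left column: all `y`-intervals for one `r`-interval -/
def colTest (k M YM : Nat) (t : Nat) (cy : Int) (yy : List Int) (R : List Int)
    (J : List (Int × Int)) : Bool :=
  allB (fun J => and (ivOK YM J.1 J.2 cy) (fastTest k M (shorn J.1 J.2 t R yy))) J

/-- the row test for given combined matrix `H` -/
def rowTestH (k n m K : Nat) (XM YM : Nat) (cr cy : Int) (H : List (List Int))
    (left : List ((Int × Int) × List (Int × Int))) : Bool :=
  allB (fun I => and (ivOK XM I.1.1 I.1.2 cr)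
    (colTest k (Nat.mul (Nat.mul m n) K) YM (Nat.mul (Nat.mul (Nat.succ k) K) n) cy
      (pows (lin2 cy cy (Nat.mul (Nat.mul (Nat.succ k) K) n)) m)
      (hornRow I.1.1 I.1.2 (Nat.mul (Nat.succ k) K) H
        (pows (lin2 cr cr (Nat.mul (Nat.succ k) K)) n)) I.2)) left

/-- packed transform with fast Horner -/
def fpk2 (Xr Xy : Int) (yr yy : List Int) (p : List (List Int)) : Int :=
  fhorn Xr (p.map fun row => fhorn Xy row yy) yr

/-- the packed right vectors combined with `C` -/
def rightG (k n' m' : Nat) (C : List (List Int)) (gs : List (List (List Int)))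
    (ar' br' cr' ay' by'' cy' : Int) : List Int :=
  (fun P : List Int => C.map fun c => fdot c P)
    (gs.map (fpk2 (lin2 ar' br' (Nat.succ k)) (lin2 ay' by'' (Nat.mul (Nat.succ k) n'))
      (pows (lin2 cr' cr' (Nat.succ k)) n')
      (pows (lin2 cy' cy' (Nat.mul (Nat.succ k) n')) m')))

/-- the row test -/
def rowTest (k n m n' m' : Nat) (XM YM XM' YM' : Nat) (C : List (List Int))
    (fs gs : List (List (List Int))) (cr cy cr' cy' : Int) (I' J' : Int × Int)
    (left : List ((Int × Int) × List (Int × Int))) : Bool :=
  and (and (ivOK XM' I'.1 I'.2 cr') (ivOK YM' J'.1 J'.2 cy'))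
    (rowTestH k n m (Nat.mul m' n') XM YM cr cy
      (combM (rightG k n' m' C gs I'.1 I'.2 cr' J'.1 J'.2 cy') fs) left)

/-- global bound: norms of the data and of the intervals -/
def bndOK (k n m n' m' : Nat) (XM YM XM' YM' S S' SC : Nat) : Bool :=
  Nat.ble (Nat.succ (Nat.mul SC (Nat.mul (Nat.mul S (Nat.mul (Nat.pow XM (Nat.sub n 1))
    (Nat.pow YM (Nat.sub m 1)))) (Nat.mul S' (Nat.mul (Nat.pow XM' (Nat.sub n' 1))
    (Nat.pow YM' (Nat.sub m' 1))))))) (Nat.pow 2 k)

lemma lin2_eq (a b : Int) (s : Nat) : lin2 a b s = a + b * 2 ^ s := by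
  unfold lin2
  rw [ia_eq, shl_eq]

lemma fpk2_eq (Xr Xy : Int) (yr yy : List Int) (p : List (List Int)) :
    fpk2 Xr Xy yr yy p = pk2 Xr Xy yr yy p := by
  unfold fpk2 pk2
  rw [fhorn_eq]
  congr 1
  apply List.map_congr_left
  intro row _
  exact fhorn_eq _ _ _

theorem rowTest_fastBox {k n m n' m' XM YM XM' YM' S S' SC : Nat} {C : List (List Int)}
    {fs gs : List (List (List Int))} {cr cy cr' cy' : Int} {I' J' : Int × Int}
    {left : List ((Int × Int) × List (Int × Int))}
    (hf : dataOK n m S fs = true) (hg : dataOK n' m' S' gs = true) (hC : Nat.ble (norm1 C) SC = true)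
    (hb : bndOK k n m n' m' XM YM XM' YM' S S' SC = true)
    (h : rowTest k n m n' m' XM YM XM' YM' C fs gs cr cy cr' cy' I' J' left = true) :
    ∀ I ∈ left, ∀ J ∈ I.2,
      fastBox k n m n' m' C fs gs I.1.1 I.1.2 cr J.1 J.2 cy I'.1 I'.2 cr' J'.1 J'.2 cy' = true := by
  intro I hI J hJ
  have hf' := dataOK_iff hf
  have hg' := dataOK_iff hg
  have hC' := Nat.le_of_ble_eq_true hC
  unfold rowTest rowTestH at h
  rw [Bool.and_eq_true, Bool.and_eq_true, allB_iff] at h
  obtain ⟨⟨hi', hj'⟩, h⟩ := h
  have h1 := h I hI
  rw [Bool.and_eq_true] at h1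
  obtain ⟨hi, h1⟩ := h1
  unfold colTest at h1
  rw [allB_iff] at h1
  have h2 := h1 J hJ
  rw [Bool.and_eq_true] at h2
  obtain ⟨hj, h3⟩ := h2
  unfold ivOK at hi hj hi' hj'
  rw [Bool.and_eq_true] at hi hj hi' hj'
  have hi1 := Nat.le_of_ble_eq_true hi.1
  have hi2 := Nat.le_of_ble_eq_true hi.2
  have hj1 := Nat.le_of_ble_eq_true hj.1
  have hj2 := Nat.le_of_ble_eq_true hj.2
  have hi1' := Nat.le_of_ble_eq_true hi'.1
  have hi2' := Nat.le_of_ble_eq_true hi'.2
  have hj1' := Nat.le_of_ble_eq_true hj'.1
  have hj2' := Nat.le_of_ble_eq_true hj'.2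
  have hbd := Nat.le_of_ble_eq_true hb
  unfold fastBox
  rw [Bool.and_eq_true, Bool.and_eq_true, Bool.and_eq_true]
  refine ⟨⟨?_, ?_⟩, ?_, ?_⟩
  · rw [allB_iff]
    intro p hp
    have := (allB_iff _ _).mp hf p hp
    rw [Bool.and_eq_true] at this
    exact this.1
  · rw [allB_iff]
    intro p hp
    have := (allB_iff _ _).mp hg p hp
    rw [Bool.and_eq_true] at this
    exact this.1
  · rw [Nat.ble_eq]
    refine le_trans (Nat.succ_le_succ ?_) hbd
    have e1 : ∀ b ∈ (fs.map (nb2 (Nat.add (Int.natAbs I.1.1) (Int.natAbs I.1.2))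
        (Nat.add (Int.natAbs J.1) (Int.natAbs J.2))
            (powsN (Nat.add (Int.natAbs cr) (Int.natAbs cr)) n)
            (powsN (Nat.add (Int.natAbs cy) (Int.natAbs cy)) m))),
        b ≤ S * (XM ^ (n - 1) * YM ^ (m - 1)) := by
      intro b hb
      rw [List.mem_map] at hb
      obtain ⟨p, hp, rfl⟩ := hb
      obtain ⟨⟨hp1, hp2⟩, hp3⟩ := hf' p hp
      exact (nb2_le _ _ _ _ XM YM hi1 hi2 hj1 hj2 p hp1 hp2).trans (Nat.mul_le_mul_right _ hp3)
    have e2 : ∀ b ∈ (gs.map (nb2 (Nat.add (Int.natAbs I'.1) (Int.natAbs I'.2))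
        (Nat.add (Int.natAbs J'.1) (Int.natAbs J'.2))
            (powsN (Nat.add (Int.natAbs cr') (Int.natAbs cr')) n')
            (powsN (Nat.add (Int.natAbs cy') (Int.natAbs cy')) m'))),
        b ≤ S' * (XM' ^ (n' - 1) * YM' ^ (m' - 1)) := by
      intro b hb
      rw [List.mem_map] at hb
      obtain ⟨p, hp, rfl⟩ := hb
      obtain ⟨⟨hp1, hp2⟩, hp3⟩ := hg' p hp
      exact (nb2_le _ _ _ _ XM' YM' hi1' hi2' hj1' hj2' p hp1 hp2).trans (Nat.mul_le_mul_right _ hp3)
    refine (dotN_le _ _ _ e1).trans ?_
    have e3 := sumN_le_map C (fun c => dotAbs c (gs.map (nb2 (Nat.add (Int.natAbs I'.1) (Int.natAbs I'.2))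
        (Nat.add (Int.natAbs J'.1) (Int.natAbs J'.2))
            (powsN (Nat.add (Int.natAbs cr') (Int.natAbs cr')) n')
            (powsN (Nat.add (Int.natAbs cy') (Int.natAbs cy')) m'))))
      (S' * (XM' ^ (n' - 1) * YM' ^ (m' - 1))) (fun c _ => dotAbs_le c _ _ e2)
    calc _ ≤ S * (XM ^ (n - 1) * YM ^ (m - 1)) * (norm1 C * (S' * (XM' ^ (n' - 1) * YM' ^ (m' - 1)))) :=
          Nat.mul_le_mul_left _ e3
      _ ≤ S * (XM ^ (n - 1) * YM ^ (m - 1)) * (SC * (S' * (XM' ^ (n' - 1) * YM' ^ (m' - 1)))) :=
          Nat.mul_le_mul_left _ (Nat.mul_le_mul_right _ hC')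
      _ = _ := by
        show _ = SC * ((S * (XM ^ (n - 1) * YM ^ (m - 1))) * (S' * (XM' ^ (n' - 1) * YM' ^ (m' - 1))))
        ring
  · have hZ : shorn J.1 J.2 (Nat.mul (Nat.mul (Nat.succ k) (Nat.mul m' n')) n)
        (hornRow I.1.1 I.1.2 (Nat.mul (Nat.succ k) (Nat.mul m' n'))
          (combM (rightG k n' m' C gs I'.1 I'.2 cr' J'.1 J'.2 cy') fs)
          (pows (lin2 cr cr (Nat.mul (Nat.succ k) (Nat.mul m' n'))) n))
        (pows (lin2 cy cy (Nat.mul (Nat.mul (Nat.succ k) (Nat.mul m' n')) n)) m) =
      (dotI (C.map fun c => dotI c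
            (gs.map (pk2
              (Int.add I'.1 (Int.mul I'.2 (Int.ofNat (Nat.pow 2 (Nat.succ k)))))
              (Int.add J'.1 (Int.mul J'.2 (Int.ofNat (Nat.pow 2 (Nat.mul (Nat.succ k) n')))))
              (pows (Int.add cr' (Int.mul cr' (Int.ofNat (Nat.pow 2 (Nat.succ k))))) n')
              (pows (Int.add cy' (Int.mul cy' (Int.ofNat (Nat.pow 2 (Nat.mul (Nat.succ k) n'))))) m'))))
          (fs.map (pk2
              (Int.add I.1.1 (Int.mul I.1.2 (Int.ofNat (Nat.pow 2 (Nat.mul (Nat.succ k) (Nat.mul m' n'))))))
              (Int.add J.1 (Int.mul J.2 (Int.ofNat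
                (Nat.pow 2 (Nat.mul (Nat.mul (Nat.succ k) (Nat.mul m' n')) n)))))
              (pows (Int.add cr (Int.mul cr (Int.ofNat
                (Nat.pow 2 (Nat.mul (Nat.succ k) (Nat.mul m' n')))))) n)
              (pows (Int.add cy (Int.mul cy (Int.ofNat
                (Nat.pow 2 (Nat.mul (Nat.mul (Nat.succ k) (Nat.mul m' n')) n))))) m)))) := by
      have hlin : ∀ (a b : Int) (s : Nat), lin2 a b s = Int.add a (Int.mul b (Int.ofNat (Nat.pow 2 s))) := by
        intro a b s
        rw [lin2_eq]
        show _ = a + b * ((2 ^ s : Nat) : Int)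
        push_cast; ring
      have hshape : ∀ p ∈ fs, p.length = n ∧ ∀ row ∈ p, row.length = m := fun p hp => (hf' p hp).1
      have hG : rightG k n' m' C gs I'.1 I'.2 cr' J'.1 J'.2 cy' =
          C.map fun c => dotI c
            (gs.map (pk2
              (Int.add I'.1 (Int.mul I'.2 (Int.ofNat (Nat.pow 2 (Nat.succ k)))))
              (Int.add J'.1 (Int.mul J'.2 (Int.ofNat (Nat.pow 2 (Nat.mul (Nat.succ k) n')))))
              (pows (Int.add cr' (Int.mul cr' (Int.ofNat (Nat.pow 2 (Nat.succ k))))) n')
              (pows (Int.add cy' (Int.mul cy' (Int.ofNat (Nat.pow 2 (Nat.mul (Nat.succ k) n'))))) m'))) := by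
        unfold rightG
        apply List.map_congr_left
        intro c _
        rw [fdot_eq]
        congr 1
        apply List.map_congr_left
        intro p _
        rw [fpk2_eq, hlin, hlin, hlin, hlin]
      have hrows : ∀ row ∈ combM (rightG k n' m' C gs I'.1 I'.2 cr' J'.1 J'.2 cy') fs,
          row.length = m := by
        rcases (combM_spec 0 0 [] [] (rightG k n' m' C gs I'.1 I'.2 cr' J'.1 J'.2 cy') fs hshape).1
          with h4 | h4
        · rw [h4]; intro row hr; cases hr
        · exact h4.2
      rw [horn_hornRow _ _ _ _ _ _ _ _ _ hrows, (combM_spec _ _ _ _ _ fs hshape).2, hG,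
        ← lin2_eq, ← lin2_eq, hlin, hlin, hlin, hlin]
    rw [← hZ]
    exact h3

end

end Crest.Agent.R163.Bern
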