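import Mathlib
import Crest.Agent.R163.Bern4

/-! Row 163: Bernstein checker, part 5: covers of the domain by cells, symmetric version. -/

set_option autoImplicit false

namespace Crest.Agent.R163.Bern

/-! ### symmetry of the bilinear form -/


lemma bil_replicate (N : ℕ) (xs ys : List ℝ) : bil (List.replicate N []) xs ys = 0 := by
  induction N generalizing xs with
  | zero => simp [bil]
  | succ N ih =>
    cases xs with
    | nil => simp [List.replicate_succ, bil]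
    | cons x xs => simp [List.replicate_succ, bil, ih, dotR]

lemma bil_zipCons (c : List Int) (T : List (List Int)) (ys xs : List ℝ) (x : ℝ)
    (h : c.length = T.length) :
    bil (zipCons c T) ys (x :: xs) = x * dotR c ys + bil T ys xs := by
  induction c generalizing T ys with
  | nil =>
    cases T with
    | nil => simp [zipCons, bil, dotR]
    | cons t T => simp at h
  | cons a as ih =>
    cases T with
    | nil => simp at h
    | cons t T =>
      cases ys with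
      | nil => simp [zipCons, bil, dotR]
      | cons y ys =>
        simp only [zipCons, bil, dotR, ih T ys (by simpa using h)]
        ring

lemma bil_transp {N : ℕ} (C : List (List Int)) (hC : ∀ c ∈ C, c.length = N) (xs ys : List ℝ)
    (h : xs.length = C.length) : bil C xs ys = bil (transp N C) ys xs := by
  induction C generalizing xs with
  | nil =>
    rw [transp, bil_replicate]; simp [bil]
  | cons c C ih =>
    cases xs with
    | nil => simp at h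
    | cons x xs =>
      have h1 := hC c (by simp)
      have h2 : ∀ c ∈ C, c.length = N := fun v hv => hC v (by simp [hv])
      rw [transp, bil_zipCons _ _ _ _ _ (by rw [h1, length_transp C h2]), bil,
        ih h2 xs (by simpa using h)]

/-- symmetry test for the matrix -/
def symOK (N : ℕ) (C : List (List Int)) : Bool :=
  and (and (Nat.beq C.length N) (allB (fun c => Nat.beq c.length N) C)) (decide (transp N C = C))

lemma bil_comm {N : ℕ} {C : List (List Int)} (h : symOK N C = true) (xs ys : List ℝ)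
    (hx : xs.length = N) : bil C xs ys = bil C ys xs := by
  unfold symOK at h
  rw [Bool.and_eq_true, Bool.and_eq_true, allB_iff] at h
  obtain ⟨⟨h1, h2⟩, h3⟩ := h
  have h1' := Nat.eq_of_beq_eq_true h1
  rw [bil_transp C (fun c hc => Nat.eq_of_beq_eq_true (h2 c hc)) xs ys (by rw [hx, h1']),
    of_decide_eq_true h3]

/-! ### covers -/

/-- `l` is a chain of consecutive intervals from `a` to `b` -/
def chain (b : Int) (l : List (Int × Int)) : Int → Bool :=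
  List.rec (fun _ => false)
    (fun I l ih a => and (and (decide (I.1 = a)) (decide (I.1 < I.2)))
      (List.rec (decide (I.2 = b)) (fun _ _ _ => ih I.2) l)) l

lemma chain_cover {b : Int} {c : Int} (_hc : 0 < c) (l : List (Int × Int)) (a : Int)
    (h : chain b l a = true) {r : ℝ} (h1 : (a : ℝ) / c ≤ r) (h2 : r ≤ (b : ℝ) / c) :
    ∃ I ∈ l, I.1 < I.2 ∧ (I.1 : ℝ) / c ≤ r ∧ r ≤ (I.2 : ℝ) / c := by
  induction l generalizing a with
  | nil => exact absurd h (by show ¬ (false = true); simp)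
  | cons I l ih =>
    have e : chain b (I :: l) a = and (and (decide (I.1 = a)) (decide (I.1 < I.2)))
      (List.rec (decide (I.2 = b)) (fun _ _ _ => chain b l I.2) l) := rfl
    rw [e, Bool.and_eq_true, Bool.and_eq_true, decide_eq_true_iff, decide_eq_true_iff] at h
    obtain ⟨⟨h3, h4⟩, h5⟩ := h
    cases l with
    | nil =>
      have h6 : decide (I.2 = b) = true := h5
      rw [decide_eq_true_iff] at h6
      exact ⟨I, by simp, h4, by rw [h3]; exact h1, by rw [h6]; exact h2⟩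
    | cons I2 l =>
      have h6 : chain b (I2 :: l) I.2 = true := h5
      by_cases h7 : r ≤ (I.2 : ℝ) / c
      · exact ⟨I, by simp, h4, by rw [h3]; exact h1, h7⟩
      · obtain ⟨K, hK, hK2⟩ := ih I.2 h6 (by linarith [not_le.mp h7])
        exact ⟨K, List.mem_cons_of_mem _ hK, hK2⟩

/-- `left` covers `[ρ0, ρ1] × [η0, η1]` (in units `1/cr`, `1/cy`) -/
def covOK (ρ0 ρ1 η0 η1 : Int) (left : List ((Int × Int) × List (Int × Int))) : Bool :=
  and (chain ρ1 (left.map Prod.fst) ρ0) (allB (fun I => chain η1 I.2 η0) left)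

lemma covOK_cover {ρ0 ρ1 η0 η1 cr cy : Int} (hcr : 0 < cr) (hcy : 0 < cy)
    {left : List ((Int × Int) × List (Int × Int))} (h : covOK ρ0 ρ1 η0 η1 left = true)
    {r y : ℝ} (h1 : (ρ0 : ℝ) / cr ≤ r) (h2 : r ≤ (ρ1 : ℝ) / cr)
    (h3 : (η0 : ℝ) / cy ≤ y) (h4 : y ≤ (η1 : ℝ) / cy) :
    ∃ I ∈ left, ∃ J ∈ I.2, I.1.1 < I.1.2 ∧ (I.1.1 : ℝ) / cr ≤ r ∧ r ≤ (I.1.2 : ℝ) / cr ∧
      J.1 < J.2 ∧ (J.1 : ℝ) / cy ≤ y ∧ y ≤ (J.2 : ℝ) / cy := by
  unfold covOK at h
  rw [Bool.and_eq_true, allB_iff] at h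
  obtain ⟨h5, h6⟩ := h
  obtain ⟨I0, hI0, h7, h8, h9⟩ := chain_cover hcr _ _ h5 h1 h2
  rw [List.mem_map] at hI0
  obtain ⟨I, hI, rfl⟩ := hI0
  obtain ⟨J, hJ, h10, h11, h12⟩ := chain_cover hcy _ _ (h6 I hI) h3 h4
  exact ⟨I, hI, J, hJ, h7, h8, h9, h10, h11, h12⟩

/-- common data of the checks -/
structure Data where
  k : Nat
  n : Nat
  m : Nat
  n' : Nat
  m' : Nat
  XM : Nat
  YM : Nat
  XM' : Nat
  YM' : Nat
  S : Nat
  S' : Nat
  SC : Nat
  cr : Int
  cy : Int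
  cr' : Int
  cy' : Int
  C : List (List Int)
  fs : List (List (List Int))
  gs : List (List (List Int))

/-- sanity of the data -/
def Data.ok (D : Data) : Bool :=
  and (and (dataOK D.n D.m D.S D.fs) (dataOK D.n' D.m' D.S' D.gs))
    (and (and (Nat.ble (norm1 D.C) D.SC)
      (bndOK D.k D.n D.m D.n' D.m' D.XM D.YM D.XM' D.YM' D.S D.S' D.SC))
      (and (and (and (decide (0 < D.n)) (decide (0 < D.m))) (and (decide (0 < D.n')) (decide (0 < D.m'))))
        (and (and (decide (0 < D.cr)) (decide (0 < D.cy)))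
          (and (decide (0 < D.cr')) (decide (0 < D.cy'))))))

/-- value of the form -/
noncomputable def Data.val (D : Data) (r y r' y' : ℝ) : ℝ :=
  bil D.C (D.fs.map (ev2 r y)) (D.gs.map (ev2 r' y'))

/-- one right cell against a cover -/
noncomputable def Data.row (D : Data) (ρ0 ρ1 η0 η1 : Int) (I' J' : Int × Int)
    (left : List ((Int × Int) × List (Int × Int))) : Bool :=
  and (and (and (decide (I'.1 < I'.2)) (decide (J'.1 < J'.2))) (covOK ρ0 ρ1 η0 η1 left))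
    (rowTest D.k D.n D.m D.n' D.m' D.XM D.YM D.XM' D.YM' D.C D.fs D.gs D.cr D.cy D.cr' D.cy' I' J' left)

theorem Data.row_sound {D : Data} (hD : D.ok = true) {ρ0 ρ1 η0 η1 : Int} {I' J' : Int × Int}
    {left : List ((Int × Int) × List (Int × Int))} (h : D.row ρ0 ρ1 η0 η1 I' J' left = true)
    {r y r' y' : ℝ}
    (h1 : (ρ0 : ℝ) / D.cr ≤ r) (h2 : r ≤ (ρ1 : ℝ) / D.cr)
    (h3 : (η0 : ℝ) / D.cy ≤ y) (h4 : y ≤ (η1 : ℝ) / D.cy)
    (h1' : (I'.1 : ℝ) / D.cr' ≤ r') (h2' : r' ≤ (I'.2 : ℝ) / D.cr')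
    (h3' : (J'.1 : ℝ) / D.cy' ≤ y') (h4' : y' ≤ (J'.2 : ℝ) / D.cy') :
    0 ≤ D.val r y r' y' := by
  unfold Data.ok at hD
  simp only [Bool.and_eq_true, decide_eq_true_iff] at hD
  obtain ⟨⟨hf, hg⟩, ⟨hC, hb⟩, ⟨⟨hn, hm⟩, hn', hm'⟩, ⟨hcr, hcy⟩, hcr', hcy'⟩ := hD
  unfold Data.row at h
  simp only [Bool.and_eq_true, decide_eq_true_iff] at h
  obtain ⟨⟨⟨h5, h6⟩, h7⟩, h8⟩ := h
  obtain ⟨I, hI, J, hJ, h9, h10, h11, h12, h13, h14⟩ := covOK_cover hcr hcy h7 h1 h2 h3 h4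
  have := rowTest_fastBox hf hg hC hb h8 I hI J hJ
  exact fastBox_sound hn hm hn' hm' hcr hcy hcr' hcy' h9 h12 h5 h6 this h10 h11 h13 h14 h1' h2' h3' h4'

/-- **product domain**: every right cell of a cover is tested against the whole left domain -/
theorem Data.grid_sound {D : Data} (hD : D.ok = true) {ρ0 ρ1 η0 η1 ρ0' ρ1' η0' η1' : Int}
    {right : List ((Int × Int) × List (Int × Int))} (hcov : covOK ρ0' ρ1' η0' η1' right = true)
    (h : ∀ I' ∈ right, ∀ J' ∈ I'.2, ∃ left, D.row ρ0 ρ1 η0 η1 I'.1 J' left = true)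
    {r y r' y' : ℝ}
    (h1 : (ρ0 : ℝ) / D.cr ≤ r) (h2 : r ≤ (ρ1 : ℝ) / D.cr)
    (h3 : (η0 : ℝ) / D.cy ≤ y) (h4 : y ≤ (η1 : ℝ) / D.cy)
    (h1' : (ρ0' : ℝ) / D.cr' ≤ r') (h2' : r' ≤ (ρ1' : ℝ) / D.cr')
    (h3' : (η0' : ℝ) / D.cy' ≤ y') (h4' : y' ≤ (η1' : ℝ) / D.cy') :
    0 ≤ D.val r y r' y' := by
  have hD' := hD
  unfold Data.ok at hD'
  simp only [Bool.and_eq_true, decide_eq_true_iff] at hD'
  obtain ⟨⟨hf, hg⟩, ⟨hC, hb⟩, ⟨⟨hn, hm⟩, hn', hm'⟩, ⟨hcr, hcy⟩, hcr', hcy'⟩ := hD'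
  obtain ⟨I', hI', J', hJ', h9, h10, h11, h12, h13, h14⟩ :=
    covOK_cover hcr' hcy' hcov h1' h2' h3' h4'
  obtain ⟨left, hl⟩ := h I' hI' J' hJ'
  exact Data.row_sound hD hl h1 h2 h3 h4 h10 h11 h13 h14

/-- **symmetric version**: same data on both sides, symmetric matrix; a right cell with `r`-interval
starting at `a` is only tested against the left domain `r ≥ a` -/
theorem Data.sym_sound {D : Data} (hD : D.ok = true) (hfg : D.gs = D.fs) (hcr2 : D.cr' = D.cr)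
    (hcy2 : D.cy' = D.cy) (hsym : symOK D.fs.length D.C = true) {ρ0 ρ1 η0 η1 : Int}
    {right : List ((Int × Int) × List (Int × Int))} (hcov : covOK ρ0 ρ1 η0 η1 right = true)
    (h : ∀ I' ∈ right, ∀ J' ∈ I'.2, ∃ left, D.row I'.1.1 ρ1 η0 η1 I'.1 J' left = true)
    {r y r' y' : ℝ}
    (h1 : (ρ0 : ℝ) / D.cr ≤ r) (h2 : r ≤ (ρ1 : ℝ) / D.cr)
    (h3 : (η0 : ℝ) / D.cy ≤ y) (h4 : y ≤ (η1 : ℝ) / D.cy)
    (h1' : (ρ0 : ℝ) / D.cr ≤ r') (h2' : r' ≤ (ρ1 : ℝ) / D.cr)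
    (h3' : (η0 : ℝ) / D.cy ≤ y') (h4' : y' ≤ (η1 : ℝ) / D.cy) :
    0 ≤ D.val r y r' y' := by
  have hD' := hD
  unfold Data.ok at hD'
  simp only [Bool.and_eq_true, decide_eq_true_iff] at hD'
  obtain ⟨⟨hf, hg⟩, ⟨hC, hb⟩, ⟨⟨hn, hm⟩, hn', hm'⟩, ⟨hcr, hcy⟩, hcr', hcy'⟩ := hD'
  have key : ∀ {r y r' y' : ℝ}, (ρ0 : ℝ) / D.cr ≤ r → r ≤ (ρ1 : ℝ) / D.cr →
      (η0 : ℝ) / D.cy ≤ y → y ≤ (η1 : ℝ) / D.cy → (ρ0 : ℝ) / D.cr ≤ r' → r' ≤ (ρ1 : ℝ) / D.cr →
      (η0 : ℝ) / D.cy ≤ y' → y' ≤ (η1 : ℝ) / D.cy → r' ≤ r → 0 ≤ D.val r y r' y' := by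
    intro r y r' y' h1 h2 h3 h4 h1' h2' h3' h4' hrr
    obtain ⟨I', hI', J', hJ', h9, h10, h11, h12, h13, h14⟩ :=
      covOK_cover hcr hcy hcov h1' h2' h3' h4'
    obtain ⟨left, hl⟩ := h I' hI' J' hJ'
    exact Data.row_sound hD hl (h10.trans hrr) h2 h3 h4 (by rw [hcr2]; exact h10)
      (by rw [hcr2]; exact h11) (by rw [hcy2]; exact h13) (by rw [hcy2]; exact h14)
  rcases le_total r' r with hrr | hrr
  · exact key h1 h2 h3 h4 h1' h2' h3' h4' hrr
  · have h5 := key h1' h2' h3' h4' h1 h2 h3 h4 hrr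
    unfold Data.val at h5 ⊢
    rw [hfg] at h5 ⊢
    rw [bil_comm hsym _ _ (by simp)]
    exact h5

end Crest.Agent.R163.Bern
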