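import Mathlib

/-!
Row 163, centre region: a kernel checkable positivity test for polynomials in `(u, θ)` on
`[0, U] × [0, κ]`.
-/

set_option autoImplicit false

namespace Crest.Agent.R163.Cen

/-! ### integer matrices = polynomials in `X` (rows) and `b` (columns) -/

/-- a polynomial in `b` -/
def evR (b : ℝ) : List ℤ → ℝ
  | [] => 0
  | a :: r => a + b * evR b r

/-- a polynomial in `X`, `b` -/
def evM (X b : ℝ) : List (List ℤ) → ℝ
  | [] => 0
  | r :: P => evR b r + X * evM X b P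

/-- addition of rows -/
def addR : List ℤ → List ℤ → List ℤ
  | [], s => s
  | a :: r, [] => a :: r
  | a :: r, c :: s => (a + c) :: addR r s

/-- addition of matrices -/
def addM : List (List ℤ) → List (List ℤ) → List (List ℤ)
  | [], Q => Q
  | r :: P, [] => r :: P
  | r :: P, s :: Q => addR r s :: addM P Q

lemma evR_addR (b : ℝ) : ∀ r s : List ℤ, evR b (addR r s) = evR b r + evR b s
  | [], s => by simp [addR, evR]
  | a :: r, [] => by simp [addR, evR]
  | a :: r, c :: s => by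
    simp only [addR, evR, evR_addR b r s]
    push_cast
    ring

lemma evM_addM (X b : ℝ) : ∀ P Q : List (List ℤ), evM X b (addM P Q) = evM X b P + evM X b Q
  | [], Q => by simp [addM, evM]
  | r :: P, [] => by simp [addM, evM]
  | r :: P, s :: Q => by
    simp only [addM, evM, evM_addM X b P Q, evR_addR]
    ring

/-- `X ↦ X + 1` -/
def shM : List (List ℤ) → List (List ℤ)
  | [] => []
  | r :: P => addM (r :: shM P) (shM P)

lemma evM_shM (X b : ℝ) : ∀ P : List (List ℤ), evM X b (shM P) = evM (X + 1) b P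
  | [] => by simp [shM, evM]
  | r :: P => by
    simp only [shM, evM_addM, evM, evM_shM X b P]
    ring

/-- sum of the negative entries -/
def ngR : List ℤ → ℤ
  | [] => 0
  | a :: r => min a 0 + ngR r

/-- sum of the negative entries -/
def ngM : List (List ℤ) → ℤ
  | [] => 0
  | r :: P => ngR r + ngM P

lemma ngR_nonpos : ∀ r : List ℤ, ngR r ≤ 0
  | [] => le_refl _
  | a :: r => by
    simp only [ngR]
    have := ngR_nonpos r
    have := min_le_right a 0
    omega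

lemma ngM_nonpos : ∀ r : List (List ℤ), ngM r ≤ 0
  | [] => le_refl _
  | a :: r => by
    simp only [ngM]
    have := ngM_nonpos r
    have := ngR_nonpos a
    omega

lemma ngR_le {b : ℝ} (h0 : 0 ≤ b) (h1 : b ≤ 1) : ∀ r : List ℤ, (ngR r : ℝ) ≤ evR b r
  | [] => by simp [ngR, evR]
  | a :: r => by
    simp only [ngR, evR]
    have h := ngR_le h0 h1 r
    have hn : (ngR r : ℝ) ≤ 0 := by exact_mod_cast ngR_nonpos r
    have h2 : ((min a 0 : ℤ) : ℝ) ≤ a := by exact_mod_cast min_le_left a 0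
    have h3 : b * (ngR r : ℝ) ≤ b * evR b r := mul_le_mul_of_nonneg_left h h0
    have h4 : (ngR r : ℝ) ≤ b * (ngR r : ℝ) := by nlinarith
    push_cast at h2 ⊢
    linarith

lemma ngM_le {X b : ℝ} (h0 : 0 ≤ b) (h1 : b ≤ 1) (hX0 : 0 ≤ X) (hX1 : X ≤ 1) :
    ∀ P : List (List ℤ), (ngM P : ℝ) ≤ evM X b P
  | [] => by simp [ngM, evM]
  | r :: P => by
    simp only [ngM, evM]
    have h := ngM_le h0 h1 hX0 hX1 P
    have hn : (ngM P : ℝ) ≤ 0 := by exact_mod_cast ngM_nonpos P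
    have h2 := ngR_le h0 h1 r
    have h3 : X * (ngM P : ℝ) ≤ X * evM X b P := mul_le_mul_of_nonneg_left h hX0
    have h4 : (ngM P : ℝ) ≤ X * (ngM P : ℝ) := by nlinarith
    push_cast
    linarith

/-- lower bound -/
def lowR : List ℤ → ℤ
  | [] => 0
  | a :: r => a + ngR r

/-- lower bound -/
def lowM : List (List ℤ) → ℤ
  | [] => 0
  | r :: P => lowR r + ngM P

lemma lowR_le {b : ℝ} (h0 : 0 ≤ b) (h1 : b ≤ 1) : ∀ r : List ℤ, (lowR r : ℝ) ≤ evR b r
  | [] => by simp [lowR, evR]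
  | a :: r => by
    simp only [lowR, evR]
    have h := ngR_le h0 h1 r
    have hn : (ngR r : ℝ) ≤ 0 := by exact_mod_cast ngR_nonpos r
    have h3 : b * (ngR r : ℝ) ≤ b * evR b r := mul_le_mul_of_nonneg_left h h0
    have h4 : (ngR r : ℝ) ≤ b * (ngR r : ℝ) := by nlinarith
    push_cast
    linarith

lemma lowM_le {X b : ℝ} (h0 : 0 ≤ b) (h1 : b ≤ 1) (hX0 : 0 ≤ X) (hX1 : X ≤ 1) :
    ∀ P : List (List ℤ), (lowM P : ℝ) ≤ evM X b P
  | [] => by simp [lowM, evM]
  | r :: P => by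
    simp only [lowM, evM]
    have h := ngM_le h0 h1 hX0 hX1 P
    have hn : (ngM P : ℝ) ≤ 0 := by exact_mod_cast ngM_nonpos P
    have h2 := lowR_le h0 h1 r
    have h3 : X * (ngM P : ℝ) ≤ X * evM X b P := mul_le_mul_of_nonneg_left h hX0
    have h4 : (ngM P : ℝ) ≤ X * (ngM P : ℝ) := by nlinarith
    push_cast
    linarith

/-- positivity on `[0, n] × [0, 1]` -/
def chkM : ℕ → List (List ℤ) → Bool
  | 0, _ => true
  | n + 1, P => decide (0 ≤ lowM P) && chkM n (shM P)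

lemma chkM_sound {b : ℝ} (h0 : 0 ≤ b) (h1 : b ≤ 1) : ∀ (n : ℕ) (P : List (List ℤ)),
    chkM n P = true → ∀ X : ℝ, 0 ≤ X → X ≤ n → 0 < n → 0 ≤ evM X b P
  | 0, P, _, X, _, _, hn => absurd hn (lt_irrefl 0)
  | n + 1, P, h, X, hX0, hX1, _ => by
    simp only [chkM, Bool.and_eq_true, decide_eq_true_eq] at h
    rcases le_or_gt X 1 with hX | hX
    · exact le_trans (by exact_mod_cast h.1) (lowM_le h0 h1 hX0 hX P)
    · have hn : 0 < n := by
        rcases Nat.eq_zero_or_pos n with rfl | hn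
        · push_cast at hX1; linarith
        · exact hn
      have := chkM_sound h0 h1 n (shM P) h.2 (X - 1) (by linarith) (by push_cast at hX1; linarith)
        hn
      rw [evM_shM] at this
      simpa using this

/-! ### from rational monomials to integer matrices -/

/-- floor -/
def flq (q : ℚ) : ℤ := q.num / (q.den : ℤ)

lemma flq_le (q : ℚ) : ((flq q : ℤ) : ℝ) ≤ (q : ℝ) := by
  have h1 : (flq q : ℤ) * (q.den : ℤ) ≤ q.num := Int.ediv_mul_le _ (by exact_mod_cast q.den_nz)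
  have hd : (0 : ℝ) < q.den := by exact_mod_cast q.den_pos
  rw [Rat.cast_def, le_div_iff₀ hd]
  exact_mod_cast h1

/-- `a X^k b^j` -/
def mono1 (k j : ℕ) (a : ℤ) : List (List ℤ) :=
  List.replicate k [] ++ [List.replicate j 0 ++ [a]]

lemma evR_rep (b : ℝ) (a : ℤ) : ∀ j : ℕ, evR b (List.replicate j 0 ++ [a]) = a * b ^ j
  | 0 => by simp [evR]
  | j + 1 => by
    rw [List.replicate_succ, List.cons_append, evR, evR_rep b a j]
    push_cast
    ring

lemma evM_mono1 (X b : ℝ) (j : ℕ) (a : ℤ) : ∀ k : ℕ, evM X b (mono1 k j a) = a * X ^ k * b ^ j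
  | 0 => by simp [mono1, evM, evR_rep]
  | k + 1 => by
    have := evM_mono1 X b j a k
    unfold mono1 at this ⊢
    rw [List.replicate_succ, List.cons_append, evM, this]
    simp only [evR]
    ring

/-- value of a list of monomials -/
noncomputable def msum (l : List (ℕ × ℕ × ℚ)) (u θ : ℝ) : ℝ :=
  (l.map fun e => (e.2.2 : ℝ) * u ^ e.1 * θ ^ e.2.1).sum


lemma msum_cons (e : ℕ × ℕ × ℚ) (l : List (ℕ × ℕ × ℚ)) (u θ : ℝ) :
    msum (e :: l) u θ = (e.2.2 : ℝ) * u ^ e.1 * θ ^ e.2.1 + msum l u θ := by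
  simp [msum]

lemma msum_append (l l' : List (ℕ × ℕ × ℚ)) (u θ : ℝ) :
    msum (l ++ l') u θ = msum l u θ + msum l' u θ := by
  simp [msum]

/-- replace `u^k`, `k > 12` -/
def capE (U : ℚ) (e : ℕ × ℕ × ℚ) : ℕ × ℕ × ℚ :=
  if e.1 ≤ 12 then e else if 0 ≤ e.2.2 then (0, 0, 0) else (12, e.2.1, e.2.2 * U ^ (e.1 - 12))

lemma capE_le {U : ℚ} {u θ : ℝ} (hu0 : 0 ≤ u) (hu1 : u ≤ U) (hθ : 0 ≤ θ) (e : ℕ × ℕ × ℚ) :
    ((capE U e).2.2 : ℝ) * u ^ (capE U e).1 * θ ^ (capE U e).2.1 ≤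
      (e.2.2 : ℝ) * u ^ e.1 * θ ^ e.2.1 := by
  unfold capE
  split_ifs with h1 h2
  · exact le_rfl
  · have : (0 : ℝ) ≤ e.2.2 := by exact_mod_cast h2
    simp only [Rat.cast_zero, zero_mul]
    positivity
  · push Not at h1 h2
    have h3 : (e.2.2 : ℝ) ≤ 0 := by exact_mod_cast h2.le
    have h4 : u ^ e.1 = u ^ (e.1 - 12) * u ^ 12 := by
      rw [← pow_add]; congr 1; omega
    have h5 : u ^ (e.1 - 12) ≤ (U : ℝ) ^ (e.1 - 12) := pow_le_pow_left₀ hu0 hu1 _
    have h6 : u ^ e.1 ≤ (U : ℝ) ^ (e.1 - 12) * u ^ 12 := by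
      rw [h4]; exact mul_le_mul_of_nonneg_right h5 (by positivity)
    have h7 := mul_le_mul_of_nonneg_right (mul_le_mul_of_nonpos_left h6 h3) (pow_nonneg hθ e.2.1)
    push_cast
    linarith

/-- the integer matrix -/
def build (U κ : ℚ) (n : ℕ) (D : ℕ) : List (ℕ × ℕ × ℚ) → List (List ℤ)
  | [] => []
  | e :: l => addM (mono1 (capE U e).1 (capE U e).2.1
      (flq ((capE U e).2.2 * (U / n) ^ (capE U e).1 * κ ^ (capE U e).2.1 * D))) (build U κ n D l)

lemma build_le {U κ : ℚ} {n D : ℕ} (hn : 0 < n) (hU : 0 < U) {X b : ℝ} (hX0 : 0 ≤ X)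
    (hX1 : X ≤ n) (hb : 0 ≤ b) (hκ : 0 ≤ κ) : ∀ l : List (ℕ × ℕ × ℚ),
    evM X b (build U κ n D l) ≤ D * msum l (U / n * X) (κ * b)
  | [] => by simp [build, evM, msum]
  | e :: l => by
    have ih := build_le (D := D) hn hU hX0 hX1 hb hκ l
    rw [build, evM_addM, evM_mono1, msum_cons]
    have hn' : (0 : ℝ) < n := by exact_mod_cast hn
    have hU' : (0 : ℝ) < U := by exact_mod_cast hU
    have hκ' : (0 : ℝ) ≤ κ := by exact_mod_cast hκ
    have h1 := flq_le ((capE U e).2.2 * (U / n) ^ (capE U e).1 * κ ^ (capE U e).2.1 * D)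
    have h2 := mul_le_mul_of_nonneg_right h1 (mul_nonneg (pow_nonneg hX0 (capE U e).1)
      (pow_nonneg hb (capE U e).2.1))
    have h3 := capE_le (U := U) (u := U / n * X) (θ := κ * b) (by positivity)
      (by
        have : (U : ℝ) / n * X ≤ U / n * n := mul_le_mul_of_nonneg_left hX1 (by positivity)
        rwa [div_mul_cancel₀ _ hn'.ne'] at this) (by positivity) e
    have h4 := mul_le_mul_of_nonneg_left h3 (Nat.cast_nonneg (α := ℝ) D)
    have h5 : ((((capE U e).2.2 * (U / n) ^ (capE U e).1 * κ ^ (capE U e).2.1 * D : ℚ)) : ℝ) *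
        (X ^ (capE U e).1 * b ^ (capE U e).2.1) = D * (((capE U e).2.2 : ℝ) *
          (U / n * X) ^ (capE U e).1 * (κ * b) ^ (capE U e).2.1) := by
      push_cast
      rw [mul_pow, mul_pow]
      ring
    rw [h5] at h2
    rw [mul_add]
    refine add_le_add (le_trans (le_of_eq ?_) (h2.trans h4)) ih
    ring

/-- the test: positivity of `msum l` on `[0,U] × [0,κ]` -/
def chkL (U κ : ℚ) (n D : ℕ) (l : List (ℕ × ℕ × ℚ)) : Bool :=
  decide (0 < n) && decide (0 < D) && decide (0 < U) && decide (0 < κ) &&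
    chkM n (build U κ n D l)

theorem chkL_sound {U κ : ℚ} {n D : ℕ} {l : List (ℕ × ℕ × ℚ)} (h : chkL U κ n D l = true)
    {u θ : ℝ} (hu0 : 0 ≤ u) (hu1 : u ≤ U) (hθ0 : 0 ≤ θ) (hθ1 : θ ≤ κ) : 0 ≤ msum l u θ := by
  unfold chkL at h
  simp only [Bool.and_eq_true, decide_eq_true_eq] at h
  obtain ⟨⟨⟨⟨hn, hD⟩, hU⟩, hκ⟩, hc⟩ := h
  have hn' : (0 : ℝ) < n := by exact_mod_cast hn
  have hU' : (0 : ℝ) < U := by exact_mod_cast hU
  have hκ' : (0 : ℝ) < κ := by exact_mod_cast hκ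
  have hD' : (0 : ℝ) < D := by exact_mod_cast hD
  have hX0 : 0 ≤ u * n / U := by positivity
  have hX1 : u * n / U ≤ n := by
    rw [div_le_iff₀ hU', mul_comm]
    exact mul_le_mul_of_nonneg_left hu1 hn'.le
  have hb0 : 0 ≤ θ / κ := by positivity
  have hb1 : θ / κ ≤ 1 := (div_le_one hκ').2 hθ1
  have h1 := chkM_sound hb0 hb1 n _ hc _ hX0 hX1 hn
  have h2 := build_le (D := D) hn hU hX0 hX1 hb0 hκ.le l
  have e1 : (U : ℝ) / n * (u * n / U) = u := by field_simp
  have e2 : (κ : ℝ) * (θ / κ) = θ := by field_simp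
  rw [e1, e2] at h2
  exact nonneg_of_mul_nonneg_right (h1.trans h2) hD'

end Crest.Agent.R163.Cen
private theorem rz_03a0ee256b : type_of% @_root_.Crest.Agent.R163.Cen.addM.eq_def := @_root_.Crest.Agent.R163.Cen.addM.eq_def -- L31
private theorem rz_d579f99462 : type_of% @_root_.Crest.Agent.R163.Cen.addM.eq_1 := @_root_.Crest.Agent.R163.Cen.addM.eq_1 -- L31
private theorem rz_d0b600ae34 : type_of% @_root_.Crest.Agent.R163.Cen.addR.eq_def := @_root_.Crest.Agent.R163.Cen.addR.eq_def -- L25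
private theorem rz_cead7d79ae : type_of% @_root_.Crest.Agent.R163.Cen.addR.eq_1 := @_root_.Crest.Agent.R163.Cen.addR.eq_1 -- L25
private theorem rz_352b56aff9 : type_of% @_root_.Crest.Agent.R163.Cen.build.eq_def := @_root_.Crest.Agent.R163.Cen.build.eq_def -- L238
private theorem rz_166bd58e62 : type_of% @_root_.Crest.Agent.R163.Cen.build.eq_1 := @_root_.Crest.Agent.R163.Cen.build.eq_1 -- L238
private theorem rz_db1ac4865d : type_of% @_root_.Crest.Agent.R163.Cen.chkM.eq_def := @_root_.Crest.Agent.R163.Cen.chkM.eq_def -- L148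
private theorem rz_df505fad61 : type_of% @_root_.Crest.Agent.R163.Cen.chkM.eq_1 := @_root_.Crest.Agent.R163.Cen.chkM.eq_1 -- L148
private theorem rz_249ae81966 : type_of% @_root_.Crest.Agent.R163.Cen.evM.eq_def := @_root_.Crest.Agent.R163.Cen.evM.eq_def -- L20
private theorem rz_fae357d896 : type_of% @_root_.Crest.Agent.R163.Cen.evM.eq_1 := @_root_.Crest.Agent.R163.Cen.evM.eq_1 -- L20
private theorem rz_ac57ce3489 : type_of% @_root_.Crest.Agent.R163.Cen.evR.eq_def := @_root_.Crest.Agent.R163.Cen.evR.eq_def -- L15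
private theorem rz_565e31b359 : type_of% @_root_.Crest.Agent.R163.Cen.evR.eq_1 := @_root_.Crest.Agent.R163.Cen.evR.eq_1 -- L15
private theorem rz_bb0768d5e2 : type_of% @_root_.Crest.Agent.R163.Cen.lowM.eq_1 := @_root_.Crest.Agent.R163.Cen.lowM.eq_1 -- L119
private theorem rz_b5d022d0c4 : type_of% @_root_.Crest.Agent.R163.Cen.lowR.eq_1 := @_root_.Crest.Agent.R163.Cen.lowR.eq_1 -- L114
private theorem rz_f053565b37 : type_of% @_root_.Crest.Agent.R163.Cen.ngM.eq_def := @_root_.Crest.Agent.R163.Cen.ngM.eq_def -- L68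
private theorem rz_c49cbb5964 : type_of% @_root_.Crest.Agent.R163.Cen.ngM.eq_1 := @_root_.Crest.Agent.R163.Cen.ngM.eq_1 -- L68
private theorem rz_bad5f6a8d6 : type_of% @_root_.Crest.Agent.R163.Cen.ngR.eq_def := @_root_.Crest.Agent.R163.Cen.ngR.eq_def -- L63
private theorem rz_bdbdc3516a : type_of% @_root_.Crest.Agent.R163.Cen.ngR.eq_1 := @_root_.Crest.Agent.R163.Cen.ngR.eq_1 -- L63
private theorem rz_25bc318265 : type_of% @_root_.Crest.Agent.R163.Cen.shM.eq_def := @_root_.Crest.Agent.R163.Cen.shM.eq_def -- L52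
private theorem rz_5396ed957b : type_of% @_root_.Crest.Agent.R163.Cen.shM.eq_1 := @_root_.Crest.Agent.R163.Cen.shM.eq_1 -- L52
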