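import Crest.Agent.R163.CenRec

/-!
Row 163, centre region: numeric data for one functional.
-/

set_option autoImplicit false
set_option linter.unusedVariables false
set_option maxRecDepth 4000

namespace Crest.Agent.R163.Cen

/-! ### `C(1/2, 0)` -/

noncomputable def h0_p (y e w : ℝ) : ℕ → ℝ
  | 0 =>
      1
  | 1 =>
      -(1 / 2) * y
  | 2 =>
      (1 / 2) * e + (3 / 8) * y ^ 2
  | 3 =>
      (3 / 16) * w + (1 / 16) * y * e
  | 4 =>
      -(1 / 8) * e ^ 2 + (3 / 128) * y * w - (11 / 128) * y ^ 2 * e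
  | 5 =>
      -(41 / 256) * e * w - (7 / 256) * y * e ^ 2 - (15 / 256) * y ^ 2 * w
  | 6 =>
      -(57 / 1024) * w ^ 2 + (1 / 16) * e ^ 3 - (17 / 512) * y * e * w + (43 / 1024) * y ^ 2 * e ^
        2
  | 7 =>
      (287 / 2048) * e ^ 2 * w - (21 / 2048) * y * w ^ 2 + (33 / 2048) * y * e ^ 3 + (67 / 1024) *
        y ^ 2 * e * w
  | 8 =>
      (1781 / 16384) * e * w ^ 2 - (5 / 128) * e ^ 4 + (1129 / 32768) * y * e ^ 2 * w + (867 /
        32768) * y ^ 2 * w ^ 2 - (851 / 32768) * y ^ 2 * e ^ 3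
  | 9 =>
      (1893 / 65536) * w ^ 3 - (8245 / 65536) * e ^ 3 * w + (1633 / 65536) * y * e * w ^ 2 - (715
        / 65536) * y * e ^ 4 - (4241 / 65536) * y ^ 2 * e ^ 2 * w
  | 10 =>
      -(40689 / 262144) * e ^ 2 * w ^ 2 + (7 / 256) * e ^ 5 + (1581 / 262144) * y * w ^ 3 - (553 /
        16384) * y * e ^ 3 * w - (14395 / 262144) * y ^ 2 * e * w ^ 2 + (4737 / 262144) * y ^ 2 *
        e ^ 4
  | 11 =>
      -(45379 / 524288) * e * w ^ 3 + (60313 / 524288) * e ^ 4 * w - (10371 / 262144) * y * e ^ 2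
        * w ^ 2 + (4199 / 524288) * y * e ^ 5 - (8283 / 524288) * y ^ 2 * w ^ 3 + (2043 / 32768) *
        y ^ 2 * e ^ 3 * w
  | 12 =>
      -(76953 / 4194304) * w ^ 4 + (205815 / 1048576) * e ^ 3 * w ^ 2 - (21 / 1024) * e ^ 6 -
        (21733 / 1048576) * y * e * w ^ 3 + (136531 / 4194304) * y * e ^ 4 * w + (171537 /
        2097152) * y ^ 2 * e ^ 2 * w ^ 2 - (56623 / 4194304) * y ^ 2 * e ^ 5
  | _ => 0

noncomputable def h0_q (y e w : ℝ) : ℕ → ℝ
  | 0 =>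
      0
  | 1 =>
      0
  | 2 =>
      0
  | 3 =>
      0
  | 4 =>
      0
  | 5 =>
      0
  | 6 =>
      0
  | 7 =>
      0
  | 8 =>
      0
  | 9 =>
      0
  | 10 =>
      0
  | 11 =>
      0
  | 12 =>
      0
  | _ => 0

lemma h0_rec {y e w : ℝ} (h : w = y ^ 3 + e * y) :
    RRec (1 / 2) (0) y e w (h0_p y e w) (h0_q y e w) := by
  subst h
  constructor <;> simp only [h0_p, h0_q] <;> ring

/-- Taylor polynomial of `C(1/2, 0)` in `(s, c)` -/
def h0_L : List (ℕ × ℕ × ℚ) :=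
  [(0, 0, 1), (1, 0, -3 / 8), (0, 1, 3 / 16), (2, 0, -39 / 256), (1, 1, 93 / 512), (3, 0, -477 /
    4096), (0, 2, -57 / 1024), (2, 1, 1779 / 8192), (4, 0, -28863 / 262144), (1, 2, -1119 / 8192),
    (3, 1, 146277 / 524288), (0, 3, 1893 / 65536), (5, 0, -487215 / 4194304), (2, 2, -279831 /
    1048576), (4, 1, 3120201 / 8388608), (1, 3, 119571 / 1048576), (6, 0, -17593443 / 134217728),
    (3, 2, -1003293 / 2097152), (0, 4, -76953 / 4194304)]

lemma h0_sum {a b c s w : ℝ} (h1 : a + b + c = 0) (h2 : a ^ 2 + b ^ 2 + c ^ 2 = 3 * s) :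
    SumP (h0_p a (-(3 / 2) * s) w) + SumP (h0_p b (-(3 / 2) * s) w)
      + SumP (h0_p c (-(3 / 2) * s) w) = 3 * pol (castPol h0_L) s w := by
  have key : ∀ y : ℝ, SumP (h0_p y (-(3 / 2) * s) w) =
      (1 + (3 / 16) * w - (57 / 1024) * w ^ 2 + (1893 / 65536) * w ^ 3 - (76953 / 4194304) * w ^ 4
        - (3 / 4) * s + (123 / 512) * s * w - (5343 / 32768) * s * w ^ 2 + (136137 / 1048576) * s
        * w ^ 3 - (9 / 32) * s ^ 2 + (2583 / 8192) * s ^ 2 * w - (366201 / 1048576) * s ^ 2 * w ^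
        2 - (27 / 128) * s ^ 3 + (222615 / 524288) * s ^ 3 * w - (5557005 / 8388608) * s ^ 3 * w ^
        2 - (405 / 2048) * s ^ 4 + (4885353 / 8388608) * s ^ 4 * w - (1701 / 8192) * s ^ 5 -
        (15309 / 65536) * s ^ 6)
      + (-(1 / 2) + (3 / 128) * w - (21 / 2048) * w ^ 2 + (1581 / 262144) * w ^ 3 - (3 / 32) * s +
        (51 / 1024) * s * w - (4899 / 131072) * s * w ^ 2 + (65199 / 2097152) * s * w ^ 3 - (63 /
        1024) * s ^ 2 + (10161 / 131072) * s ^ 2 * w - (93339 / 1048576) * s ^ 2 * w ^ 2 - (891 /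
        16384) * s ^ 3 + (14931 / 131072) * s ^ 3 * w - (57915 / 1048576) * s ^ 4 + (11059011 /
        67108864) * s ^ 4 * w - (1020357 / 16777216) * s ^ 5) * y
      + ((3 / 8) - (15 / 256) * w + (867 / 32768) * w ^ 2 - (8283 / 524288) * w ^ 3 + (33 / 256) * s
        - (201 / 2048) * s * w + (43185 / 524288) * s * w ^ 2 + (387 / 4096) * s ^ 2 - (38169 /
        262144) * s ^ 2 * w + (1543833 / 8388608) * s ^ 2 * w ^ 2 + (22977 / 262144) * s ^ 3 -
        (55161 / 262144) * s ^ 3 * w + (383697 / 4194304) * s ^ 4 + (13759389 / 134217728) * s ^ 5) * y ^ 2 := by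
    intro y
    simp only [SumP, h0_p]
    ring
  rw [key a, key b, key c]
  have hP : pol (castPol h0_L) s w =
      (1 + (3 / 16) * w - (57 / 1024) * w ^ 2 + (1893 / 65536) * w ^ 3 - (76953 / 4194304) * w ^ 4
        - (3 / 4) * s + (123 / 512) * s * w - (5343 / 32768) * s * w ^ 2 + (136137 / 1048576) * s
        * w ^ 3 - (9 / 32) * s ^ 2 + (2583 / 8192) * s ^ 2 * w - (366201 / 1048576) * s ^ 2 * w ^
        2 - (27 / 128) * s ^ 3 + (222615 / 524288) * s ^ 3 * w - (5557005 / 8388608) * s ^ 3 * w ^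
        2 - (405 / 2048) * s ^ 4 + (4885353 / 8388608) * s ^ 4 * w - (1701 / 8192) * s ^ 5 -
        (15309 / 65536) * s ^ 6)
      + ((3 / 8) - (15 / 256) * w + (867 / 32768) * w ^ 2 - (8283 / 524288) * w ^ 3 + (33 / 256) * s
        - (201 / 2048) * s * w + (43185 / 524288) * s * w ^ 2 + (387 / 4096) * s ^ 2 - (38169 /
        262144) * s ^ 2 * w + (1543833 / 8388608) * s ^ 2 * w ^ 2 + (22977 / 262144) * s ^ 3 -
        (55161 / 262144) * s ^ 3 * w + (383697 / 4194304) * s ^ 4 + (13759389 / 134217728) * s ^ 5) * s := by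
    simp only [pol, castPol, h0_L, List.map_cons, List.map_nil, List.sum_cons, List.sum_nil]
    push_cast
    ring
  rw [hP]
  linear_combination (-(1 / 2) + (3 / 128) * w - (21 / 2048) * w ^ 2 + (1581 / 262144) * w ^ 3 - (3 / 32) * s +
        (51 / 1024) * s * w - (4899 / 131072) * s * w ^ 2 + (65199 / 2097152) * s * w ^ 3 - (63 /
        1024) * s ^ 2 + (10161 / 131072) * s ^ 2 * w - (93339 / 1048576) * s ^ 2 * w ^ 2 - (891 /
        16384) * s ^ 3 + (14931 / 131072) * s ^ 3 * w - (57915 / 1048576) * s ^ 4 + (11059011 /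
        67108864) * s ^ 4 * w - (1020357 / 16777216) * s ^ 5) * h1
    + ((3 / 8) - (15 / 256) * w + (867 / 32768) * w ^ 2 - (8283 / 524288) * w ^ 3 + (33 / 256) * s
        - (201 / 2048) * s * w + (43185 / 524288) * s * w ^ 2 + (387 / 4096) * s ^ 2 - (38169 /
        262144) * s ^ 2 * w + (1543833 / 8388608) * s ^ 2 * w ^ 2 + (22977 / 262144) * s ^ 3 -
        (55161 / 262144) * s ^ 3 * w + (383697 / 4194304) * s ^ 4 + (13759389 / 134217728) * s ^ 5) * h2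

noncomputable def h0_cB : Cst (1 / 2) (0) (3 / 10) where
  l := 177 / 250
  K1 := 1501 / 1000
  K2 := 1001 / 1000
  K3 := 2501 / 1000
  K4 := 4001 / 1000
  K5 := 5501 / 1000
  K6 := 7001 / 1000
  K7 := 8501 / 1000
  K8 := 10001 / 1000
  K9 := 11501 / 1000
  K10 := 13001 / 1000
  K11 := 14501 / 1000
  K12 := 16001 / 1000
  K13 := 17501 / 1000
  g1 := 177 / 250
  g2 := 501 / 500
  g3 := 709 / 1000
  g4 := 94 / 125
  g5 := 102 / 125
  g6 := 953 / 1000
  g7 := 1141 / 1000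
  g8 := 1403 / 1000
  g9 := 1753 / 1000
  g10 := 1111 / 500
  g11 := 2847 / 1000
  g12 := 92 / 25
  Dm := 8459 / 10000
  r0 := 4243 / 10000
  C := 927 / 5
  hx0 := by norm_num
  hx1 := by norm_num
  hu0 := by norm_num
  hl0 := by norm_num
  hl := fun v h0 h1 => by nlinarith [h0, h1]
  hK1 := ⟨by norm_num, fun v h0 h1 => by nlinarith [mul_nonneg h0 (sub_nonneg.2 h1)]⟩
  hK2 := ⟨by norm_num, fun v h0 h1 => by nlinarith [mul_nonneg h0 (sub_nonneg.2 h1)]⟩
  hK3 := ⟨by norm_num, fun v h0 h1 => by nlinarith [mul_nonneg h0 (sub_nonneg.2 h1)]⟩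
  hK4 := ⟨by norm_num, fun v h0 h1 => by nlinarith [mul_nonneg h0 (sub_nonneg.2 h1)]⟩
  hK5 := ⟨by norm_num, fun v h0 h1 => by nlinarith [mul_nonneg h0 (sub_nonneg.2 h1)]⟩
  hK6 := ⟨by norm_num, fun v h0 h1 => by nlinarith [mul_nonneg h0 (sub_nonneg.2 h1)]⟩
  hK7 := ⟨by norm_num, fun v h0 h1 => by nlinarith [mul_nonneg h0 (sub_nonneg.2 h1)]⟩
  hK8 := ⟨by norm_num, fun v h0 h1 => by nlinarith [mul_nonneg h0 (sub_nonneg.2 h1)]⟩
  hK9 := ⟨by norm_num, fun v h0 h1 => by nlinarith [mul_nonneg h0 (sub_nonneg.2 h1)]⟩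
  hK10 := ⟨by norm_num, fun v h0 h1 => by nlinarith [mul_nonneg h0 (sub_nonneg.2 h1)]⟩
  hK11 := ⟨by norm_num, fun v h0 h1 => by nlinarith [mul_nonneg h0 (sub_nonneg.2 h1)]⟩
  hK12 := ⟨by norm_num, fun v h0 h1 => by nlinarith [mul_nonneg h0 (sub_nonneg.2 h1)]⟩
  hK13 := ⟨by norm_num, fun v h0 h1 => by nlinarith [mul_nonneg h0 (sub_nonneg.2 h1)]⟩
  hg1 := by norm_num
  hg2 := by norm_num
  hg3 := by norm_num
  hg4 := by norm_num
  hg5 := by norm_num
  hg6 := by norm_num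
  hg7 := by norm_num
  hg8 := by norm_num
  hg9 := by norm_num
  hg10 := by norm_num
  hg11 := by norm_num
  hg12 := by norm_num
  hDm0 := by norm_num
  hDm := by norm_num
  hr0 := by norm_num
  hr1 := by norm_num
  hr := by norm_num
  hC := by norm_num

noncomputable def h0_cM : Cst (1 / 2) (0) (33 / 100) where
  l := 177 / 250
  K1 := 1501 / 1000
  K2 := 1001 / 1000
  K3 := 2501 / 1000
  K4 := 4001 / 1000
  K5 := 5501 / 1000
  K6 := 7001 / 1000
  K7 := 8501 / 1000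
  K8 := 10001 / 1000
  K9 := 11501 / 1000
  K10 := 13001 / 1000
  K11 := 14501 / 1000
  K12 := 16001 / 1000
  K13 := 17501 / 1000
  g1 := 177 / 250
  g2 := 501 / 500
  g3 := 709 / 1000
  g4 := 94 / 125
  g5 := 102 / 125
  g6 := 953 / 1000
  g7 := 1141 / 1000
  g8 := 1403 / 1000
  g9 := 1753 / 1000
  g10 := 1111 / 500
  g11 := 2847 / 1000
  g12 := 92 / 25
  Dm := 507 / 625
  r0 := 4667 / 10000
  C := 1079 / 5
  hx0 := by norm_num
  hx1 := by norm_num
  hu0 := by norm_num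
  hl0 := by norm_num
  hl := fun v h0 h1 => by nlinarith [h0, h1]
  hK1 := ⟨by norm_num, fun v h0 h1 => by nlinarith [mul_nonneg h0 (sub_nonneg.2 h1)]⟩
  hK2 := ⟨by norm_num, fun v h0 h1 => by nlinarith [mul_nonneg h0 (sub_nonneg.2 h1)]⟩
  hK3 := ⟨by norm_num, fun v h0 h1 => by nlinarith [mul_nonneg h0 (sub_nonneg.2 h1)]⟩
  hK4 := ⟨by norm_num, fun v h0 h1 => by nlinarith [mul_nonneg h0 (sub_nonneg.2 h1)]⟩
  hK5 := ⟨by norm_num, fun v h0 h1 => by nlinarith [mul_nonneg h0 (sub_nonneg.2 h1)]⟩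
  hK6 := ⟨by norm_num, fun v h0 h1 => by nlinarith [mul_nonneg h0 (sub_nonneg.2 h1)]⟩
  hK7 := ⟨by norm_num, fun v h0 h1 => by nlinarith [mul_nonneg h0 (sub_nonneg.2 h1)]⟩
  hK8 := ⟨by norm_num, fun v h0 h1 => by nlinarith [mul_nonneg h0 (sub_nonneg.2 h1)]⟩
  hK9 := ⟨by norm_num, fun v h0 h1 => by nlinarith [mul_nonneg h0 (sub_nonneg.2 h1)]⟩
  hK10 := ⟨by norm_num, fun v h0 h1 => by nlinarith [mul_nonneg h0 (sub_nonneg.2 h1)]⟩
  hK11 := ⟨by norm_num, fun v h0 h1 => by nlinarith [mul_nonneg h0 (sub_nonneg.2 h1)]⟩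
  hK12 := ⟨by norm_num, fun v h0 h1 => by nlinarith [mul_nonneg h0 (sub_nonneg.2 h1)]⟩
  hK13 := ⟨by norm_num, fun v h0 h1 => by nlinarith [mul_nonneg h0 (sub_nonneg.2 h1)]⟩
  hg1 := by norm_num
  hg2 := by norm_num
  hg3 := by norm_num
  hg4 := by norm_num
  hg5 := by norm_num
  hg6 := by norm_num
  hg7 := by norm_num
  hg8 := by norm_num
  hg9 := by norm_num
  hg10 := by norm_num
  hg11 := by norm_num
  hg12 := by norm_num
  hDm0 := by norm_num
  hDm := by norm_num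
  hr0 := by norm_num
  hr1 := by norm_num
  hr := by norm_num
  hC := by norm_num

end Crest.Agent.R163.Cen
private theorem rz_35029a3e2b : type_of% @_root_.Crest.Agent.R163.Cen.h0_p.eq_1 := @_root_.Crest.Agent.R163.Cen.h0_p.eq_1 -- L15
private theorem rz_411d2957e9 : type_of% @_root_.Crest.Agent.R163.Cen.h0_q.eq_1 := @_root_.Crest.Agent.R163.Cen.h0_q.eq_1 -- L54
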