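import Crest.Agent.R163.CenRec

/-!
Row 163, centre region: numeric data for one functional.
-/

set_option autoImplicit false
set_option linter.unusedVariables false
set_option maxRecDepth 4000

namespace Crest.Agent.R163.Cen

/-! ### `C(1/6, 1/2)` -/

noncomputable def hs_p (y e w : ℝ) : ℕ → ℝ
  | 0 =>
      1
  | 1 =>
      (1 / 2) * y
  | 2 =>
      (2 / 3) * e + (1 / 4) * y ^ 2
  | 3 =>
      (19 / 24) * w + (5 / 24) * y * e
  | 4 =>
      -(5 / 18) * e ^ 2 + (29 / 96) * y * w - (5 / 96) * y ^ 2 * e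
  | 5 =>
      -(323 / 576) * e * w - (77 / 576) * y * e ^ 2 - (7 / 192) * y ^ 2 * w
  | 6 =>
      -(311 / 1152) * w ^ 2 + (13 / 81) * e ^ 3 - (169 / 576) * y * e * w + (25 / 1152) * y ^ 2 *
        e ^ 2
  | 7 =>
      (3247 / 6912) * e ^ 2 * w - (347 / 2304) * y * w ^ 2 + (1907 / 20736) * y * e ^ 3 + (35 /
        1152) * y ^ 2 * e * w
  | 8 =>
      (87385 / 193536) * e * w ^ 2 - (1445 / 13608) * e ^ 4 + (109693 / 387072) * y * e ^ 2 * w +
        (1237 / 129024) * y ^ 2 * w ^ 2 - (11917 / 1161216) * y ^ 2 * e ^ 3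
  | 9 =>
      (333829 / 2322432) * w ^ 3 - (2857663 / 6967296) * e ^ 3 * w + (31421 / 110592) * y * e * w
        ^ 2 - (471617 / 6967296) * y * e ^ 4 - (15611 / 774144) * y ^ 2 * e ^ 2 * w
  | 10 =>
      -(2743165 / 4644864) * e ^ 2 * w ^ 2 + (221 / 2916) * e ^ 5 + (435025 / 4644864) * y * w ^ 3
        - (945457 / 3483648) * y * e ^ 3 * w - (2431 / 221184) * y ^ 2 * e * w ^ 2 + (65083 /
        13934592) * y ^ 2 * e ^ 4
  | 11 =>
      -(1500367 / 3981312) * e * w ^ 3 + (30484729 / 83607552) * e ^ 4 * w - (1874153 / 4644864) *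
        y * e ^ 2 * w ^ 2 + (4366087 / 83607552) * y * e ^ 5 - (9719 / 9289728) * y ^ 2 * w ^ 3 +
        (69491 / 6967296) * y ^ 2 * e ^ 3 * w
  | 12 =>
      -(110430035 / 1226244096) * w ^ 4 + (643617115 / 919683072) * e ^ 3 * w ^ 2 - (459017 /
        8083152) * e ^ 6 - (81143635 / 306561024) * y * e * w ^ 3 + (952128115 / 3678732288) * y *
        e ^ 4 * w + (104695 / 29196288) * y ^ 2 * e ^ 2 * w ^ 2 - (5758943 / 3678732288) * y ^ 2 *
        e ^ 5
  | _ => 0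

noncomputable def hs_q (y e w : ℝ) : ℕ → ℝ
  | 0 =>
      0
  | 1 =>
      (1 / 2)
  | 2 =>
      (1 / 2) * y
  | 3 =>
      (1 / 8) * y ^ 2
  | 4 =>
      (1 / 12) * w - (1 / 12) * y * e
  | 5 =>
      -(1 / 36) * e ^ 2 + (1 / 192) * y * w - (3 / 64) * y ^ 2 * e
  | 6 =>
      -(19 / 192) * e * w + (1 / 64) * y * e ^ 2 - (5 / 192) * y ^ 2 * w
  | 7 =>
      -(965 / 16128) * w ^ 2 + (17 / 567) * e ^ 3 - (223 / 8064) * y * e * w + (53 / 2304) * y ^ 2
        * e ^ 2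
  | 8 =>
      (199 / 1728) * e ^ 2 * w - (125 / 4032) * y * w ^ 2 + (173 / 36288) * y * e ^ 3 + (19 / 672)
        * y ^ 2 * e * w
  | 9 =>
      (2381 / 18432) * e * w ^ 2 - (85 / 3024) * e ^ 4 + (13927 / 258048) * y * e ^ 2 * w + (2125
        / 258048) * y ^ 2 * w ^ 2 - (29317 / 2322432) * y ^ 2 * e ^ 3
  | 10 =>
      (105737 / 2322432) * w ^ 3 - (893003 / 6967296) * e ^ 3 * w + (61735 / 774144) * y * e * w ^
        2 - (86197 / 6967296) * y * e ^ 4 - (18551 / 774144) * y ^ 2 * e ^ 2 * w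
  | 11 =>
      -(21087799 / 102187008) * e ^ 2 * w ^ 2 + (2873 / 112266) * e ^ 5 + (3291907 / 102187008) *
        y * w ^ 3 - (846643 / 10948608) * y * e ^ 3 * w - (14387 / 1032192) * y ^ 2 * e * w ^ 2 +
        (67097 / 9289728) * y ^ 2 * e ^ 4
  | 12 =>
      -(221185 / 1548288) * e * w ^ 3 + (1925635 / 13934592) * e ^ 4 * w - (1233725 / 8515584) * y
        * e ^ 2 * w ^ 2 + (336233 / 21897216) * y * e ^ 5 - (15955 / 7299072) * y ^ 2 * w ^ 3 +
        (98245 / 5474304) * y ^ 2 * e ^ 3 * w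
  | _ => 0

lemma hs_rec {y e w : ℝ} (h : w = y ^ 3 + e * y) :
    RRec (1 / 6) (1 / 2) y e w (hs_p y e w) (hs_q y e w) := by
  subst h
  constructor <;> simp only [hs_p, hs_q] <;> ring

/-- Taylor polynomial of `C(1/6, 1/2)` in `(s, c)` -/
def hs_L : List (ℕ × ℕ × ℚ) :=
  [(0, 0, 1), (1, 0, -3 / 4), (0, 1, 19 / 24), (2, 0, -35 / 64), (1, 1, 103 / 128), (3, 0, -757 /
    1536), (0, 2, -311 / 1152), (2, 1, 3107 / 3072), (4, 0, -57681 / 114688), (1, 2, -2393 /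
    3584), (3, 1, 2763997 / 2064384), (0, 3, 333829 / 2322432), (5, 0, -1519045 / 2752512), (2, 2,
    -2709131 / 2064384), (4, 1, 1425181 / 786432), (1, 3, 3494377 / 6193152), (6, 0, -131827141 /
    207618048), (3, 2, -80177315 / 34062336), (0, 4, -110430035 / 1226244096)]

lemma hs_sum {a b c s w : ℝ} (h1 : a + b + c = 0) (h2 : a ^ 2 + b ^ 2 + c ^ 2 = 3 * s) :
    SumP (hs_p a (-(3 / 2) * s) w) + SumP (hs_p b (-(3 / 2) * s) w)
      + SumP (hs_p c (-(3 / 2) * s) w) = 3 * pol (castPol hs_L) s w := by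
  have key : ∀ y : ℝ, SumP (hs_p y (-(3 / 2) * s) w) =
      (1 + (19 / 24) * w - (311 / 1152) * w ^ 2 + (333829 / 2322432) * w ^ 3 - (110430035 /
        1226244096) * w ^ 4 - s + (323 / 384) * s * w - (87385 / 129024) * s * w ^ 2 + (1500367 /
        2654208) * s * w ^ 3 - (5 / 8) * s ^ 2 + (3247 / 3072) * s ^ 2 * w - (2743165 / 2064384) *
        s ^ 2 * w ^ 2 - (13 / 24) * s ^ 3 + (2857663 / 2064384) * s ^ 3 * w - (643617115 /
        272498688) * s ^ 3 * w ^ 2 - (1445 / 2688) * s ^ 4 + (30484729 / 16515072) * s ^ 4 * w -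
        (221 / 384) * s ^ 5 - (459017 / 709632) * s ^ 6)
      + ((1 / 2) + (29 / 96) * w - (347 / 2304) * w ^ 2 + (435025 / 4644864) * w ^ 3 - (5 / 16) * s +
        (169 / 384) * s * w - (31421 / 73728) * s * w ^ 2 + (81143635 / 204374016) * s * w ^ 3 -
        (77 / 256) * s ^ 2 + (109693 / 172032) * s ^ 2 * w - (1874153 / 2064384) * s ^ 2 * w ^ 2 -
        (1907 / 6144) * s ^ 3 + (945457 / 1032192) * s ^ 3 * w - (471617 / 1376256) * s ^ 4 +
        (952128115 / 726663168) * s ^ 4 * w - (4366087 / 11010048) * s ^ 5) * y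
      + ((1 / 4) - (7 / 192) * w + (1237 / 129024) * w ^ 2 - (9719 / 9289728) * w ^ 3 + (5 / 64) * s
        - (35 / 768) * s * w + (2431 / 147456) * s * w ^ 2 + (25 / 512) * s ^ 2 - (15611 / 344064)
        * s ^ 2 * w + (104695 / 12976128) * s ^ 2 * w ^ 2 + (11917 / 344064) * s ^ 3 - (69491 /
        2064384) * s ^ 3 * w + (65083 / 2752512) * s ^ 4 + (5758943 / 484442112) * s ^ 5) * y ^ 2 := by
    intro y
    simp only [SumP, hs_p]
    ring
  rw [key a, key b, key c]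
  have hP : pol (castPol hs_L) s w =
      (1 + (19 / 24) * w - (311 / 1152) * w ^ 2 + (333829 / 2322432) * w ^ 3 - (110430035 /
        1226244096) * w ^ 4 - s + (323 / 384) * s * w - (87385 / 129024) * s * w ^ 2 + (1500367 /
        2654208) * s * w ^ 3 - (5 / 8) * s ^ 2 + (3247 / 3072) * s ^ 2 * w - (2743165 / 2064384) *
        s ^ 2 * w ^ 2 - (13 / 24) * s ^ 3 + (2857663 / 2064384) * s ^ 3 * w - (643617115 /
        272498688) * s ^ 3 * w ^ 2 - (1445 / 2688) * s ^ 4 + (30484729 / 16515072) * s ^ 4 * w -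
        (221 / 384) * s ^ 5 - (459017 / 709632) * s ^ 6)
      + ((1 / 4) - (7 / 192) * w + (1237 / 129024) * w ^ 2 - (9719 / 9289728) * w ^ 3 + (5 / 64) * s
        - (35 / 768) * s * w + (2431 / 147456) * s * w ^ 2 + (25 / 512) * s ^ 2 - (15611 / 344064)
        * s ^ 2 * w + (104695 / 12976128) * s ^ 2 * w ^ 2 + (11917 / 344064) * s ^ 3 - (69491 /
        2064384) * s ^ 3 * w + (65083 / 2752512) * s ^ 4 + (5758943 / 484442112) * s ^ 5) * s := by
    simp only [pol, castPol, hs_L, List.map_cons, List.map_nil, List.sum_cons, List.sum_nil]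
    push_cast
    ring
  rw [hP]
  linear_combination ((1 / 2) + (29 / 96) * w - (347 / 2304) * w ^ 2 + (435025 / 4644864) * w ^ 3 - (5 / 16) * s +
        (169 / 384) * s * w - (31421 / 73728) * s * w ^ 2 + (81143635 / 204374016) * s * w ^ 3 -
        (77 / 256) * s ^ 2 + (109693 / 172032) * s ^ 2 * w - (1874153 / 2064384) * s ^ 2 * w ^ 2 -
        (1907 / 6144) * s ^ 3 + (945457 / 1032192) * s ^ 3 * w - (471617 / 1376256) * s ^ 4 +
        (952128115 / 726663168) * s ^ 4 * w - (4366087 / 11010048) * s ^ 5) * h1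
    + ((1 / 4) - (7 / 192) * w + (1237 / 129024) * w ^ 2 - (9719 / 9289728) * w ^ 3 + (5 / 64) * s
        - (35 / 768) * s * w + (2431 / 147456) * s * w ^ 2 + (25 / 512) * s ^ 2 - (15611 / 344064)
        * s ^ 2 * w + (104695 / 12976128) * s ^ 2 * w ^ 2 + (11917 / 344064) * s ^ 3 - (69491 /
        2064384) * s ^ 3 * w + (65083 / 2752512) * s ^ 4 + (5758943 / 484442112) * s ^ 5) * h2

noncomputable def hs_cB : Cst (1 / 6) (1 / 2) (3 / 10) where
  l := 49 / 40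
  K1 := 1501 / 1000
  K2 := 1061 / 1000
  K3 := 2501 / 1000
  K4 := 4001 / 1000
  K5 := 5501 / 1000
  K6 := 7001 / 1000
  K7 := 8501 / 1000
  K8 := 10001 / 1000
  K9 := 11501 / 1000
  K10 := 13001 / 1000
  K11 := 14501 / 1000
  K12 := 16001 / 1000
  K13 := 17501 / 1000
  g1 := 49 / 40
  g2 := 1501 / 1000
  g3 := 641 / 500
  g4 := 333 / 250
  g5 := 313 / 200
  g6 := 1843 / 1000
  g7 := 573 / 250
  g8 := 2863 / 1000
  g9 := 3661 / 1000
  g10 := 2357 / 500
  g11 := 6141 / 1000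
  g12 := 161 / 20
  Dm := 8459 / 10000
  r0 := 4243 / 10000
  C := 2044 / 5
  hx0 := by norm_num
  hx1 := by norm_num
  hu0 := by norm_num
  hl0 := by norm_num
  hl := fun v h0 h1 => by nlinarith [h0, h1]
  hK1 := ⟨by norm_num, fun v h0 h1 => by nlinarith [mul_nonneg h0 (sub_nonneg.2 h1)]⟩
  hK2 := ⟨by norm_num, fun v h0 h1 => by nlinarith [sq_nonneg (v - 1 / 2)]⟩
  hK3 := ⟨by norm_num, fun v h0 h1 => by nlinarith [mul_nonneg h0 (sub_nonneg.2 h1)]⟩
  hK4 := ⟨by norm_num, fun v h0 h1 => by nlinarith [mul_nonneg h0 (sub_nonneg.2 h1)]⟩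
  hK5 := ⟨by norm_num, fun v h0 h1 => by nlinarith [mul_nonneg h0 (sub_nonneg.2 h1)]⟩
  hK6 := ⟨by norm_num, fun v h0 h1 => by nlinarith [mul_nonneg h0 (sub_nonneg.2 h1)]⟩
  hK7 := ⟨by norm_num, fun v h0 h1 => by nlinarith [mul_nonneg h0 (sub_nonneg.2 h1)]⟩
  hK8 := ⟨by norm_num, fun v h0 h1 => by nlinarith [mul_nonneg h0 (sub_nonneg.2 h1)]⟩
  hK9 := ⟨by norm_num, fun v h0 h1 => by nlinarith [mul_nonneg h0 (sub_nonneg.2 h1)]⟩
  hK10 := ⟨by norm_num, fun v h0 h1 => by nlinarith [mul_nonneg h0 (sub_nonneg.2 h1)]⟩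
  hK11 := ⟨by norm_num, fun v h0 h1 => by nlinarith [mul_nonneg h0 (sub_nonneg.2 h1)]⟩
  hK12 := ⟨by norm_num, fun v h0 h1 => by nlinarith [mul_nonneg h0 (sub_nonneg.2 h1)]⟩
  hK13 := ⟨by norm_num, fun v h0 h1 => by nlinarith [mul_nonneg h0 (sub_nonneg.2 h1)]⟩
  hg1 := by norm_num
  hg2 := by norm_num
  hg3 := by norm_num
  hg4 := by norm_num
  hg5 := by norm_num
  hg6 := by norm_num
  hg7 := by norm_num
  hg8 := by norm_num
  hg9 := by norm_num
  hg10 := by norm_num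
  hg11 := by norm_num
  hg12 := by norm_num
  hDm0 := by norm_num
  hDm := by norm_num
  hr0 := by norm_num
  hr1 := by norm_num
  hr := by norm_num
  hC := by norm_num

noncomputable def hs_cM : Cst (1 / 6) (1 / 2) (33 / 100) where
  l := 49 / 40
  K1 := 1501 / 1000
  K2 := 1061 / 1000
  K3 := 2501 / 1000
  K4 := 4001 / 1000
  K5 := 5501 / 1000
  K6 := 7001 / 1000
  K7 := 8501 / 1000
  K8 := 10001 / 1000
  K9 := 11501 / 1000
  K10 := 13001 / 1000
  K11 := 14501 / 1000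
  K12 := 16001 / 1000
  K13 := 17501 / 1000
  g1 := 49 / 40
  g2 := 1501 / 1000
  g3 := 641 / 500
  g4 := 333 / 250
  g5 := 313 / 200
  g6 := 1843 / 1000
  g7 := 573 / 250
  g8 := 2863 / 1000
  g9 := 3661 / 1000
  g10 := 2357 / 500
  g11 := 6141 / 1000
  g12 := 161 / 20
  Dm := 507 / 625
  r0 := 4667 / 10000
  C := 4757 / 10
  hx0 := by norm_num
  hx1 := by norm_num
  hu0 := by norm_num
  hl0 := by norm_num
  hl := fun v h0 h1 => by nlinarith [h0, h1]
  hK1 := ⟨by norm_num, fun v h0 h1 => by nlinarith [mul_nonneg h0 (sub_nonneg.2 h1)]⟩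
  hK2 := ⟨by norm_num, fun v h0 h1 => by nlinarith [sq_nonneg (v - 1 / 2)]⟩
  hK3 := ⟨by norm_num, fun v h0 h1 => by nlinarith [mul_nonneg h0 (sub_nonneg.2 h1)]⟩
  hK4 := ⟨by norm_num, fun v h0 h1 => by nlinarith [mul_nonneg h0 (sub_nonneg.2 h1)]⟩
  hK5 := ⟨by norm_num, fun v h0 h1 => by nlinarith [mul_nonneg h0 (sub_nonneg.2 h1)]⟩
  hK6 := ⟨by norm_num, fun v h0 h1 => by nlinarith [mul_nonneg h0 (sub_nonneg.2 h1)]⟩
  hK7 := ⟨by norm_num, fun v h0 h1 => by nlinarith [mul_nonneg h0 (sub_nonneg.2 h1)]⟩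
  hK8 := ⟨by norm_num, fun v h0 h1 => by nlinarith [mul_nonneg h0 (sub_nonneg.2 h1)]⟩
  hK9 := ⟨by norm_num, fun v h0 h1 => by nlinarith [mul_nonneg h0 (sub_nonneg.2 h1)]⟩
  hK10 := ⟨by norm_num, fun v h0 h1 => by nlinarith [mul_nonneg h0 (sub_nonneg.2 h1)]⟩
  hK11 := ⟨by norm_num, fun v h0 h1 => by nlinarith [mul_nonneg h0 (sub_nonneg.2 h1)]⟩
  hK12 := ⟨by norm_num, fun v h0 h1 => by nlinarith [mul_nonneg h0 (sub_nonneg.2 h1)]⟩
  hK13 := ⟨by norm_num, fun v h0 h1 => by nlinarith [mul_nonneg h0 (sub_nonneg.2 h1)]⟩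
  hg1 := by norm_num
  hg2 := by norm_num
  hg3 := by norm_num
  hg4 := by norm_num
  hg5 := by norm_num
  hg6 := by norm_num
  hg7 := by norm_num
  hg8 := by norm_num
  hg9 := by norm_num
  hg10 := by norm_num
  hg11 := by norm_num
  hg12 := by norm_num
  hDm0 := by norm_num
  hDm := by norm_num
  hr0 := by norm_num
  hr1 := by norm_num
  hr := by norm_num
  hC := by norm_num

end Crest.Agent.R163.Cen
private theorem rz_0e6f0372c2 : type_of% @_root_.Crest.Agent.R163.Cen.hs_p.eq_1 := @_root_.Crest.Agent.R163.Cen.hs_p.eq_1 -- L15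
private theorem rz_f51c6ba800 : type_of% @_root_.Crest.Agent.R163.Cen.hs_q.eq_1 := @_root_.Crest.Agent.R163.Cen.hs_q.eq_1 -- L55
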