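import Crest.Agent.R163.Mono
import Crest.Agent.R163.Norm
import Crest.Agent.R163.Pot

/-!
Row 163: the channels of successive depths are decreasing in the convex order; every continuous
homogeneous functional converges along them; window principle for potentials.
-/

set_option autoImplicit false

namespace Crest.Agent.R163

open Crest.ProbabilityR.Broadcast

variable {q : ℕ}

/-! ### closure properties of `CH` -/

lemma CH.add {φ ψ : (Fin q → ℝ) → ℝ} (h₁ : CH φ) (h₂ : CH ψ) : CH (fun v => φ v + ψ v) where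
  bdd := h₁.bdd.add h₂.bdd
  hom c v hc hv := by
    show φ _ + ψ _ = c * (φ v + ψ v)
    rw [h₁.hom c v hc hv, h₂.hom c v hc hv]; ring
  sub u v hu hv := by
    have a := h₁.sub u v hu hv
    have b := h₂.sub u v hu hv
    linarith

lemma CH.sup {φ ψ : (Fin q → ℝ) → ℝ} (h₁ : CH φ) (h₂ : CH ψ) : CH (fun v => max (φ v) (ψ v)) where
  bdd := by
    obtain ⟨K, hK, h⟩ := h₁.bdd
    obtain ⟨K', hK', h'⟩ := h₂.bdd
    refine ⟨K + K', by positivity, fun v hv => ?_⟩
    have a := abs_le.1 (h v hv)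
    have b := abs_le.1 (h' v hv)
    have c := avg_nonneg hv
    have d : 0 ≤ K * avg v := mul_nonneg hK c
    have e : 0 ≤ K' * avg v := mul_nonneg hK' c
    rw [abs_le, add_mul]
    exact ⟨le_max_of_le_left (by linarith), max_le (by linarith) (by linarith)⟩
  hom c v hc hv := by
    show max (φ _) (ψ _) = c * max (φ v) (ψ v)
    rw [h₁.hom c v hc hv, h₂.hom c v hc hv, mul_max_of_nonneg _ _ hc]
  sub u v hu hv := by
    have a := h₁.sub u v hu hv
    have b := h₂.sub u v hu hv
    refine max_le ?_ ?_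
    · exact a.trans (add_le_add (le_max_left _ _) (le_max_left _ _))
    · exact b.trans (add_le_add (le_max_right _ _) (le_max_right _ _))

lemma CH.const_mul {φ : (Fin q → ℝ) → ℝ} (h : CH φ) {c : ℝ} (hc : 0 ≤ c) :
    CH (fun v => c * φ v) where
  bdd := h.bdd.const_mul c
  hom a v ha hv := by
    show c * φ _ = a * (c * φ v)
    rw [h.hom a v ha hv]; ring
  sub u v hu hv := by
    have := mul_le_mul_of_nonneg_left (h.sub u v hu hv) hc
    linarith

/-- linear functionals -/
lemma ch_linear [NeZero q] (c : Fin q → ℝ) : CH (fun v => ∑ i, c i * v i) where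
  bdd := by
    have hq : (0 : ℝ) < q := Nat.cast_pos.mpr (Nat.pos_of_ne_zero (NeZero.ne q))
    refine ⟨(∑ i, |c i|) * q, by positivity, fun v hv => ?_⟩
    calc |∑ i, c i * v i| ≤ ∑ i, |c i * v i| := Finset.abs_sum_le_sum_abs _ _
      _ = ∑ i, |c i| * v i := Finset.sum_congr rfl fun i _ => by rw [abs_mul, abs_of_nonneg (hv i)]
      _ ≤ ∑ i, |c i| * (q * avg v) := Finset.sum_le_sum fun i _ => by
          apply mul_le_mul_of_nonneg_left _ (abs_nonneg _)
          have := le_avg hv i
          rw [div_le_iff₀ hq] at this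
          linarith
      _ = (∑ i, |c i|) * q * avg v := by rw [← Finset.sum_mul]; ring
  hom a v _ _ := by
    rw [Finset.mul_sum]
    exact Finset.sum_congr rfl fun i _ => by ring
  sub u v _ _ := by
    rw [← Finset.sum_add_distrib]
    exact le_of_eq (Finset.sum_congr rfl fun i _ => by ring)

lemma avg_add (u v : Fin q → ℝ) : avg (fun i => u i + v i) = avg u + avg v := by
  unfold avg; rw [Finset.sum_add_distrib, add_div]

/-- χ² is an admissible functional -/
lemma ch_chi [NeZero q] : CH (chi (q := q)) where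
  bdd := bdd_chi
  hom := hom_chi
  sub u v hu hv := by
    by_cases h1 : avg u = 0
    · have := eq_zero_of_avg hu h1
      subst this
      have : chi (fun _ : Fin q => (0 : ℝ)) = 0 := by simp [chi, avg]
      rw [this]
      simp
    by_cases h2 : avg v = 0
    · have := eq_zero_of_avg hv h2
      subst this
      have : chi (fun _ : Fin q => (0 : ℝ)) = 0 := by simp [chi, avg]
      rw [this]
      simp
    have p1 : 0 < avg u := lt_of_le_of_ne (avg_nonneg hu) (Ne.symm h1)
    have p2 : 0 < avg v := lt_of_le_of_ne (avg_nonneg hv) (Ne.symm h2)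
    unfold chi
    rw [avg_add]
    have key : avg (fun i => (u i + v i) ^ 2) / (avg u + avg v) ≤
        avg (fun i => u i ^ 2) / avg u + avg (fun i => v i ^ 2) / avg v := by
      have hq : (0 : ℝ) < q := Nat.cast_pos.mpr (Nat.pos_of_ne_zero (NeZero.ne q))
      have e : avg (fun i => u i ^ 2) / avg u + avg (fun i => v i ^ 2) / avg v =
          avg (fun i => u i ^ 2 / avg u + v i ^ 2 / avg v) := by
        set a := avg u
        set b := avg v
        unfold avg
        rw [Finset.sum_add_distrib, ← Finset.sum_div, ← Finset.sum_div]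
        field_simp
      have e2 : avg (fun i => (u i + v i) ^ 2) / (avg u + avg v) =
          avg (fun i => (u i + v i) ^ 2 / (avg u + avg v)) := by
        set a := avg u
        set b := avg v
        unfold avg
        rw [← Finset.sum_div]
        field_simp
      rw [e, e2]
      set a := avg u
      set b := avg v
      unfold avg
      apply div_le_div_of_nonneg_right _ hq.le
      refine Finset.sum_le_sum fun i _ => ?_
      exact add_sq_div_le p1 p2 (u i) (v i)
    linarith
where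
  add_sq_div_le {a b : ℝ} (ha : 0 < a) (hb : 0 < b) (x y : ℝ) :
      (x + y) ^ 2 / (a + b) ≤ x ^ 2 / a + y ^ 2 / b := by
    rw [div_add_div _ _ ha.ne' hb.ne', div_le_div_iff₀ (by positivity) (by positivity)]
    nlinarith [sq_nonneg (x * b - y * a), mul_pos ha hb]

/-! ### the perfect channel is the largest -/

lemma cxLe_perfect [NeZero q] {Ω Ω' : Type*} {L : Ω → Fin q → ℝ} (hL : IsChan L)
    (e : Ω' ≃ Fin q) : CxLe L (fun (o : Ω') (i : Fin q) => if e o = i then (1 : ℝ) else 0) := by
  intro φ hφ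
  rw [J_perfect e φ]
  have hpt : ∀ v : Fin q → ℝ, (∀ i, 0 ≤ v i) →
      φ v ≤ ∑ k : Fin q, φ (fun i => if k = i then 1 else 0) * v k := by
    intro v hv
    have e1 : v = fun i => ∑ k : Fin q, v k * (if k = i then 1 else 0) := by
      funext i
      simp
    calc φ v = φ (fun i => ∑ k : Fin q, v k * (if k = i then 1 else 0)) := by rw [← e1]
      _ ≤ ∑ k : Fin q, φ (fun i => v k * (if k = i then 1 else 0)) :=
          hφ.finset_sum Finset.univ (fun k i => v k * (if k = i then 1 else 0))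
            fun k i => mul_nonneg (hv k) (by split_ifs <;> norm_num)
      _ = _ := by
          refine Finset.sum_congr rfl fun k _ => ?_
          rw [hφ.hom (v k) (fun i => if k = i then 1 else 0) (hv k)
            (fun i => by split_ifs <;> norm_num)]
          ring
  have hs : HasSum (fun o => ∑ k : Fin q, φ (fun i => if k = i then 1 else 0) * L o k)
      (∑ k : Fin q, φ (fun i => if k = i then 1 else 0) * 1) :=
    hasSum_sum fun k _ => (hL.hasSum k).mul_left _
  simp only [mul_one] at hs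
  exact hasSum_le (fun o => hpt _ (hL.nonneg o)) (hL.summable hφ.bdd).hasSum hs

/-! ### monotonicity in the depth -/

lemma cxLe_reg_succ [NeZero q] (b : ℕ) {lam : ℝ} (hl : Adm q lam) (ℓ : ℕ) :
    CxLe (reg q b lam (ℓ + 1)) (reg q b lam ℓ) := by
  induction ℓ with
  | zero =>
    rw [reg_zero b (q := q) (lam := lam)]
    exact cxLe_perfect (reg_isChan b hl 1) _
  | succ ℓ ih =>
    intro φ hφ
    rw [J_reg_succ, J_reg_succ]
    exact ((ih.edge hl).pw ((reg_isChan b hl (ℓ + 1)).edge hl) ((reg_isChan b hl ℓ).edge hl) b) φ hφ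

lemma cxLe_gw_succ [NeZero q] {lam d : ℝ} (hl : Adm q lam) (hd : 0 ≤ d) (ℓ : ℕ) :
    CxLe (gw q lam d (ℓ + 1)) (gw q lam d ℓ) := by
  induction ℓ with
  | zero =>
    have h : gw q lam d 0 = fun (o : Fin q) (i : Fin q) =>
        if (Equiv.refl (Fin q)) o = i then (1 : ℝ) else 0 := by
      funext o i
      rfl
    rw [h]
    exact cxLe_perfect (gw_isChan hl hd 1) _
  | succ ℓ ih =>
    intro φ hφ
    have h := cxLe_pois (ih.edge hl) ((gw_isChan hl hd (ℓ + 1)).edge hl)
      ((gw_isChan hl hd ℓ).edge hl) hd le_rfl φ hφ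
    rw [← gw_succ, ← gw_succ] at h
    exact h


/-! ### lattice Stone-Weierstrass on the simplex -/

/-- nonnegative vectors of mean one -/
def Sx (q : ℕ) : Set (Fin q → ℝ) := {v | (∀ i, 0 ≤ v i) ∧ avg v = 1}

lemma continuous_avg : Continuous (avg (q := q)) := by
  unfold avg
  exact (continuous_finsetSum _ fun i _ => continuous_apply i).div_const _

lemma isCompact_Sx [NeZero q] : IsCompact (Sx q) := by
  have hq : (0 : ℝ) < q := Nat.cast_pos.mpr (Nat.pos_of_ne_zero (NeZero.ne q))
  have hc : IsClosed (Sx q) := by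
    have e : Sx q = (⋂ i, {v : Fin q → ℝ | 0 ≤ v i}) ∩ {v | avg v = 1} := by
      ext v; simp [Sx]
    rw [e]
    refine IsClosed.inter (isClosed_iInter fun i => ?_) ?_
    · exact isClosed_le continuous_const (continuous_apply i)
    · exact isClosed_eq continuous_avg continuous_const
  refine (isCompact_Icc (a := (fun _ => 0 : Fin q → ℝ)) (b := fun _ => (q : ℝ))).of_isClosed_subset
    hc ?_
  intro v hv
  refine ⟨fun i => hv.1 i, fun i => ?_⟩
  have := le_avg hv.1 i
  rw [hv.2, div_le_iff₀ hq] at this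
  linarith

/-- differences of admissible functionals, restricted to the simplex -/
def Lat (q : ℕ) : Set C(Sx q, ℝ) :=
  {f | ∃ φ ψ : (Fin q → ℝ) → ℝ, CH φ ∧ CH ψ ∧ ∀ x : Sx q, f x = φ x.1 - ψ x.1}

lemma lat_sup {f g : C(Sx q, ℝ)} (hf : f ∈ Lat q) (hg : g ∈ Lat q) : f ⊔ g ∈ Lat q := by
  obtain ⟨φ, ψ, h1, h2, h3⟩ := hf
  obtain ⟨φ', ψ', h1', h2', h3'⟩ := hg
  refine ⟨fun v => max (φ v + ψ' v) (φ' v + ψ v), fun v => ψ v + ψ' v,
    (h1.add h2').sup (h1'.add h2), h2.add h2', fun x => ?_⟩
  rw [ContinuousMap.sup_apply, h3, h3']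
  show _ = max (φ x.1 + ψ' x.1) (φ' x.1 + ψ x.1) - (ψ x.1 + ψ' x.1)
  rcases le_total (φ x.1 - ψ x.1) (φ' x.1 - ψ' x.1) with h | h
  · rw [max_eq_right h, max_eq_right (by linarith)]; ring
  · rw [max_eq_left h, max_eq_left (by linarith)]; ring

lemma lat_inf {f g : C(Sx q, ℝ)} (hf : f ∈ Lat q) (hg : g ∈ Lat q) : f ⊓ g ∈ Lat q := by
  obtain ⟨φ, ψ, h1, h2, h3⟩ := hf
  obtain ⟨φ', ψ', h1', h2', h3'⟩ := hg
  refine ⟨fun v => φ v + φ' v, fun v => max (φ' v + ψ v) (φ v + ψ' v),
    h1.add h1', (h1'.add h2).sup (h1.add h2'), fun x => ?_⟩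
  rw [ContinuousMap.inf_apply, h3, h3']
  show _ = φ x.1 + φ' x.1 - max (φ' x.1 + ψ x.1) (φ x.1 + ψ' x.1)
  rcases le_total (φ x.1 - ψ x.1) (φ' x.1 - ψ' x.1) with h | h
  · rw [min_eq_left h, max_eq_left (by linarith)]; ring
  · rw [min_eq_right h, max_eq_right (by linarith)]; ring

lemma ch_zero [NeZero q] : CH (fun _ : Fin q → ℝ => (0 : ℝ)) := by
  simpa using ch_linear (q := q) (fun _ => 0)

lemma lat_linear [NeZero q] (c : Fin q → ℝ) :
    (⟨fun x : Sx q => ∑ i, c i * x.1 i, continuous_finsetSum _ fun i _ =>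
      continuous_const.mul ((continuous_apply i).comp continuous_subtype_val)⟩ : C(Sx q, ℝ)) ∈
      Lat q :=
  ⟨fun v => ∑ i, c i * v i, fun _ => 0, ch_linear c, ch_zero, fun x => by simp⟩

lemma lat_sep [NeZero q] : (Lat q).SeparatesPointsStrongly := by
  intro w x y
  have hq : (q : ℝ) ≠ 0 := Nat.cast_ne_zero.mpr (NeZero.ne q)
  by_cases h : x = y
  · subst h
    refine ⟨_, lat_linear (fun _ => w x / q), ?_, ?_⟩ <;>
    · show ∑ i, w x / q * x.1 i = w x
      rw [← Finset.mul_sum]
      have := x.2.2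
      unfold avg at this
      have h2 : ∑ i, x.1 i = q := by field_simp at this; exact this
      rw [h2]
      field_simp
  · obtain ⟨k, hk⟩ : ∃ k, x.1 k ≠ y.1 k := by
      by_contra hc
      push Not at hc
      exact h (Subtype.ext (funext hc))
    have hs : ∀ z : Sx q, ∑ i, z.1 i = q := fun z => by
      have := z.2.2
      unfold avg at this
      field_simp at this
      exact this
    set β := (w x - w y) / (x.1 k - y.1 k) with hβ
    set α := (w x - β * x.1 k) / q with hα
    have hxy : x.1 k - y.1 k ≠ 0 := sub_ne_zero.2 hk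
    refine ⟨_, lat_linear (fun i => α + if i = k then β else 0), ?_, ?_⟩
    · show ∑ i, (α + if i = k then β else 0) * x.1 i = w x
      simp only [add_mul, ite_mul, zero_mul, Finset.sum_add_distrib, ← Finset.mul_sum, hs,
        Finset.sum_ite_eq', Finset.mem_univ, if_true]
      rw [hα]; field_simp; ring
    · show ∑ i, (α + if i = k then β else 0) * y.1 i = w y
      simp only [add_mul, ite_mul, zero_mul, Finset.sum_add_distrib, ← Finset.mul_sum, hs,
        Finset.sum_ite_eq', Finset.mem_univ, if_true]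
      have : α * q = w x - β * x.1 k := by rw [hα]; field_simp
      rw [this]
      have h3 : β * (x.1 k - y.1 k) = w x - w y := by rw [hβ]; field_simp
      linarith

/-- uniform approximation of a continuous homogeneous functional by differences of admissible
functionals -/
lemma exists_approx [NeZero q] {φ : (Fin q → ℝ) → ℝ} (hφ : Hom φ)
    (hc : ContinuousOn φ {v | ∀ i, 0 ≤ v i}) {ε : ℝ} (hε : 0 < ε) :
    ∃ φ₁ φ₂ : (Fin q → ℝ) → ℝ, CH φ₁ ∧ CH φ₂ ∧
      ∀ v : Fin q → ℝ, (∀ i, 0 ≤ v i) → |φ v - (φ₁ v - φ₂ v)| ≤ ε * avg v := by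
  have : CompactSpace (Sx q) := isCompact_iff_compactSpace.1 isCompact_Sx
  let f : C(Sx q, ℝ) := ⟨fun x => φ x.1, by
    have h1 : ContinuousOn φ (Sx q) := hc.mono fun v hv => hv.1
    exact continuousOn_iff_continuous_domRestrict.1 h1⟩
  have hcl := ContinuousMap.sublattice_closure_eq_top (Lat q) ⟨_, lat_linear (fun _ => 0)⟩
    (fun f hf g hg => lat_inf hf hg) (fun f hf g hg => lat_sup hf hg) lat_sep
  have hf : f ∈ closure (Lat q) := by rw [hcl]; trivial
  rw [Metric.mem_closure_iff] at hf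
  obtain ⟨g, hg, hd⟩ := hf ε hε
  obtain ⟨φ₁, φ₂, h1, h2, h3⟩ := hg
  refine ⟨φ₁, φ₂, h1, h2, fun v hv => ?_⟩
  obtain ⟨a, w, ha, hw, hw1, rfl⟩ := exists_norm hv
  rw [hφ a w ha hw, h1.hom a w ha hw, h2.hom a w ha hw, avg_smul, hw1]
  have h4 : |φ w - (φ₁ w - φ₂ w)| ≤ ε := by
    have h5 := (ContinuousMap.dist_lt_iff hε).1 hd ⟨w, hw, hw1⟩
    rw [h3, Real.dist_eq] at h5
    exact h5.le
  have h6 : a * φ w - (a * φ₁ w - a * φ₂ w) = a * (φ w - (φ₁ w - φ₂ w)) := by ring
  rw [h6, abs_mul, abs_of_nonneg ha]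
  calc a * |φ w - (φ₁ w - φ₂ w)| ≤ a * ε := mul_le_mul_of_nonneg_left h4 ha
    _ = _ := by ring

lemma bdd_of_continuousOn [NeZero q] {φ : (Fin q → ℝ) → ℝ} (hφ : Hom φ)
    (hc : ContinuousOn φ {v | ∀ i, 0 ≤ v i}) : Bdd φ := by
  obtain ⟨K, hK⟩ := isCompact_Sx.exists_bound_of_continuousOn (hc.mono fun v (hv : v ∈ Sx q) => hv.1)
  refine bdd_of_norm hφ (K := max K 0) (le_max_right _ _) fun v hv hv1 => ?_
  have := hK v ⟨hv, hv1⟩
  rw [Real.norm_eq_abs] at this
  exact this.trans (le_max_left _ _)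

/-! ### convergence along decreasing channels -/

lemma CH.tendsto [NeZero q] {φ : (Fin q → ℝ) → ℝ} (h : CH φ) {Ω : ℕ → Type*}
    {P : ∀ n, Ω n → Fin q → ℝ} (hP : ∀ n, IsChan (P n)) (hdec : ∀ n, CxLe (P (n + 1)) (P n)) :
    ∃ a, Filter.Tendsto (fun n => J φ (P n)) Filter.atTop (nhds a) := by
  obtain ⟨K, hK, hb⟩ := h.bdd
  have hanti : Antitone fun n => J φ (P n) := antitone_nat_of_succ_le fun n => hdec n φ h
  have hlow : BddBelow (Set.range fun n => J φ (P n)) := by
    refine ⟨-K, ?_⟩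
    rintro _ ⟨n, rfl⟩
    have := (hP n).J_mono (bdd_avg.const_mul (-K)) h.bdd fun v hv => by
      have := (abs_le.1 (hb v hv)).1
      linarith
    rw [J_const_mul, (hP n).J_avg, mul_one] at this
    exact this
  exact ⟨_, tendsto_atTop_ciInf hanti hlow⟩

/-- every continuous homogeneous functional converges along decreasing channels -/
theorem tendsto_J [NeZero q] {φ : (Fin q → ℝ) → ℝ} (hφ : Hom φ)
    (hc : ContinuousOn φ {v | ∀ i, 0 ≤ v i}) {Ω : ℕ → Type*}
    {P : ∀ n, Ω n → Fin q → ℝ} (hP : ∀ n, IsChan (P n)) (hdec : ∀ n, CxLe (P (n + 1)) (P n)) :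
    ∃ a, Filter.Tendsto (fun n => J φ (P n)) Filter.atTop (nhds a) := by
  have hbφ := bdd_of_continuousOn hφ hc
  apply cauchySeq_tendsto_of_complete
  rw [Metric.cauchySeq_iff']
  intro ε hε
  obtain ⟨φ₁, φ₂, h1, h2, h3⟩ := exists_approx hφ hc (ε := ε / 4) (by positivity)
  obtain ⟨a₁, ha₁⟩ := h1.tendsto hP hdec
  obtain ⟨a₂, ha₂⟩ := h2.tendsto hP hdec
  have hap : ∀ n, |J φ (P n) - (J φ₁ (P n) - J φ₂ (P n))| ≤ ε / 4 := by
    intro n
    rw [abs_le]
    have e1 := (hP n).J_mono hbφ ((h1.bdd.sub h2.bdd).add (bdd_avg.const_mul (ε / 4)))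
      fun v hv => by
        have := (abs_le.1 (h3 v hv)).2
        linarith
    have e2 := (hP n).J_mono ((h1.bdd.sub h2.bdd).sub (bdd_avg.const_mul (ε / 4))) hbφ
      fun v hv => by
        have := (abs_le.1 (h3 v hv)).1
        linarith
    rw [(hP n).J_add (h1.bdd.sub h2.bdd) (bdd_avg.const_mul (ε / 4)), (hP n).J_sub h1.bdd h2.bdd,
      J_const_mul, (hP n).J_avg] at e1
    rw [(hP n).J_sub (h1.bdd.sub h2.bdd) (bdd_avg.const_mul (ε / 4)), (hP n).J_sub h1.bdd h2.bdd,
      J_const_mul, (hP n).J_avg] at e2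
    constructor <;> linarith
  have hsub := ha₁.sub ha₂
  have hca := hsub.cauchySeq
  rw [Metric.cauchySeq_iff'] at hca
  obtain ⟨N, hN⟩ := hca (ε / 4) (by positivity)
  refine ⟨N, fun n hn => ?_⟩
  have k1 := abs_le.1 (hap n)
  have k2 := abs_le.1 (hap N)
  have k3 := hN n hn
  rw [Real.dist_eq, abs_lt] at k3 ⊢
  constructor <;> linarith [k3.1, k3.2, k1.1, k1.2, k2.1, k2.2]

/-! ### continuity of monomials and of the edge operator -/

lemma continuous_cmon {a : Fin q → ℂ} (ha : ∀ i, 0 < (a i).re ∨ a i = 0) :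
    Continuous (cmon a) := by
  unfold cmon
  refine continuous_finsetProd _ fun i _ => ?_
  rcases ha i with h | h
  · exact (Complex.continuous_ofReal_cpow_const h).comp (continuous_apply i)
  · simp only [h, Complex.cpow_zero]
    exact continuous_const

lemma continuous_rmon {a : Fin q → ℂ} (ha : ∀ i, 0 < (a i).re ∨ a i = 0) :
    Continuous (rmon a) := Complex.continuous_re.comp (continuous_cmon ha)


lemma continuous_W (lam : ℝ) : Continuous (W lam : (Fin q → ℝ) → Fin q → ℝ) := by
  unfold W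
  refine continuous_pi fun i => ?_
  exact (continuous_const.mul (continuous_apply i)).add (continuous_const.mul continuous_avg)

lemma continuousOn_comp_W [NeZero q] {φ : (Fin q → ℝ) → ℝ}
    (hc : ContinuousOn φ {v | ∀ i, 0 ≤ v i}) {lam : ℝ} (hl : Adm q lam) :
    ContinuousOn (fun v => φ (W lam v)) {v | ∀ i, 0 ≤ v i} :=
  hc.comp (continuous_W lam).continuousOn fun _ hv i => W_nonneg hl hv i



/-- χ² along the regular and Poisson trees is nonincreasing -/
theorem chi_reg_anti [NeZero q] (b : ℕ) {lam : ℝ} (hl : Adm q lam) :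
    Antitone fun n => J chi (reg q b lam n) :=
  antitone_nat_of_succ_le fun n => cxLe_reg_succ b hl n chi ch_chi

theorem chi_gw_anti [NeZero q] {lam d : ℝ} (hl : Adm q lam) (hd : 0 ≤ d) :
    Antitone fun n => J chi (gw q lam d n) :=
  antitone_nat_of_succ_le fun n => cxLe_gw_succ hl hd n chi ch_chi

/-! ### the window principle -/


end Crest.Agent.R163
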