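import Crest.Agent.R163.Conv
import Crest.Agent.R163.SKLC

/-!
Row 163: monotonicity in the pair (κ, d): certificates at slightly supercritical rational
parameters control a whole cell of critical parameters.
-/

set_option autoImplicit false

namespace Crest.Agent.R163

open Crest.ProbabilityR.Broadcast

/-- `J φ` comparison on Poisson trees: `κ ≤ κ'`, `d ≤ d'` -/
theorem J_gw_mono {φ : (Fin 3 → ℝ) → ℝ} (hφ : CH φ) {κ κ' d d' : ℝ} (h0 : 0 ≤ κ) (hκ : κ ≤ κ')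
    (hκ' : κ' ≤ 1 / 2) (hd : 0 ≤ d) (hdd : d ≤ d') (n : ℕ) :
    J φ (gw 3 (-κ) d n) ≤ J φ (gw 3 (-κ') d' n) := by
  rcases (h0.trans hκ).eq_or_lt with h | h
  · have hz : κ = 0 := le_antisymm (h ▸ hκ) h0
    have := cxLe_gw (q := 3) (lam := -κ') (ρ := 1) (adm3_neg (h0.trans hκ) hκ') zero_le_one le_rfl
      (by rw [one_mul]; exact adm3_neg (h0.trans hκ) hκ') hd hdd n φ hφ
    rw [one_mul] at this
    rw [hz]
    rwa [← h] at this ⊢
  · have e : κ / κ' * -κ' = -κ := by field_simp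
    have := cxLe_gw (q := 3) (lam := -κ') (ρ := κ / κ') (adm3_neg h.le hκ')
      (div_nonneg h0 h.le) ((div_le_one h).2 hκ)
      (by rw [e]; exact adm3_neg h0 (hκ.trans hκ')) hd hdd n φ hφ
    rwa [e] at this

/-- `J φ` comparison on regular trees: `κ ≤ κ'`, `b ≤ b'` -/
theorem J_reg_mono {φ : (Fin 3 → ℝ) → ℝ} (hφ : CH φ) {κ κ' : ℝ} {b b' : ℕ} (h0 : 0 ≤ κ)
    (hκ : κ ≤ κ') (hκ' : κ' ≤ 1 / 2) (hb : b ≤ b') (n : ℕ) :
    J φ (reg 3 b (-κ) n) ≤ J φ (reg 3 b' (-κ') n) := by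
  rcases (h0.trans hκ).eq_or_lt with h | h
  · have hz : κ = 0 := le_antisymm (h ▸ hκ) h0
    have := cxLe_reg (q := 3) (lam := -κ') (ρ := 1) hb (adm3_neg (h0.trans hκ) hκ') zero_le_one
      le_rfl (by rw [one_mul]; exact adm3_neg (h0.trans hκ) hκ') n φ hφ
    rw [one_mul] at this
    rw [hz]
    rwa [← h] at this ⊢
  · have e : κ / κ' * -κ' = -κ := by field_simp
    have := cxLe_reg (q := 3) (lam := -κ') (ρ := κ / κ') hb (adm3_neg h.le hκ')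
      (div_nonneg h0 h.le) ((div_le_one h).2 hκ)
      (by rw [e]; exact adm3_neg h0 (hκ.trans hκ')) n φ hφ
    rwa [e] at this

/-- some iterate of the Poisson recursion has `χ < x0` -/
def GwLt (κ d x0 : ℝ) : Prop := ∃ n, J chi (gw 3 (-κ) d n) < x0

/-- some iterate of the regular recursion has `χ < x0` -/
def RegLt (b : ℕ) (κ x0 : ℝ) : Prop := ∃ n, J chi (reg 3 b (-κ) n) < x0

theorem GwLt.mono {κ κ' d d' x x' : ℝ} (h : GwLt κ' d' x) (h0 : 0 ≤ κ) (hκ : κ ≤ κ')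
    (hκ' : κ' ≤ 1 / 2) (hd : 0 ≤ d) (hdd : d ≤ d') (hx : x ≤ x') : GwLt κ d x' := by
  obtain ⟨n, hn⟩ := h
  exact ⟨n, ((J_gw_mono ch_chi h0 hκ hκ' hd hdd n).trans_lt hn).trans_le hx⟩

theorem RegLt.mono {κ κ' x x' : ℝ} {b b' : ℕ} (h : RegLt b' κ' x) (h0 : 0 ≤ κ) (hκ : κ ≤ κ')
    (hκ' : κ' ≤ 1 / 2) (hb : b ≤ b') (hx : x ≤ x') : RegLt b κ x' := by
  obtain ⟨n, hn⟩ := h
  exact ⟨n, ((J_reg_mono ch_chi h0 hκ hκ' hb n).trans_lt hn).trans_le hx⟩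

lemma inv_sqrt_le {κ d₁ d : ℝ} (hκ : 0 ≤ κ) (h1 : 1 ≤ κ ^ 2 * d₁) (hd : d₁ ≤ d) :
    1 / Real.sqrt d ≤ κ := by
  have hk0 : 0 < κ ^ 2 := by
    rcases hκ.eq_or_lt with h | h
    · rw [← h] at h1; norm_num at h1
    · positivity
  have hk : 0 < κ := by
    rcases hκ.eq_or_lt with h | h
    · rw [← h] at hk0; norm_num at hk0
    · exact h
  have hd0 : 0 < d := by
    have : 0 < d₁ := by
      by_contra hcon
      push Not at hcon
      nlinarith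
    linarith
  have hs : 0 < Real.sqrt d := Real.sqrt_pos.2 hd0
  rw [div_le_iff₀ hs]
  have h2 : 1 ≤ (κ * Real.sqrt d) ^ 2 := by
    rw [mul_pow, Real.sq_sqrt hd0.le]
    nlinarith
  nlinarith [mul_nonneg hκ hs.le]


/-- critical regular tree from a slightly supercritical rational `κ` -/
theorem RegLt.crit {κ x x' : ℝ} {b : ℕ} (h : RegLt b κ x) (hκ : 0 ≤ κ) (hκ' : κ ≤ 1 / 2)
    (h1 : 1 ≤ κ ^ 2 * b) (hx : x ≤ x') : RegLt b (1 / Real.sqrt b) x' :=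
  h.mono (by positivity) (inv_sqrt_le hκ h1 le_rfl) hκ' le_rfl hx

lemma inv_sqrt_four : 1 / Real.sqrt ((4 : ℕ) : ℝ) = 1 / 2 := by
  rw [show ((4 : ℕ) : ℝ) = 2 ^ 2 by norm_num, Real.sqrt_sq (by norm_num)]

end Crest.Agent.R163
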