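import Crest.Agent.R163.Window
import Crest.Agent.R163.WinScal
import Crest.Agent.R163.MonoPair

-- ▼ part R163/WinCore2
section

/-!
Row 163 (S0244 antiferro): variant of helper667's window theorem in which the certificate may use
the exact limit `x` of `J chi` (multiplier of any sign) and an a priori bound `x ≤ xm`.
The proof is a copy of `windows_core` (Window.lean).
-/

set_option autoImplicit false

universe u

namespace Crest.Agent.R163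

open Crest.ProbabilityR.Broadcast

variable {q : ℕ}



section core

variable {ι κ γ : Type} [Fintype ι] [Fintype κ] [Fintype γ]


end core

/-- `Ub b` lies below its tangents everywhere when `b` is even -/
lemma Ub_tangent_even {b : ℕ} (hb : b ≠ 0) (he : Even b) (c B : ℝ) :
    Ub b B ≤ Ub b c + (1 - c / b) ^ (b - 1) * (B - c) := by
  have hb' : (b : ℝ) ≠ 0 := Nat.cast_ne_zero.mpr hb
  have hcv := he.convexOn_pow (𝕜 := ℝ)
  have hd : HasDerivAt (fun y : ℝ => y ^ b) (b * (1 - c / b) ^ (b - 1)) (1 - c / b) := by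
    simpa using hasDerivAt_pow b (1 - c / b)
  have key : ∀ x : ℝ, (1 - c / b) ^ b + b * (1 - c / b) ^ (b - 1) * (x - (1 - c / b)) ≤ x ^ b := by
    intro x
    rcases lt_trichotomy (1 - c / b) x with h | h | h
    · have := hcv.le_slope_of_hasDerivAt (Set.mem_univ _) (Set.mem_univ _) h hd
      rw [slope_def_field, le_div_iff₀ (by linarith)] at this
      linarith
    · rw [← h]; simp
    · have := hcv.slope_le_of_hasDerivAt (Set.mem_univ _) (Set.mem_univ _) h hd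
      rw [slope_def_field, div_le_iff₀ (by linarith)] at this
      linarith
  have h := key (1 - B / b)
  unfold Ub
  have e : (b : ℝ) * (1 - c / b) ^ (b - 1) * ((1 - B / b) - (1 - c / b)) =
      -((1 - c / b) ^ (b - 1) * (B - c)) := by
    field_simp
    ring
  rw [e] at h
  linarith


end Crest.Agent.R163
namespace Crest.Agent.R163.Cert
end Crest.Agent.R163.Cert
end

-- ▼ part R163/WinH

/-!
Row 163 (S0244 antiferro): adapter for helper418's final window data (`mu, alpha, K, m, beta, A, xi`,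
no slack): all real `d` with `4 ≤ d ρ0²` at once, a fixed `b`, or all `b ≥ b0` at once; the pointwise
conditions are only needed for `x ≥ y ≥ z > 0`, `x + y + z = 3`.
-/

set_option autoImplicit false

namespace Crest.Agent.R163

open Win

/-! ### symmetry -/

lemma fxt_swap12 (x t a b c : ℝ) : fxt x t b a c = fxt x t a b c := by
  unfold fxt
  have h1 : Real.cos (t * (Real.log a - Real.log c)) = Real.cos (t * (Real.log c - Real.log a)) := by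
    rw [← Real.cos_neg]; congr 1; ring
  have h2 : Real.cos (t * (Real.log c - Real.log b)) = Real.cos (t * (Real.log b - Real.log c)) := by
    rw [← Real.cos_neg]; congr 1; ring
  have h3 : Real.cos (t * (Real.log b - Real.log a)) = Real.cos (t * (Real.log a - Real.log b)) := by
    rw [← Real.cos_neg]; congr 1; ring
  rw [h1, h2, h3, mul_comm a c, mul_comm c b, mul_comm b a]
  ring

lemma fxt_swap23 (x t a b c : ℝ) : fxt x t a c b = fxt x t a b c := by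
  unfold fxt
  have h1 : Real.cos (t * (Real.log c - Real.log b)) = Real.cos (t * (Real.log b - Real.log c)) := by
    rw [← Real.cos_neg]; congr 1; ring
  have h2 : Real.cos (t * (Real.log b - Real.log a)) = Real.cos (t * (Real.log a - Real.log b)) := by
    rw [← Real.cos_neg]; congr 1; ring
  have h3 : Real.cos (t * (Real.log a - Real.log c)) = Real.cos (t * (Real.log c - Real.log a)) := by
    rw [← Real.cos_neg]; congr 1; ring
  rw [h1, h2, h3, mul_comm c b, mul_comm b a, mul_comm a c]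
  ring

lemma s3_swap12 (x y z : ℝ) : s3 y x z = s3 x y z := by unfold s3; ring
lemma s3_swap23 (x y z : ℝ) : s3 x z y = s3 x y z := by unfold s3; ring
lemma c3_swap12 (x y z : ℝ) : c3 y x z = c3 x y z := by unfold c3; ring
lemma c3_swap23 (x y z : ℝ) : c3 x z y = c3 x y z := by unfold c3; ring

/-- a symmetric property of the open simplex only has to be checked on sorted points -/
lemma of_sorted {F : ℝ → ℝ → ℝ → Prop} (h12 : ∀ x y z, F y x z → F x y z)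
    (h23 : ∀ x y z, F x z y → F x y z)
    (h : ∀ x y z : ℝ, 0 < z → z ≤ y → y ≤ x → x + y + z = 3 → F x y z)
    (x y z : ℝ) (hx : 0 < x) (hy : 0 < y) (hz : 0 < z) (hs : x + y + z = 3) : F x y z := by
  rcases le_total y x with h1 | h1
  · rcases le_total z y with h2 | h2
    · exact h x y z hz h2 h1 hs
    · -- z ≥ y
      rcases le_total z x with h3 | h3
      · exact h23 _ _ _ (h x z y hy h2 h3 (by linarith))
      · exact h23 _ _ _ (h12 _ _ _ (h z x y hy h1 h3 (by linarith)))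
  · rcases le_total z x with h2 | h2
    · exact h12 _ _ _ (h y x z hz h2 h1 (by linarith))
    · rcases le_total z y with h3 | h3
      · exact h12 _ _ _ (h23 _ _ _ (h y z x hx h2 h3 (by linarith)))
      · refine h12 _ _ _ (h23 _ _ _ (h12 _ _ _ (h z y x hx h1 h3 (by linarith))))

/-! ### data -/

/-- helper418's final window data -/
structure HWin (k : ℕ) where
  /-- weights -/
  mu : Fin k → ℚ
  /-- `alpha = mu * slope` -/
  al : Fin k → ℚ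
  /-- `mu * e^{-y} ≥ K - alpha y` -/
  K : Fin k → ℚ
  /-- tangent points -/
  cc : Fin k → ℚ
  /-- weight of the negative term -/
  m : ℚ
  /-- `beta = m * chord slope` -/
  be : ℚ
  /-- `e^{-y} ≤ A - (beta/m) y` on `[u0,u1]` -/
  A : ℚ
  /-- multiplier of `x0 ≤ X` -/
  xi : ℚ
  /-- lower end of the window -/
  u0 : ℚ
  /-- upper end of the window -/
  u1 : ℚ
  /-- polynomial for `0 ≤ c` -/
  P : List (ℕ × ℕ × ℚ)
  /-- polynomial (in `s`, `-c`) for `c < 0` -/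
  Q : List (ℕ × ℕ × ℚ)
  /-- upper bound of `P(ρ² s, ρ³ c) / ρ²` -/
  PB : List (ℕ × ℕ × ℚ)
  /-- upper bound of `Q(ρ² s, -ρ³ c) / ρ²` -/
  QB : List (ℕ × ℕ × ℚ)

/-- conversion -/
def HWin.toQ {k : ℕ} (D : HWin k) : QWin k where
  μ := D.mu
  τ j := if D.mu j = 0 then 1 else D.al j / D.mu j
  t0 j := if D.mu j = 0 then 1 else 1 - D.K j / D.mu j
  cc := D.cc
  m := D.m
  a0 := 1 - D.A
  σ := D.be / D.m
  l1 := 0
  l2 := 0
  ξ := D.xi
  u0 := D.u0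
  u1 := D.u1
  lam := 0
  P := D.P
  Q := D.Q

/-- nondegeneracy test -/
def HWin.nd {k : ℕ} (D : HWin k) : Bool :=
  decide (∀ j, D.mu j = 0 → D.al j = 0) && decide (D.m ≠ 0)

/-- the pointwise conditions on sorted points -/
structure HWin.Pt {k : ℕ} (D : HWin k) (xa ta : Fin k → ℝ) (xr tr ρ0 : ℝ) : Prop where
  Mp : ∀ x y z : ℝ, 0 < z → z ≤ y → y ≤ x → x + y + z = 3 → y ≤ 1 →
    ∑ j, (D.al j : ℝ) * (1 - fxt (xa j) (ta j) (1 - ρ0 * (x - 1) / 2) (1 - ρ0 * (y - 1) / 2)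
      (1 - ρ0 * (z - 1) / 2)) - D.be * (1 - fxt xr tr (1 - ρ0 * (x - 1) / 2)
      (1 - ρ0 * (y - 1) / 2) (1 - ρ0 * (z - 1) / 2)) + D.xi * (ρ0 ^ 2 * s3 x y z) ≤
      pol (castPol D.P) (ρ0 ^ 2 * s3 x y z) (ρ0 ^ 3 * c3 x y z)
  Mm : ∀ x y z : ℝ, 0 < z → z ≤ y → y ≤ x → x + y + z = 3 → 1 ≤ y →
    ∑ j, (D.al j : ℝ) * (1 - fxt (xa j) (ta j) (1 - ρ0 * (x - 1) / 2) (1 - ρ0 * (y - 1) / 2)
      (1 - ρ0 * (z - 1) / 2)) - D.be * (1 - fxt xr tr (1 - ρ0 * (x - 1) / 2)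
      (1 - ρ0 * (y - 1) / 2) (1 - ρ0 * (z - 1) / 2)) + D.xi * (ρ0 ^ 2 * s3 x y z) ≤
      pol (castPol D.Q) (ρ0 ^ 2 * s3 x y z) (ρ0 ^ 3 * -c3 x y z)
  Bp : ∀ x y z : ℝ, 0 < z → z ≤ y → y ≤ x → x + y + z = 3 → y ≤ 1 →
    4 * pol (castPol D.P) (ρ0 ^ 2 * s3 x y z) (ρ0 ^ 3 * c3 x y z) / ρ0 ^ 2 ≤
      ∑ j, (D.mu j : ℝ) * (1 - fxt (xa j) (ta j) x y z) - D.m * (1 - fxt xr tr x y z)
  Bm : ∀ x y z : ℝ, 0 < z → z ≤ y → y ≤ x → x + y + z = 3 → 1 ≤ y →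
    4 * pol (castPol D.Q) (ρ0 ^ 2 * s3 x y z) (ρ0 ^ 3 * -c3 x y z) / ρ0 ^ 2 ≤
      ∑ j, (D.mu j : ℝ) * (1 - fxt (xa j) (ta j) x y z) - D.m * (1 - fxt xr tr x y z)

lemma c3_sorted_nonneg {x y z : ℝ} (_h1 : z ≤ y) (h2 : y ≤ x) (hs : x + y + z = 3)
    (hc : 0 ≤ c3 x y z) (hneg : ¬ y ≤ 1) : False := by
  push Not at hneg
  have hx : 0 < x - 1 := by linarith
  have hz : z - 1 < 0 := by linarith
  have hy : 0 < y - 1 := by linarith
  have : c3 x y z < 0 := by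
    unfold c3
    exact mul_neg_of_pos_of_neg (mul_pos hx hy) hz
  linarith

lemma c3_sorted_neg {x y z : ℝ} (h1 : z ≤ y) (_h2 : y ≤ x) (hs : x + y + z = 3)
    (hc : c3 x y z < 0) : 1 ≤ y := by
  by_contra hneg
  push Not at hneg
  have hx : 0 ≤ x - 1 := by
    by_contra h
    push Not at h
    linarith
  have hz : z - 1 ≤ 0 := by linarith
  have hy : y - 1 ≤ 0 := by linarith
  have : 0 ≤ c3 x y z := by
    unfold c3
    exact mul_nonneg_of_nonpos_of_nonpos (mul_nonpos_of_nonneg_of_nonpos hx hy) hz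
  linarith

theorem HWin.Pt.dec {k : ℕ} {D : HWin k} {xa ta : Fin k → ℝ} {xr tr ρ0 : ℝ}
    (h : D.Pt xa ta xr tr ρ0) (hnd : D.nd = true) :
    D.toQ.toDec.Pt (fun j => fxt (xa j) (ta j)) (fxt xr tr) ρ0 := by
  unfold HWin.nd at hnd
  rw [Bool.and_eq_true, decide_eq_true_eq, decide_eq_true_eq] at hnd
  obtain ⟨hmu, hm⟩ := hnd
  have hm' : (D.m : ℝ) ≠ 0 := by exact_mod_cast hm
  have e1 : ∀ j, D.toQ.toDec.μ j * D.toQ.toDec.τ j = (D.al j : ℝ) := fun j => by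
    show (D.mu j : ℝ) * ((if D.mu j = 0 then 1 else D.al j / D.mu j : ℚ) : ℝ) = D.al j
    by_cases h0 : D.mu j = 0
    · rw [h0, hmu j h0]; simp
    · have h1 : (D.mu j : ℝ) ≠ 0 := by exact_mod_cast h0
      rw [if_neg h0]
      push_cast
      field_simp
  have e2 : D.toQ.toDec.m * D.toQ.toDec.σ - D.toQ.toDec.l1 + D.toQ.toDec.l2 = (D.be : ℝ) := by
    show (D.m : ℝ) * ((D.be / D.m : ℚ) : ℝ) - ((0 : ℚ) : ℝ) + ((0 : ℚ) : ℝ) = D.be
    push_cast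
    field_simp
    ring
  have e3 : D.toQ.toDec.lam = 0 := by
    show ((0 : ℚ) : ℝ) = 0
    simp
  have el : ∀ a b c s : ℝ, D.toQ.toDec.lhs (fun j => fxt (xa j) (ta j)) (fxt xr tr) a b c s =
      ∑ j, (D.al j : ℝ) * (1 - fxt (xa j) (ta j) a b c) - D.be * (1 - fxt xr tr a b c) +
        D.xi * s := by
    intro a b c s
    unfold DecWin.lhs
    rw [e2]
    simp only [e1]
    rfl
  have er : ∀ a b c : ℝ, D.toQ.toDec.rhs (fun j => fxt (xa j) (ta j)) (fxt xr tr) a b c =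
      ∑ j, (D.mu j : ℝ) * (1 - fxt (xa j) (ta j) a b c) - D.m * (1 - fxt xr tr a b c) :=
    fun a b c => rfl
  have eP : D.toQ.toDec.P = castPol D.P := rfl
  have eQ : D.toQ.toDec.Q = castPol D.Q := rfl
  constructor
  · refine of_sorted (F := fun x y z => 0 ≤ c3 x y z →
      D.toQ.toDec.lhs (fun j => fxt (xa j) (ta j)) (fxt xr tr) (1 - ρ0 * (x - 1) / 2)
        (1 - ρ0 * (y - 1) / 2) (1 - ρ0 * (z - 1) / 2) (ρ0 ^ 2 * s3 x y z) ≤
        pol D.toQ.toDec.P (ρ0 ^ 2 * s3 x y z) (ρ0 ^ 3 * c3 x y z) + D.toQ.toDec.lam) ?_ ?_ ?_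
    · intro x y z hF hc
      rw [c3_swap12, s3_swap12] at hF
      have := hF hc
      simp only [el, fxt_swap12] at this ⊢
      exact this
    · intro x y z hF hc
      rw [c3_swap23, s3_swap23] at hF
      have := hF hc
      simp only [el, fxt_swap23] at this ⊢
      exact this
    · intro x y z hz h1 h2 hs hc
      have hy : y ≤ 1 := by
        by_contra hneg
        exact c3_sorted_nonneg h1 h2 hs hc hneg
      have := h.Mp x y z hz h1 h2 hs hy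
      rw [el, e3, eP, add_zero]
      exact this
  · refine of_sorted (F := fun x y z => c3 x y z < 0 →
      D.toQ.toDec.lhs (fun j => fxt (xa j) (ta j)) (fxt xr tr) (1 - ρ0 * (x - 1) / 2)
        (1 - ρ0 * (y - 1) / 2) (1 - ρ0 * (z - 1) / 2) (ρ0 ^ 2 * s3 x y z) ≤
        pol D.toQ.toDec.Q (ρ0 ^ 2 * s3 x y z) (ρ0 ^ 3 * -c3 x y z) + D.toQ.toDec.lam) ?_ ?_ ?_
    · intro x y z hF hc
      rw [c3_swap12, s3_swap12] at hF
      have := hF hc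
      simp only [el, fxt_swap12] at this ⊢
      exact this
    · intro x y z hF hc
      rw [c3_swap23, s3_swap23] at hF
      have := hF hc
      simp only [el, fxt_swap23] at this ⊢
      exact this
    · intro x y z hz h1 h2 hs hc
      have := h.Mm x y z hz h1 h2 hs (c3_sorted_neg h1 h2 hs hc)
      rw [el, e3, eQ, add_zero]
      exact this
  · refine of_sorted (F := fun x y z => 0 ≤ c3 x y z →
      pol D.toQ.toDec.P (ρ0 ^ 2 * s3 x y z) (ρ0 ^ 3 * c3 x y z) / ρ0 ^ 2 ≤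
        1 / 4 * D.toQ.toDec.rhs (fun j => fxt (xa j) (ta j)) (fxt xr tr) x y z +
          D.toQ.toDec.lam) ?_ ?_ ?_
    · intro x y z hF hc
      rw [c3_swap12, s3_swap12] at hF
      have := hF hc
      simp only [er, fxt_swap12] at this ⊢
      exact this
    · intro x y z hF hc
      rw [c3_swap23, s3_swap23] at hF
      have := hF hc
      simp only [er, fxt_swap23] at this ⊢
      exact this
    · intro x y z hz h1 h2 hs hc
      have hy : y ≤ 1 := by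
        by_contra hneg
        exact c3_sorted_nonneg h1 h2 hs hc hneg
      have := h.Bp x y z hz h1 h2 hs hy
      rw [er, e3, eP, add_zero]
      have e : 4 * pol (castPol D.P) (ρ0 ^ 2 * s3 x y z) (ρ0 ^ 3 * c3 x y z) / ρ0 ^ 2 =
          4 * (pol (castPol D.P) (ρ0 ^ 2 * s3 x y z) (ρ0 ^ 3 * c3 x y z) / ρ0 ^ 2) := by ring
      rw [e] at this
      linarith
  · refine of_sorted (F := fun x y z => c3 x y z < 0 →
      pol D.toQ.toDec.Q (ρ0 ^ 2 * s3 x y z) (ρ0 ^ 3 * -c3 x y z) / ρ0 ^ 2 ≤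
        1 / 4 * D.toQ.toDec.rhs (fun j => fxt (xa j) (ta j)) (fxt xr tr) x y z +
          D.toQ.toDec.lam) ?_ ?_ ?_
    · intro x y z hF hc
      rw [c3_swap12, s3_swap12] at hF
      have := hF hc
      simp only [er, fxt_swap12] at this ⊢
      exact this
    · intro x y z hF hc
      rw [c3_swap23, s3_swap23] at hF
      have := hF hc
      simp only [er, fxt_swap23] at this ⊢
      exact this
    · intro x y z hz h1 h2 hs hc
      have := h.Bm x y z hz h1 h2 hs (c3_sorted_neg h1 h2 hs hc)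
      rw [er, e3, eQ, add_zero]
      have e : 4 * pol (castPol D.Q) (ρ0 ^ 2 * s3 x y z) (ρ0 ^ 3 * -c3 x y z) / ρ0 ^ 2 =
          4 * (pol (castPol D.Q) (ρ0 ^ 2 * s3 x y z) (ρ0 ^ 3 * -c3 x y z) / ρ0 ^ 2) := by ring
      rw [e] at this
      linarith

/-- `PinBd` from sorted points -/
lemma PinBd.of_sorted {xr tr ρ0 c p : ℝ}
    (h : ∀ x y z : ℝ, 0 < z → z ≤ y → y ≤ x → x + y + z = 3 →
      c * (ρ0 ^ 2 * s3 x y z) ≤ 1 - fxt xr tr (1 - ρ0 * (x - 1) / 2) (1 - ρ0 * (y - 1) / 2)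
        (1 - ρ0 * (z - 1) / 2) ∧
      1 - fxt xr tr (1 - ρ0 * (x - 1) / 2) (1 - ρ0 * (y - 1) / 2)
        (1 - ρ0 * (z - 1) / 2) ≤ p * (ρ0 ^ 2 * s3 x y z)) : PinBd (fxt xr tr) ρ0 c p := by
  have key := R163.of_sorted (F := fun x y z =>
      c * (ρ0 ^ 2 * s3 x y z) ≤ 1 - fxt xr tr (1 - ρ0 * (x - 1) / 2) (1 - ρ0 * (y - 1) / 2)
        (1 - ρ0 * (z - 1) / 2) ∧
      1 - fxt xr tr (1 - ρ0 * (x - 1) / 2) (1 - ρ0 * (y - 1) / 2)
        (1 - ρ0 * (z - 1) / 2) ≤ p * (ρ0 ^ 2 * s3 x y z))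
    (fun x y z hF => by rw [s3_swap12, fxt_swap12] at hF; exact hF)
    (fun x y z hF => by rw [s3_swap23, fxt_swap23] at hF; exact hF) h
  exact ⟨fun x y z hx hy hz hs => (key x y z hx hy hz hs).1,
    fun x y z hx hy hz hs => (key x y z hx hy hz hs).2⟩

/-! ### scalar tests -/

/-! ### conditions on the two sides -/

/-- comparison of the message side and posterior side polynomials -/
def pbChk (ρ : ℚ) : List (ℕ × ℕ × ℚ) → List (ℕ × ℕ × ℚ) → Bool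
  | [], [] => true
  | e :: P, e' :: P' => decide (e.1 = e'.1) && decide (e.2.1 = e'.2.1) &&
      decide (e.1 + e.2.1 ≠ 0) && decide (e.2.2 * ρ ^ (2 * e.1 + 3 * e.2.1 - 2) ≤ e'.2.2) &&
      pbChk ρ P P'
  | _, _ => false

lemma pbChk_ok {ρ : ℚ} (hρ : 0 < ρ) : ∀ {P P' : List (ℕ × ℕ × ℚ)}, pbChk ρ P P' = true →
    ∀ {s c : ℝ}, 0 ≤ s → 0 ≤ c →
      pol (castPol P) ((ρ : ℝ) ^ 2 * s) ((ρ : ℝ) ^ 3 * c) / (ρ : ℝ) ^ 2 ≤ pol (castPol P') s c
  | [], [], _, s, c, _, _ => by simp [pol, castPol]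
  | e :: P, e' :: P', h, s, c, hs, hc => by
      unfold pbChk at h
      simp only [Bool.and_eq_true, decide_eq_true_eq] at h
      obtain ⟨⟨⟨⟨h1, h2⟩, h3⟩, h4⟩, h5⟩ := h
      have ih := pbChk_ok hρ h5 hs hc
      have hρ' : (0 : ℝ) < ρ := by exact_mod_cast hρ
      unfold pol castPol at ih ⊢
      simp only [List.map_cons, List.sum_cons]
      rw [add_div]
      refine add_le_add ?_ ih
      have h4' : (e.2.2 : ℝ) * (ρ : ℝ) ^ (2 * e.1 + 3 * e.2.1 - 2) ≤ e'.2.2 := by exact_mod_cast h4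
      have e1 : (e.2.2 : ℝ) * ((ρ : ℝ) ^ 2 * s) ^ e.1 * ((ρ : ℝ) ^ 3 * c) ^ e.2.1 / (ρ : ℝ) ^ 2 =
          (e.2.2 * (ρ : ℝ) ^ (2 * e.1 + 3 * e.2.1 - 2)) * (s ^ e.1 * c ^ e.2.1) := by
        have e2 : (ρ : ℝ) ^ (2 * e.1 + 3 * e.2.1) =
            (ρ : ℝ) ^ 2 * (ρ : ℝ) ^ (2 * e.1 + 3 * e.2.1 - 2) := by
          rw [← pow_add]; congr 1; omega
        rw [mul_pow, mul_pow, ← pow_mul, ← pow_mul]
        rw [show (e.2.2 : ℝ) * ((ρ : ℝ) ^ (2 * e.1) * s ^ e.1) * ((ρ : ℝ) ^ (3 * e.2.1) * c ^ e.2.1) =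
          e.2.2 * (ρ : ℝ) ^ (2 * e.1 + 3 * e.2.1) * (s ^ e.1 * c ^ e.2.1) by rw [pow_add]; ring, e2]
        field_simp
      rw [e1, ← h1, ← h2, mul_assoc (e'.2.2 : ℝ)]
      exact mul_le_mul_of_nonneg_right h4' (mul_nonneg (pow_nonneg hs _) (pow_nonneg hc _))
  | [], _ :: _, h, _, _, _, _ => by simp [pbChk] at h
  | _ :: _, [], h, _, _, _, _ => by simp [pbChk] at h

/-- THE POINTWISE CONDITIONS to be proved by the engine: (M) on the sorted triangle with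
`z > 1 - ρ0` at `v = (3 - x) / 2`, (B) on the sorted open simplex. -/
structure HWin.Pt2 {k : ℕ} (D : HWin k) (xa ta : Fin k → ℝ) (xr tr ρ0 : ℝ) : Prop where
  Mp : ∀ x y z : ℝ, 1 - ρ0 < z → z ≤ y → y ≤ x → x + y + z = 3 → y ≤ 1 →
    ∑ j, (D.al j : ℝ) * (1 - fxt (xa j) (ta j) ((3 - x) / 2) ((3 - y) / 2) ((3 - z) / 2)) -
      D.be * (1 - fxt xr tr ((3 - x) / 2) ((3 - y) / 2) ((3 - z) / 2)) + D.xi * s3 x y z ≤
      pol (castPol D.P) (s3 x y z) (c3 x y z)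
  Mm : ∀ x y z : ℝ, 1 - ρ0 < z → z ≤ y → y ≤ x → x + y + z = 3 → 1 ≤ y →
    ∑ j, (D.al j : ℝ) * (1 - fxt (xa j) (ta j) ((3 - x) / 2) ((3 - y) / 2) ((3 - z) / 2)) -
      D.be * (1 - fxt xr tr ((3 - x) / 2) ((3 - y) / 2) ((3 - z) / 2)) + D.xi * s3 x y z ≤
      pol (castPol D.Q) (s3 x y z) (-c3 x y z)
  Bp : ∀ x y z : ℝ, 0 < z → z ≤ y → y ≤ x → x + y + z = 3 → y ≤ 1 →
    4 * pol (castPol D.PB) (s3 x y z) (c3 x y z) ≤
      ∑ j, (D.mu j : ℝ) * (1 - fxt (xa j) (ta j) x y z) - D.m * (1 - fxt xr tr x y z)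
  Bm : ∀ x y z : ℝ, 0 < z → z ≤ y → y ≤ x → x + y + z = 3 → 1 ≤ y →
    4 * pol (castPol D.QB) (s3 x y z) (-c3 x y z) ≤
      ∑ j, (D.mu j : ℝ) * (1 - fxt (xa j) (ta j) x y z) - D.m * (1 - fxt xr tr x y z)

/-- passing from the `ρ0`-triangle to the simplex -/
lemma rescale_sorted {ρ0 : ℝ} (h0 : 0 < ρ0) {x y z : ℝ} (hz : 0 < z) (h1 : z ≤ y) (h2 : y ≤ x)
    (hs : x + y + z = 3) :
    1 - ρ0 < 1 + ρ0 * (z - 1) ∧ 1 + ρ0 * (z - 1) ≤ 1 + ρ0 * (y - 1) ∧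
      1 + ρ0 * (y - 1) ≤ 1 + ρ0 * (x - 1) ∧
      (1 + ρ0 * (x - 1)) + (1 + ρ0 * (y - 1)) + (1 + ρ0 * (z - 1)) = 3 := by
  refine ⟨?_, ?_, ?_, ?_⟩
  · have := mul_pos h0 hz
    nlinarith
  · have := mul_le_mul_of_nonneg_left h1 h0.le
    linarith
  · have := mul_le_mul_of_nonneg_left h2 h0.le
    linarith
  · have : x - 1 + (y - 1) + (z - 1) = 0 := by linarith
    linear_combination ρ0 * this

lemma three_sub (ρ0 a : ℝ) : (3 - (1 + ρ0 * (a - 1))) / 2 = 1 - ρ0 * (a - 1) / 2 := by ring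

theorem HWin.Pt2.pt {k : ℕ} {D : HWin k} {xa ta : Fin k → ℝ} {xr tr : ℝ} {ρ0 : ℚ}
    (h : D.Pt2 xa ta xr tr ρ0) (h0 : 0 < ρ0)
    (hP : pbChk ρ0 D.P D.PB = true) (hQ : pbChk ρ0 D.Q D.QB = true) : D.Pt xa ta xr tr ρ0 := by
  have h0' : (0 : ℝ) < ρ0 := by exact_mod_cast h0
  constructor
  · intro x y z hz h1 h2 hs hy
    obtain ⟨a1, a2, a3, a4⟩ := rescale_sorted h0' hz h1 h2 hs
    have hy' : 1 + (ρ0 : ℝ) * (y - 1) ≤ 1 := by
      have := mul_nonneg h0'.le (sub_nonneg.2 hy)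
      linarith
    have := h.Mp _ _ _ a1 a2 a3 a4 hy'
    simp only [three_sub, s3_scale, c3_scale] at this
    exact this
  · intro x y z hz h1 h2 hs hy
    obtain ⟨a1, a2, a3, a4⟩ := rescale_sorted h0' hz h1 h2 hs
    have hy' : 1 ≤ 1 + (ρ0 : ℝ) * (y - 1) := by
      have := mul_nonneg h0'.le (sub_nonneg.2 hy)
      linarith
    have := h.Mm _ _ _ a1 a2 a3 a4 hy'
    simp only [three_sub, s3_scale, c3_scale] at this
    rw [mul_neg]
    exact this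
  · intro x y z hz h1 h2 hs hy
    have h3 := h.Bp x y z hz h1 h2 hs hy
    have hc : 0 ≤ c3 x y z := by
      by_contra hneg
      push Not at hneg
      have h4 := c3_sorted_neg h1 h2 hs hneg
      have h5 : y = 1 := le_antisymm hy h4
      rw [h5] at hneg
      unfold c3 at hneg
      simp at hneg
    have h4 := pbChk_ok h0 hP (s3_nonneg x y z) hc
    have e : 4 * pol (castPol D.P) ((ρ0 : ℝ) ^ 2 * s3 x y z) ((ρ0 : ℝ) ^ 3 * c3 x y z) /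
        (ρ0 : ℝ) ^ 2 = 4 * (pol (castPol D.P) ((ρ0 : ℝ) ^ 2 * s3 x y z)
          ((ρ0 : ℝ) ^ 3 * c3 x y z) / (ρ0 : ℝ) ^ 2) := by ring
    rw [e]
    linarith
  · intro x y z hz h1 h2 hs hy
    have h3 := h.Bm x y z hz h1 h2 hs hy
    have hc : 0 ≤ -c3 x y z := by
      by_contra hneg
      push Not at hneg
      have hx : 0 ≤ x - 1 := by linarith
      have hz' : z - 1 ≤ 0 := by linarith
      have hy' : 0 ≤ y - 1 := by linarith
      have : c3 x y z ≤ 0 := by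
        unfold c3
        exact mul_nonpos_of_nonneg_of_nonpos (mul_nonneg hx hy') hz'
      linarith
    have h4 := pbChk_ok h0 hQ (s3_nonneg x y z) hc
    have e : 4 * pol (castPol D.Q) ((ρ0 : ℝ) ^ 2 * s3 x y z) ((ρ0 : ℝ) ^ 3 * -c3 x y z) /
        (ρ0 : ℝ) ^ 2 = 4 * (pol (castPol D.Q) ((ρ0 : ℝ) ^ 2 * s3 x y z)
          ((ρ0 : ℝ) ^ 3 * -c3 x y z) / (ρ0 : ℝ) ^ 2) := by ring
    rw [e]
    linarith

/-- the bounds on the pinned functional, sorted points of the `ρ0`-triangle -/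
def PinBd2 (xr tr ρ0 c p : ℝ) : Prop :=
  ∀ x y z : ℝ, 1 - ρ0 < z → z ≤ y → y ≤ x → x + y + z = 3 →
    c * s3 x y z ≤ 1 - fxt xr tr ((3 - x) / 2) ((3 - y) / 2) ((3 - z) / 2) ∧
    1 - fxt xr tr ((3 - x) / 2) ((3 - y) / 2) ((3 - z) / 2) ≤ p * s3 x y z

lemma PinBd2.pin {xr tr ρ0 c p : ℝ} (h : PinBd2 xr tr ρ0 c p) (h0 : 0 < ρ0) :
    PinBd (fxt xr tr) ρ0 c p := by
  refine PinBd.of_sorted fun x y z hz h1 h2 hs => ?_
  obtain ⟨a1, a2, a3, a4⟩ := rescale_sorted h0 hz h1 h2 hs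
  have := h _ _ _ a1 a2 a3 a4
  simp only [three_sub, s3_scale] at this
  exact this

/-- positivity on the message side, sorted points of the `ρ0`-triangle -/
def PosM {k : ℕ} (xa ta : Fin k → ℝ) (ρ0 : ℝ) : Prop :=
  ∀ j, ∀ x y z : ℝ, 1 - ρ0 < z → z ≤ y → y ≤ x → x + y + z = 3 →
    0 ≤ fxt (xa j) (ta j) ((3 - x) / 2) ((3 - y) / 2) ((3 - z) / 2)

lemma PosM.pos {k : ℕ} {xa ta : Fin k → ℝ} {ρ0 : ℝ} (h : PosM xa ta ρ0) (h0 : 0 < ρ0) :
    ∀ j, ∀ x y z : ℝ, 0 < x → 0 < y → 0 < z → x + y + z = 3 →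
      0 ≤ fxt (xa j) (ta j) (1 - ρ0 * (x - 1) / 2) (1 - ρ0 * (y - 1) / 2)
        (1 - ρ0 * (z - 1) / 2) := by
  intro j
  refine of_sorted (fun x y z hF => by rw [fxt_swap12] at hF; exact hF)
      (fun x y z hF => by rw [fxt_swap23] at hF; exact hF) fun x y z hz h1 h2 hs => ?_
  obtain ⟨a1, a2, a3, a4⟩ := rescale_sorted h0 hz h1 h2 hs
  have := h j _ _ _ a1 a2 a3 a4
  simp only [three_sub] at this
  exact this

/-! ### scalar tests -/

/-- tests common to all families -/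
def HWin.com {k : ℕ} (D : HWin k) (ρ0 : ℚ) : Bool :=
  D.nd && pbChk ρ0 D.P D.PB && pbChk ρ0 D.Q D.QB

/-- Poisson -/
def HWin.chkP {k : ℕ} (D : HWin k) (x0 : ℚ) : Bool := D.com 1 && D.toQ.chkP 0 x0

/-- tangents for all `b ≥ b1` -/
def HWin.tanR {k : ℕ} (D : HWin k) (b1 : ℕ) : Bool :=
  decide (∀ j, 0 ≤ D.toQ.τ j ∧ D.toQ.cc j ≤ b1 ∧
    (1 - D.toQ.cc j / b1) ^ (b1 - 1) ≤ D.toQ.τ j ∧
    1 - (1 - D.toQ.cc j / b1) ^ b1 - (1 - D.toQ.cc j / b1) ^ (b1 - 1) * D.toQ.cc j ≤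
      D.toQ.t0 j)

/-- regular, `b1 ≤ b ≤ b2` -/
def HWin.chkF {k : ℕ} (D : HWin k) (b1 b2 : ℕ) (ρ0 x0 : ℚ) : Bool :=
  D.com ρ0 && D.toQ.base 0 x0 && D.tanR b1 && decide (D.toQ.u1 ≤ b1) &&
  decide (D.toQ.a0 + D.toQ.σ * D.toQ.u0 ≤ 1 - (1 - D.toQ.u0 / b2) ^ b2) &&
  decide (D.toQ.a0 + D.toQ.σ * D.toQ.u1 ≤ 1 - (1 - D.toQ.u1 / b2) ^ b2)

/-- regular, all `b ≥ b1` -/
def HWin.chkG {k : ℕ} (D : HWin k) (b1 : ℕ) (ρ0 x0 : ℚ) : Bool :=
  D.com ρ0 && D.toQ.base 0 x0 && D.tanR b1 && decide (D.toQ.u1 ≤ b1) &&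
  decide (0 ≤ D.toQ.u0) && decide (D.toQ.u0 ≤ 16) &&
  decide (0 ≤ D.toQ.u1) && decide (D.toQ.u1 ≤ 16) &&
  decide (D.toQ.a0 + D.toQ.σ * D.toQ.u0 ≤ 1 - eHi D.toQ.u0) &&
  decide (D.toQ.a0 + D.toQ.σ * D.toQ.u1 ≤ 1 - eHi D.toQ.u1)

lemma HWin.com_nd {k : ℕ} {D : HWin k} {ρ0 : ℚ} (h : D.com ρ0 = true) :
    D.nd = true ∧ pbChk ρ0 D.P D.PB = true ∧ pbChk ρ0 D.Q D.QB = true := by
  unfold HWin.com at h
  simp only [Bool.and_eq_true] at h
  exact ⟨h.1.1, h.1.2, h.2⟩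

lemma Scal.mono {k : ℕ} {D : DecWin k} {U : ℝ → ℝ} {dom : Set ℝ} {Dmax x0 : ℝ}
    (h : D.Scal U dom Dmax x0) (h0 : D.lam = 0) (D' : ℝ) : D.Scal U dom D' x0 where
  μ_nonneg := h.μ_nonneg
  m_nonneg := h.m_nonneg
  l1_nonneg := h.l1_nonneg
  l2_nonneg := h.l2_nonneg
  ξ_nonneg := h.ξ_nonneg
  lam_nonneg := h.lam_nonneg
  tangent := h.tangent
  chord := h.chord
  P_ok := h.P_ok
  Q_ok := h.Q_ok
  K := by
    have := h.K
    rw [h0, mul_zero] at this ⊢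
    exact this

/-- `(1 - B / b) ^ b` is nondecreasing in `b` -/
lemma pow_mono_b {b0 b : ℕ} (h0 : 0 < b0) (h : b0 ≤ b) {B : ℝ} (hB : B ≤ b0) :
    (1 - B / b0) ^ b0 ≤ (1 - B / b) ^ b := by
  have hb0 : (0 : ℝ) < b0 := by exact_mod_cast h0
  have hb : (0 : ℝ) < b := by exact_mod_cast h0.trans_le h
  have hbb : (b0 : ℝ) ≤ b := by exact_mod_cast h
  have hx : 0 ≤ 1 - B / b0 := by
    rw [sub_nonneg, div_le_one hb0]; exact hB
  have h1 := Real.geom_mean_le_arith_mean2_weighted (w₁ := b0 / b) (w₂ := 1 - b0 / b)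
    (p₁ := 1 - B / b0) (p₂ := 1) (by positivity)
    (by rw [sub_nonneg, div_le_one hb]; exact hbb) hx zero_le_one (by ring)
  rw [Real.one_rpow, mul_one] at h1
  have e : (b0 : ℝ) / b * (1 - B / b0) + (1 - b0 / b) * 1 = 1 - B / b := by
    field_simp
    ring
  rw [e] at h1
  have h2 := pow_le_pow_left₀ (Real.rpow_nonneg hx _) h1 b
  have e2 : ((1 - B / b0) ^ ((b0 : ℝ) / b)) ^ b = (1 - B / b0) ^ b0 := by
    rw [← Real.rpow_natCast, ← Real.rpow_mul hx, div_mul_cancel₀ _ hb.ne', Real.rpow_natCast]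
  rw [e2] at h2
  exact h2

/-- tangent lines for all `b ≥ b1` -/
lemma HWin.tan_ok {k : ℕ} {D : HWin k} {b1 : ℕ} (hb1 : 0 < b1) (h : D.tanR b1 = true) {b : ℕ}
    (hb : b1 ≤ b) (j : Fin k) {B : ℝ} (hB : B ∈ Set.Icc (0 : ℝ) b) :
    Ub b B ≤ (D.toQ.t0 j : ℝ) + D.toQ.τ j * B := by
  unfold HWin.tanR at h
  rw [decide_eq_true_eq] at h
  have hj := h j
  have hb1' : (0 : ℝ) < b1 := by exact_mod_cast hb1
  have hb' : (0 : ℝ) < b := by exact_mod_cast hb1.trans_le hb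
  have c0 : (D.toQ.cc j : ℝ) ≤ b1 := by exact_mod_cast hj.2.1
  have t1 : (1 - (D.toQ.cc j : ℝ) / b1) ^ (b1 - 1) ≤ D.toQ.τ j := by exact_mod_cast hj.2.2.1
  have t2 : 1 - (1 - (D.toQ.cc j : ℝ) / b1) ^ b1 -
      (1 - (D.toQ.cc j : ℝ) / b1) ^ (b1 - 1) * D.toQ.cc j ≤ D.toQ.t0 j := by
    exact_mod_cast hj.2.2.2
  have hτ : (0 : ℝ) ≤ D.toQ.τ j := by exact_mod_cast hj.1
  have key : ∀ B' : ℝ, 0 ≤ B' → B' ≤ b1 → Ub b1 B' ≤ (D.toQ.t0 j : ℝ) + D.toQ.τ j * B' := by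
    intro B' hB0 hB1
    have t := Ub_tangent hb1.ne' c0 hB1
    have t3 := mul_le_mul_of_nonneg_right t1 hB0
    unfold Ub at t ⊢
    linarith
  rcases le_or_gt B b1 with h | h
  · refine le_trans ?_ (key B hB.1 h)
    have := pow_mono_b hb1 hb h
    unfold Ub
    linarith
  · have k1 := key b1 hb1'.le le_rfl
    have k2 : Ub b1 (b1 : ℝ) = 1 := by
      unfold Ub
      rw [div_self hb1'.ne', sub_self, zero_pow hb1.ne', sub_zero]
    rw [k2] at k1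
    have k3 : Ub b B ≤ 1 := by
      have : 0 ≤ 1 - B / b := by
        rw [sub_nonneg, div_le_one hb']; exact hB.2
      have := pow_nonneg this b
      unfold Ub; linarith
    have k4 := mul_le_mul_of_nonneg_left h.le hτ
    linarith

/-- tangent lines for even `b`, all real arguments `≥ 0` -/
lemma HWin.tan_even {k : ℕ} {D : HWin k} {b : ℕ} (hb : 0 < b) (he : Even b)
    (h : D.tanR b = true) (j : Fin k) {B : ℝ} (hB : 0 ≤ B) :
    Ub b B ≤ (D.toQ.t0 j : ℝ) + D.toQ.τ j * B := by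
  unfold HWin.tanR at h
  rw [decide_eq_true_eq] at h
  have hj := h j
  have t1 : (1 - (D.toQ.cc j : ℝ) / b) ^ (b - 1) ≤ D.toQ.τ j := by exact_mod_cast hj.2.2.1
  have t2 : 1 - (1 - (D.toQ.cc j : ℝ) / b) ^ b -
      (1 - (D.toQ.cc j : ℝ) / b) ^ (b - 1) * D.toQ.cc j ≤ D.toQ.t0 j := by
    exact_mod_cast hj.2.2.2
  have t := Ub_tangent_even hb.ne' he (D.toQ.cc j : ℝ) B
  have t3 := mul_le_mul_of_nonneg_right t1 hB
  unfold Ub at t ⊢
  linarith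

lemma scal_of_base {k : ℕ} {D : QWin k} {x0 : ℚ} (h : D.base 0 x0 = true) {U : ℝ → ℝ}
    {dom : Set ℝ} (htan : ∀ j, ∀ B ∈ dom, U B ≤ (D.t0 j : ℝ) + D.τ j * B)
    (hch : ∀ B : ℝ, (D.u0 : ℝ) ≤ B → B ≤ D.u1 → (D.a0 : ℝ) + D.σ * B ≤ U B) :
    D.toDec.Scal U dom 0 x0 := by
  unfold QWin.base at h
  simp only [Bool.and_eq_true, decide_eq_true_eq] at h
  obtain ⟨⟨⟨⟨⟨⟨⟨⟨h1, h2⟩, h3⟩, h4⟩, h5⟩, h6⟩, h7⟩, h8⟩, h9⟩ := h
  constructor
  · intro j; show (0 : ℝ) ≤ D.μ j; exact_mod_cast h1 j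
  · show (0 : ℝ) ≤ D.m; exact_mod_cast h2
  · show (0 : ℝ) ≤ D.l1; exact_mod_cast h3
  · show (0 : ℝ) ≤ D.l2; exact_mod_cast h4
  · show (0 : ℝ) ≤ D.ξ; exact_mod_cast h5
  · show (0 : ℝ) ≤ D.lam; exact_mod_cast h6
  · exact htan
  · exact hch
  · exact polChk_ok h7
  · exact polChk_ok h8
  · have := QWin.K_ok h9
    rw [Rat.cast_zero] at this
    exact this

theorem HWin.scalF {k : ℕ} {D : HWin k} {b1 b2 : ℕ} (hb1 : 0 < b1) {ρ0 x0 : ℚ}
    (h : D.chkF b1 b2 ρ0 x0 = true) {b : ℕ} (hb : b1 ≤ b) (hb' : b ≤ b2) {dom : Set ℝ}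
    (hdom : dom = Set.Icc 0 (b : ℝ) ∨ (b = b1 ∧ Even b ∧ dom = Set.Ici 0)) :
    D.toQ.toDec.Scal (Ub b) dom 0 x0 := by
  unfold HWin.chkF at h
  simp only [Bool.and_eq_true, decide_eq_true_eq] at h
  obtain ⟨⟨⟨⟨⟨_, h1⟩, h2⟩, h3⟩, h4⟩, h5⟩ := h
  have hb0 : 0 < b := hb1.trans_le hb
  have hbb : (b1 : ℝ) ≤ b := by exact_mod_cast hb
  refine scal_of_base h1 (fun j B hB => ?_) fun B h6 h7 => ?_
  · rcases hdom with hd | ⟨e1, e2, hd⟩
    · rw [hd] at hB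
      exact D.tan_ok hb1 h2 hb j hB
    · rw [hd] at hB
      subst e1
      exact D.tan_even hb0 e2 h2 j hB
  · have hu1 : (D.toQ.u1 : ℝ) ≤ b1 := by exact_mod_cast h3
    have hBb : B ≤ b := h7.trans (hu1.trans hbb)
    have hb2 : b2 ≠ 0 := (hb0.trans_le hb').ne'
    have hbb2 : (b : ℝ) ≤ b2 := by exact_mod_cast hb'
    refine le_trans (Ub_chord_of (b := b2) hb2 (u0 := D.toQ.u0) (u1 := D.toQ.u1) ?_ ?_
      (hu1.trans (hbb.trans hbb2)) h6 h7) ?_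
    · unfold Ub; exact_mod_cast h4
    · unfold Ub; exact_mod_cast h5
    · have := pow_mono_b hb0 hb' hBb
      unfold Ub
      linarith

theorem HWin.scalG {k : ℕ} {D : HWin k} {b1 : ℕ} (hb1 : 0 < b1) {ρ0 x0 : ℚ}
    (h : D.chkG b1 ρ0 x0 = true) {b : ℕ} (hb : b1 ≤ b) :
    D.toQ.toDec.Scal (Ub b) (Set.Icc 0 b) 0 x0 := by
  unfold HWin.chkG at h
  simp only [Bool.and_eq_true, decide_eq_true_eq] at h
  obtain ⟨⟨⟨⟨⟨⟨⟨⟨⟨_, h1⟩, h2⟩, h3⟩, h4⟩, h5⟩, h6⟩, h7⟩, h8⟩, h9⟩ := h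
  have hbb : (b1 : ℝ) ≤ b := by exact_mod_cast hb
  refine scal_of_base h1 (fun j B hB => D.tan_ok hb1 h2 hb j hB) fun B h10 h11 => ?_
  have hu1 : (D.toQ.u1 : ℝ) ≤ b1 := by exact_mod_cast h3
  have hBb : B ≤ b := h11.trans (hu1.trans hbb)
  have hU : Up B ≤ Ub b B := by
    have := Real.one_sub_div_pow_le_exp_neg (n := b) (t := B) hBb
    unfold Up Ub
    linarith
  refine le_trans (Up_chord_of (u0 := D.toQ.u0) (u1 := D.toQ.u1) ?_ ?_ h10 h11) hU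
  · have a := le_eHi h4 h5
    have b : (D.toQ.a0 : ℝ) + D.toQ.σ * D.toQ.u0 ≤ 1 - eHi D.toQ.u0 := by exact_mod_cast h8
    unfold Up; linarith
  · have a := le_eHi h6 h7
    have b : (D.toQ.a0 : ℝ) + D.toQ.σ * D.toQ.u1 ≤ 1 - eHi D.toQ.u1 := by exact_mod_cast h9
    unfold Up; linarith

/-! ### covering -/

/-- the windows cover `[A, B]` -/
def covH {k : ℕ} (l : List (HWin k)) (A B : ℚ) : Bool := covChk (l.map HWin.toQ) A B

lemma covH_ok {k : ℕ} {l : List (HWin k)} {A B : ℚ} (h : covH l A B = true) {v : ℝ}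
    (h0 : (A : ℝ) ≤ v) (h1 : v ≤ B) : ∃ D ∈ l, (D.toQ.u0 : ℝ) ≤ v ∧ v ≤ D.toQ.u1 := by
  obtain ⟨D, hD, h2⟩ := covChk_ok h h0 h1
  rw [List.mem_map] at hD
  obtain ⟨D', hD', rfl⟩ := hD
  exact ⟨D', hD', h2⟩

/-! ### final theorems -/

/-- Poisson trees, all real `d ≥ 4` -/
theorem gwLt_H {k : ℕ} {xa ta : Fin k → ℝ}
    (hx : ∀ j, 0 < xa j ∧ xa j ≤ 1 / 2) {xr tr : ℝ} (hxr : 0 < xr ∧ xr ≤ 1 / 2)
    (l : List (HWin k)) {x0 c p : ℚ} (hc : 0 ≤ c) (hp : 0 ≤ p) (hR : PinBd2 xr tr 1 c p)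
    (hchk : (l.all fun D => D.chkP x0) = true) (hcov : covH l (4 * c * x0) (8 * p) = true)
    (hpt : ∀ D ∈ l, D.Pt2 xa ta xr tr 1) {d : ℝ} (hd : 4 ≤ d) :
    GwLt (1 / Real.sqrt d) d x0 := by
  refine exists_lt_gw_dec hx hxr (xa := xa) (ta := ta) (xr := xr) (tr := tr) (Dmax := d)
    (x0 := x0) (c := c) (p := p) (ρ0 := 1) one_pos le_rfl (by linarith) le_rfl
    (by exact_mod_cast hc) (by exact_mod_cast hp) (hR.pin one_pos) fun v hv0 hv1 => ?_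
  obtain ⟨D, hD, h1, h2⟩ := covH_ok hcov (v := v) (by push_cast; exact hv0)
    (by push_cast; exact hv1)
  rw [List.all_eq_true] at hchk
  have h3 := hchk D hD
  unfold HWin.chkP at h3
  rw [Bool.and_eq_true] at h3
  obtain ⟨n1, n2, n3⟩ := HWin.com_nd h3.1
  have hD' : D.Pt2 xa ta xr tr ((1 : ℚ) : ℝ) := by rw [Rat.cast_one]; exact hpt D hD
  have h4 := (hD'.pt one_pos n2 n3).dec n1
  rw [Rat.cast_one] at h4
  exact ⟨D.toQ.toDec, Scal.mono (QWin.scalP h3.2) (by show ((0 : ℚ) : ℝ) = 0; simp) d, h4, h1, h2⟩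

/-- regular trees, `b1 ≤ b ≤ b2` -/
theorem regLt_F {k : ℕ} {xa ta : Fin k → ℝ}
    (hx : ∀ j, 0 < xa j ∧ xa j ≤ 1 / 2) {xr tr : ℝ} (hxr : 0 < xr ∧ xr ≤ 1 / 2)
    (l : List (HWin k)) {b1 b2 b : ℕ} {x0 c p ρ0 : ℚ} (h0 : 0 < ρ0) (hρ1 : ρ0 ≤ 1)
    (hρ : 4 ≤ (b1 : ℚ) * ρ0 ^ 2) (hc : 0 ≤ c) (hp : 0 ≤ p) (hR : PinBd2 xr tr ρ0 c p)
    (hpos : PosM xa ta ρ0)
    (hchk : (l.all fun D => D.chkF b1 b2 ρ0 x0) = true)
    (hcov : covH l (4 * c * x0) (8 * p) = true)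
    (hpt : ∀ D ∈ l, D.Pt2 xa ta xr tr ρ0) (hb : b1 ≤ b) (hb' : b ≤ b2) :
    RegLt b (1 / Real.sqrt b) x0 := by
  have h0' : (0 : ℝ) < ρ0 := by exact_mod_cast h0
  have hb1 : 0 < b1 := by
    rcases Nat.eq_zero_or_pos b1 with h | h
    · rw [h] at hρ; norm_num at hρ
    · exact h
  have hbb : (b1 : ℝ) ≤ b := by exact_mod_cast hb
  have hρ' : 4 ≤ (b1 : ℝ) * (ρ0 : ℝ) ^ 2 := by exact_mod_cast hρ
  refine exists_lt_reg_dec hx hxr (xa := xa) (ta := ta) (xr := xr) (tr := tr) (Dmax := b)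
    (x0 := x0) (c := c) (p := p) (ρ0 := ρ0) h0' (by exact_mod_cast hρ1)
    (hρ'.trans (mul_le_mul_of_nonneg_right hbb (by positivity))) le_rfl (by exact_mod_cast hc)
    (by exact_mod_cast hp) (hR.pin h0') (hpos.pos h0') fun v hv0 hv1 => ?_
  obtain ⟨D, hD, h1, h2⟩ := covH_ok hcov (v := v) (by push_cast; exact hv0)
    (by push_cast; exact hv1)
  rw [List.all_eq_true] at hchk
  have h3 := hchk D hD
  have h4 : D.com ρ0 = true := by
    unfold HWin.chkF at h3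
    simp only [Bool.and_eq_true] at h3
    exact h3.1.1.1.1.1
  obtain ⟨n1, n2, n3⟩ := HWin.com_nd h4
  exact ⟨D.toQ.toDec, Scal.mono (HWin.scalF hb1 h3 hb hb' (Or.inl rfl))
    (by show ((0 : ℚ) : ℝ) = 0; simp) b, ((hpt D hD).pt h0 n2 n3).dec n1, h1, h2⟩

/-- regular trees, all `b ≥ b1` -/
theorem regLt_G {k : ℕ} {xa ta : Fin k → ℝ}
    (hx : ∀ j, 0 < xa j ∧ xa j ≤ 1 / 2) {xr tr : ℝ} (hxr : 0 < xr ∧ xr ≤ 1 / 2)
    (l : List (HWin k)) {b1 b : ℕ} {x0 c p ρ0 : ℚ} (h0 : 0 < ρ0) (hρ1 : ρ0 ≤ 1)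
    (hρ : 4 ≤ (b1 : ℚ) * ρ0 ^ 2) (hc : 0 ≤ c) (hp : 0 ≤ p) (hR : PinBd2 xr tr ρ0 c p)
    (hpos : PosM xa ta ρ0)
    (hchk : (l.all fun D => D.chkG b1 ρ0 x0) = true)
    (hcov : covH l (4 * c * x0) (8 * p) = true)
    (hpt : ∀ D ∈ l, D.Pt2 xa ta xr tr ρ0) (hb : b1 ≤ b) :
    RegLt b (1 / Real.sqrt b) x0 := by
  have h0' : (0 : ℝ) < ρ0 := by exact_mod_cast h0
  have hb1 : 0 < b1 := by
    rcases Nat.eq_zero_or_pos b1 with h | h
    · rw [h] at hρ; norm_num at hρ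
    · exact h
  have hbb : (b1 : ℝ) ≤ b := by exact_mod_cast hb
  have hρ' : 4 ≤ (b1 : ℝ) * (ρ0 : ℝ) ^ 2 := by exact_mod_cast hρ
  refine exists_lt_reg_dec hx hxr (xa := xa) (ta := ta) (xr := xr) (tr := tr) (Dmax := b)
    (x0 := x0) (c := c) (p := p) (ρ0 := ρ0) h0' (by exact_mod_cast hρ1)
    (hρ'.trans (mul_le_mul_of_nonneg_right hbb (by positivity))) le_rfl (by exact_mod_cast hc)
    (by exact_mod_cast hp) (hR.pin h0') (hpos.pos h0') fun v hv0 hv1 => ?_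
  obtain ⟨D, hD, h1, h2⟩ := covH_ok hcov (v := v) (by push_cast; exact hv0)
    (by push_cast; exact hv1)
  rw [List.all_eq_true] at hchk
  have h3 := hchk D hD
  have h4 : D.com ρ0 = true := by
    unfold HWin.chkG at h3
    simp only [Bool.and_eq_true] at h3
    exact h3.1.1.1.1.1.1.1.1.1
  obtain ⟨n1, n2, n3⟩ := HWin.com_nd h4
  exact ⟨D.toQ.toDec, Scal.mono (HWin.scalG hb1 h3 hb)
    (by show ((0 : ℚ) : ℝ) = 0; simp) b, ((hpt D hD).pt h0 n2 n3).dec n1, h1, h2⟩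


end Crest.Agent.R163
private theorem rz_1feaf65102 : type_of% @_root_.Crest.Agent.R163.pbChk.eq_def := @_root_.Crest.Agent.R163.pbChk.eq_def -- L308
private theorem rz_bec063c78e : type_of% @_root_.Crest.Agent.R163.pbChk.eq_1 := @_root_.Crest.Agent.R163.pbChk.eq_1 -- L308
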