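import Mathlib
import Crest.Agent.R163.WinH

-- ▼ part R163/CenOde
section

/-!
Row 163, centre region: ODE / truncation lemma.

`G τ = exp (L τ)`, `L τ = ∑ α_i log (1 + τ z_i)` with `α = (1 - 2x, x + it, x - it)`, `z₁+z₂+z₃ = 0`,
is compared with a truncated power series `T τ = ∑_{n ≤ 8} g n τ^n`, where `g` satisfies the three
term recursion of the ODE `D G' = (λ₀ + λ₁ τ + w τ²) G`.
-/

set_option autoImplicit false

namespace Crest.Agent.R163.Cen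

open Complex

/-- the exponent -/
noncomputable def Lf (x t a b c : ℝ) (τ : ℝ) : ℂ :=
  (((1 - 2 * x) * Real.log (1 + τ * a) + x * (Real.log (1 + τ * b) + Real.log (1 + τ * c)) : ℝ) : ℂ)
    + ((t * (Real.log (1 + τ * b) - Real.log (1 + τ * c)) : ℝ) : ℂ) * I

/-- derivative of the exponent -/
noncomputable def Lf' (x t a b c : ℝ) (τ : ℝ) : ℂ :=
  (((1 - 2 * x) * (a / (1 + τ * a)) + x * (b / (1 + τ * b) + c / (1 + τ * c)) : ℝ) : ℂ)
    + ((t * (b / (1 + τ * b) - c / (1 + τ * c)) : ℝ) : ℂ) * I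

lemma hasDerivAt_log1 (a τ : ℝ) (h : 0 < 1 + τ * a) :
    HasDerivAt (fun τ : ℝ => Real.log (1 + τ * a)) (a / (1 + τ * a)) τ := by
  have h1 : HasDerivAt (fun τ : ℝ => 1 + τ * a) a τ := by
    simpa using ((hasDerivAt_id τ).mul_const a).const_add 1
  exact h1.log h.ne'

lemma hasDerivAt_Lf (x t a b c τ : ℝ) (ha : 0 < 1 + τ * a) (hb : 0 < 1 + τ * b)
    (hc : 0 < 1 + τ * c) : HasDerivAt (Lf x t a b c) (Lf' x t a b c τ) τ := by
  unfold Lf Lf'
  have h1 : HasDerivAt (fun τ : ℝ => (1 - 2 * x) * Real.log (1 + τ * a)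
      + x * (Real.log (1 + τ * b) + Real.log (1 + τ * c)))
      ((1 - 2 * x) * (a / (1 + τ * a)) + x * (b / (1 + τ * b) + c / (1 + τ * c))) τ :=
    ((hasDerivAt_log1 a τ ha).const_mul _).add
      (((hasDerivAt_log1 b τ hb).add (hasDerivAt_log1 c τ hc)).const_mul _)
  have h2 : HasDerivAt (fun τ : ℝ => t * (Real.log (1 + τ * b) - Real.log (1 + τ * c)))
      (t * (b / (1 + τ * b) - c / (1 + τ * c))) τ :=
    ((hasDerivAt_log1 b τ hb).sub (hasDerivAt_log1 c τ hc)).const_mul _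
  exact h1.ofReal_comp.add (h2.ofReal_comp.mul_const I)

/-- `λ₀`, `λ₁` in terms of `y = a`, `d = b - c`, `e = ab+bc+ca` -/
noncomputable def lam0 (x t y d : ℝ) : ℂ := (((1 - 3 * x) * y : ℝ) : ℂ) + ((t * d : ℝ) : ℂ) * I

noncomputable def lam1 (x t y d e : ℝ) : ℂ :=
  ((-(1 - 3 * x) * y ^ 2 + 2 * x * e : ℝ) : ℂ) + ((t * y * d : ℝ) : ℂ) * I

lemma Lf'_mul (x t a b c τ : ℝ) (hs : a + b + c = 0) (ha : 0 < 1 + τ * a) (hb : 0 < 1 + τ * b)
    (hc : 0 < 1 + τ * c) :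
    Lf' x t a b c τ * (((1 + τ * a) * (1 + τ * b) * (1 + τ * c) : ℝ) : ℂ)
      = lam0 x t a (b - c) + lam1 x t a (b - c) (a * b + b * c + c * a) * τ
        + ((a * b * c : ℝ) : ℂ) * τ ^ 2 := by
  obtain ⟨A, hA⟩ : ∃ A, A = a / (1 + τ * a) := ⟨_, rfl⟩
  obtain ⟨B, hB⟩ : ∃ B, B = b / (1 + τ * b) := ⟨_, rfl⟩
  obtain ⟨C, hC⟩ : ∃ C, C = c / (1 + τ * c) := ⟨_, rfl⟩
  have hA' : A * (1 + τ * a) = a := by rw [hA]; exact div_mul_cancel₀ _ ha.ne'
  have hB' : B * (1 + τ * b) = b := by rw [hB]; exact div_mul_cancel₀ _ hb.ne'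
  have hC' : C * (1 + τ * c) = c := by rw [hC]; exact div_mul_cancel₀ _ hc.ne'
  unfold Lf' lam0 lam1
  rw [← hA, ← hB, ← hC]
  clear hA hB hC
  obtain rfl : a = -(b + c) := by linarith
  apply Complex.ext
  · simp only [Complex.add_re, Complex.mul_re, Complex.ofReal_re, Complex.ofReal_im, Complex.I_re,
      Complex.I_im, Complex.add_im, Complex.mul_im, sq]
    linear_combination (1 - 2 * x) * (1 + τ * b) * (1 + τ * c) * hA'
      + x * (1 + τ * -(b + c)) * (1 + τ * c) * hB' + x * (1 + τ * -(b + c)) * (1 + τ * b) * hC'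
  · simp only [Complex.add_re, Complex.mul_re, Complex.ofReal_re, Complex.ofReal_im, Complex.I_re,
      Complex.I_im, Complex.add_im, Complex.mul_im, sq]
    linear_combination t * (1 + τ * -(b + c)) * (1 + τ * c) * hB'
      - t * (1 + τ * -(b + c)) * (1 + τ * b) * hC'

/-- the truncated series and its derivative -/
noncomputable def Tf (g : ℕ → ℂ) (τ : ℂ) : ℂ :=
  g 0 + g 1 * τ + g 2 * τ ^ 2 + g 3 * τ ^ 3 + g 4 * τ ^ 4 + g 5 * τ ^ 5 + g 6 * τ ^ 6 + g 7 * τ ^ 7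
    + g 8 * τ ^ 8 + g 9 * τ ^ 9 + g 10 * τ ^ 10 + g 11 * τ ^ 11 + g 12 * τ ^ 12

noncomputable def Tf' (g : ℕ → ℂ) (τ : ℂ) : ℂ :=
  g 1 + g 2 * (2 * τ) + g 3 * (3 * τ ^ 2) + g 4 * (4 * τ ^ 3) + g 5 * (5 * τ ^ 4) + g 6 * (6 * τ ^ 5)
    + g 7 * (7 * τ ^ 6) + g 8 * (8 * τ ^ 7) + g 9 * (9 * τ ^ 8) + g 10 * (10 * τ ^ 9) + g 11 * (11 * τ ^ 10)
    + g 12 * (12 * τ ^ 11)

lemma hasDerivAt_Tf (g : ℕ → ℂ) (τ : ℝ) :
    HasDerivAt (fun τ : ℝ => Tf g (τ : ℂ)) (Tf' g (τ : ℂ)) τ := by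
  have h : HasDerivAt (Tf g) (Tf' g (τ : ℂ)) (τ : ℂ) := by
    unfold Tf Tf'
    have hp : ∀ n : ℕ, HasDerivAt (fun z : ℂ => g n * z ^ n) (g n * ((n : ℂ) * (τ : ℂ) ^ (n - 1)))
        (τ : ℂ) := fun n => (hasDerivAt_pow n (τ : ℂ)).const_mul (g n)
    have h0 : HasDerivAt (fun _ : ℂ => g 0) 0 (τ : ℂ) := hasDerivAt_const _ _
    have := ((((((((((((h0.add (hp 1)).add (hp 2)).add (hp 3)).add (hp 4)).add (hp 5)).add (hp 6)).add (hp 7)).add (hp 8)).add (hp 9)).add (hp 10)).add (hp 11)).add (hp 12))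
    refine (this.congr_deriv ?_).congr_of_eventuallyEq (Filter.Eventually.of_forall fun z => ?_)
    · norm_num
    · simp
  exact h.comp_ofReal

/-- the recursion satisfied by the coefficients -/
structure Rec (l0 l1 : ℂ) (e w : ℝ) (g : ℕ → ℂ) : Prop where
  h0 : g 0 = 1
  h1 : g 1 = l0 * g 0
  h2 : 2 * g 2 = l0 * g 1 + l1 * g 0
  h3 : 3 * g 3 = l0 * g 2 + (l1 - e) * g 1 + w * g 0
  h4 : 4 * g 4 = l0 * g 3 + (l1 - 2 * e) * g 2
  h5 : 5 * g 5 = l0 * g 4 + (l1 - 3 * e) * g 3 - w * g 2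
  h6 : 6 * g 6 = l0 * g 5 + (l1 - 4 * e) * g 4 - 2 * w * g 3
  h7 : 7 * g 7 = l0 * g 6 + (l1 - 5 * e) * g 5 - 3 * w * g 4
  h8 : 8 * g 8 = l0 * g 7 + (l1 - 6 * e) * g 6 - 4 * w * g 5
  h9 : 9 * g 9 = l0 * g 8 + (l1 - 7 * e) * g 7 - 5 * w * g 6
  h10 : 10 * g 10 = l0 * g 9 + (l1 - 8 * e) * g 8 - 6 * w * g 7
  h11 : 11 * g 11 = l0 * g 10 + (l1 - 9 * e) * g 9 - 7 * w * g 8
  h12 : 12 * g 12 = l0 * g 11 + (l1 - 10 * e) * g 10 - 8 * w * g 9

/-- the residual -/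
lemma Rec.residual {l0 l1 : ℂ} {e w : ℝ} {g : ℕ → ℂ} (h : Rec l0 l1 e w g) (τ : ℂ) :
    Tf' g τ * (1 + e * τ ^ 2 + w * τ ^ 3) - Tf g τ * (l0 + l1 * τ + w * τ ^ 2)
      = -τ ^ 12 * ((l0 * g 12 + (l1 - 11 * e) * g 11 - 9 * w * g 10)
          + ((l1 - 12 * e) * g 12 - 10 * w * g 11) * τ - 11 * w * g 12 * τ ^ 2) := by
  unfold Tf Tf'
  linear_combination h.h1 + τ * h.h2 + τ ^ 2 * h.h3 + τ ^ 3 * h.h4 + τ ^ 4 * h.h5 + τ ^ 5 * h.h6 + τ ^ 6 * h.h7 + τ ^ 7 * h.h8 + τ ^ 8 * h.h9 + τ ^ 9 * h.h10 + τ ^ 10 * h.h11 + τ ^ 11 * h.h12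

end Crest.Agent.R163.Cen
end

-- ▼ part R163/CenEst
section

/-!
Row 163, centre region: the truncation error.
-/

set_option autoImplicit false

namespace Crest.Agent.R163.Cen

open Complex

lemma Lf_re (x t a b c τ : ℝ) : (Lf x t a b c τ).re
    = (1 - 2 * x) * Real.log (1 + τ * a) + x * (Real.log (1 + τ * b) + Real.log (1 + τ * c)) := by
  simp [Lf]

lemma Lf_im (x t a b c τ : ℝ) : (Lf x t a b c τ).im
    = t * (Real.log (1 + τ * b) - Real.log (1 + τ * c)) := by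
  simp [Lf]

lemma exp_neg_Lf_le (x t a b c τ r : ℝ) (hx0 : 0 ≤ x) (hx1 : x ≤ 1 / 2) (hr : r < 1)
    (ha : 1 - r ≤ 1 + τ * a) (hb : 1 - r ≤ 1 + τ * b) (hc : 1 - r ≤ 1 + τ * c) :
    ‖exp (-Lf x t a b c τ)‖ ≤ 1 / (1 - r) := by
  have h1r : 0 < 1 - r := by linarith
  rw [Complex.norm_exp, Complex.neg_re, Lf_re, Real.exp_neg, ← one_div]
  apply one_div_le_one_div_of_le h1r
  have la : Real.log (1 - r) ≤ Real.log (1 + τ * a) := Real.log_le_log h1r ha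
  have lb : Real.log (1 - r) ≤ Real.log (1 + τ * b) := Real.log_le_log h1r hb
  have lc : Real.log (1 - r) ≤ Real.log (1 + τ * c) := Real.log_le_log h1r hc
  calc 1 - r = Real.exp (Real.log (1 - r)) := (Real.exp_log h1r).symm
    _ ≤ _ := by
      apply Real.exp_le_exp.mpr
      nlinarith [mul_le_mul_of_nonneg_left la (by linarith : 0 ≤ 1 - 2 * x),
        mul_le_mul_of_nonneg_left lb hx0, mul_le_mul_of_nonneg_left lc hx0]

/-- Main truncation estimate: `‖T(1)/G(1) - 1‖ ≤ C / 13` when the residual is `≤ C τ^8`. -/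
theorem trunc (x t a b c r Dm C : ℝ) (g : ℕ → ℂ) (hs : a + b + c = 0) (hx0 : 0 ≤ x)
    (hx1 : x ≤ 1 / 2) (hr : r < 1) (ha : |a| ≤ r) (hb : |b| ≤ r) (hc : |c| ≤ r)
    (hD : 0 < Dm)
    (hDm : ∀ τ : ℝ, 0 ≤ τ → τ ≤ 1 → Dm ≤ (1 + τ * a) * (1 + τ * b) * (1 + τ * c))
    (hg : Rec (lam0 x t a (b - c)) (lam1 x t a (b - c) (a * b + b * c + c * a))
      (a * b + b * c + c * a) (a * b * c) g)
    (hC : ∀ τ : ℝ, 0 ≤ τ → τ ≤ 1 →
      ‖(lam0 x t a (b - c) * g 12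
          + (lam1 x t a (b - c) (a * b + b * c + c * a) - 11 * ((a * b + b * c + c * a : ℝ) : ℂ)) * g 11
          - 9 * ((a * b * c : ℝ) : ℂ) * g 10)
          + ((lam1 x t a (b - c) (a * b + b * c + c * a) - 12 * ((a * b + b * c + c * a : ℝ) : ℂ)) * g 12
          - 10 * ((a * b * c : ℝ) : ℂ) * g 11) * τ
          - 11 * ((a * b * c : ℝ) : ℂ) * g 12 * (τ : ℂ) ^ 2‖ ≤ C * (Dm * (1 - r))) :
    ‖Tf g 1 * exp (-Lf x t a b c 1) - 1‖ ≤ C / 13 := by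
  have h1r : 0 < 1 - r := by linarith
  have hr0 : 0 ≤ r := (abs_nonneg a).trans ha
  have pos : ∀ (v : ℝ), |v| ≤ r → ∀ τ : ℝ, 0 ≤ τ → τ ≤ 1 → 1 - r ≤ 1 + τ * v := by
    intro v hv τ h0 h1
    have := abs_le.mp hv
    nlinarith
  set F : ℝ → ℂ := fun τ => Tf g τ * exp (-Lf x t a b c τ) with hF
  set F' : ℝ → ℂ := fun τ => Tf' g τ * exp (-Lf x t a b c τ)
    + Tf g τ * (exp (-Lf x t a b c τ) * (-Lf' x t a b c τ)) with hF'
  have hder : ∀ τ : ℝ, 0 ≤ τ → τ ≤ 1 → HasDerivAt F (F' τ) τ := by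
    intro τ h0 h1
    have p1 := lt_of_lt_of_le h1r (pos a ha τ h0 h1)
    have p2 := lt_of_lt_of_le h1r (pos b hb τ h0 h1)
    have p3 := lt_of_lt_of_le h1r (pos c hc τ h0 h1)
    have hL := (hasDerivAt_Lf x t a b c τ p1 p2 p3).neg.cexp
    exact (hasDerivAt_Tf g τ).mul hL
  have hbound : ∀ τ : ℝ, 0 ≤ τ → τ ≤ 1 → ‖F' τ‖ ≤ C * τ ^ 12 := by
    intro τ h0 h1
    have q1 := pos a ha τ h0 h1
    have q2 := pos b hb τ h0 h1
    have q3 := pos c hc τ h0 h1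
    have p1 := lt_of_lt_of_le h1r q1
    have p2 := lt_of_lt_of_le h1r q2
    have p3 := lt_of_lt_of_le h1r q3
    have hDτ := hDm τ h0 h1
    have hDpos := lt_of_lt_of_le hD hDτ
    set D : ℝ := (1 + τ * a) * (1 + τ * b) * (1 + τ * c) with hDdef
    have hDe : (D : ℂ) = 1 + ((a * b + b * c + c * a : ℝ) : ℂ) * (τ : ℂ) ^ 2
        + ((a * b * c : ℝ) : ℂ) * (τ : ℂ) ^ 3 := by
      have : D = 1 + (a * b + b * c + c * a) * τ ^ 2 + (a * b * c) * τ ^ 3 := by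
        rw [hDdef]
        linear_combination τ * hs
      rw [this]; push_cast; ring
    have hres := hg.residual (τ : ℂ)
    have hLm := Lf'_mul x t a b c τ hs p1 p2 p3
    have key : F' τ * (D : ℂ) = exp (-Lf x t a b c τ) * (-(τ : ℂ) ^ 12 *
        ((lam0 x t a (b - c) * g 12
          + (lam1 x t a (b - c) (a * b + b * c + c * a) - 11 * ((a * b + b * c + c * a : ℝ) : ℂ)) * g 11
          - 9 * ((a * b * c : ℝ) : ℂ) * g 10)
          + ((lam1 x t a (b - c) (a * b + b * c + c * a) - 12 * ((a * b + b * c + c * a : ℝ) : ℂ)) * g 12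
          - 10 * ((a * b * c : ℝ) : ℂ) * g 11) * τ
          - 11 * ((a * b * c : ℝ) : ℂ) * g 12 * (τ : ℂ) ^ 2)) := by
      rw [← hres, ← hDe, ← hLm, hF']
      ring
    have hn : ‖F' τ‖ * D = ‖F' τ * (D : ℂ)‖ := by
      rw [norm_mul, Complex.norm_real, Real.norm_of_nonneg hDpos.le]
    have hE := exp_neg_Lf_le x t a b c τ r hx0 hx1 hr q1 q2 q3
    have hC' := hC τ h0 h1
    have hC0 : 0 ≤ C * (Dm * (1 - r)) := (norm_nonneg _).trans hC'
    have h2 : ‖F' τ‖ * D ≤ 1 / (1 - r) * (τ ^ 12 * (C * (Dm * (1 - r)))) := by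
      rw [hn, key, norm_mul, norm_mul, norm_neg, norm_pow, Complex.norm_real,
        Real.norm_of_nonneg h0]
      gcongr
    have h3 : 1 / (1 - r) * (τ ^ 12 * (C * (Dm * (1 - r)))) = C * τ ^ 12 * Dm := by
      field_simp
    rw [h3] at h2
    have hC1 : 0 ≤ C * τ ^ 12 := by
      have : 0 ≤ C := by
        by_contra hneg
        push Not at hneg
        have := mul_neg_of_neg_of_pos hneg (mul_pos hD h1r)
        linarith
      positivity
    have h4 : ‖F' τ‖ * Dm ≤ C * τ ^ 12 * Dm :=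
      (mul_le_mul_of_nonneg_left hDτ (norm_nonneg _)).trans h2
    exact le_of_mul_le_mul_right h4 hD
  have hfin := image_norm_le_of_norm_deriv_right_le_deriv_boundary (f := fun τ => F τ - 1)
    (f' := F') (a := 0) (b := 1) (B := fun τ => C / 13 * τ ^ 13) (B' := fun τ => C * τ ^ 12)
    (fun τ hτ => ((hder τ hτ.1 hτ.2).sub_const 1).continuousAt.continuousWithinAt)
    (fun τ hτ => ((hder τ hτ.1 hτ.2.le).sub_const 1).hasDerivWithinAt)
    (by
      have : F 0 = 1 := by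
        simp only [hF]
        simp [Tf, Lf, hg.h0]
      simp [this])
    (fun τ => by
      have := (hasDerivAt_pow 13 τ).const_mul (C / 13)
      refine this.congr_deriv ?_
      norm_num; ring)
    (fun τ hτ => hbound τ hτ.1 hτ.2.le)
  have := @hfin 1 ⟨zero_le_one, le_rfl⟩
  simpa [hF] using this

end Crest.Agent.R163.Cen
end

-- ▼ part R163/CenBd
section

/-!
Row 163, centre region: norm bounds and the truncation estimate for one of the three terms.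
-/

set_option autoImplicit false
set_option linter.unusedVariables false

namespace Crest.Agent.R163.Cen

open Complex

/-- numerical constants for one functional -/
structure Cst (x t u0 : ℝ) where
  l : ℝ
  K1 : ℝ
  K2 : ℝ
  K3 : ℝ
  K4 : ℝ
  K5 : ℝ
  K6 : ℝ
  K7 : ℝ
  K8 : ℝ
  K9 : ℝ
  K10 : ℝ
  K11 : ℝ
  K12 : ℝ
  K13 : ℝ
  g1 : ℝ
  g2 : ℝ
  g3 : ℝ
  g4 : ℝ
  g5 : ℝ
  g6 : ℝ
  g7 : ℝ
  g8 : ℝ
  g9 : ℝ
  g10 : ℝ
  g11 : ℝ
  g12 : ℝ
  Dm : ℝ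
  r0 : ℝ
  C : ℝ
  hx0 : 0 ≤ x
  hx1 : x ≤ 1 / 2
  hu0 : 0 ≤ u0
  hl0 : 0 ≤ l
  hl : ∀ v, 0 ≤ v → v ≤ 2 → (1 - 3 * x) ^ 2 * v + t ^ 2 * (6 - 3 * v) ≤ l ^ 2
  hK1 : 0 ≤ K1 ∧ ∀ v, 0 ≤ v → v ≤ 2 →
    (3 / 2 * (0 - 2 * x) - (1 - 3 * x) * v) ^ 2 + 3 * t ^ 2 * (v * (2 - v)) ≤ K1 ^ 2
  hK2 : 0 ≤ K2 ∧ ∀ v, 0 ≤ v → v ≤ 2 →
    (3 / 2 * (1 - 2 * x) - (1 - 3 * x) * v) ^ 2 + 3 * t ^ 2 * (v * (2 - v)) ≤ K2 ^ 2
  hK3 : 0 ≤ K3 ∧ ∀ v, 0 ≤ v → v ≤ 2 →
    (3 / 2 * (2 - 2 * x) - (1 - 3 * x) * v) ^ 2 + 3 * t ^ 2 * (v * (2 - v)) ≤ K3 ^ 2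
  hK4 : 0 ≤ K4 ∧ ∀ v, 0 ≤ v → v ≤ 2 →
    (3 / 2 * (3 - 2 * x) - (1 - 3 * x) * v) ^ 2 + 3 * t ^ 2 * (v * (2 - v)) ≤ K4 ^ 2
  hK5 : 0 ≤ K5 ∧ ∀ v, 0 ≤ v → v ≤ 2 →
    (3 / 2 * (4 - 2 * x) - (1 - 3 * x) * v) ^ 2 + 3 * t ^ 2 * (v * (2 - v)) ≤ K5 ^ 2
  hK6 : 0 ≤ K6 ∧ ∀ v, 0 ≤ v → v ≤ 2 →
    (3 / 2 * (5 - 2 * x) - (1 - 3 * x) * v) ^ 2 + 3 * t ^ 2 * (v * (2 - v)) ≤ K6 ^ 2
  hK7 : 0 ≤ K7 ∧ ∀ v, 0 ≤ v → v ≤ 2 →
    (3 / 2 * (6 - 2 * x) - (1 - 3 * x) * v) ^ 2 + 3 * t ^ 2 * (v * (2 - v)) ≤ K7 ^ 2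
  hK8 : 0 ≤ K8 ∧ ∀ v, 0 ≤ v → v ≤ 2 →
    (3 / 2 * (7 - 2 * x) - (1 - 3 * x) * v) ^ 2 + 3 * t ^ 2 * (v * (2 - v)) ≤ K8 ^ 2
  hK9 : 0 ≤ K9 ∧ ∀ v, 0 ≤ v → v ≤ 2 →
    (3 / 2 * (8 - 2 * x) - (1 - 3 * x) * v) ^ 2 + 3 * t ^ 2 * (v * (2 - v)) ≤ K9 ^ 2
  hK10 : 0 ≤ K10 ∧ ∀ v, 0 ≤ v → v ≤ 2 →
    (3 / 2 * (9 - 2 * x) - (1 - 3 * x) * v) ^ 2 + 3 * t ^ 2 * (v * (2 - v)) ≤ K10 ^ 2
  hK11 : 0 ≤ K11 ∧ ∀ v, 0 ≤ v → v ≤ 2 →
    (3 / 2 * (10 - 2 * x) - (1 - 3 * x) * v) ^ 2 + 3 * t ^ 2 * (v * (2 - v)) ≤ K11 ^ 2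
  hK12 : 0 ≤ K12 ∧ ∀ v, 0 ≤ v → v ≤ 2 →
    (3 / 2 * (11 - 2 * x) - (1 - 3 * x) * v) ^ 2 + 3 * t ^ 2 * (v * (2 - v)) ≤ K12 ^ 2
  hK13 : 0 ≤ K13 ∧ ∀ v, 0 ≤ v → v ≤ 2 →
    (3 / 2 * (12 - 2 * x) - (1 - 3 * x) * v) ^ 2 + 3 * t ^ 2 * (v * (2 - v)) ≤ K13 ^ 2
  hg1 : l ≤ g1
  hg2 : l * g1 + K1 ≤ 2 * g2
  hg3 : l * g2 + K2 * g1 + 7072 / 10000 ≤ 3 * g3
  hg4 : l * g3 + K3 * g2 ≤ 4 * g4
  hg5 : l * g4 + K4 * g3 + 7072 / 10000 * g2 ≤ 5 * g5
  hg6 : l * g5 + K5 * g4 + 2 * (7072 / 10000) * g3 ≤ 6 * g6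
  hg7 : l * g6 + K6 * g5 + 3 * (7072 / 10000) * g4 ≤ 7 * g7
  hg8 : l * g7 + K7 * g6 + 4 * (7072 / 10000) * g5 ≤ 8 * g8
  hg9 : l * g8 + K8 * g7 + 5 * (7072 / 10000) * g6 ≤ 9 * g9
  hg10 : l * g9 + K9 * g8 + 6 * (7072 / 10000) * g7 ≤ 10 * g10
  hg11 : l * g10 + K10 * g9 + 7 * (7072 / 10000) * g8 ≤ 11 * g11
  hg12 : l * g11 + K11 * g10 + 8 * (7072 / 10000) * g9 ≤ 12 * g12
  hDm0 : 0 < Dm
  hDm : Dm ≤ 1 - 3 / 2 * u0 ^ 2 - 7072 / 10000 * u0 ^ 3
  hr0 : 0 ≤ r0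
  hr1 : r0 < 1
  hr : 2 * u0 ^ 2 ≤ r0 ^ 2
  hC : (l * g12 + K12 * g11 + 9 * (7072 / 10000) * g10) + (K13 * g12 + 10 * (7072 / 10000) * g11) * u0
    + 11 * (7072 / 10000) * g12 * u0 ^ 2 ≤ C * (Dm * (1 - r0))

/-- geometry: `y = a`, `s = avg z²` -/
structure Geo (a b c s : ℝ) : Prop where
  h1 : a + b + c = 0
  h2 : a ^ 2 + b ^ 2 + c ^ 2 = 3 * s

lemma Geo.e (a b c s : ℝ) (h : Geo a b c s) : a * b + b * c + c * a = -(3 / 2) * s := by
  have := h.h1; have := h.h2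
  nlinarith [sq_nonneg (a + b + c), congrArg (fun z => z ^ 2) h.h1]

lemma Geo.s_nonneg {a b c s : ℝ} (h : Geo a b c s) : 0 ≤ s := by
  have := h.h2; nlinarith [sq_nonneg a, sq_nonneg b, sq_nonneg c]

lemma Geo.a_sq {a b c s : ℝ} (h : Geo a b c s) : a ^ 2 ≤ 2 * s := by
  have h1 := h.h1; have h2 := h.h2
  have h3 : a ^ 2 = (b + c) ^ 2 := by
    have : a = -(b + c) := by linarith
    rw [this]; ring
  nlinarith [sq_nonneg (b - c)]

lemma Geo.rot {a b c s : ℝ} (h : Geo a b c s) : Geo b a c s :=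
  ⟨by linarith [h.h1], by linarith [h.h2]⟩

lemma Geo.rot2 {a b c s : ℝ} (h : Geo a b c s) : Geo c a b s :=
  ⟨by linarith [h.h1], by linarith [h.h2]⟩

/-- `w² ≤ s³/2` -/
lemma Geo.w_sq {a b c s : ℝ} (h : Geo a b c s) : (a * b * c) ^ 2 ≤ s ^ 3 / 2 := by
  have h1 := h.h1; have h2 := h.h2
  have hc : c = -(a + b) := by linarith
  have hs : s = 2 / 3 * (a ^ 2 + a * b + b ^ 2) := by subst hc; linarith
  subst hs; subst hc
  nlinarith [sq_nonneg ((a - b) * (a + 2 * b) * (2 * a + b))]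

lemma norm_le_of_sq {z : ℂ} {B : ℝ} (hB : 0 ≤ B) (h : z.re ^ 2 + z.im ^ 2 ≤ B ^ 2) : ‖z‖ ≤ B := by
  rw [Complex.norm_eq_sqrt_sq_add_sq]
  exact Real.sqrt_le_iff.mpr ⟨hB, h⟩

lemma quad1 {A B L s y2 : ℝ} (h : ∀ v, 0 ≤ v → v ≤ 2 → A * v + B * (6 - 3 * v) ≤ L) (hs : 0 ≤ s)
    (h0 : 0 ≤ y2) (h1 : y2 ≤ 2 * s) : A * y2 + B * (6 * s - 3 * y2) ≤ L * s := by
  rcases hs.eq_or_lt with rfl | hs'
  · obtain rfl : y2 = 0 := by linarith
    simp
  · have h2 := h (y2 / s) (div_nonneg h0 hs) (by rw [div_le_iff₀ hs']; exact h1)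
    have h3 : A * y2 + B * (6 * s - 3 * y2) = (A * (y2 / s) + B * (6 - 3 * (y2 / s))) * s := by
      field_simp
    rw [h3]
    exact mul_le_mul_of_nonneg_right h2 hs

lemma quad2 {α β T K s y2 : ℝ}
    (h : ∀ v, 0 ≤ v → v ≤ 2 → (α - β * v) ^ 2 + 3 * T * (v * (2 - v)) ≤ K) (hs : 0 ≤ s)
    (h0 : 0 ≤ y2) (h1 : y2 ≤ 2 * s) :
    (α * s - β * y2) ^ 2 + 3 * T * (y2 * (2 * s - y2)) ≤ K * s ^ 2 := by
  rcases hs.eq_or_lt with rfl | hs'
  · obtain rfl : y2 = 0 := by linarith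
    simp
  · have h2 := h (y2 / s) (div_nonneg h0 hs) (by rw [div_le_iff₀ hs']; exact h1)
    have h3 : (α * s - β * y2) ^ 2 + 3 * T * (y2 * (2 * s - y2))
        = ((α - β * (y2 / s)) ^ 2 + 3 * T * (y2 / s * (2 - y2 / s))) * s ^ 2 := by
      field_simp
    rw [h3]
    exact mul_le_mul_of_nonneg_right h2 (sq_nonneg s)

section bounds

variable {x t u0 a b c s u : ℝ}

lemma d_sq (h : Geo a b c s) : (b - c) ^ 2 = 6 * s - 3 * a ^ 2 := by
  have h1 := h.h1; have h2 := h.h2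
  have : a = -(b + c) := by linarith
  subst this
  linarith

lemma lam0_le (k : Cst x t u0) (h : Geo a b c s) (hu : 0 ≤ u) (hus : u ^ 2 = s) :
    ‖lam0 x t a (b - c)‖ ≤ k.l * u := by
  apply norm_le_of_sq (mul_nonneg k.hl0 hu)
  have h1 : (lam0 x t a (b - c)).re = (1 - 3 * x) * a := by simp [lam0]
  have h2 : (lam0 x t a (b - c)).im = t * (b - c) := by simp [lam0]
  rw [h1, h2]
  have h3 := quad1 (A := (1 - 3 * x) ^ 2) (B := t ^ 2) (L := k.l ^ 2) k.hl h.s_nonneg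
    (sq_nonneg a) h.a_sq
  have h4 := d_sq h
  calc ((1 - 3 * x) * a) ^ 2 + (t * (b - c)) ^ 2
      = (1 - 3 * x) ^ 2 * a ^ 2 + t ^ 2 * (6 * s - 3 * a ^ 2) := by rw [← h4]; ring
    _ ≤ k.l ^ 2 * s := h3
    _ = (k.l * u) ^ 2 := by rw [← hus]; ring

lemma lam1_le (m K : ℝ) (hK : 0 ≤ K ∧ ∀ v, 0 ≤ v → v ≤ 2 →
      (3 / 2 * (m - 2 * x) - (1 - 3 * x) * v) ^ 2 + 3 * t ^ 2 * (v * (2 - v)) ≤ K ^ 2)
    (h : Geo a b c s) (hus : u ^ 2 = s) :
    ‖lam1 x t a (b - c) (-(3 / 2) * s) - (m : ℂ) * ((-(3 / 2) * s : ℝ) : ℂ)‖ ≤ K * u ^ 2 := by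
  apply norm_le_of_sq (mul_nonneg hK.1 (sq_nonneg u))
  have h1 : (lam1 x t a (b - c) (-(3 / 2) * s) - (m : ℂ) * ((-(3 / 2) * s : ℝ) : ℂ)).re
      = 3 / 2 * (m - 2 * x) * s - (1 - 3 * x) * a ^ 2 := by
    rw [← Complex.ofReal_mul]
    simp only [lam1, Complex.sub_re, Complex.add_re, Complex.ofReal_re, Complex.mul_re,
      Complex.ofReal_im, Complex.I_re, Complex.I_im]
    ring
  have h2 : (lam1 x t a (b - c) (-(3 / 2) * s) - (m : ℂ) * ((-(3 / 2) * s : ℝ) : ℂ)).im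
      = t * a * (b - c) := by
    rw [← Complex.ofReal_mul]
    simp only [lam1, Complex.sub_im, Complex.add_im, Complex.ofReal_re, Complex.mul_im,
      Complex.ofReal_im, Complex.I_re, Complex.I_im]
    ring
  rw [h1, h2]
  have h3 := quad2 (α := 3 / 2 * (m - 2 * x)) (β := 1 - 3 * x) (T := t ^ 2) (K := K ^ 2) hK.2
    h.s_nonneg (sq_nonneg a) h.a_sq
  have h4 := d_sq h
  calc (3 / 2 * (m - 2 * x) * s - (1 - 3 * x) * a ^ 2) ^ 2 + (t * a * (b - c)) ^ 2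
      = (3 / 2 * (m - 2 * x) * s - (1 - 3 * x) * a ^ 2) ^ 2
        + 3 * t ^ 2 * (a ^ 2 * (2 * s - a ^ 2)) := by
        have : (t * a * (b - c)) ^ 2 = t ^ 2 * a ^ 2 * (b - c) ^ 2 := by ring
        rw [this, h4]; ring
    _ ≤ K ^ 2 * s ^ 2 := h3
    _ = (K * u ^ 2) ^ 2 := by rw [← hus]; ring

lemma w_le (h : Geo a b c s) (hu : 0 ≤ u) (hus : u ^ 2 = s) :
    |a * b * c| ≤ 7072 / 10000 * u ^ 3 := by
  apply abs_le_of_sq_le_sq _ (by positivity)
  have h1 := h.w_sq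
  rw [← hus] at h1
  nlinarith [pow_nonneg hu 6]

lemma hw_norm (h : Geo a b c s) (hu : 0 ≤ u) (hus : u ^ 2 = s) :
    ‖((a * b * c : ℝ) : ℂ)‖ ≤ 7072 / 10000 * u ^ 3 := by
  rw [Complex.norm_real]; exact w_le h hu hus

/-- one step of the norm recursion -/
lemma step3 {z l0 A W G2 G1 G0 : ℂ} {N l K κ γ γ2 γ1 γ0 u : ℝ} {n : ℕ} (hN : 0 < N)
    (hz : (N : ℂ) * z = l0 * G2 + A * G1 + W * G0) (hu : 0 ≤ u) (hl0 : 0 ≤ l) (hK0 : 0 ≤ K)
    (hκ : 0 ≤ κ) (h0 : ‖l0‖ ≤ l * u) (hA : ‖A‖ ≤ K * u ^ 2) (hW : ‖W‖ ≤ κ * u ^ 3)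
    (hG2 : ‖G2‖ ≤ γ2 * u ^ (n + 2)) (hG1 : ‖G1‖ ≤ γ1 * u ^ (n + 1)) (hG0 : ‖G0‖ ≤ γ0 * u ^ n)
    (hγ : l * γ2 + K * γ1 + κ * γ0 ≤ N * γ) : ‖z‖ ≤ γ * u ^ (n + 3) := by
  have h1 : N * ‖z‖ = ‖(N : ℂ) * z‖ := by
    rw [norm_mul, Complex.norm_real, Real.norm_of_nonneg hN.le]
  have h2 : ‖(N : ℂ) * z‖ ≤ l * u * (γ2 * u ^ (n + 2)) + K * u ^ 2 * (γ1 * u ^ (n + 1))
      + κ * u ^ 3 * (γ0 * u ^ n) := by
    rw [hz]
    refine (norm_add₃_le).trans ?_
    rw [norm_mul, norm_mul, norm_mul]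
    gcongr
  have h3 : l * u * (γ2 * u ^ (n + 2)) + K * u ^ 2 * (γ1 * u ^ (n + 1))
      + κ * u ^ 3 * (γ0 * u ^ n) = (l * γ2 + K * γ1 + κ * γ0) * u ^ (n + 3) := by ring
  have h4 : N * ‖z‖ ≤ N * (γ * u ^ (n + 3)) := by
    rw [h1]
    refine h2.trans ?_
    rw [h3, ← mul_assoc]
    exact mul_le_mul_of_nonneg_right hγ (by positivity)
  exact le_of_mul_le_mul_left h4 hN

/-- norm bounds for a solution of the recursion -/
structure GB (k : Cst x t u0) (g : ℕ → ℂ) (u : ℝ) : Prop where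
  b10 : ‖g 10‖ ≤ k.g10 * u ^ 10
  b11 : ‖g 11‖ ≤ k.g11 * u ^ 11
  b12 : ‖g 12‖ ≤ k.g12 * u ^ 12

lemma gbound (k : Cst x t u0) (h : Geo a b c s) (hu : 0 ≤ u) (hus : u ^ 2 = s) (g : ℕ → ℂ)
    (hg : Rec (lam0 x t a (b - c)) (lam1 x t a (b - c) (-(3 / 2) * s)) (-(3 / 2) * s)
      (a * b * c) g) : GB k g u := by
  have L0 := lam0_le k h hu hus
  have W0 := hw_norm h hu hus
  have b0 : ‖g 0‖ ≤ 1 * u ^ 0 := by rw [hg.h0]; simp
  have b1 : ‖g 1‖ ≤ k.g1 * u ^ 1 := by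
    rw [hg.h1, hg.h0, mul_one, pow_one]
    exact L0.trans (mul_le_mul_of_nonneg_right k.hg1 hu)
  have b2 : ‖g 2‖ ≤ k.g2 * u ^ 2 := by
    have A := lam1_le 0 k.K1 k.hK1 h hus
    have h1 : 2 * ‖g 2‖ = ‖2 * g 2‖ := by rw [norm_mul]; simp
    have h2 : 2 * ‖g 2‖ ≤ k.l * u * (k.g1 * u ^ 1) + k.K1 * u ^ 2 * (1 * u ^ 0) := by
      rw [h1, hg.h2]
      refine (norm_add_le _ _).trans ?_
      rw [norm_mul, norm_mul]
      have hl := k.hl0
      have hK := k.hK1.1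
      simp only [Complex.ofReal_zero, zero_mul, sub_zero] at A
      gcongr
    have h3 : k.l * u * (k.g1 * u ^ 1) + k.K1 * u ^ 2 * (1 * u ^ 0)
        = (k.l * k.g1 + k.K1) * u ^ 2 := by ring
    rw [h3] at h2
    have := mul_le_mul_of_nonneg_right k.hg2 (sq_nonneg u)
    linarith
  have b3 : ‖g 3‖ ≤ k.g3 * u ^ 3 := by
    have A := lam1_le 1 k.K2 k.hK2 h hus
    refine step3 (N := 3) (n := 0) (by norm_num) ?_ hu k.hl0 k.hK2.1 (by norm_num) L0 A W0 b2 b1 b0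
      (by linarith [k.hg3])
    have hh := hg.h3
    push_cast at hh ⊢
    linear_combination hh
  have b4 : ‖g 4‖ ≤ k.g4 * u ^ 4 := by
    have A := lam1_le 2 k.K3 k.hK3 h hus
    refine step3 (N := 4) (n := 1) (κ := 0) (W := 0) (by norm_num) ?_ hu k.hl0 k.hK3.1 le_rfl L0 A
      (by simp) b3 b2 b1 (by linarith [k.hg4])
    have hh := hg.h4
    push_cast at hh ⊢
    linear_combination hh
  have b5 : ‖g 5‖ ≤ k.g5 * u ^ 5 := by
    have A := lam1_le 3 k.K4 k.hK4 h hus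
    refine step3 (N := 5) (n := 2) (κ := 7072 / 10000) (W := -((a * b * c : ℝ) : ℂ))
      (by norm_num) ?_ hu k.hl0 k.hK4.1 (by norm_num) L0 A (by rw [norm_neg]; exact W0) b4 b3 b2
      (by linarith [k.hg5])
    have hh := hg.h5
    push_cast at hh ⊢
    linear_combination hh
  have b6 : ‖g 6‖ ≤ k.g6 * u ^ 6 := by
    have A := lam1_le 4 k.K5 k.hK5 h hus
    refine step3 (N := 6) (n := 3) (κ := 2 * (7072 / 10000)) (W := -2 * ((a * b * c : ℝ) : ℂ))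
      (by norm_num) ?_ hu k.hl0 k.hK5.1 (by norm_num) L0 A ?_ b5 b4 b3 (by linarith [k.hg6])
    · have hh := hg.h6
      push_cast at hh ⊢
      linear_combination hh
    · rw [norm_mul, norm_neg]; simp only [Complex.norm_ofNat]; nlinarith [W0]
  have b7 : ‖g 7‖ ≤ k.g7 * u ^ 7 := by
    have A := lam1_le 5 k.K6 k.hK6 h hus
    refine step3 (N := 7) (n := 4) (κ := 3 * (7072 / 10000)) (W := -3 * ((a * b * c : ℝ) : ℂ))
      (by norm_num) ?_ hu k.hl0 k.hK6.1 (by norm_num) L0 A ?_ b6 b5 b4 (by linarith [k.hg7])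
    · have hh := hg.h7
      push_cast at hh ⊢
      linear_combination hh
    · rw [norm_mul, norm_neg]; simp only [Complex.norm_ofNat]; nlinarith [W0]
  have b8 : ‖g 8‖ ≤ k.g8 * u ^ 8 := by
    have A := lam1_le 6 k.K7 k.hK7 h hus
    refine step3 (N := 8) (n := 5) (κ := 4 * (7072 / 10000)) (W := -4 * ((a * b * c : ℝ) : ℂ))
      (by norm_num) ?_ hu k.hl0 k.hK7.1 (by norm_num) L0 A ?_ b7 b6 b5 (by linarith [k.hg8])
    · have hh := hg.h8
      push_cast at hh ⊢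
      linear_combination hh
    · rw [norm_mul, norm_neg]; simp only [Complex.norm_ofNat]; nlinarith [W0]
  have b9 : ‖g 9‖ ≤ k.g9 * u ^ 9 := by
    have A := lam1_le 7 k.K8 k.hK8 h hus
    refine step3 (N := 9) (n := 6) (κ := 5 * (7072 / 10000)) (W := -5 * ((a * b * c : ℝ) : ℂ))
      (by norm_num) ?_ hu k.hl0 k.hK8.1 (by norm_num) L0 A ?_ b8 b7 b6 (by linarith [k.hg9])
    · have hh := hg.h9
      push_cast at hh ⊢
      linear_combination hh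
    · rw [norm_mul, norm_neg]; simp only [Complex.norm_ofNat]; nlinarith [W0]
  have b10 : ‖g 10‖ ≤ k.g10 * u ^ 10 := by
    have A := lam1_le 8 k.K9 k.hK9 h hus
    refine step3 (N := 10) (n := 7) (κ := 6 * (7072 / 10000)) (W := -6 * ((a * b * c : ℝ) : ℂ))
      (by norm_num) ?_ hu k.hl0 k.hK9.1 (by norm_num) L0 A ?_ b9 b8 b7 (by linarith [k.hg10])
    · have hh := hg.h10
      push_cast at hh ⊢
      linear_combination hh
    · rw [norm_mul, norm_neg]; simp only [Complex.norm_ofNat]; nlinarith [W0]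
  have b11 : ‖g 11‖ ≤ k.g11 * u ^ 11 := by
    have A := lam1_le 9 k.K10 k.hK10 h hus
    refine step3 (N := 11) (n := 8) (κ := 7 * (7072 / 10000)) (W := -7 * ((a * b * c : ℝ) : ℂ))
      (by norm_num) ?_ hu k.hl0 k.hK10.1 (by norm_num) L0 A ?_ b10 b9 b8 (by linarith [k.hg11])
    · have hh := hg.h11
      push_cast at hh ⊢
      linear_combination hh
    · rw [norm_mul, norm_neg]; simp only [Complex.norm_ofNat]; nlinarith [W0]
  have b12 : ‖g 12‖ ≤ k.g12 * u ^ 12 := by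
    have A := lam1_le 10 k.K11 k.hK11 h hus
    refine step3 (N := 12) (n := 9) (κ := 8 * (7072 / 10000)) (W := -8 * ((a * b * c : ℝ) : ℂ))
      (by norm_num) ?_ hu k.hl0 k.hK11.1 (by norm_num) L0 A ?_ b11 b10 b9 (by linarith [k.hg12])
    · have hh := hg.h12
      push_cast at hh ⊢
      linear_combination hh
    · rw [norm_mul, norm_neg]; simp only [Complex.norm_ofNat]; nlinarith [W0]
  exact ⟨b10, b11, b12⟩

/-- truncation error for one of the three terms -/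
theorem one_term (k : Cst x t u0) (h : Geo a b c s) (hu : 0 ≤ u) (hus : u ^ 2 = s) (huu : u ≤ u0)
    (g : ℕ → ℂ)
    (hg : Rec (lam0 x t a (b - c)) (lam1 x t a (b - c) (-(3 / 2) * s)) (-(3 / 2) * s)
      (a * b * c) g) :
    ‖Tf g 1 * exp (-Lf x t a b c 1) - 1‖ ≤ k.C * u ^ 13 / 13 := by
  have GBk := gbound k h hu hus g hg
  have he := h.e
  have L0 := lam0_le k h hu hus
  have W0 := hw_norm h hu hus
  have A8 := lam1_le 11 k.K12 k.hK12 h hus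
  have A9 := lam1_le 12 k.K13 k.hK13 h hus
  have hsmall : ∀ v : ℝ, v ^ 2 ≤ 2 * s → |v| ≤ k.r0 := by
    intro v hv
    apply abs_le_of_sq_le_sq _ k.hr0
    have := k.hr
    have hu2 : u ^ 2 ≤ u0 ^ 2 := pow_le_pow_left₀ hu huu 2
    nlinarith
  have ha := hsmall a h.a_sq
  have hb := hsmall b h.rot.a_sq
  have hc := hsmall c h.rot2.a_sq
  refine trunc x t a b c k.r0 k.Dm (k.C * u ^ 13) g h.h1 k.hx0 k.hx1 k.hr1 ha hb hc k.hDm0 ?_ ?_ ?_
  · intro τ h0 h1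
    have hD : (1 + τ * a) * (1 + τ * b) * (1 + τ * c)
        = 1 + (a * b + b * c + c * a) * τ ^ 2 + (a * b * c) * τ ^ 3 := by
      linear_combination τ * h.h1
    rw [hD, he, ← hus]
    have hw := abs_le.mp (w_le h hu hus)
    have hu2 : u ^ 2 ≤ u0 ^ 2 := pow_le_pow_left₀ hu huu 2
    have hu3 : u ^ 3 ≤ u0 ^ 3 := pow_le_pow_left₀ hu huu 3
    have ht2 : τ ^ 2 ≤ 1 := pow_le_one₀ h0 h1
    have ht3 : τ ^ 3 ≤ 1 := pow_le_one₀ h0 h1
    have e1 : u ^ 2 * τ ^ 2 ≤ u ^ 2 * 1 := mul_le_mul_of_nonneg_left ht2 (sq_nonneg u)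
    have e2 : -(7072 / 10000 * u ^ 3) * 1 ≤ -(7072 / 10000 * u ^ 3) * τ ^ 3 := by
      have : 0 ≤ 7072 / 10000 * u ^ 3 := by positivity
      nlinarith
    have e3 : -(7072 / 10000 * u ^ 3) * τ ^ 3 ≤ a * b * c * τ ^ 3 :=
      mul_le_mul_of_nonneg_right hw.1 (by positivity)
    have := k.hDm
    nlinarith
  · rw [he]; exact hg
  · intro τ h0 h1
    rw [he]
    have hτ : ‖(τ : ℂ)‖ ≤ 1 := by rw [Complex.norm_real, Real.norm_of_nonneg h0]; exact h1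
    have hl := k.hl0
    have hK8 := k.hK12.1
    have hK9 := k.hK13.1
    have hg6 : 0 ≤ k.g10 * u ^ 10 := (norm_nonneg _).trans GBk.b10
    have hg7 : 0 ≤ k.g11 * u ^ 11 := (norm_nonneg _).trans GBk.b11
    have hg8 : 0 ≤ k.g12 * u ^ 12 := (norm_nonneg _).trans GBk.b12
    have t1 : ‖lam0 x t a (b - c) * g 12
        + (lam1 x t a (b - c) (-(3 / 2) * s) - 11 * ((-(3 / 2) * s : ℝ) : ℂ)) * g 11
        - 9 * ((a * b * c : ℝ) : ℂ) * g 10‖
        ≤ (k.l * k.g12 + k.K12 * k.g11 + 9 * (7072 / 10000) * k.g10) * u ^ 13 := by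
      have h5 : ‖(9 : ℂ) * ((a * b * c : ℝ) : ℂ)‖ ≤ 9 * (7072 / 10000 * u ^ 3) := by
        rw [norm_mul]; simp only [Complex.norm_ofNat]; linarith
      calc _ ≤ ‖lam0 x t a (b - c) * g 12‖
            + ‖(lam1 x t a (b - c) (-(3 / 2) * s) - 11 * ((-(3 / 2) * s : ℝ) : ℂ)) * g 11‖
            + ‖9 * ((a * b * c : ℝ) : ℂ) * g 10‖ :=
            (norm_sub_le _ _).trans (by gcongr; exact norm_add_le _ _)
        _ ≤ k.l * u * (k.g12 * u ^ 12) + k.K12 * u ^ 2 * (k.g11 * u ^ 11)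
            + 9 * (7072 / 10000 * u ^ 3) * (k.g10 * u ^ 10) := by
            rw [norm_mul, norm_mul, norm_mul (9 * ((a * b * c : ℝ) : ℂ))]
            have A8' : ‖lam1 x t a (b - c) (-(3 / 2) * s) - 11 * ((-(3 / 2) * s : ℝ) : ℂ)‖
              ≤ k.K12 * u ^ 2 := by simpa using A8
            have := GBk.b10; have := GBk.b11; have := GBk.b12
            gcongr
        _ = _ := by ring
    have t2 : ‖(lam1 x t a (b - c) (-(3 / 2) * s) - 12 * ((-(3 / 2) * s : ℝ) : ℂ)) * g 12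
        - 10 * ((a * b * c : ℝ) : ℂ) * g 11‖
        ≤ (k.K13 * k.g12 + 10 * (7072 / 10000) * k.g11) * u ^ 14 := by
      have h6 : ‖(10 : ℂ) * ((a * b * c : ℝ) : ℂ)‖ ≤ 10 * (7072 / 10000 * u ^ 3) := by
        rw [norm_mul]; simp only [Complex.norm_ofNat]; linarith
      calc _ ≤ ‖(lam1 x t a (b - c) (-(3 / 2) * s) - 12 * ((-(3 / 2) * s : ℝ) : ℂ)) * g 12‖
            + ‖10 * ((a * b * c : ℝ) : ℂ) * g 11‖ := norm_sub_le _ _
        _ ≤ k.K13 * u ^ 2 * (k.g12 * u ^ 12) + 10 * (7072 / 10000 * u ^ 3) * (k.g11 * u ^ 11) := by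
            rw [norm_mul, norm_mul (10 * ((a * b * c : ℝ) : ℂ))]
            have A9' : ‖lam1 x t a (b - c) (-(3 / 2) * s) - 12 * ((-(3 / 2) * s : ℝ) : ℂ)‖
              ≤ k.K13 * u ^ 2 := by simpa using A9
            have := GBk.b11; have := GBk.b12
            gcongr
        _ = _ := by ring
    have t3 : ‖11 * ((a * b * c : ℝ) : ℂ) * g 12‖ ≤ 11 * (7072 / 10000) * k.g12 * u ^ 15 := by
      have h7 : ‖(11 : ℂ) * ((a * b * c : ℝ) : ℂ)‖ ≤ 11 * (7072 / 10000 * u ^ 3) := by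
        rw [norm_mul]; simp only [Complex.norm_ofNat]; linarith
      calc _ ≤ 11 * (7072 / 10000 * u ^ 3) * (k.g12 * u ^ 12) := by
            rw [norm_mul]
            have := GBk.b12
            gcongr
        _ = _ := by ring
    have u9 : 0 ≤ u ^ 13 := by positivity
    have s2 : (k.K13 * k.g12 + 10 * (7072 / 10000) * k.g11) * u ^ 14
        ≤ (k.K13 * k.g12 + 10 * (7072 / 10000) * k.g11) * u0 * u ^ 13 := by
      have hnn : 0 ≤ (k.K13 * k.g12 + 10 * (7072 / 10000) * k.g11) * u ^ 13 := by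
        rcases hu.eq_or_lt with h0 | h0
        · rw [← h0]; simp
        · have g8 : 0 ≤ k.g12 := nonneg_of_mul_nonneg_left hg8 (by positivity)
          have g7 : 0 ≤ k.g11 := nonneg_of_mul_nonneg_left hg7 (by positivity)
          positivity
      have := mul_le_mul_of_nonneg_left huu hnn
      nlinarith
    have s3 : 11 * (7072 / 10000) * k.g12 * u ^ 15 ≤ 11 * (7072 / 10000) * k.g12 * u0 ^ 2 * u ^ 13 := by
      have hnn : 0 ≤ 11 * (7072 / 10000) * k.g12 * u ^ 13 := by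
        rcases hu.eq_or_lt with h0 | h0
        · rw [← h0]; simp
        · have g8 : 0 ≤ k.g12 := nonneg_of_mul_nonneg_left hg8 (by positivity)
          positivity
      have := mul_le_mul_of_nonneg_left (pow_le_pow_left₀ hu huu 2) hnn
      nlinarith
    have hC := mul_le_mul_of_nonneg_right k.hC u9
    calc _ ≤ (k.l * k.g12 + k.K12 * k.g11 + 9 * (7072 / 10000) * k.g10) * u ^ 13
          + (k.K13 * k.g12 + 10 * (7072 / 10000) * k.g11) * u ^ 14 * 1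
          + 11 * (7072 / 10000) * k.g12 * u ^ 15 * 1 := by
          refine (norm_sub_le _ _).trans ?_
          refine add_le_add ((norm_add_le _ _).trans (add_le_add t1 ?_)) ?_
          · rw [norm_mul]
            exact mul_le_mul t2 hτ (norm_nonneg _) ((norm_nonneg _).trans t2)
          · rw [norm_mul, norm_pow]
            exact mul_le_mul t3 (pow_le_one₀ (norm_nonneg _) hτ) (by positivity)
              ((norm_nonneg _).trans t3)
      _ ≤ _ := by nlinarith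

end bounds

end Crest.Agent.R163.Cen
end

-- ▼ part R163/CenRec

/-!
Row 163, centre region: real form of the recursion and the final Taylor theorem for `fxt`.
-/

set_option autoImplicit false
set_option linter.unusedVariables false
set_option linter.unusedSimpArgs false

namespace Crest.Agent.R163.Cen

open Complex

/-- real form of the recursion, `g n = p n + i d q n`, `d ^ 2 = -3 y ^ 2 - 4 e` -/
structure RRec (x t y e w : ℝ) (p q : ℕ → ℝ) : Prop where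
  p0 : p 0 = 1
  q0 : q 0 = 0
  p1 : p 1 = (1 - 3 * x) * y
  q1 : q 1 = t
  p2 : 2 * p 2 = (1 - 3 * x) * y * p 1 - t * (-3 * y ^ 2 - 4 * e) * q 1
    + (-(1 - 3 * x) * y ^ 2 + 2 * x * e) * p 0 - t * y * (-3 * y ^ 2 - 4 * e) * q 0
  q2 : 2 * q 2 = (1 - 3 * x) * y * q 1 + t * p 1
    + (-(1 - 3 * x) * y ^ 2 + 2 * x * e) * q 0 + t * y * p 0
  p3 : 3 * p 3 = (1 - 3 * x) * y * p 2 - t * (-3 * y ^ 2 - 4 * e) * q 2
    + (-(1 - 3 * x) * y ^ 2 + 2 * x * e - e) * p 1 - t * y * (-3 * y ^ 2 - 4 * e) * q 1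
    + w * p 0
  q3 : 3 * q 3 = (1 - 3 * x) * y * q 2 + t * p 2
    + (-(1 - 3 * x) * y ^ 2 + 2 * x * e - e) * q 1 + t * y * p 1
    + w * q 0
  p4 : 4 * p 4 = (1 - 3 * x) * y * p 3 - t * (-3 * y ^ 2 - 4 * e) * q 3
    + (-(1 - 3 * x) * y ^ 2 + 2 * x * e - 2 * e) * p 2 - t * y * (-3 * y ^ 2 - 4 * e) * q 2
  q4 : 4 * q 4 = (1 - 3 * x) * y * q 3 + t * p 3
    + (-(1 - 3 * x) * y ^ 2 + 2 * x * e - 2 * e) * q 2 + t * y * p 2
  p5 : 5 * p 5 = (1 - 3 * x) * y * p 4 - t * (-3 * y ^ 2 - 4 * e) * q 4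
    + (-(1 - 3 * x) * y ^ 2 + 2 * x * e - 3 * e) * p 3 - t * y * (-3 * y ^ 2 - 4 * e) * q 3
    - w * p 2
  q5 : 5 * q 5 = (1 - 3 * x) * y * q 4 + t * p 4
    + (-(1 - 3 * x) * y ^ 2 + 2 * x * e - 3 * e) * q 3 + t * y * p 3
    - w * q 2
  p6 : 6 * p 6 = (1 - 3 * x) * y * p 5 - t * (-3 * y ^ 2 - 4 * e) * q 5
    + (-(1 - 3 * x) * y ^ 2 + 2 * x * e - 4 * e) * p 4 - t * y * (-3 * y ^ 2 - 4 * e) * q 4
    - 2 * w * p 3
  q6 : 6 * q 6 = (1 - 3 * x) * y * q 5 + t * p 5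
    + (-(1 - 3 * x) * y ^ 2 + 2 * x * e - 4 * e) * q 4 + t * y * p 4
    - 2 * w * q 3
  p7 : 7 * p 7 = (1 - 3 * x) * y * p 6 - t * (-3 * y ^ 2 - 4 * e) * q 6
    + (-(1 - 3 * x) * y ^ 2 + 2 * x * e - 5 * e) * p 5 - t * y * (-3 * y ^ 2 - 4 * e) * q 5
    - 3 * w * p 4
  q7 : 7 * q 7 = (1 - 3 * x) * y * q 6 + t * p 6
    + (-(1 - 3 * x) * y ^ 2 + 2 * x * e - 5 * e) * q 5 + t * y * p 5
    - 3 * w * q 4
  p8 : 8 * p 8 = (1 - 3 * x) * y * p 7 - t * (-3 * y ^ 2 - 4 * e) * q 7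
    + (-(1 - 3 * x) * y ^ 2 + 2 * x * e - 6 * e) * p 6 - t * y * (-3 * y ^ 2 - 4 * e) * q 6
    - 4 * w * p 5
  q8 : 8 * q 8 = (1 - 3 * x) * y * q 7 + t * p 7
    + (-(1 - 3 * x) * y ^ 2 + 2 * x * e - 6 * e) * q 6 + t * y * p 6
    - 4 * w * q 5
  p9 : 9 * p 9 = (1 - 3 * x) * y * p 8 - t * (-3 * y ^ 2 - 4 * e) * q 8
    + (-(1 - 3 * x) * y ^ 2 + 2 * x * e - 7 * e) * p 7 - t * y * (-3 * y ^ 2 - 4 * e) * q 7
    - 5 * w * p 6
  q9 : 9 * q 9 = (1 - 3 * x) * y * q 8 + t * p 8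
    + (-(1 - 3 * x) * y ^ 2 + 2 * x * e - 7 * e) * q 7 + t * y * p 7
    - 5 * w * q 6
  p10 : 10 * p 10 = (1 - 3 * x) * y * p 9 - t * (-3 * y ^ 2 - 4 * e) * q 9
    + (-(1 - 3 * x) * y ^ 2 + 2 * x * e - 8 * e) * p 8 - t * y * (-3 * y ^ 2 - 4 * e) * q 8
    - 6 * w * p 7
  q10 : 10 * q 10 = (1 - 3 * x) * y * q 9 + t * p 9
    + (-(1 - 3 * x) * y ^ 2 + 2 * x * e - 8 * e) * q 8 + t * y * p 8
    - 6 * w * q 7
  p11 : 11 * p 11 = (1 - 3 * x) * y * p 10 - t * (-3 * y ^ 2 - 4 * e) * q 10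
    + (-(1 - 3 * x) * y ^ 2 + 2 * x * e - 9 * e) * p 9 - t * y * (-3 * y ^ 2 - 4 * e) * q 9
    - 7 * w * p 8
  q11 : 11 * q 11 = (1 - 3 * x) * y * q 10 + t * p 10
    + (-(1 - 3 * x) * y ^ 2 + 2 * x * e - 9 * e) * q 9 + t * y * p 9
    - 7 * w * q 8
  p12 : 12 * p 12 = (1 - 3 * x) * y * p 11 - t * (-3 * y ^ 2 - 4 * e) * q 11
    + (-(1 - 3 * x) * y ^ 2 + 2 * x * e - 10 * e) * p 10 - t * y * (-3 * y ^ 2 - 4 * e) * q 10
    - 8 * w * p 9
  q12 : 12 * q 12 = (1 - 3 * x) * y * q 11 + t * p 11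
    + (-(1 - 3 * x) * y ^ 2 + 2 * x * e - 10 * e) * q 10 + t * y * p 10
    - 8 * w * q 9

/-- the complex sequence -/
noncomputable def gg (p q : ℕ → ℝ) (d : ℝ) (n : ℕ) : ℂ := (p n : ℂ) + ((d * q n : ℝ) : ℂ) * I

lemma gg_re (p q : ℕ → ℝ) (d : ℝ) (n : ℕ) : (gg p q d n).re = p n := by simp [gg]
lemma gg_im (p q : ℕ → ℝ) (d : ℝ) (n : ℕ) : (gg p q d n).im = d * q n := by simp [gg]

lemma lam0_re (x t y d : ℝ) : (lam0 x t y d).re = (1 - 3 * x) * y := by simp [lam0]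
lemma lam0_im (x t y d : ℝ) : (lam0 x t y d).im = t * d := by simp [lam0]
lemma lam1_re (x t y d e : ℝ) : (lam1 x t y d e).re = -(1 - 3 * x) * y ^ 2 + 2 * x * e := by
  simp only [lam1, Complex.add_re, Complex.ofReal_re, Complex.mul_re, Complex.ofReal_im,
    Complex.I_re, Complex.I_im]
  ring
lemma lam1_im (x t y d e : ℝ) : (lam1 x t y d e).im = t * y * d := by
  simp only [lam1, Complex.add_im, Complex.ofReal_re, Complex.mul_im, Complex.ofReal_im,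
    Complex.I_re, Complex.I_im]
  ring

lemma RRec.toRec {x t y e w d : ℝ} {p q : ℕ → ℝ} (h : RRec x t y e w p q)
    (hd : d ^ 2 = -3 * y ^ 2 - 4 * e) :
    Rec (lam0 x t y d) (lam1 x t y d e) e w (gg p q d) := by
  constructor
  · apply Complex.ext
    · rw [gg_re, h.p0]; simp
    · rw [gg_im, h.q0]; simp
  · apply Complex.ext
    · rw [Complex.mul_re, gg_re, gg_re, gg_im, lam0_re, lam0_im, h.p0, h.q0, h.p1]; ring
    · rw [Complex.mul_im, gg_im, gg_re, gg_im, lam0_re, lam0_im, h.p0, h.q0, h.q1]; ring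
  · apply Complex.ext
    · simp only [Complex.mul_re, Complex.mul_im, Complex.add_re, Complex.add_im, Complex.sub_re,
        Complex.sub_im, Complex.ofReal_re, Complex.ofReal_im, Complex.re_ofNat, Complex.im_ofNat,
        gg_re, gg_im, lam0_re, lam0_im, lam1_re, lam1_im]
      linear_combination h.p2 + (t * q 1 + t * y * q 0) * hd
    · simp only [Complex.mul_re, Complex.mul_im, Complex.add_re, Complex.add_im, Complex.sub_re,
        Complex.sub_im, Complex.ofReal_re, Complex.ofReal_im, Complex.re_ofNat, Complex.im_ofNat,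
        gg_re, gg_im, lam0_re, lam0_im, lam1_re, lam1_im]
      linear_combination d * h.q2
  · apply Complex.ext
    · simp only [Complex.mul_re, Complex.mul_im, Complex.add_re, Complex.add_im, Complex.sub_re,
        Complex.sub_im, Complex.ofReal_re, Complex.ofReal_im, Complex.re_ofNat, Complex.im_ofNat,
        gg_re, gg_im, lam0_re, lam0_im, lam1_re, lam1_im]
      linear_combination h.p3 + (t * q 2 + t * y * q 1) * hd
    · simp only [Complex.mul_re, Complex.mul_im, Complex.add_re, Complex.add_im, Complex.sub_re,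
        Complex.sub_im, Complex.ofReal_re, Complex.ofReal_im, Complex.re_ofNat, Complex.im_ofNat,
        gg_re, gg_im, lam0_re, lam0_im, lam1_re, lam1_im]
      linear_combination d * h.q3
  · apply Complex.ext
    · simp only [Complex.mul_re, Complex.mul_im, Complex.add_re, Complex.add_im, Complex.sub_re,
        Complex.sub_im, Complex.ofReal_re, Complex.ofReal_im, Complex.re_ofNat, Complex.im_ofNat,
        gg_re, gg_im, lam0_re, lam0_im, lam1_re, lam1_im]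
      linear_combination h.p4 + (t * q 3 + t * y * q 2) * hd
    · simp only [Complex.mul_re, Complex.mul_im, Complex.add_re, Complex.add_im, Complex.sub_re,
        Complex.sub_im, Complex.ofReal_re, Complex.ofReal_im, Complex.re_ofNat, Complex.im_ofNat,
        gg_re, gg_im, lam0_re, lam0_im, lam1_re, lam1_im]
      linear_combination d * h.q4
  · apply Complex.ext
    · simp only [Complex.mul_re, Complex.mul_im, Complex.add_re, Complex.add_im, Complex.sub_re,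
        Complex.sub_im, Complex.ofReal_re, Complex.ofReal_im, Complex.re_ofNat, Complex.im_ofNat,
        gg_re, gg_im, lam0_re, lam0_im, lam1_re, lam1_im]
      linear_combination h.p5 + (t * q 4 + t * y * q 3) * hd
    · simp only [Complex.mul_re, Complex.mul_im, Complex.add_re, Complex.add_im, Complex.sub_re,
        Complex.sub_im, Complex.ofReal_re, Complex.ofReal_im, Complex.re_ofNat, Complex.im_ofNat,
        gg_re, gg_im, lam0_re, lam0_im, lam1_re, lam1_im]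
      linear_combination d * h.q5
  · apply Complex.ext
    · simp only [Complex.mul_re, Complex.mul_im, Complex.add_re, Complex.add_im, Complex.sub_re,
        Complex.sub_im, Complex.ofReal_re, Complex.ofReal_im, Complex.re_ofNat, Complex.im_ofNat,
        gg_re, gg_im, lam0_re, lam0_im, lam1_re, lam1_im]
      linear_combination h.p6 + (t * q 5 + t * y * q 4) * hd
    · simp only [Complex.mul_re, Complex.mul_im, Complex.add_re, Complex.add_im, Complex.sub_re,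
        Complex.sub_im, Complex.ofReal_re, Complex.ofReal_im, Complex.re_ofNat, Complex.im_ofNat,
        gg_re, gg_im, lam0_re, lam0_im, lam1_re, lam1_im]
      linear_combination d * h.q6
  · apply Complex.ext
    · simp only [Complex.mul_re, Complex.mul_im, Complex.add_re, Complex.add_im, Complex.sub_re,
        Complex.sub_im, Complex.ofReal_re, Complex.ofReal_im, Complex.re_ofNat, Complex.im_ofNat,
        gg_re, gg_im, lam0_re, lam0_im, lam1_re, lam1_im]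
      linear_combination h.p7 + (t * q 6 + t * y * q 5) * hd
    · simp only [Complex.mul_re, Complex.mul_im, Complex.add_re, Complex.add_im, Complex.sub_re,
        Complex.sub_im, Complex.ofReal_re, Complex.ofReal_im, Complex.re_ofNat, Complex.im_ofNat,
        gg_re, gg_im, lam0_re, lam0_im, lam1_re, lam1_im]
      linear_combination d * h.q7
  · apply Complex.ext
    · simp only [Complex.mul_re, Complex.mul_im, Complex.add_re, Complex.add_im, Complex.sub_re,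
        Complex.sub_im, Complex.ofReal_re, Complex.ofReal_im, Complex.re_ofNat, Complex.im_ofNat,
        gg_re, gg_im, lam0_re, lam0_im, lam1_re, lam1_im]
      linear_combination h.p8 + (t * q 7 + t * y * q 6) * hd
    · simp only [Complex.mul_re, Complex.mul_im, Complex.add_re, Complex.add_im, Complex.sub_re,
        Complex.sub_im, Complex.ofReal_re, Complex.ofReal_im, Complex.re_ofNat, Complex.im_ofNat,
        gg_re, gg_im, lam0_re, lam0_im, lam1_re, lam1_im]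
      linear_combination d * h.q8
  · apply Complex.ext
    · simp only [Complex.mul_re, Complex.mul_im, Complex.add_re, Complex.add_im, Complex.sub_re,
        Complex.sub_im, Complex.ofReal_re, Complex.ofReal_im, Complex.re_ofNat, Complex.im_ofNat,
        gg_re, gg_im, lam0_re, lam0_im, lam1_re, lam1_im]
      linear_combination h.p9 + (t * q 8 + t * y * q 7) * hd
    · simp only [Complex.mul_re, Complex.mul_im, Complex.add_re, Complex.add_im, Complex.sub_re,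
        Complex.sub_im, Complex.ofReal_re, Complex.ofReal_im, Complex.re_ofNat, Complex.im_ofNat,
        gg_re, gg_im, lam0_re, lam0_im, lam1_re, lam1_im]
      linear_combination d * h.q9
  · apply Complex.ext
    · simp only [Complex.mul_re, Complex.mul_im, Complex.add_re, Complex.add_im, Complex.sub_re,
        Complex.sub_im, Complex.ofReal_re, Complex.ofReal_im, Complex.re_ofNat, Complex.im_ofNat,
        gg_re, gg_im, lam0_re, lam0_im, lam1_re, lam1_im]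
      linear_combination h.p10 + (t * q 9 + t * y * q 8) * hd
    · simp only [Complex.mul_re, Complex.mul_im, Complex.add_re, Complex.add_im, Complex.sub_re,
        Complex.sub_im, Complex.ofReal_re, Complex.ofReal_im, Complex.re_ofNat, Complex.im_ofNat,
        gg_re, gg_im, lam0_re, lam0_im, lam1_re, lam1_im]
      linear_combination d * h.q10
  · apply Complex.ext
    · simp only [Complex.mul_re, Complex.mul_im, Complex.add_re, Complex.add_im, Complex.sub_re,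
        Complex.sub_im, Complex.ofReal_re, Complex.ofReal_im, Complex.re_ofNat, Complex.im_ofNat,
        gg_re, gg_im, lam0_re, lam0_im, lam1_re, lam1_im]
      linear_combination h.p11 + (t * q 10 + t * y * q 9) * hd
    · simp only [Complex.mul_re, Complex.mul_im, Complex.add_re, Complex.add_im, Complex.sub_re,
        Complex.sub_im, Complex.ofReal_re, Complex.ofReal_im, Complex.re_ofNat, Complex.im_ofNat,
        gg_re, gg_im, lam0_re, lam0_im, lam1_re, lam1_im]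
      linear_combination d * h.q11
  · apply Complex.ext
    · simp only [Complex.mul_re, Complex.mul_im, Complex.add_re, Complex.add_im, Complex.sub_re,
        Complex.sub_im, Complex.ofReal_re, Complex.ofReal_im, Complex.re_ofNat, Complex.im_ofNat,
        gg_re, gg_im, lam0_re, lam0_im, lam1_re, lam1_im]
      linear_combination h.p12 + (t * q 11 + t * y * q 10) * hd
    · simp only [Complex.mul_re, Complex.mul_im, Complex.add_re, Complex.add_im, Complex.sub_re,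
        Complex.sub_im, Complex.ofReal_re, Complex.ofReal_im, Complex.re_ofNat, Complex.im_ofNat,
        gg_re, gg_im, lam0_re, lam0_im, lam1_re, lam1_im]
      linear_combination d * h.q12

/-- the sum of the coefficients -/
def SumP (p : ℕ → ℝ) : ℝ :=
  p 0 + p 1 + p 2 + p 3 + p 4 + p 5 + p 6 + p 7 + p 8 + p 9 + p 10 + p 11 + p 12

lemma Tf_re (p q : ℕ → ℝ) (d : ℝ) : (Tf (gg p q d) 1).re = SumP p := by
  simp only [Tf, one_pow, mul_one, Complex.add_re, gg_re, SumP]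

/-- weighted AM-GM for one of the three terms -/
lemma exp_Lf_re_le {x a b c : ℝ} (t : ℝ) (hx0 : 0 ≤ x) (hx1 : x ≤ 1 / 2) (ha : 0 < 1 + a) (hb : 0 < 1 + b)
    (hc : 0 < 1 + c) : Real.exp (Lf x t a b c 1).re
      ≤ (1 - 2 * x) * (1 + a) + x * (1 + b) + x * (1 + c) := by
  have h := Real.geom_mean_le_arith_mean3_weighted (w₁ := 1 - 2 * x) (w₂ := x) (w₃ := x)
    (by linarith) hx0 hx0 ha.le hb.le hc.le (by ring)
  refine le_trans (le_of_eq ?_) h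
  rw [Lf_re, Real.rpow_def_of_pos ha, Real.rpow_def_of_pos hb, Real.rpow_def_of_pos hc,
    ← Real.exp_add, ← Real.exp_add]
  congr 1
  simp only [one_mul]
  ring

lemma exp_Lf_re (x t a b c : ℝ) (ha : 0 < 1 + a) (hb : 0 < 1 + b) (hc : 0 < 1 + c) :
    (exp (Lf x t a b c 1)).re = (1 + a) ^ (1 - 2 * x) * ((1 + b) * (1 + c)) ^ x *
      Real.cos (t * (Real.log (1 + b) - Real.log (1 + c))) := by
  rw [Complex.exp_re, Lf_re, Lf_im, Real.rpow_def_of_pos ha, Real.rpow_def_of_pos (mul_pos hb hc),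
    Real.log_mul hb.ne' hc.ne', ← Real.exp_add]
  simp only [one_mul]
  congr 2
  ring

/-- one of the three terms -/
lemma term_le {x t u0 a b c s u : ℝ} (k : Cst x t u0) (h : Geo a b c s) (hu : 0 ≤ u)
    (hus : u ^ 2 = s) (huu : u ≤ u0) {p q : ℕ → ℝ}
    (hr : RRec x t a (-(3 / 2) * s) (a * b * c) p q) :
    |SumP p - (exp (Lf x t a b c 1)).re|
      ≤ k.C * u ^ 13 / 13 * ((1 - 2 * x) * (1 + a) + x * (1 + b) + x * (1 + c)) := by
  have hd : (b - c) ^ 2 = -3 * a ^ 2 - 4 * (-(3 / 2) * s) := by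
    rw [d_sq h]; ring
  have h1 := one_term k h hu hus huu _ (hr.toRec hd)
  have hsmall : ∀ v : ℝ, v ^ 2 ≤ 2 * s → 0 < 1 + v := by
    intro v hv
    have hu2 : u ^ 2 ≤ u0 ^ 2 := pow_le_pow_left₀ hu huu 2
    have := abs_le.1 (abs_le_of_sq_le_sq (a := v) (b := k.r0) (by nlinarith [k.hr]) k.hr0)
    have := k.hr1
    linarith
  have ha := hsmall a h.a_sq
  have hb := hsmall b h.rot.a_sq
  have hc := hsmall c h.rot2.a_sq
  have e0 : 0 ≤ k.C * u ^ 13 / 13 := (norm_nonneg _).trans h1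
  have h2 : ‖Tf (gg p q (b - c)) 1 - exp (Lf x t a b c 1)‖
      ≤ k.C * u ^ 13 / 13 * Real.exp (Lf x t a b c 1).re := by
    have e1 : Tf (gg p q (b - c)) 1 - exp (Lf x t a b c 1)
        = (Tf (gg p q (b - c)) 1 * exp (-Lf x t a b c 1) - 1) * exp (Lf x t a b c 1) := by
      rw [Complex.exp_neg]
      field_simp [Complex.exp_ne_zero]
    rw [e1, norm_mul, Complex.norm_exp]
    exact mul_le_mul_of_nonneg_right h1 (Real.exp_pos _).le
  have h3 := (Complex.abs_re_le_norm _).trans h2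
  rw [Complex.sub_re, Tf_re] at h3
  exact h3.trans (mul_le_mul_of_nonneg_left (exp_Lf_re_le t k.hx0 k.hx1 ha hb hc) e0)

/-- the Taylor theorem of the centre region -/
theorem fxt_taylor {x t u0 : ℝ} (k : Cst x t u0) {p q : ℝ → ℝ → ℝ → ℕ → ℝ} {L : List (ℕ × ℕ × ℚ)}
    (hrec : ∀ {y e w : ℝ}, w = y ^ 3 + e * y → RRec x t y e w (p y e w) (q y e w))
    (hsum : ∀ {a b c s w : ℝ}, a + b + c = 0 → a ^ 2 + b ^ 2 + c ^ 2 = 3 * s →
      SumP (p a (-(3 / 2) * s) w) + SumP (p b (-(3 / 2) * s) w)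
        + SumP (p c (-(3 / 2) * s) w) = 3 * pol (castPol L) s w)
    {a b c s u : ℝ} (h : Geo a b c s) (hu : 0 ≤ u) (hus : u ^ 2 = s) (huu : u ≤ u0) :
    |fxt x t (1 + a) (1 + b) (1 + c) - pol (castPol L) s (a * b * c)| ≤ k.C * u ^ 13 / 13 := by
  have hroot : ∀ {a b c : ℝ}, Geo a b c s → a * b * c = a ^ 3 + -(3 / 2) * s * a := by
    intro a b c h
    have h1 := h.e
    have h2 : a = -(b + c) := by linarith [h.h1]
    rw [← h1]
    rw [h2]; ring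
  have g2 : Geo b c a s := ⟨by linarith [h.h1], by linarith [h.h2]⟩
  have g3 : Geo c a b s := ⟨by linarith [h.h1], by linarith [h.h2]⟩
  have w2 : b * c * a = a * b * c := by ring
  have w3 : c * a * b = a * b * c := by ring
  have t1 := term_le k h hu hus huu (hrec (hroot h))
  have t2 := term_le k g2 hu hus huu (p := p b (-(3 / 2) * s) (a * b * c))
    (q := q b (-(3 / 2) * s) (a * b * c)) (by rw [w2]; exact hrec (by rw [← hroot g2, w2]))
  have t3 := term_le k g3 hu hus huu (p := p c (-(3 / 2) * s) (a * b * c))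
    (q := q c (-(3 / 2) * s) (a * b * c)) (by rw [w3]; exact hrec (by rw [← hroot g3, w3]))
  have hsmall : ∀ v : ℝ, v ^ 2 ≤ 2 * s → 0 < 1 + v := by
    intro v hv
    have hu2 : u ^ 2 ≤ u0 ^ 2 := pow_le_pow_left₀ hu huu 2
    have := abs_le.1 (abs_le_of_sq_le_sq (a := v) (b := k.r0) (by nlinarith [k.hr]) k.hr0)
    have := k.hr1
    linarith
  have ha := hsmall a h.a_sq
  have hb := hsmall b h.rot.a_sq
  have hc := hsmall c h.rot2.a_sq
  rw [exp_Lf_re x t a b c ha hb hc] at t1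
  rw [exp_Lf_re x t b c a hb hc ha] at t2
  rw [exp_Lf_re x t c a b hc ha hb] at t3
  have hs := hsum (w := a * b * c) h.h1 h.h2
  have key : fxt x t (1 + a) (1 + b) (1 + c) - pol (castPol L) s (a * b * c)
      = -((SumP (p a (-(3 / 2) * s) (a * b * c)) - (1 + a) ^ (1 - 2 * x) * ((1 + b) * (1 + c)) ^ x *
          Real.cos (t * (Real.log (1 + b) - Real.log (1 + c))))
        + (SumP (p b (-(3 / 2) * s) (a * b * c)) - (1 + b) ^ (1 - 2 * x) * ((1 + c) * (1 + a)) ^ x *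
          Real.cos (t * (Real.log (1 + c) - Real.log (1 + a))))
        + (SumP (p c (-(3 / 2) * s) (a * b * c)) - (1 + c) ^ (1 - 2 * x) * ((1 + a) * (1 + b)) ^ x *
          Real.cos (t * (Real.log (1 + a) - Real.log (1 + b))))) / 3 := by
    unfold fxt
    linear_combination (1 / 3 : ℝ) * hs
  rw [key, abs_div, abs_neg, abs_of_pos (by norm_num : (0 : ℝ) < 3), div_le_iff₀ (by norm_num)]
  refine (abs_add_three _ _ _).trans ?_
  have h1 := h.h1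
  have hc' : c = -(a + b) := by linarith
  calc _ ≤ k.C * u ^ 13 / 13 * ((1 - 2 * x) * (1 + a) + x * (1 + b) + x * (1 + c))
      + k.C * u ^ 13 / 13 * ((1 - 2 * x) * (1 + b) + x * (1 + c) + x * (1 + a))
      + k.C * u ^ 13 / 13 * ((1 - 2 * x) * (1 + c) + x * (1 + a) + x * (1 + b)) := by
        linarith [t1, t2, t3]
    _ = k.C * u ^ 13 / 13 * 3 := by rw [hc']; ring

end Crest.Agent.R163.Cen
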