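import Crest.Agent.R163.Edge
import Crest.Prelude.Def_TreeBroadcast

-- ▼ part R163/Pow
section

/-!
Row 163: `c`-fold powers of a channel, the regular tree and the Poisson tree.
-/

set_option autoImplicit false

namespace Crest.Agent.R163

variable {q : ℕ}

section pow

variable {Ω : Type*}

/-- `c` conditionally independent copies -/
def pw (L : Ω → Fin q → ℝ) (c : ℕ) : (Fin c → Ω) → Fin q → ℝ :=
  fun o i => ∏ m, L (o m) i

lemma pw_cons (L : Ω → Fin q → ℝ) (c : ℕ) (p : Ω × (Fin c → Ω)) :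
    pw L (c + 1) (Fin.consEquiv (fun _ => Ω) p) = mrg L (pw L c) p := by
  funext i
  simp [pw, mrg, Fin.prod_univ_succ, Fin.consEquiv]

lemma J_pw_succ (φ : (Fin q → ℝ) → ℝ) (L : Ω → Fin q → ℝ) (c : ℕ) :
    J φ (pw L (c + 1)) = J φ (mrg L (pw L c)) := by
  rw [← J_equiv (Fin.consEquiv (fun _ => Ω))]
  unfold J
  exact tsum_congr fun p => by rw [← pw_cons]

lemma isChan_unit {Ω : Type*} [Unique Ω] : IsChan (fun (_ : Ω) (_ : Fin q) => (1 : ℝ)) where
  nonneg _ _ := zero_le_one
  hasSum _ := hasSum_unique (fun _ : Ω => (1 : ℝ))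
  symm _ := ⟨Equiv.refl _, fun _ _ => rfl⟩

lemma J_unit {Ω : Type*} [Unique Ω] (φ : (Fin q → ℝ) → ℝ) :
    J φ (fun (_ : Ω) (_ : Fin q) => (1 : ℝ)) = φ (fun _ => 1) := by
  unfold J
  simp

lemma J_pw_zero (φ : (Fin q → ℝ) → ℝ) (L : Ω → Fin q → ℝ) :
    J φ (pw L 0) = φ (fun _ => 1) := by
  have : pw L 0 = fun _ _ => 1 := by
    funext o i; simp [pw]
  rw [this, J_unit]

lemma IsChan.pw {L : Ω → Fin q → ℝ} (h : IsChan L) (c : ℕ) : IsChan (pw L c) := by
  induction c with
  | zero =>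
    have : R163.pw L 0 = fun _ _ => 1 := by
      funext o i; simp [R163.pw]
    rw [this]
    exact isChan_unit
  | succ c ih =>
    have h2 := (h.mrg ih).reindex (Fin.consEquiv (fun _ => Ω)).symm
    have h3 : (fun o => R163.mrg L (R163.pw L c) ((Fin.consEquiv (fun _ => Ω)).symm o)) =
        R163.pw L (c + 1) := by
      funext o
      rw [← pw_cons, Equiv.apply_symm_apply]
    rwa [h3] at h2

end pow

/-! ### regular tree -/

/-- likelihood table of the `b`-ary tree -/
noncomputable def reg (q b : ℕ) (lam : ℝ) (ℓ : ℕ) : ((Fin ℓ → Fin b) → Fin q) → Fin q → ℝ :=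
  fun τ i => Crest.ProbabilityR.Broadcast.leafLaw q b lam ℓ i τ

/-- words of length `ℓ+1` versus first letter and the rest -/
def regEquiv (q b ℓ : ℕ) : ((Fin (ℓ + 1) → Fin b) → Fin q) ≃ (Fin b → ((Fin ℓ → Fin b) → Fin q)) :=
  ((Fin.consEquiv (fun _ => Fin b)).symm.arrowCongr (Equiv.refl (Fin q))).trans
    (Equiv.curry (Fin b) (Fin ℓ → Fin b) (Fin q))

lemma reg_succ (q b : ℕ) (lam : ℝ) (ℓ : ℕ) (τ : (Fin (ℓ + 1) → Fin b) → Fin q) :
    reg q b lam (ℓ + 1) τ = pw (fun o => W lam (reg q b lam ℓ o)) b (regEquiv q b ℓ τ) := by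
  funext i
  simp only [reg, Crest.ProbabilityR.Broadcast.leafLaw, pw]
  refine Finset.prod_congr rfl fun m _ => ?_
  rw [← channel_sum]
  rfl

lemma reg_isChan [NeZero q] (b : ℕ) {lam : ℝ} (hl : Adm q lam) (ℓ : ℕ) : IsChan (reg q b lam ℓ) := by
  induction ℓ with
  | zero =>
    have e : ((Fin 0 → Fin b) → Fin q) ≃ Fin q := Equiv.funUnique _ _
    refine ⟨fun o i => ?_, fun i => ?_, fun σ => ?_⟩
    · simp only [reg, Crest.ProbabilityR.Broadcast.leafLaw]
      split_ifs <;> norm_num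
    · have h1 : HasSum (fun j : Fin q => if j = i then (1 : ℝ) else 0) 1 := by
        have := hasSum_ite_eq i (1 : ℝ)
        simpa using this
      have h2 := ((Equiv.funUnique (Fin 0 → Fin b) (Fin q)).hasSum_iff
        (f := fun j : Fin q => if j = i then (1 : ℝ) else 0)).2 h1
      convert h2 using 1
      funext o
      simp only [reg, Crest.ProbabilityR.Broadcast.leafLaw, Function.comp, Equiv.funUnique_apply]
      congr!
    · refine ⟨(Equiv.refl _).arrowCongr σ, fun o i => ?_⟩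
      simp [reg, Crest.ProbabilityR.Broadcast.leafLaw, Equiv.arrowCongr]
  | succ ℓ ih =>
    have h := ((ih.edge hl).pw b).reindex (regEquiv q b ℓ)
    have : (fun o => R163.pw (fun o => W lam (reg q b lam ℓ o)) b (regEquiv q b ℓ o)) =
        reg q b lam (ℓ + 1) := by
      funext o
      rw [reg_succ]
    rwa [this] at h

lemma J_reg_succ (φ : (Fin q → ℝ) → ℝ) (b : ℕ) (lam : ℝ) (ℓ : ℕ) :
    J φ (reg q b lam (ℓ + 1)) = J φ (pw (fun o => W lam (reg q b lam ℓ o)) b) := by
  rw [← J_equiv (regEquiv q b ℓ) φ (pw (fun o => W lam (reg q b lam ℓ o)) b)]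
  unfold J
  exact tsum_congr fun o => by rw [reg_succ]

lemma advantage_eq (q b : ℕ) (lam : ℝ) (ℓ : ℕ) :
    Crest.ProbabilityR.Broadcast.advantage q b lam ℓ = J tv (reg q b lam ℓ) := by
  unfold Crest.ProbabilityR.Broadcast.advantage J
  rw [tsum_fintype, Finset.mul_sum]
  refine Finset.sum_congr rfl fun τ _ => ?_
  unfold tv
  have h1 : ∀ i, reg q b lam ℓ τ i - avg (reg q b lam ℓ τ) =
      Crest.ProbabilityR.Broadcast.leafLaw q b lam ℓ i τ -
        1 / q * ∑ j : Fin q, Crest.ProbabilityR.Broadcast.leafLaw q b lam ℓ j τ := by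
    intro i
    simp only [avg, reg]
    ring
  simp only [h1]
  unfold avg
  field_simp

/-! ### Poisson tree -/

/-- homogeneity -/
def Hom (φ : (Fin q → ℝ) → ℝ) : Prop :=
  ∀ (c : ℝ) (v : Fin q → ℝ), 0 ≤ c → (∀ i, 0 ≤ v i) → φ (fun i => c * v i) = c * φ v

/-- Poisson weight -/
noncomputable def pwt (d : ℝ) (n : ℕ) : ℝ := Real.exp (-d) * d ^ n / Nat.factorial n

lemma pwt_nonneg {d : ℝ} (hd : 0 ≤ d) (n : ℕ) : 0 ≤ pwt d n := by
  unfold pwt; positivity

lemma pwt_hasSum_pow (d x : ℝ) : HasSum (fun n => pwt d n * x ^ n) (Real.exp (-d * (1 - x))) := by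
  have h := (NormedSpace.expSeries_div_hasSum_exp (𝔸 := ℝ) (d * x)).mul_left (Real.exp (-d))
  have h2 : Real.exp (-d) * NormedSpace.exp (d * x) = Real.exp (-d * (1 - x)) := by
    rw [← Real.exp_eq_exp_ℝ, ← Real.exp_add]; congr 1; ring
  rw [h2] at h
  have h3 : (fun n => pwt d n * x ^ n) =
      fun n => Real.exp (-d) * ((d * x) ^ n / (Nat.factorial n : ℝ)) := by
    funext n
    unfold pwt
    rw [mul_pow]; ring
  rw [h3]
  exact h

lemma pwt_hasSum (d : ℝ) : HasSum (pwt d) 1 := by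
  have := pwt_hasSum_pow d 1
  simpa using this

section pois

variable {Ω : Type*}

/-- a Poisson number of conditionally independent copies, observed as a list -/
noncomputable def pois (d : ℝ) (L : Ω → Fin q → ℝ) : List Ω → Fin q → ℝ :=
  fun o i => Real.exp (-d) * d ^ o.length / Nat.factorial o.length *
    (o.map (fun o' => L o' i)).prod

lemma pois_equiv (d : ℝ) (L : Ω → Fin q → ℝ) (s : (n : ℕ) × (Fin n → Ω)) :
    pois d L ((List.equivSigmaTuple (α := Ω)).symm s) = fun i => pwt d s.1 * pw L s.1 s.2 i := by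
  obtain ⟨n, f⟩ := s
  funext i
  simp [pois, List.equivSigmaTuple, pwt, pw, List.prod_ofFn, List.map_ofFn]

lemma pois_isChan [NeZero q] {d : ℝ} (hd : 0 ≤ d) {L : Ω → Fin q → ℝ} (h : IsChan L) :
    IsChan (pois d L) where
  nonneg o i := by
    unfold pois
    have : 0 ≤ (o.map (fun o' => L o' i)).prod :=
      List.prod_nonneg fun x hx => by
        obtain ⟨o', _, rfl⟩ := List.mem_map.1 hx
        exact h.nonneg _ _
    positivity
  hasSum i := by
    have hs : ∀ n, HasSum (fun f : Fin n → Ω => pwt d n * pw L n f i) (pwt d n) := fun n => by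
      simpa using ((h.pw n).hasSum i).mul_left (pwt d n)
    have hnn : ∀ s : (n : ℕ) × (Fin n → Ω), 0 ≤ pwt d s.1 * pw L s.1 s.2 i := fun s =>
      mul_nonneg (pwt_nonneg hd _) ((h.pw s.1).nonneg _ _)
    have hsum : Summable (fun s : (n : ℕ) × (Fin n → Ω) => pwt d s.1 * pw L s.1 s.2 i) := by
      rw [summable_sigma_of_nonneg hnn]
      refine ⟨fun n => (hs n).summable, ?_⟩
      refine (pwt_hasSum d).summable.congr fun n => ((hs n).tsum_eq).symm
    have h2 : HasSum (fun s : (n : ℕ) × (Fin n → Ω) => pwt d s.1 * pw L s.1 s.2 i) 1 := by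
      have h3 := hsum.hasSum
      have h4 := h3.sigma hs
      rwa [h4.unique (pwt_hasSum d)] at h3
    refine ((List.equivSigmaTuple (α := Ω)).symm.hasSum_iff (f := fun o => pois d L o i)).1 ?_
    have h5 : (fun o => pois d L o i) ∘ (List.equivSigmaTuple (α := Ω)).symm =
        fun s : (n : ℕ) × (Fin n → Ω) => pwt d s.1 * pw L s.1 s.2 i := by
      funext s
      simp only [Function.comp]
      rw [pois_equiv]
    rw [h5]
    exact h2
  symm σ := by
    obtain ⟨e, he⟩ := h.symm σ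
    refine ⟨Equiv.listEquivOfEquiv e, fun o i => ?_⟩
    simp only [pois, Equiv.listEquivOfEquiv, Equiv.coe_fn_mk, List.length_map, List.map_map]
    congr 2
    refine List.map_congr_left fun o' _ => ?_
    simp [he]

lemma J_pois [NeZero q] {d : ℝ} (hd : 0 ≤ d) {L : Ω → Fin q → ℝ} (h : IsChan L)
    {φ : (Fin q → ℝ) → ℝ} (hφ : Bdd φ) (hh : Hom φ) :
    HasSum (fun n => pwt d n * J φ (pw L n)) (J φ (pois d L)) := by
  have hs : Summable (fun o => φ (pois d L o)) := (pois_isChan hd h).summable hφ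
  have h1 : HasSum (fun s : (n : ℕ) × (Fin n → Ω) => φ (fun i => pwt d s.1 * pw L s.1 s.2 i))
      (J φ (pois d L)) := by
    have h2 := ((List.equivSigmaTuple (α := Ω)).symm.hasSum_iff
      (f := fun o => φ (pois d L o))).2 hs.hasSum
    have h5 : (fun o => φ (pois d L o)) ∘ (List.equivSigmaTuple (α := Ω)).symm =
        fun s : (n : ℕ) × (Fin n → Ω) => φ (fun i => pwt d s.1 * pw L s.1 s.2 i) := by
      funext s
      simp only [Function.comp]
      rw [pois_equiv]
    rw [h5] at h2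
    exact h2
  refine h1.sigma fun n => ?_
  have h3 : ∀ f : Fin n → Ω, φ (fun i => pwt d n * pw L n f i) = pwt d n * φ (pw L n f) :=
    fun f => hh _ _ (pwt_nonneg hd n) ((h.pw n).nonneg f)
  simp only [h3]
  exact ((h.pw n).summable hφ).hasSum.mul_left _

end pois

/-- likelihood table of the Poisson tree -/
noncomputable def gw (q : ℕ) (lam d : ℝ) (ℓ : ℕ) :
    Crest.ProbabilityR.Broadcast.PObs q ℓ → Fin q → ℝ :=
  fun o i => Crest.ProbabilityR.Broadcast.gwLaw q lam d ℓ i o

lemma gw_succ (q : ℕ) (lam d : ℝ) (ℓ : ℕ) :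
    gw q lam d (ℓ + 1) = pois d (fun o => W lam (gw q lam d ℓ o)) := by
  funext o i
  simp only [gw, Crest.ProbabilityR.Broadcast.gwLaw, pois, ← channel_sum]

lemma gw_isChan [NeZero q] {lam d : ℝ} (hl : Adm q lam) (hd : 0 ≤ d) (ℓ : ℕ) :
    IsChan (gw q lam d ℓ) := by
  induction ℓ with
  | zero =>
    refine ⟨fun o i => ?_, fun i => ?_, fun σ => ?_⟩
    · simp only [gw, Crest.ProbabilityR.Broadcast.gwLaw]
      split_ifs <;> norm_num
    · exact hasSum_ite_eq (β := Fin q) i (1 : ℝ)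
    · refine ⟨σ, fun o i => ?_⟩
      simp [gw, Crest.ProbabilityR.Broadcast.gwLaw]
  | succ ℓ ih =>
    rw [gw_succ]
    exact pois_isChan hd (ih.edge hl)

lemma gwAdvantage_eq (q : ℕ) (lam d : ℝ) (ℓ : ℕ) :
    Crest.ProbabilityR.Broadcast.gwAdvantage q lam d ℓ = J tv (gw q lam d ℓ) := by
  unfold Crest.ProbabilityR.Broadcast.gwAdvantage J
  rw [← tsum_mul_left]
  refine tsum_congr fun o => ?_
  unfold tv
  have h1 : ∀ i, gw q lam d ℓ o i - avg (gw q lam d ℓ o) =
      Crest.ProbabilityR.Broadcast.gwLaw q lam d ℓ i o -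
        1 / q * ∑ j : Fin q, Crest.ProbabilityR.Broadcast.gwLaw q lam d ℓ j o := by
    intro i
    simp only [avg, gw]
    ring
  simp only [h1]
  unfold avg
  field_simp

end Crest.Agent.R163
private theorem rz_9033edc877 : type_of% @_root_.Crest.ProbabilityR.Broadcast.gwLaw.eq_def := @_root_.Crest.ProbabilityR.Broadcast.gwLaw.eq_def
private theorem rz_d933ed1661 : type_of% @_root_.Crest.ProbabilityR.Broadcast.gwLaw.eq_1 := @_root_.Crest.ProbabilityR.Broadcast.gwLaw.eq_1
private theorem rz_0684d8e847 : type_of% @_root_.Crest.ProbabilityR.Broadcast.leafLaw.eq_def := @_root_.Crest.ProbabilityR.Broadcast.leafLaw.eq_def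
private theorem rz_3f73de8f50 : type_of% @_root_.Crest.ProbabilityR.Broadcast.leafLaw.eq_1 := @_root_.Crest.ProbabilityR.Broadcast.leafLaw.eq_1
end

-- ▼ part R163/Tree
section

/-!
Row 163: broadcasting on a general locally finite tree: the law of level `n` as a product over
subtrees, and the channels of the subtrees.
-/

set_option autoImplicit false

namespace Crest.Agent.R163

open Crest.ProbabilityR.TreeBroadcast Crest.ProbabilityR.Broadcast

variable {V : Type*} [DecidableEq V] {q : ℕ}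

/-- descendants of `v` exactly `k` generations below -/
def D (T : LocFinTree V) : ℕ → V → Finset V
  | 0, v => {v}
  | k + 1, v => (T.children v).biUnion (D T k)

/-- likelihood of the spins `k` generations below `v`, as a function on all spin configurations -/
noncomputable def F (q : ℕ) (T : LocFinTree V) (lam : ℝ) : ℕ → V → (V → Fin q) → Fin q → ℝ
  | 0, v, τ, i => if τ v = i then 1 else 0
  | k + 1, v, τ, i => ∏ w ∈ T.children v, W lam (F q T lam k w τ) i

lemma mem_children {T : LocFinTree V} {v w : V} :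
    w ∈ T.children v ↔ T.depth w = T.depth v + 1 ∧ T.parent w = v := by
  unfold LocFinTree.children
  rw [Finset.mem_filter, T.mem_level_iff]

lemma mem_D {T : LocFinTree V} {k : ℕ} {v w : V} (h : w ∈ D T k v) :
    T.depth w = T.depth v + k ∧ T.parent^[k] w = v := by
  induction k generalizing v with
  | zero => simp [D] at h; simp [h]
  | succ k ih =>
    simp only [D, Finset.mem_biUnion] at h
    obtain ⟨u, hu, hw⟩ := h
    obtain ⟨h1, h2⟩ := ih hw
    obtain ⟨h3, h4⟩ := mem_children.1 hu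
    refine ⟨by omega, ?_⟩
    rw [Function.iterate_succ_apply', h2, h4]

lemma D_disjoint {T : LocFinTree V} {k : ℕ} {v w : V} (h : v ≠ w) :
    Disjoint (D T k v) (D T k w) := by
  rw [Finset.disjoint_left]
  intro u h1 h2
  exact h ((mem_D h1).2.symm.trans (mem_D h2).2)

/-- two configurations agreeing on `D k v` have the same likelihood -/
lemma F_congr (T : LocFinTree V) (lam : ℝ) (k : ℕ) (v : V) {τ τ' : V → Fin q}
    (h : ∀ w ∈ D T k v, τ w = τ' w) : F q T lam k v τ = F q T lam k v τ' := by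
  induction k generalizing v with
  | zero => funext i; simp [F, h v (by simp [D])]
  | succ k ih =>
    funext i
    simp only [F]
    refine Finset.prod_congr rfl fun w hw => ?_
    rw [ih w fun u hu => h u ?_]
    simp only [D, Finset.mem_biUnion]
    exact ⟨w, hw, hu⟩

/-- extension of a partial configuration -/
def ext [NeZero q] (A : Finset V) (τ : A → Fin q) : V → Fin q :=
  fun v => if h : v ∈ A then τ ⟨v, h⟩ else 0

lemma ext_mem [NeZero q] {A : Finset V} (τ : A → Fin q) {v : V} (h : v ∈ A) :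
    ext A τ v = τ ⟨v, h⟩ := by simp [ext, h]

/-- `∏` over level `m+1` equals the product over level `m` of the products over children -/
lemma prod_level_succ {M : Type*} [CommMonoid M] (T : LocFinTree V) (m : ℕ) (g : V → M) :
    ∏ v ∈ T.level (m + 1), g v = ∏ u ∈ T.level m, ∏ v ∈ T.children u, g v := by
  rw [← Finset.prod_fiberwise_of_maps_to (s := T.level (m + 1)) (t := T.level m) (g := T.parent)
    (fun v hv => by
      have hd : T.depth v = m + 1 := (T.mem_level_iff _ _).1 hv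
      have hne : v ≠ T.root := fun h => by
        have := (T.depth_eq_zero_iff v).2 h
        omega
      have := T.depth_parent v hne
      exact (T.mem_level_iff _ _).2 (by omega))]
  refine Finset.prod_congr rfl fun u hu => ?_
  have hu' := (T.mem_level_iff _ _).1 hu
  unfold LocFinTree.children
  rw [hu']

lemma levelLaw_eq_aux [NeZero q] (T : LocFinTree V) (lam : ℝ) (n : ℕ) (i : Fin q)
    (τ : T.level n → Fin q) (k m : ℕ) (h : m + k = n) :
    levelLaw q T lam n i τ = ∑ τ' : T.level m → Fin q, levelLaw q T lam m i τ' *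
      ∏ v : T.level m, F q T lam k v (ext _ τ) (τ' v) := by
  induction k generalizing m with
  | zero =>
    have hm : m = n := by omega
    subst hm
    rw [Finset.sum_eq_single τ]
    · have : ∏ v : T.level m, F q T lam 0 v (ext _ τ) (τ v) = 1 := by
        refine Finset.prod_eq_one fun v _ => ?_
        simp [F, ext_mem τ v.2]
      rw [this, mul_one]
    · intro τ' _ hne
      have : ∃ v, τ v ≠ τ' v := by
        by_contra hcon
        push Not at hcon
        exact hne (funext fun v => (hcon v).symm)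
      obtain ⟨v, hv⟩ := this
      rw [Finset.prod_eq_zero (Finset.mem_univ v), mul_zero]
      simp [F, ext_mem τ v.2, hv]
    · intro h; exact absurd (Finset.mem_univ _) h
  | succ k ih =>
    rw [ih (m + 1) (by omega)]
    simp only [levelLaw, Finset.sum_mul]
    rw [Finset.sum_comm]
    refine Finset.sum_congr rfl fun τ' _ => ?_
    simp only [mul_assoc, ← Finset.mul_sum]
    congr 1
    have hpar : ∀ v : T.level (m + 1), T.parent v.1 ∈ T.level m := fun v => by
      have hd : T.depth v.1 = m + 1 := (T.mem_level_iff _ _).1 v.2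
      have hne : v.1 ≠ T.root := fun h => by
        have := (T.depth_eq_zero_iff v.1).2 h
        omega
      have := T.depth_parent v.1 hne
      exact (T.mem_level_iff _ _).2 (by omega)
    have h1 : ∀ τ'' : T.level (m + 1) → Fin q,
        (∏ v : T.level (m + 1), channel q lam (τ' ⟨T.parent v.1, hpar v⟩) (τ'' v)) *
          ∏ v : T.level (m + 1), F q T lam k v (ext _ τ) (τ'' v) =
        ∏ v : T.level (m + 1), channel q lam (τ' ⟨T.parent v.1, hpar v⟩) (τ'' v) *
              F q T lam k v (ext _ τ) (τ'' v) := fun τ'' => by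
      rw [Finset.prod_mul_distrib]
    have h2 := (Finset.prod_univ_sum (fun _ : T.level (m + 1) => (Finset.univ : Finset (Fin q)))
      (fun v j => channel q lam (τ' ⟨T.parent v.1, hpar v⟩) j *
        F q T lam k v (ext _ τ) j)).symm
    rw [Fintype.piFinset_univ] at h2
    calc (∑ τ'' : T.level (m + 1) → Fin q,
          (∏ v : T.level (m + 1), channel q lam (τ' ⟨T.parent v.1, hpar v⟩) (τ'' v)) *
          ∏ v : T.level (m + 1), F q T lam k v (ext _ τ) (τ'' v))
        = ∑ τ'' : T.level (m + 1) → Fin q,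
          ∏ v : T.level (m + 1), channel q lam (τ' ⟨T.parent v.1, hpar v⟩) (τ'' v) *
              F q T lam k v (ext _ τ) (τ'' v) := Finset.sum_congr rfl fun τ'' _ => h1 τ''
      _ = ∏ v : T.level (m + 1), ∑ j : Fin q, channel q lam (τ' ⟨T.parent v.1, hpar v⟩) j *
              F q T lam k v (ext _ τ) j := h2
      _ = ∏ v : T.level (m + 1), W lam (F q T lam k v (ext _ τ))
              (ext (T.level m) τ' (T.parent v.1)) := by
          refine Finset.prod_congr rfl fun v _ => ?_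
          rw [channel_sum, ext_mem τ' (hpar v)]
      _ = ∏ v ∈ T.level (m + 1), W lam (F q T lam k v (ext _ τ))
              (ext (T.level m) τ' (T.parent v)) :=
          Finset.prod_coe_sort (T.level (m + 1)) fun v => W lam (F q T lam k v (ext _ τ))
              (ext (T.level m) τ' (T.parent v))
      _ = ∏ u ∈ T.level m, F q T lam (k + 1) u (ext _ τ) (ext (T.level m) τ' u) := by
          rw [prod_level_succ]
          refine Finset.prod_congr rfl fun u _ => ?_
          simp only [F]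
          refine Finset.prod_congr rfl fun v hv => ?_
          rw [(mem_children.1 hv).2]
      _ = ∏ v : T.level m, F q T lam (k + 1) v (ext _ τ) (ext (T.level m) τ' v) :=
          (Finset.prod_coe_sort (T.level m) fun v =>
            F q T lam (k + 1) v (ext _ τ) (ext (T.level m) τ' v)).symm
      _ = _ := by
          refine Finset.prod_congr rfl fun v _ => ?_
          rw [ext_mem τ' v.2]

lemma level_zero (T : LocFinTree V) : T.level 0 = {T.root} := by
  ext v
  rw [T.mem_level_iff, T.depth_eq_zero_iff, Finset.mem_singleton]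

/-- the law of level `n` through the subtree recursion -/
theorem levelLaw_eq [NeZero q] (T : LocFinTree V) (lam : ℝ) (n : ℕ) (i : Fin q)
    (τ : T.level n → Fin q) :
    levelLaw q T lam n i τ = F q T lam n T.root (ext _ τ) i := by
  rw [levelLaw_eq_aux T lam n i τ n 0 (by omega)]
  have hroot : T.root ∈ T.level 0 := (T.mem_level_iff 0 T.root).2 ((T.depth_eq_zero_iff T.root).2 rfl)
  have huniq : ∀ v : T.level 0, v = ⟨T.root, hroot⟩ := fun v => by
    have := v.2
    rw [T.mem_level_iff, T.depth_eq_zero_iff] at this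
    exact Subtype.ext this
  rw [Finset.sum_eq_single (fun _ => i)]
  · have h1 : levelLaw q T lam 0 i (fun _ => i) = 1 := by simp [levelLaw]
    rw [h1, one_mul]
    rw [Fintype.prod_eq_single (⟨T.root, hroot⟩ : T.level 0) fun v hv => absurd (huniq v) hv]
  · intro τ' _ hne
    have : τ' ⟨T.root, hroot⟩ ≠ i := fun h => hne (funext fun v => by rw [huniq v]; exact h)
    simp [levelLaw, this]
  · intro h; exact absurd (Finset.mem_univ _) h

lemma D_root (T : LocFinTree V) (n : ℕ) : D T n T.root = T.level n := by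
  have key : ∀ k m : ℕ, T.level (m + k) = (T.level m).biUnion (D T k) := by
    intro k
    induction k with
    | zero => intro m; ext v; simp [D]
    | succ k ih =>
      intro m
      rw [show m + (k + 1) = (m + 1) + k by omega, ih (m + 1)]
      ext v
      simp only [Finset.mem_biUnion, D]
      constructor
      · rintro ⟨u, hu, hv⟩
        have hd : T.depth u = m + 1 := (T.mem_level_iff _ _).1 hu
        have hne : u ≠ T.root := fun h => by
          have := (T.depth_eq_zero_iff u).2 h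
          omega
        have hp := T.depth_parent u hne
        refine ⟨T.parent u, (T.mem_level_iff _ _).2 (by omega), u, ?_, hv⟩
        rw [mem_children]
        exact ⟨by omega, rfl⟩
      · rintro ⟨w, hw, u, hu, hv⟩
        have hd : T.depth w = m := (T.mem_level_iff _ _).1 hw
        have := mem_children.1 hu
        exact ⟨u, (T.mem_level_iff _ _).2 (by omega), hv⟩
  have := key n 0
  rw [Nat.zero_add, level_zero, Finset.singleton_biUnion] at this
  exact this.symm

/-! ### channels attached to finite sets of vertices -/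

/-- the channel of a configuration functional restricted to `A` -/
def res [NeZero q] (A : Finset V) (G : (V → Fin q) → Fin q → ℝ) : (A → Fin q) → Fin q → ℝ :=
  fun τ => G (ext A τ)

/-- `G` depends only on the spins in `A` -/
def DepOn (A : Finset V) (G : (V → Fin q) → Fin q → ℝ) : Prop :=
  ∀ τ τ' : V → Fin q, (∀ v ∈ A, τ v = τ' v) → G τ = G τ'

/-- splitting of configurations on a disjoint union -/
def splitEquiv (q : ℕ) {A B : Finset V} (h : Disjoint A B) :
    (↥(A ∪ B) → Fin q) ≃ (A → Fin q) × (B → Fin q) :=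
  ((Equiv.Finset.union A B h).symm.arrowCongr (Equiv.refl _)).trans (Equiv.sumArrowEquivProdArrow _ _ _)

lemma splitEquiv_fst {A B : Finset V} (h : Disjoint A B) (τ : ↥(A ∪ B) → Fin q) (a : A) :
    (splitEquiv q h τ).1 a = τ ⟨a.1, Finset.mem_union_left _ a.2⟩ := rfl

lemma splitEquiv_snd {A B : Finset V} (h : Disjoint A B) (τ : ↥(A ∪ B) → Fin q) (b : B) :
    (splitEquiv q h τ).2 b = τ ⟨b.1, Finset.mem_union_right _ b.2⟩ := rfl

lemma res_union [NeZero q] {A B : Finset V} (h : Disjoint A B)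
    {G₁ G₂ : (V → Fin q) → Fin q → ℝ} (h₁ : DepOn A G₁) (h₂ : DepOn B G₂)
    (τ : ↥(A ∪ B) → Fin q) :
    res (A ∪ B) (fun τ i => G₁ τ i * G₂ τ i) τ = mrg (res A G₁) (res B G₂) (splitEquiv q h τ) := by
  funext i
  have e1 : G₁ (ext (A ∪ B) τ) = G₁ (ext A (splitEquiv q h τ).1) := h₁ _ _ fun v hv => by
    rw [ext_mem _ (Finset.mem_union_left _ hv), ext_mem _ hv, splitEquiv_fst]
  have e2 : G₂ (ext (A ∪ B) τ) = G₂ (ext B (splitEquiv q h τ).2) := h₂ _ _ fun v hv => by
    rw [ext_mem _ (Finset.mem_union_right _ hv), ext_mem _ hv, splitEquiv_snd]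
  simp only [res, mrg, e1, e2]

lemma res_union_isChan [NeZero q] {A B : Finset V} (h : Disjoint A B)
    {G₁ G₂ : (V → Fin q) → Fin q → ℝ} (h₁ : DepOn A G₁) (h₂ : DepOn B G₂)
    (c₁ : IsChan (res A G₁)) (c₂ : IsChan (res B G₂)) :
    IsChan (res (A ∪ B) (fun τ i => G₁ τ i * G₂ τ i)) := by
  have := (c₁.mrg c₂).reindex (splitEquiv q h)
  have h3 : (fun o => R163.mrg (res A G₁) (res B G₂) (splitEquiv q h o)) =
      res (A ∪ B) (fun τ i => G₁ τ i * G₂ τ i) := by
    funext o
    rw [res_union h h₁ h₂]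
  rwa [h3] at this

lemma J_res_union [NeZero q] {A B : Finset V} (h : Disjoint A B)
    {G₁ G₂ : (V → Fin q) → Fin q → ℝ} (h₁ : DepOn A G₁) (h₂ : DepOn B G₂)
    (φ : (Fin q → ℝ) → ℝ) :
    J φ (res (A ∪ B) (fun τ i => G₁ τ i * G₂ τ i)) = J φ (mrg (res A G₁) (res B G₂)) := by
  rw [← J_equiv (splitEquiv q h) φ (mrg (res A G₁) (res B G₂))]
  unfold J
  exact tsum_congr fun o => by rw [res_union h h₁ h₂]

end Crest.Agent.R163
private theorem rz_69c6cd3b93 : type_of% @_root_.Crest.Agent.R163.D.eq_def := @_root_.Crest.Agent.R163.D.eq_def -- L18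
private theorem rz_50f1012ed1 : type_of% @_root_.Crest.Agent.R163.D.eq_1 := @_root_.Crest.Agent.R163.D.eq_1 -- L18
private theorem rz_8c382a185f : type_of% @_root_.Crest.Agent.R163.F.eq_def := @_root_.Crest.Agent.R163.F.eq_def -- L23
private theorem rz_3c3f67ba46 : type_of% @_root_.Crest.Agent.R163.F.eq_1 := @_root_.Crest.Agent.R163.F.eq_1 -- L23
private theorem rz_4dc82d9c62 : type_of% @_root_.Crest.ProbabilityR.TreeBroadcast.levelLaw.eq_def := @_root_.Crest.ProbabilityR.TreeBroadcast.levelLaw.eq_def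
private theorem rz_4ebbaf6732 : type_of% @_root_.Crest.ProbabilityR.TreeBroadcast.levelLaw.eq_1 := @_root_.Crest.ProbabilityR.TreeBroadcast.levelLaw.eq_1
end

-- ▼ part R163/Tree2
section

/-!
Row 163: subtree channels of a general tree are channels; merging over sets of children.
-/

set_option autoImplicit false

namespace Crest.Agent.R163

open Crest.ProbabilityR.TreeBroadcast Crest.ProbabilityR.Broadcast

variable {V : Type*} [DecidableEq V] {q : ℕ}

/-- the channel root-of-subtree `v` to the spins `k` generations below `v` -/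
noncomputable def tc (q : ℕ) [NeZero q] (T : LocFinTree V) (lam : ℝ) (k : ℕ) (v : V) :
    (↥(D T k v) → Fin q) → Fin q → ℝ :=
  res (D T k v) (F q T lam k v)

/-- the configuration functional of a set `S` of children: product of their edge messages -/
noncomputable def GS (q : ℕ) (T : LocFinTree V) (lam : ℝ) (k : ℕ) (S : Finset V) :
    (V → Fin q) → Fin q → ℝ :=
  fun τ i => ∏ w ∈ S, W lam (F q T lam k w τ) i

/-- the merged channel of a set `S` of children -/
noncomputable def sc (q : ℕ) [NeZero q] (T : LocFinTree V) (lam : ℝ) (k : ℕ) (S : Finset V) :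
    (↥(S.biUnion (D T k)) → Fin q) → Fin q → ℝ :=
  res (S.biUnion (D T k)) (GS q T lam k S)


lemma WF_depOn (T : LocFinTree V) (lam : ℝ) (k : ℕ) (v : V) :
    DepOn (D T k v) (fun τ => W lam (F q T lam k v τ)) := fun _ _ h => by
  simp only [F_congr T lam k v h]

lemma GS_depOn (T : LocFinTree V) (lam : ℝ) (k : ℕ) (S : Finset V) :
    DepOn (S.biUnion (D T k)) (GS q T lam k S) := fun τ τ' h => by
  funext i
  unfold GS
  refine Finset.prod_congr rfl fun w hw => ?_
  rw [F_congr T lam k w fun v hv => h v (Finset.mem_biUnion.2 ⟨w, hw, hv⟩)]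

lemma tc_succ [NeZero q] (T : LocFinTree V) (lam : ℝ) (k : ℕ) (v : V) :
    tc q T lam (k + 1) v = sc q T lam k (T.children v) := rfl

lemma sc_empty [NeZero q] (T : LocFinTree V) (lam : ℝ) (k : ℕ) :
    sc q T lam k ∅ = fun _ _ => 1 := by
  funext τ i
  simp [sc, res, GS]

instance uniqueEmpty {A : Type*} [IsEmpty A] {B : Type*} : Unique (A → B) := Pi.uniqueOfIsEmpty _

lemma D_disjoint_biUnion (T : LocFinTree V) (k : ℕ) {a : V} {S : Finset V} (h : a ∉ S) :
    Disjoint (D T k a) (S.biUnion (D T k)) := by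
  rw [Finset.disjoint_biUnion_right]
  intro w hw
  exact D_disjoint fun hc => h (hc ▸ hw)

/-- transport along an equality of vertex sets -/
lemma res_cast_isChan [NeZero q] {A B : Finset V} (h : A = B) {G : (V → Fin q) → Fin q → ℝ}
    (hc : IsChan (res A G)) : IsChan (res B G) := by subst h; exact hc

lemma J_res_cast [NeZero q] {A B : Finset V} (h : A = B) (G : (V → Fin q) → Fin q → ℝ)
    (φ : (Fin q → ℝ) → ℝ) : J φ (res A G) = J φ (res B G) := by subst h; rfl

lemma sc_insert_eq [NeZero q] (T : LocFinTree V) (lam : ℝ) (k : ℕ) {a : V} {S : Finset V}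
    (h : a ∉ S) :
    GS q T lam k (insert a S) = fun τ i => W lam (F q T lam k a τ) i * GS q T lam k S τ i := by
  funext τ i
  unfold GS
  rw [Finset.prod_insert h]

/-- merging one more child -/
lemma J_sc_insert [NeZero q] (T : LocFinTree V) (lam : ℝ) (k : ℕ) {a : V} {S : Finset V}
    (h : a ∉ S) (φ : (Fin q → ℝ) → ℝ) :
    J φ (sc q T lam k (insert a S)) =
      J φ (mrg (fun o => W lam (tc q T lam k a o)) (sc q T lam k S)) := by
  have e : (insert a S).biUnion (D T k) = D T k a ∪ S.biUnion (D T k) := Finset.biUnion_insert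
  unfold sc
  rw [J_res_cast e, sc_insert_eq T lam k h]
  exact J_res_union (D_disjoint_biUnion T k h) (WF_depOn T lam k a) (GS_depOn T lam k S) φ

lemma sc_isChan_of [NeZero q] (T : LocFinTree V) {lam : ℝ} (hl : Adm q lam) (k : ℕ) (S : Finset V)
    (h : ∀ w ∈ S, IsChan (tc q T lam k w)) : IsChan (sc q T lam k S) := by
  induction S using Finset.induction_on with
  | empty =>
    rw [sc_empty]
    have : IsEmpty ↥((∅ : Finset V).biUnion (D T k)) := by
      rw [Finset.biUnion_empty]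
      infer_instance
    exact isChan_unit
  | insert a S ha ih =>
    have e : (insert a S).biUnion (D T k) = D T k a ∪ S.biUnion (D T k) := Finset.biUnion_insert
    have ih' := ih fun w hw => h w (Finset.mem_insert_of_mem hw)
    unfold sc
    rw [sc_insert_eq T lam k ha]
    refine res_cast_isChan e.symm ?_
    exact res_union_isChan (D_disjoint_biUnion T k ha) (WF_depOn T lam k a) (GS_depOn T lam k S)
      ((h a (Finset.mem_insert_self a S)).edge hl) ih'

lemma tc_zero_isChan [NeZero q] (T : LocFinTree V) (lam : ℝ) (v : V) :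
    IsChan (tc q T lam 0 v) := by
  have hu : Unique ↥(D T 0 v) := by
    have : D T 0 v = {v} := rfl
    rw [this]
    exact { default := ⟨v, Finset.mem_singleton_self v⟩
            uniq := fun x => Subtype.ext (Finset.mem_singleton.1 x.2) }
  have hv : v ∈ D T 0 v := Finset.mem_singleton_self v
  have key : ∀ (τ : ↥(D T 0 v) → Fin q) (i : Fin q),
      tc q T lam 0 v τ i = if τ ⟨v, hv⟩ = i then 1 else 0 := fun τ i => by
    simp only [tc, res, F, ext_mem τ hv]
  have hd : ∀ x : ↥(D T 0 v), x = ⟨v, hv⟩ := fun x => Subtype.ext (Finset.mem_singleton.1 x.2)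
  refine ⟨fun o i => ?_, fun i => ?_, fun σ => ?_⟩
  · rw [key]; split_ifs <;> norm_num
  · have h1 : HasSum (fun j : Fin q => if j = i then (1 : ℝ) else 0) 1 := hasSum_ite_eq i (1 : ℝ)
    have h2 := ((Equiv.funUnique ↥(D T 0 v) (Fin q)).hasSum_iff
        (f := fun j : Fin q => if j = i then (1 : ℝ) else 0)).2 h1
    convert h2 using 1
    funext o
    rw [key]
    simp only [Function.comp, Equiv.funUnique_apply]
    rw [hd default]
  · refine ⟨(Equiv.refl _).arrowCongr σ, fun o i => ?_⟩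
    rw [key, key]
    simp [Equiv.arrowCongr]

theorem tc_isChan [NeZero q] (T : LocFinTree V) {lam : ℝ} (hl : Adm q lam) (k : ℕ) (v : V) :
    IsChan (tc q T lam k v) := by
  induction k generalizing v with
  | zero => exact tc_zero_isChan T lam v
  | succ k ih => rw [tc_succ]; exact sc_isChan_of T hl k _ fun w _ => ih w

theorem sc_isChan [NeZero q] (T : LocFinTree V) {lam : ℝ} (hl : Adm q lam) (k : ℕ) (S : Finset V) :
    IsChan (sc q T lam k S) := sc_isChan_of T hl k S fun w _ => tc_isChan T hl k w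

/-- the advantage of a general tree as a functional of the root channel -/
theorem treeAdvantage_eq [NeZero q] (T : LocFinTree V) (lam : ℝ) (n : ℕ) :
    treeAdvantage q T lam n = J tv (tc q T lam n T.root) := by
  have h0 : J tv (tc q T lam n T.root) = J tv (res (T.level n) (F q T lam n T.root)) :=
    J_res_cast (D_root T n) _ _
  rw [h0]
  unfold treeAdvantage J
  rw [tsum_fintype, Finset.mul_sum]
  refine Finset.sum_congr rfl fun τ _ => ?_
  unfold tv
  have h1 : ∀ i, res (T.level n) (F q T lam n T.root) τ i - avg (res (T.level n) (F q T lam n T.root) τ) =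
      levelLaw q T lam n i τ - 1 / q * ∑ j : Fin q, levelLaw q T lam n j τ := by
    intro i
    simp only [levelLaw_eq, avg, res]
    ring
  simp only [h1]
  unfold avg
  field_simp

end Crest.Agent.R163
end

-- ▼ part R163/Mult
section

/-!
Row 163: multiplicative functionals `h (u * v) = h u * h v` (monomials `∏ v_i ^ a_i`, `∑ a_i = 1`,
real or complex exponents with nonnegative real part): exact under merging, powers, Poisson
mixtures, hence exact recursions along the regular and the Poisson tree.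
-/

set_option autoImplicit false

namespace Crest.Agent.R163

variable {q : ℕ} {𝕜 : Type*} [RCLike 𝕜]

/-- the functional `∑' o, h (L o)` with values in `ℝ` or `ℂ` -/
noncomputable def JK {Ω : Type*} (h : (Fin q → ℝ) → 𝕜) (L : Ω → Fin q → ℝ) : 𝕜 :=
  ∑' o, h (L o)


/-- multiplicative, homogeneous, dominated by the mean -/
structure MulFun (h : (Fin q → ℝ) → 𝕜) : Prop where
  map_one : h (fun _ => 1) = 1
  map_mul : ∀ u v : Fin q → ℝ, (∀ i, 0 ≤ u i) → (∀ i, 0 ≤ v i) →
    h (fun i => u i * v i) = h u * h v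
  hom : ∀ (c : ℝ) (v : Fin q → ℝ), 0 ≤ c → (∀ i, 0 ≤ v i) → h (fun i => c * v i) = (c : 𝕜) * h v
  bdd : ∃ K : ℝ, 0 ≤ K ∧ ∀ v : Fin q → ℝ, (∀ i, 0 ≤ v i) → ‖h v‖ ≤ K * avg v

section

variable {Ω Ω₁ Ω₂ : Type*}

lemma IsChan.summableK [NeZero q] {L : Ω → Fin q → ℝ} (hL : IsChan L) {h : (Fin q → ℝ) → 𝕜}
    (hb : ∃ K : ℝ, 0 ≤ K ∧ ∀ v : Fin q → ℝ, (∀ i, 0 ≤ v i) → ‖h v‖ ≤ K * avg v) :
    Summable (fun o => ‖h (L o)‖) := by
  obtain ⟨K, _, hK⟩ := hb
  exact Summable.of_nonneg_of_le (fun _ => norm_nonneg _) (fun o => hK _ (hL.nonneg o))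
    (hL.avg_hasSum.summable.mul_left K)


lemma IsChan.JK_perm {L : Ω → Fin q → ℝ} (hL : IsChan L) (h : (Fin q → ℝ) → 𝕜)
    (σ : Equiv.Perm (Fin q)) : JK (fun v => h (fun i => v (σ i))) L = JK h L := by
  obtain ⟨e, he⟩ := hL.symm σ
  unfold JK
  rw [← e.tsum_eq (fun o => h (fun i => L o (σ i)))]
  refine tsum_congr fun o => ?_
  congr 1
  funext i
  exact he o i

lemma JK_mrg [NeZero q] {L₁ : Ω₁ → Fin q → ℝ} {L₂ : Ω₂ → Fin q → ℝ}
    (h₁ : IsChan L₁) (h₂ : IsChan L₂) {h : (Fin q → ℝ) → 𝕜} (hh : MulFun h) :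
    JK h (mrg L₁ L₂) = JK h L₁ * JK h L₂ := by
  have hf : Summable (fun o => ‖h (L₁ o)‖) := h₁.summableK hh.bdd
  have hg : Summable (fun o => ‖h (L₂ o)‖) := h₂.summableK hh.bdd
  have h3 : (∑' x, h (L₁ x)) * (∑' y, h (L₂ y)) = ∑' z : Ω₁ × Ω₂, h (L₁ z.1) * h (L₂ z.2) :=
    tsum_mul_tsum_of_summable_norm hf hg
  have h4 : JK h (mrg L₁ L₂) = ∑' z : Ω₁ × Ω₂, h (L₁ z.1) * h (L₂ z.2) :=
    tsum_congr fun p => hh.map_mul _ _ (h₁.nonneg _) (h₂.nonneg _)
  exact h4.trans h3.symm





end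

/-! ### recursions along trees -/




/-! ### monomials -/



/-- complex monomial `∏ v_i ^ a_i` -/
noncomputable def cmon (a : Fin q → ℂ) (v : Fin q → ℝ) : ℂ := ∏ i, (v i : ℂ) ^ a i

lemma norm_cpow_le {x : ℝ} (hx : 0 ≤ x) {a : ℂ} (ha : 0 ≤ a.re) :
    ‖(x : ℂ) ^ a‖ ≤ x ^ a.re := by
  rcases hx.eq_or_lt with hx0 | hx0
  · subst hx0
    by_cases h : a = 0
    · subst h; simp
    · simp [Complex.zero_cpow h]
      positivity
  · rw [Complex.norm_cpow_eq_rpow_re_of_pos hx0]

lemma cmon_mulFun [NeZero q] {a : Fin q → ℂ} (ha : ∀ i, 0 ≤ (a i).re) (hs : ∑ i, a i = 1) :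
    MulFun (cmon a) where
  map_one := by simp [cmon]
  map_mul u v hu hv := by
    unfold cmon
    rw [← Finset.prod_mul_distrib]
    refine Finset.prod_congr rfl fun i _ => ?_
    push_cast
    exact Complex.mul_cpow_ofReal_nonneg (hu i) (hv i) _
  hom c v hc hv := by
    unfold cmon
    have : ∏ i, (((c * v i : ℝ)) : ℂ) ^ a i = (∏ i, (c : ℂ) ^ a i) * ∏ i, (v i : ℂ) ^ a i := by
      rw [← Finset.prod_mul_distrib]
      refine Finset.prod_congr rfl fun i _ => ?_
      push_cast
      exact Complex.mul_cpow_ofReal_nonneg hc (hv i) _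
    rw [this]
    have h2 : ∏ i, (c : ℂ) ^ a i = c := by
      rcases hc.eq_or_lt with hc0 | hc0
      · subst hc0
        have : ∃ i, a i ≠ 0 := by
          by_contra hcon
          push Not at hcon
          simp [hcon] at hs
        obtain ⟨i, hi⟩ := this
        rw [Finset.prod_eq_zero (Finset.mem_univ i)]
        · simp
        · simp [Complex.zero_cpow hi]
      · have hc1 : (c : ℂ) ≠ 0 := by exact_mod_cast hc0.ne'
        have : ∏ i, (c : ℂ) ^ a i = (c : ℂ) ^ (∑ i, a i) := by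
          simp only [Complex.cpow_def_of_ne_zero hc1]
          rw [Finset.mul_sum, Complex.exp_sum]
        rw [this, hs, Complex.cpow_one]
    rw [h2]; rfl
  bdd := by
    refine ⟨q, Nat.cast_nonneg _, fun v hv => ?_⟩
    have hq : (q : ℝ) ≠ 0 := Nat.cast_ne_zero.mpr (NeZero.ne q)
    have hs' : ∑ i, (a i).re = 1 := by
      have := congrArg Complex.re hs
      simpa using this
    have h0 : ‖cmon a v‖ ≤ ∏ i, v i ^ (a i).re := by
      unfold cmon
      rw [norm_prod]
      exact Finset.prod_le_prod (fun _ _ => norm_nonneg _) fun i _ => norm_cpow_le (hv i) (ha i)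
    have h1 : ∏ i, v i ^ (a i).re ≤ ∑ i, (a i).re * v i :=
      Real.geom_mean_le_arith_mean_weighted Finset.univ (fun i => (a i).re) v (fun i _ => ha i) hs'
        (fun i _ => hv i)
    have h2 : ∀ i, (a i).re ≤ 1 := fun i => by
      rw [← hs']
      exact Finset.single_le_sum (f := fun i => (a i).re) (fun j _ => ha j) (Finset.mem_univ i)
    have h3 : ∑ i, (a i).re * v i ≤ ∑ i, v i :=
      Finset.sum_le_sum fun i _ => mul_le_of_le_one_left (hv i) (h2 i)
    have h4 : (q : ℝ) * avg v = ∑ i, v i := by unfold avg; field_simp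
    rw [h4]
    linarith

end Crest.Agent.R163
end

-- ▼ part R163/Class

/-!
Row 163: the class argument. `LawHyp`: a functional `J ψ` with a class `{c·X² ≤ J ψ}` closed under
edges and merging, on which `X = J chi` is subadditive with a cubic loss. Consequences for the
regular tree, the Poisson tree and general trees. `PairHyp`: the pointwise (orbit) inequalities
that imply `LawHyp`.
-/

set_option autoImplicit false

universe u

namespace Crest.Agent.R163

open Crest.ProbabilityR.TreeBroadcast Crest.ProbabilityR.Broadcast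

variable {q : ℕ}

lemma hasSum_cast {ι : Type*} {f g : ι → ℝ} {a : ℝ} (h : HasSum f a) (hfg : ∀ n, g n = f n) :
    HasSum g a := by
  have : g = f := funext hfg
  rw [this]; exact h

/-- law-level hypotheses -/
structure LawHyp (q : ℕ) [NeZero q] (ψ : (Fin q → ℝ) → ℝ) (c κ : ℝ) (Λ : Set ℝ) : Prop where
  bdd : Bdd ψ
  hom : Hom ψ
  cpos : 0 < c
  κpos : 0 < κ
  adm : ∀ lam ∈ Λ, Adm q lam
  unit : 0 ≤ ψ (fun _ => 1)
  perfect : c * (q - 1) ^ 2 ≤ ∑ o : Fin q, ψ (fun i => if o = i then 1 else 0)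
  edge : ∀ lam ∈ Λ, ∀ {Ω : Type u} (L : Ω → Fin q → ℝ), IsChan L →
    c * (J chi L) ^ 2 ≤ J ψ L → c * (lam ^ 2 * J chi L) ^ 2 ≤ J ψ (fun o => W lam (L o))
  merge : ∀ {Ω₁ Ω₂ : Type u} (L₁ : Ω₁ → Fin q → ℝ) (L₂ : Ω₂ → Fin q → ℝ),
    IsChan L₁ → IsChan L₂ → c * (J chi L₁) ^ 2 ≤ J ψ L₁ → c * (J chi L₂) ^ 2 ≤ J ψ L₂ →
    c * (J chi (mrg L₁ L₂)) ^ 2 ≤ J ψ (mrg L₁ L₂) ∧
    J chi (mrg L₁ L₂) ≤ J chi L₁ + J chi L₂ -
      κ * ((J chi L₁) ^ 2 * J chi L₂ + J chi L₁ * (J chi L₂) ^ 2)

lemma IsChan.X_nonneg [NeZero q] {Ω : Type*} {L : Ω → Fin q → ℝ} (h : IsChan L) :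
    0 ≤ J chi L := h.J_nonneg fun _ hv => chi_nonneg hv

lemma IsChan.X_le [NeZero q] {Ω : Type*} {L : Ω → Fin q → ℝ} (h : IsChan L) :
    J chi L ≤ q - 1 := by
  have h1 := h.J_mono bdd_chi (bdd_avg.const_mul (q - 1 : ℝ)) fun v hv => chi_le hv
  rwa [J_const_mul, h.J_avg, mul_one] at h1

lemma chi_one [NeZero q] : chi (fun _ : Fin q => (1 : ℝ)) = 0 := by
  have hq : (q : ℝ) ≠ 0 := Nat.cast_ne_zero.mpr (NeZero.ne q)
  simp [chi, avg, hq]

/-- class membership of the perfect channel, in the three models -/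
lemma J_perfect {Ω : Type*} (e : Ω ≃ Fin q) (φ : (Fin q → ℝ) → ℝ) :
    J φ (fun (o : Ω) (i : Fin q) => if e o = i then (1 : ℝ) else 0) =
      ∑ o : Fin q, φ (fun i => if o = i then 1 else 0) := by
  have := J_equiv e φ (fun (o : Fin q) (i : Fin q) => if o = i then (1 : ℝ) else 0)
  rw [this]
  unfold J
  rw [tsum_fintype]

lemma perfect_isChan {Ω : Type*} (e : Ω ≃ Fin q) :
    IsChan (fun (o : Ω) (i : Fin q) => if e o = i then (1 : ℝ) else 0) := by
  have h : IsChan (fun (o : Fin q) (i : Fin q) => if o = i then (1 : ℝ) else 0) := by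
    refine ⟨fun o i => ?_, fun i => hasSum_ite_eq i (1 : ℝ), fun σ => ⟨σ, fun o i => ?_⟩⟩
    · split_ifs <;> norm_num
    · simp
  exact h.reindex e

section merges

variable [NeZero q] {ψ : (Fin q → ℝ) → ℝ} {c κ : ℝ} {Λ : Set ℝ}

/-- membership in the class -/
def InC {Ω : Type*} (ψ : (Fin q → ℝ) → ℝ) (c : ℝ) (L : Ω → Fin q → ℝ) : Prop :=
  IsChan L ∧ c * (J chi L) ^ 2 ≤ J ψ L

lemma LawHyp.inC_perfect (H : LawHyp.{u} q ψ c κ Λ) {Ω : Type*} (e : Ω ≃ Fin q) :
    InC ψ c (fun (o : Ω) (i : Fin q) => if e o = i then (1 : ℝ) else 0) := by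
  refine ⟨perfect_isChan e, ?_⟩
  have h1 := (perfect_isChan e).X_le
  have h0 := (perfect_isChan e).X_nonneg
  rw [J_perfect e ψ]
  refine le_trans ?_ H.perfect
  exact mul_le_mul_of_nonneg_left (pow_le_pow_left₀ h0 h1 2) H.cpos.le

lemma LawHyp.inC_edge (H : LawHyp.{u} q ψ c κ Λ) {Ω : Type u} {L : Ω → Fin q → ℝ}
    (hL : InC ψ c L) {lam : ℝ} (hlam : lam ∈ Λ) : InC ψ c (fun o => W lam (L o)) := by
  refine ⟨hL.1.edge (H.adm lam hlam), ?_⟩
  rw [hL.1.J_chi_edge lam]
  exact H.edge lam hlam L hL.1 hL.2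

lemma LawHyp.inC_mrg (H : LawHyp.{u} q ψ c κ Λ) {Ω₁ Ω₂ : Type u} {L₁ : Ω₁ → Fin q → ℝ}
    {L₂ : Ω₂ → Fin q → ℝ} (h₁ : InC ψ c L₁) (h₂ : InC ψ c L₂) : InC ψ c (mrg L₁ L₂) :=
  ⟨h₁.1.mrg h₂.1, (H.merge L₁ L₂ h₁.1 h₂.1 h₁.2 h₂.2).1⟩

lemma LawHyp.inC_unit (H : LawHyp.{u} q ψ c κ Λ) {Ω : Type*} [Unique Ω] :
    InC ψ c (fun (_ : Ω) (_ : Fin q) => (1 : ℝ)) := by
  refine ⟨isChan_unit, ?_⟩
  rw [J_unit, J_unit, chi_one]
  simpa using H.unit

lemma LawHyp.X_mrg_le (H : LawHyp.{u} q ψ c κ Λ) {Ω₁ Ω₂ : Type u} {L₁ : Ω₁ → Fin q → ℝ}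
    {L₂ : Ω₂ → Fin q → ℝ} (h₁ : InC ψ c L₁) (h₂ : InC ψ c L₂) :
    J chi (mrg L₁ L₂) ≤ J chi L₁ + J chi L₂ -
      κ * ((J chi L₁) ^ 2 * J chi L₂ + J chi L₁ * (J chi L₂) ^ 2) :=
  (H.merge L₁ L₂ h₁.1 h₂.1 h₁.2 h₂.2).2

lemma LawHyp.X_mrg_le' (H : LawHyp.{u} q ψ c κ Λ) {Ω₁ Ω₂ : Type u} {L₁ : Ω₁ → Fin q → ℝ}
    {L₂ : Ω₂ → Fin q → ℝ} (h₁ : InC ψ c L₁) (h₂ : InC ψ c L₂) :
    J chi (mrg L₁ L₂) ≤ J chi L₁ + J chi L₂ := by
  have := H.X_mrg_le h₁ h₂
  have a := h₁.1.X_nonneg
  have b := h₂.1.X_nonneg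
  have : 0 ≤ κ * ((J chi L₁) ^ 2 * J chi L₂ + J chi L₁ * (J chi L₂) ^ 2) := by
    have := H.κpos
    positivity
  linarith


end merges

section pw

variable [NeZero q] {ψ : (Fin q → ℝ) → ℝ} {c κ : ℝ} {Λ : Set ℝ}


lemma inC_of_J {Ω Ω' : Type*} {L : Ω → Fin q → ℝ} {L' : Ω' → Fin q → ℝ} (h : InC ψ c L)
    (hc : IsChan L') (hJ : ∀ φ : (Fin q → ℝ) → ℝ, J φ L' = J φ L) : InC ψ c L' := by
  refine ⟨hc, ?_⟩
  rw [hJ, hJ]
  exact h.2

lemma LawHyp.inC_pw (H : LawHyp.{u} q ψ c κ Λ) {Ω : Type u} {L : Ω → Fin q → ℝ}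
    (h : InC ψ c L) (n : ℕ) : InC ψ c (pw L n) := by
  induction n with
  | zero =>
    have : pw L 0 = fun _ _ => 1 := by funext o i; simp [pw]
    rw [this]
    exact H.inC_unit
  | succ n ih => exact inC_of_J (H.inC_mrg h ih) (h.1.pw _) fun φ => J_pw_succ φ L n

lemma J_pw_one {Ω : Type*} (φ : (Fin q → ℝ) → ℝ) (L : Ω → Fin q → ℝ) : J φ (pw L 1) = J φ L := by
  rw [← J_equiv (Equiv.funUnique (Fin 1) Ω) φ L]
  unfold J
  refine tsum_congr fun o => ?_
  congr 1
  funext i
  simp [pw]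

lemma LawHyp.X_pw_le (H : LawHyp.{u} q ψ c κ Λ) {Ω : Type u} {L : Ω → Fin q → ℝ}
    (h : InC ψ c L) (n : ℕ) : J chi (pw L n) ≤ n * J chi L := by
  induction n with
  | zero => rw [J_pw_zero, chi_one]; simp
  | succ n ih =>
    rw [J_pw_succ]
    have := H.X_mrg_le' h (H.inC_pw h n)
    push_cast
    linarith

lemma LawHyp.X_pw_le_loss (H : LawHyp.{u} q ψ c κ Λ) {Ω : Type u} {L : Ω → Fin q → ℝ}
    (h : InC ψ c L) {n : ℕ} (hn : 2 ≤ n) :
    J chi (pw L n) ≤ n * J chi L - 2 * κ * J chi L ^ 3 := by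
  induction n, hn using Nat.le_induction with
  | base =>
    rw [J_pw_succ]
    have := H.X_mrg_le h (H.inC_pw h 1)
    rw [J_pw_one] at this
    push_cast
    nlinarith [this]
  | succ n _ ih =>
    rw [J_pw_succ]
    have := H.X_mrg_le' h (H.inC_pw h n)
    push_cast
    linarith

end pw

/-! ### convergence of scalar recursions -/

lemma tendsto_zero_of_cubic {x : ℕ → ℝ} {a : ℝ} (ha : 0 < a) (h0 : ∀ n, 0 ≤ x n)
    (h : ∀ n, x (n + 1) ≤ x n - a * x n ^ 3) : Filter.Tendsto x Filter.atTop (nhds 0) := by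
  have hanti : Antitone x := antitone_nat_of_succ_le fun n => by
    have := h n
    have h1 : 0 ≤ a * x n ^ 3 := mul_nonneg ha.le (pow_nonneg (h0 n) 3)
    linarith
  have hbdd : BddBelow (Set.range x) := ⟨0, by rintro _ ⟨n, rfl⟩; exact h0 n⟩
  have hlim := tendsto_atTop_ciInf hanti hbdd
  set l := ⨅ n, x n with hl
  have hl0 : 0 ≤ l := le_ciInf h0
  have h1 : Filter.Tendsto (fun n => x n - a * x n ^ 3) Filter.atTop (nhds (l - a * l ^ 3)) :=
    hlim.sub ((hlim.pow 3).const_mul a)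
  have h2 : Filter.Tendsto (fun n => x (n + 1)) Filter.atTop (nhds l) :=
    hlim.comp (Filter.tendsto_add_atTop_nat 1)
  have h3 : l ≤ l - a * l ^ 3 := le_of_tendsto_of_tendsto' h2 h1 h
  have h4 : a * l ^ 3 ≤ 0 := by linarith
  have h5 : l = 0 := by
    by_contra hne
    have : 0 < l := lt_of_le_of_ne hl0 (Ne.symm hne)
    have : 0 < a * l ^ 3 := by positivity
    linarith
  rw [h5] at hlim
  exact hlim

lemma tv_tendsto [NeZero q] {Ω : ℕ → Type*} (L : ∀ n, Ω n → Fin q → ℝ) (h : ∀ n, IsChan (L n))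
    (hX : Filter.Tendsto (fun n => J chi (L n)) Filter.atTop (nhds 0)) :
    Filter.Tendsto (fun n => J tv (L n)) Filter.atTop (nhds 0) := by
  have h1 : Filter.Tendsto (fun n => (1 / 2) * Real.sqrt (J chi (L n))) Filter.atTop (nhds 0) := by
    have := (Real.continuous_sqrt.tendsto 0).comp hX
    rw [Real.sqrt_zero] at this
    have h2 := this.const_mul (1 / 2)
    rw [mul_zero] at h2
    exact h2
  exact squeeze_zero (fun n => (h n).J_nonneg fun v _ => tv_nonneg v) (fun n => (h n).J_tv_le) h1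

section trees

variable [NeZero q] {ψ : (Fin q → ℝ) → ℝ} {c κ : ℝ} {Λ : Set ℝ}

lemma reg_zero (b : ℕ) (lam : ℝ) : reg q b lam 0 =
    fun o i => if (Equiv.funUnique (Fin 0 → Fin b) (Fin q)) o = i then 1 else 0 := by
  funext o i
  simp only [reg, leafLaw, Equiv.funUnique_apply]
  congr!

lemma LawHyp.inC_reg (H : LawHyp.{0} q ψ c κ Λ) (b : ℕ) {lam : ℝ} (hlam : lam ∈ Λ) (ℓ : ℕ) :
    InC ψ c (reg q b lam ℓ) := by
  induction ℓ with
  | zero => rw [reg_zero]; exact H.inC_perfect _
  | succ ℓ ih =>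
    exact inC_of_J (H.inC_pw (H.inC_edge ih hlam) b) (reg_isChan b (H.adm lam hlam) _)
      fun φ => J_reg_succ φ b lam ℓ

/-- regular trees: non-reconstruction up to and including the Kesten–Stigum bound -/
theorem LawHyp.regular (H : LawHyp.{0} q ψ c κ Λ) {b : ℕ} (hb : 2 ≤ b) {lam : ℝ} (hlam : lam ∈ Λ)
    (hks : (b : ℝ) * lam ^ 2 ≤ 1) :
    Filter.Tendsto (advantage q b lam) Filter.atTop (nhds 0) := by
  have hfun : advantage q b lam = fun ℓ => J tv (reg q b lam ℓ) := by
    funext ℓ; exact advantage_eq q b lam ℓ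
  rw [hfun]
  refine tv_tendsto _ (fun ℓ => reg_isChan b (H.adm lam hlam) ℓ) ?_
  have hX0 : ∀ ℓ, 0 ≤ J chi (reg q b lam ℓ) := fun ℓ =>
    (reg_isChan b (H.adm lam hlam) ℓ).X_nonneg
  have hrec : ∀ ℓ, J chi (reg q b lam (ℓ + 1)) ≤
      b * (lam ^ 2 * J chi (reg q b lam ℓ)) - 2 * κ * (lam ^ 2 * J chi (reg q b lam ℓ)) ^ 3 := by
    intro ℓ
    have h1 := H.inC_edge (H.inC_reg b hlam ℓ) hlam
    have h2 := H.X_pw_le_loss h1 hb
    rw [(H.inC_reg b hlam ℓ).1.J_chi_edge lam] at h2
    rw [J_reg_succ]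
    exact h2
  by_cases hz : lam = 0
  · subst hz
    have : ∀ ℓ, J chi (reg q b 0 (ℓ + 1)) = 0 := fun ℓ => by
      have := hrec ℓ
      simp only [ne_eq, OfNat.ofNat_ne_zero, not_false_eq_true, zero_pow, zero_mul, mul_zero,
        sub_zero] at this
      exact le_antisymm this (hX0 _)
    rw [← Filter.tendsto_add_atTop_iff_nat 1]
    simp only [this]
    exact tendsto_const_nhds
  · have hl2 : 0 < lam ^ 2 := by positivity
    refine tendsto_zero_of_cubic (a := 2 * κ * (lam ^ 2) ^ 3) (by have := H.κpos; positivity) hX0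
      fun ℓ => ?_
    have h1 := hrec ℓ
    have h2 : (b : ℝ) * (lam ^ 2 * J chi (reg q b lam ℓ)) ≤ 1 * J chi (reg q b lam ℓ) := by
      rw [← mul_assoc]
      exact mul_le_mul_of_nonneg_right hks (hX0 ℓ)
    calc J chi (reg q b lam (ℓ + 1)) ≤ _ := h1
      _ ≤ 1 * J chi (reg q b lam ℓ) - 2 * κ * (lam ^ 2 * J chi (reg q b lam ℓ)) ^ 3 := by linarith
      _ = _ := by ring

/-! #### Poisson -/

lemma hom_chi : Hom (chi (q := q)) := by
  intro a v ha hv
  have h1 : avg (fun i => a * v i) = a * avg v := by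
    unfold avg; rw [← Finset.mul_sum, mul_div_assoc]
  have h2 : avg (fun i => (a * v i) ^ 2) = a ^ 2 * avg (fun i => v i ^ 2) := by
    unfold avg
    simp only [mul_pow]
    rw [← Finset.mul_sum, mul_div_assoc]
  unfold chi
  rw [h1, h2]
  rcases ha.eq_or_lt with h0 | h0
  · subst h0; simp
  · by_cases hv0 : avg v = 0
    · simp [hv0]
    · field_simp

lemma LawHyp.inC_pois (H : LawHyp.{0} q ψ c κ Λ) {Ω : Type} {L : Ω → Fin q → ℝ}
    (h : InC ψ c L) {d : ℝ} (hd : 0 ≤ d) : InC ψ c (pois d L) := by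
  refine ⟨pois_isChan hd h.1, ?_⟩
  have h1 := J_pois hd h.1 H.bdd H.hom
  have h2 := J_pois hd h.1 bdd_chi hom_chi
  have hX : 0 ≤ J chi (pois d L) := (pois_isChan hd h.1).X_nonneg
  -- tangent-line form of Jensen
  set t := J chi (pois d L) with ht
  have h3 : HasSum (fun n => pwt d n * (2 * t * J chi (pw L n) - t ^ 2)) (2 * t * t - 1 * t ^ 2) := by
    have := (h2.mul_left (2 * t)).sub ((pwt_hasSum d).mul_right (t ^ 2))
    exact hasSum_cast this fun n => by ring
  have h4 : c * (2 * t * t - 1 * t ^ 2) ≤ J ψ (pois d L) := by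
    refine hasSum_le (fun n => ?_) (h3.mul_left c) h1
    have h5 := (H.inC_pw h n).2
    have h6 : c * (2 * t * J chi (pw L n) - t ^ 2) ≤ c * J chi (pw L n) ^ 2 := by
      apply mul_le_mul_of_nonneg_left _ H.cpos.le
      nlinarith [sq_nonneg (J chi (pw L n) - t)]
    have h7 := mul_le_mul_of_nonneg_left (h6.trans h5) (pwt_nonneg hd n)
    linarith
  linarith

lemma LawHyp.inC_gw (H : LawHyp.{0} q ψ c κ Λ) {lam d : ℝ} (hlam : lam ∈ Λ) (hd : 0 ≤ d) (ℓ : ℕ) :
    InC ψ c (gw q lam d ℓ) := by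
  induction ℓ with
  | zero => exact H.inC_perfect (Equiv.refl (Fin q))
  | succ ℓ ih =>
    rw [gw_succ]
    exact H.inC_pois (H.inC_edge ih hlam) hd

/-- the mean of the Poisson weights -/
lemma pwt_mean (d : ℝ) : HasSum (fun n => pwt d n * n) d := by
  have h1 : HasSum (fun n => pwt d (n + 1) * ((n + 1 : ℕ) : ℝ)) d := by
    have := (pwt_hasSum d).mul_left d
    rw [mul_one] at this
    refine hasSum_cast this fun n => ?_
    unfold pwt
    rw [Nat.factorial_succ]
    push_cast
    have : (n : ℝ) + 1 ≠ 0 := by positivity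
    have h2 : (Nat.factorial n : ℝ) ≠ 0 := by exact_mod_cast Nat.factorial_ne_zero n
    field_simp
    ring
  have h2 := (hasSum_nat_add_iff (f := fun n : ℕ => pwt d n * (n : ℝ)) 1).1 h1
  simpa using h2

/-- Poisson tree: non-reconstruction up to and including the Kesten–Stigum bound -/
theorem LawHyp.poisson (H : LawHyp.{0} q ψ c κ Λ) {lam d : ℝ} (hlam : lam ∈ Λ) (hd : 0 < d)
    (hks : d * lam ^ 2 ≤ 1) :
    Filter.Tendsto (gwAdvantage q lam d) Filter.atTop (nhds 0) := by
  have hfun : gwAdvantage q lam d = fun ℓ => J tv (gw q lam d ℓ) := by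
    funext ℓ; exact gwAdvantage_eq q lam d ℓ
  rw [hfun]
  refine tv_tendsto _ (fun ℓ => gw_isChan (H.adm lam hlam) hd.le ℓ) ?_
  have hX0 : ∀ ℓ, 0 ≤ J chi (gw q lam d ℓ) := fun ℓ =>
    (gw_isChan (H.adm lam hlam) hd.le ℓ).X_nonneg
  have hrec : ∀ ℓ, J chi (gw q lam d (ℓ + 1)) ≤
      d * (lam ^ 2 * J chi (gw q lam d ℓ)) -
        pwt d 2 * (2 * κ * (lam ^ 2 * J chi (gw q lam d ℓ)) ^ 3) := by
    intro ℓ
    have h1 := H.inC_edge (H.inC_gw hlam hd.le ℓ) hlam
    have h2 := J_pois hd.le h1.1 bdd_chi hom_chi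
    rw [gw_succ]
    set Y := lam ^ 2 * J chi (gw q lam d ℓ) with hY
    have hYe : J chi (fun o => W lam (gw q lam d ℓ o)) = Y :=
      (H.inC_gw hlam hd.le ℓ).1.J_chi_edge lam
    have h3 : HasSum (fun n : ℕ => pwt d n * (n * Y) - if n = 2 then pwt d 2 * (2 * κ * Y ^ 3) else 0)
        (d * Y - pwt d 2 * (2 * κ * Y ^ 3)) := by
      have h4 := (pwt_mean d).mul_right Y
      have h5 := hasSum_ite_eq 2 (pwt d 2 * (2 * κ * Y ^ 3))
      have h6 := h4.sub h5
      exact hasSum_cast h6 fun n => by ring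
    refine hasSum_le (fun n => ?_) h2 h3
    by_cases hn : n = 2
    · subst hn
      have h7 := H.X_pw_le_loss h1 (le_refl 2)
      rw [hYe] at h7
      have h8 := mul_le_mul_of_nonneg_left h7 (pwt_nonneg hd.le 2)
      rw [if_pos rfl]
      linarith
    · have h7 := H.X_pw_le h1 n
      rw [hYe] at h7
      have h8 := mul_le_mul_of_nonneg_left h7 (pwt_nonneg hd.le n)
      rw [if_neg hn]
      linarith
  have hp2 : 0 < pwt d 2 := by unfold pwt; positivity
  by_cases hz : lam = 0
  · subst hz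
    have : ∀ ℓ, J chi (gw q 0 d (ℓ + 1)) = 0 := fun ℓ => by
      have := hrec ℓ
      simp only [ne_eq, OfNat.ofNat_ne_zero, not_false_eq_true, zero_pow, zero_mul, mul_zero,
        sub_zero] at this
      exact le_antisymm this (hX0 _)
    rw [← Filter.tendsto_add_atTop_iff_nat 1]
    simp only [this]
    exact tendsto_const_nhds
  · have hl2 : 0 < lam ^ 2 := by positivity
    refine tendsto_zero_of_cubic (a := pwt d 2 * (2 * κ * (lam ^ 2) ^ 3))
      (by have := H.κpos; positivity) hX0 fun ℓ => ?_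
    have h1 := hrec ℓ
    have h2 : d * (lam ^ 2 * J chi (gw q lam d ℓ)) ≤ 1 * J chi (gw q lam d ℓ) := by
      rw [← mul_assoc]
      exact mul_le_mul_of_nonneg_right hks (hX0 ℓ)
    calc J chi (gw q lam d (ℓ + 1)) ≤ _ := h1
      _ ≤ 1 * J chi (gw q lam d ℓ) - pwt d 2 * (2 * κ * (lam ^ 2 * J chi (gw q lam d ℓ)) ^ 3) := by
          linarith
      _ = _ := by ring

/-! #### general trees -/

variable {V : Type u} [DecidableEq V]

lemma LawHyp.inC_sc_of (H : LawHyp.{u} q ψ c κ Λ) (T : LocFinTree V) {lam : ℝ} (hlam : lam ∈ Λ)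
    (k : ℕ) (S : Finset V) (h : ∀ w ∈ S, InC ψ c (tc q T lam k w)) :
    InC ψ c (sc q T lam k S) := by
  induction S using Finset.induction_on with
  | empty =>
    rw [sc_empty]
    have : IsEmpty ↥((∅ : Finset V).biUnion (D T k)) := by
      rw [Finset.biUnion_empty]
      infer_instance
    exact H.inC_unit
  | insert a S ha ih =>
    have ih' := ih fun w hw => h w (Finset.mem_insert_of_mem hw)
    have h1 := H.inC_edge (h a (Finset.mem_insert_self a S)) hlam
    exact inC_of_J (H.inC_mrg h1 ih') (sc_isChan T (H.adm lam hlam) k _)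
      fun φ => J_sc_insert T lam k ha φ

lemma LawHyp.inC_tc (H : LawHyp.{u} q ψ c κ Λ) (T : LocFinTree V) {lam : ℝ} (hlam : lam ∈ Λ)
    (k : ℕ) (v : V) : InC ψ c (tc q T lam k v) := by
  induction k generalizing v with
  | zero =>
    have hv : v ∈ D T 0 v := Finset.mem_singleton_self v
    have hd : ∀ x : ↥(D T 0 v), x = ⟨v, hv⟩ := fun x => Subtype.ext (Finset.mem_singleton.1 x.2)
    have hu : Unique ↥(D T 0 v) := { default := ⟨v, hv⟩, uniq := hd }
    have : tc q T lam 0 v =
        fun o i => if (Equiv.funUnique ↥(D T 0 v) (Fin q)) o = i then 1 else 0 := by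
      funext τ i
      simp only [tc, res, F, ext_mem τ hv, Equiv.funUnique_apply]
      rw [hd default]
    rw [this]
    exact H.inC_perfect _
  | succ k ih => rw [tc_succ]; exact H.inC_sc_of T hlam k _ fun w _ => ih w



end trees

end Crest.Agent.R163
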