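import Mathlib

/-!
Row 163, density evolution: kernel friendly arithmetic on packed states and the lemmas on digits.
-/

set_option autoImplicit false

namespace Crest.Agent.R163.DE

/-- kernel friendly sum -/
def ksum (n : Nat) (f : Nat → Nat) : Nat :=
  Nat.rec (motive := fun _ => Nat) 0 (fun i acc => Nat.add acc (f i)) n

/-- kernel friendly bounded quantifier -/
def kall (n : Nat) (f : Nat → Bool) : Bool :=
  Nat.rec (motive := fun _ => Bool) true (fun i acc => and (f i) acc) n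

lemma ksum_eq (n : ℕ) (f : ℕ → ℕ) : ksum n f = ∑ i ∈ Finset.range n, f i := by
  induction n with
  | zero => rfl
  | succ n ih =>
    rw [Finset.sum_range_succ, ← ih]
    rfl

lemma kall_iff (n : ℕ) (f : ℕ → Bool) : kall n f = true ↔ ∀ i < n, f i = true := by
  induction n with
  | zero => simp [kall]
  | succ n ih =>
    have h : kall (n + 1) f = (f n && kall n f) := rfl
    rw [h, Bool.and_eq_true, ih]
    constructor
    · rintro ⟨h1, h2⟩ i hi
      rcases Nat.lt_succ_iff_lt_or_eq.1 hi with hi | hi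
      · exact h2 i hi
      · rw [hi]; exact h1
    · intro h
      exact ⟨h n (Nat.lt_succ_self n), fun i hi => h i (Nat.lt_succ_of_lt hi)⟩

/-- digit of a packed state -/
def dig (S t : Nat) : Nat := Nat.land (Nat.shiftRight S (Nat.mul 40 t)) 1099511627775

def idx (i j : Nat) : Nat := Nat.add i (Nat.mul 21 j)

/-- `6 * 2 ^ 36` -/
def c0 : Nat := 412316860416

/-- multiplicities -/
def mlt (k q : Nat) : Nat :=
  Nat.rec (motive := fun _ => Nat) (Nat.rec (motive := fun _ => Nat) 1 (fun _ _ => 3) q)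
    (fun _ _ => Nat.rec (motive := fun _ => Nat) 3 (fun _ _ => 6) q) k

/-- `w` at position `(a, b)` -/
def sh (w a b : Nat) : Nat := Nat.shiftLeft w (Nat.mul 120 (Nat.add a (Nat.mul 81 b)))

def term (w wj wi i j k : Nat) : Nat :=
  Nat.add (Nat.add
    (Nat.add (sh w (Nat.add i 20) (Nat.add j 20)) (sh w (Nat.add j 20) (Nat.add i 20)))
    (Nat.add (sh wj (Nat.add k 20) (Nat.sub 20 j)) (sh wj (Nat.sub 20 j) (Nat.add k 20))))
    (Nat.add (sh wi (Nat.sub 20 k) (Nat.sub 20 i)) (sh wi (Nat.sub 20 i) (Nat.sub 20 k)))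

/-- `w * (5/4)^i` rounded down -/
def sc (w i : Nat) : Nat := Nat.shiftRight (Nat.mul w (Nat.pow 5 i)) (Nat.mul 2 i)

def NA (S : Nat) : Nat :=
  ksum 21 fun k => ksum (Nat.sub 21 k) fun j =>
    term (dig S (idx (Nat.add k j) j)) (sc (dig S (idx (Nat.add k j) j)) j)
      (sc (dig S (idx (Nat.add k j) j)) (Nat.add k j)) (Nat.add k j) j k

/-- `w` at position `a` -/
def sh1 (w a : Nat) : Nat := Nat.shiftLeft w (Nat.mul 120 a)

def termB (w wj wi i j k : Nat) : Nat :=
  Nat.add (Nat.add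
    (Nat.add (sh1 w (Nat.add j 20)) (sh1 w (Nat.add i 20)))
    (Nat.add (sh1 wj (Nat.sub 20 j)) (sh1 wj (Nat.add k 20))))
    (Nat.add (sh1 wi (Nat.sub 20 i)) (sh1 wi (Nat.sub 20 k)))

def NB (S : Nat) : Nat :=
  ksum 21 fun k => ksum (Nat.sub 21 k) fun j =>
    termB (dig S (idx (Nat.add k j) j)) (sc (dig S (idx (Nat.add k j) j)) j)
      (sc (dig S (idx (Nat.add k j) j)) (Nat.add k j)) (Nat.add k j) j k

def NE (S : Nat) : Nat :=
  ksum 21 fun k => Nat.add
    (sh1 (dig S (Nat.add 441 k)) (Nat.add k 20))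
    (sh1 (sc (dig S (Nat.add 441 k)) k) (Nat.sub 20 k))

/-- coefficient of the square -/
def cf (N p q : Nat) : Nat :=
  Nat.land (Nat.shiftRight N (Nat.mul 120 (Nat.add (Nat.add p 40) (Nat.mul 81 (Nat.add q 40)))))
    1329227995784915872903807060280344575

def cfe (N m : Nat) : Nat :=
  Nat.land (Nat.shiftRight N (Nat.mul 120 (Nat.add m 40))) 1329227995784915872903807060280344575

/-- multiplicity times coefficient at `(k + j, j)` -/
def mC (N k j : Nat) : Nat := Nat.mul (mlt k j) (cf N (Nat.add k j) j)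

/-- far excess: `c * ((5/4)^q - (5/4)^m)` rounded down, `m ≤ q` -/
def exc (c q m : Nat) : Nat :=
  Nat.shiftRight (Nat.mul c (Nat.sub (Nat.pow 5 q) (Nat.mul (Nat.pow 5 m) (Nat.pow 4 (Nat.sub q m)))))
    (Nat.mul 2 q)

def FI (N k : Nat) : Nat := ksum 20 fun q => mC N k (Nat.add (Nat.sub 21 k) q)

def FE (N k : Nat) : Nat := ksum 20 fun q =>
  exc (mC N k (Nat.add (Nat.sub 21 k) q)) (Nat.add (Nat.sub 21 k) q) (Nat.sub 20 k)

def GI (N : Nat) : Nat := ksum 20 fun k => ksum (Nat.sub 20 k) fun q => mC N (Nat.add 21 k) q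

def GE (N : Nat) : Nat := ksum 20 fun k => ksum (Nat.sub 20 k) fun q =>
  exc (mC N (Nat.add 21 k) q) q 0

/-- edge multiplicity -/
def mlte (k : Nat) : Nat := Nat.rec (motive := fun _ => Nat) 3 (fun _ _ => 6) k




/-- table entry -/
def tb (T s c : Nat) : Nat :=
  Nat.land (Nat.shiftRight T (Nat.mul 48 (Nat.add (Nat.mul 6 s) c))) 281474976710655

def wterm (T w s : Nat) : Nat :=
  Nat.add (Nat.add
    (Nat.shiftLeft (Nat.mul w (tb T s 1)) (Nat.mul 104 (tb T s 0)))
    (Nat.shiftLeft (Nat.mul w (tb T s 3)) (Nat.mul 104 (tb T s 2))))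
    (Nat.shiftLeft (Nat.mul w (tb T s 5)) (Nat.mul 104 (tb T s 4)))

def NW (T S : Nat) : Nat :=
  Nat.add (ksum 21 fun k => ksum (Nat.sub 21 k) fun j =>
    wterm T (dig S (idx (Nat.add k j) j)) (idx (Nat.add k j) j))
   (ksum 21 fun k => wterm T (dig S (Nat.add 441 k)) (Nat.add 441 k))

/-- `4 ^ 20 * (5/4)^i` -/
def r20 (i : Nat) : Nat := Nat.mul (Nat.pow 5 i) (Nat.pow 4 (Nat.sub 20 i))

/-- column sum times `4 ^ 20` -/
def colnum (S : Nat) : Nat :=
  Nat.add (ksum 21 fun k => ksum (Nat.sub 21 k) fun j =>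
    Nat.mul (dig S (idx (Nat.add k j) j))
      (Nat.add (Nat.add (r20 (Nat.add k j)) (r20 j)) 1099511627776))
   (ksum 21 fun k => Nat.mul (dig S (Nat.add 441 k)) (Nat.add (r20 k) 1099511627776))

/-- digit of `NW` -/
def dw (N t : Nat) : Nat :=
  Nat.land (Nat.shiftRight N (Nat.mul 104 t)) 20282409603651670423947251286015

/-- check of an edge step -/
def chkW (T S S' : Nat) : Bool :=
  and (Nat.ble (Nat.mul 2 (colnum S)) 75557863725914323419136)
   (and (kall 21 fun k => kall (Nat.sub 21 k) fun j =>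
      Nat.ble (Nat.mul 68719476736 (dig S' (idx (Nat.add k j) j)))
        (dw (NW T S) (idx (Nat.add k j) j)))
    (and (Nat.ble (Nat.mul 4398046511104 (dig S' 441))
       (Nat.add (Nat.sub 75557863725914323419136 (Nat.mul 2 (colnum S)))
         (Nat.mul 2199023255552 (dig S 461))))
     (kall 20 fun k => Nat.beq (dig S' (Nat.add 442 k)) 0)))

/-- check of the table: interior sources -/
def chkT (T : Nat) : Bool :=
  and (kall 21 fun k => kall (Nat.sub 21 k) fun j =>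
    let s := idx (Nat.add k j) j
    and (and (Nat.ble (Nat.succ (tb T s 0)) 441)
        (and (Nat.ble (Nat.succ (tb T s 2)) 441) (Nat.ble (Nat.succ (tb T s 4)) 441)))
     (and (Nat.ble (Nat.mul 2 (Nat.add (Nat.add
          (Nat.mul (tb T s 1) (r20 (Nat.mod (tb T s 0) 21)))
          (Nat.mul (tb T s 3) (r20 (Nat.mod (tb T s 2) 21))))
          (Nat.mul (tb T s 5) (r20 (Nat.mod (tb T s 4) 21)))))
          (Nat.mul 68719476736 (Nat.add (r20 (Nat.add k j)) (r20 j))))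
      (and (Nat.ble (Nat.mul 2 (Nat.add (Nat.add
          (Nat.mul (tb T s 1) (r20 (Nat.div (tb T s 0) 21)))
          (Nat.mul (tb T s 3) (r20 (Nat.div (tb T s 2) 21))))
          (Nat.mul (tb T s 5) (r20 (Nat.div (tb T s 4) 21)))))
          (Nat.mul 68719476736 (Nat.add (r20 (Nat.add k j)) 1099511627776)))
       (Nat.ble (Nat.mul 1099511627776 (Nat.mul 2 (Nat.add (Nat.add (tb T s 1) (tb T s 3)) (tb T s 5))))
          (Nat.mul 68719476736 (Nat.add (r20 j) 1099511627776))))))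
  (kall 21 fun k =>
    let s := Nat.add 441 k
    let x := Nat.div k 20
    and (and (Nat.ble (Nat.succ (tb T s 0)) 441)
        (and (Nat.ble (Nat.succ (tb T s 2)) 441) (Nat.ble (Nat.succ (tb T s 4)) 441)))
     (and (Nat.ble (Nat.mul 2 (Nat.add (Nat.add (Nat.add
          (Nat.mul (tb T s 1) (r20 (Nat.mod (tb T s 0) 21)))
          (Nat.mul (tb T s 3) (r20 (Nat.mod (tb T s 2) 21))))
          (Nat.mul (tb T s 5) (r20 (Nat.mod (tb T s 4) 21))))
          (Nat.mul x 37778931862957161709568)))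
          (Nat.mul 68719476736 (Nat.add (r20 k) 1099511627776)))
      (and (Nat.ble (Nat.mul 2 (Nat.add (Nat.add (Nat.add
          (Nat.mul (tb T s 1) (r20 (Nat.div (tb T s 0) 21)))
          (Nat.mul (tb T s 3) (r20 (Nat.div (tb T s 2) 21))))
          (Nat.mul (tb T s 5) (r20 (Nat.div (tb T s 4) 21))))
          (Nat.mul x 37778931862957161709568)))
          (Nat.mul 68719476736 (r20 k)))
       (Nat.ble (Nat.mul 2 (Nat.add (Nat.add (tb T s 1) (tb T s 3)) (tb T s 5)))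
          68719476736))))

/-! ### elementary facts -/

lemma and_mask (n w : ℕ) : Nat.land n (2 ^ w - 1) = n % 2 ^ w := Nat.and_two_pow_sub_one_eq_mod n w

lemma dig_eq (S t : ℕ) : dig S t = S / 2 ^ (40 * t) % 2 ^ 40 := by
  have h := and_mask (Nat.shiftRight S (Nat.mul 40 t)) 40
  have h2 : Nat.shiftRight S (Nat.mul 40 t) = S / 2 ^ (40 * t) := Nat.shiftRight_eq_div_pow _ _
  rw [← h2, ← h]
  rfl

lemma dig_lt (S t : ℕ) : dig S t < 2 ^ 40 := by
  rw [dig_eq]; exact Nat.mod_lt _ (by norm_num)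

lemma dig_zero (t : ℕ) : dig 0 t = 0 := by
  rw [dig_eq]; simp

lemma tb_lt (T s c : ℕ) : tb T s c < 2 ^ 48 := by
  have h := and_mask (Nat.shiftRight T (Nat.mul 48 (Nat.add (Nat.mul 6 s) c))) 48
  have h2 : tb T s c = Nat.land (Nat.shiftRight T (Nat.mul 48 (Nat.add (Nat.mul 6 s) c)))
    (2 ^ 48 - 1) := rfl
  rw [h2, h]
  exact Nat.mod_lt _ (by norm_num)

lemma sh_eq (w a b : ℕ) : sh w a b = w * (2 ^ 120) ^ (a + 81 * b) := by
  unfold sh
  have : Nat.shiftLeft w (Nat.mul 120 (Nat.add a (Nat.mul 81 b))) =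
    w * 2 ^ (120 * (a + 81 * b)) := Nat.shiftLeft_eq _ _
  rw [this, pow_mul]

lemma sh1_eq (w a : ℕ) : sh1 w a = w * (2 ^ 120) ^ a := by
  unfold sh1
  have : Nat.shiftLeft w (Nat.mul 120 a) = w * 2 ^ (120 * a) := Nat.shiftLeft_eq _ _
  rw [this, pow_mul]

lemma sc_eq (w i : ℕ) : sc w i = w * 5 ^ i / 4 ^ i := by
  unfold sc
  have : Nat.shiftRight (Nat.mul w (Nat.pow 5 i)) (Nat.mul 2 i) = w * 5 ^ i / 2 ^ (2 * i) :=
    Nat.shiftRight_eq_div_pow _ _
  rw [this, pow_mul]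
  norm_num

lemma sc_lt {w i : ℕ} (hw : w < 2 ^ 40) (hi : i ≤ 20) : sc w i < 2 ^ 47 := by
  rw [sc_eq, Nat.div_lt_iff_lt_mul (by positivity)]
  have h : 5 ^ i ≤ 2 ^ 7 * 4 ^ i := by
    interval_cases i <;> norm_num
  calc w * 5 ^ i ≤ w * (2 ^ 7 * 4 ^ i) := Nat.mul_le_mul_left _ h
    _ < 2 ^ 40 * (2 ^ 7 * 4 ^ i) := Nat.mul_lt_mul_of_pos_right hw (by positivity)
    _ = 2 ^ 47 * 4 ^ i := by ring

lemma cf_eq (N p q : ℕ) : cf N p q = N / (2 ^ 120) ^ ((p + 40) + 81 * (q + 40)) % 2 ^ 120 := by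
  have h := and_mask (Nat.shiftRight N (Nat.mul 120 (Nat.add (Nat.add p 40)
    (Nat.mul 81 (Nat.add q 40))))) 120
  have h2 : Nat.shiftRight N (Nat.mul 120 (Nat.add (Nat.add p 40) (Nat.mul 81 (Nat.add q 40)))) =
    N / 2 ^ (120 * ((p + 40) + 81 * (q + 40))) := Nat.shiftRight_eq_div_pow _ _
  rw [← pow_mul, ← h2, ← h]
  rfl

lemma cfe_eq (N m : ℕ) : cfe N m = N / (2 ^ 120) ^ (m + 40) % 2 ^ 120 := by
  have h := and_mask (Nat.shiftRight N (Nat.mul 120 (Nat.add m 40))) 120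
  have h2 : Nat.shiftRight N (Nat.mul 120 (Nat.add m 40)) =
    N / 2 ^ (120 * (m + 40)) := Nat.shiftRight_eq_div_pow _ _
  rw [← pow_mul, ← h2, ← h]
  rfl

lemma dw_eq (N t : ℕ) : dw N t = N / (2 ^ 104) ^ t % 2 ^ 104 := by
  have h := and_mask (Nat.shiftRight N (Nat.mul 104 t)) 104
  have h2 : Nat.shiftRight N (Nat.mul 104 t) = N / 2 ^ (104 * t) := Nat.shiftRight_eq_div_pow _ _
  rw [← pow_mul, ← h2, ← h]
  rfl

/-! ### digits of families -/

theorem digit_sum {ι : Type*} (s : Finset ι) (c t : ι → ℕ) (X : ℕ) (hc : ∑ i ∈ s, c i < X)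
    (p : ℕ) : (∑ i ∈ s, c i * X ^ t i) / X ^ p % X = ∑ i ∈ s with t i = p, c i := by
  have hX : 0 < X := by omega
  set A := ∑ i ∈ s with t i < p, c i * X ^ t i with hA
  set D := ∑ i ∈ s with t i = p, c i with hD
  have h1 : ∑ i ∈ s, c i * X ^ t i = A + ((∑ i ∈ s with t i = p, c i * X ^ t i) +
      ∑ i ∈ s with p < t i, c i * X ^ t i) := by
    rw [hA, Finset.sum_filter, Finset.sum_filter, Finset.sum_filter, ← Finset.sum_add_distrib,
      ← Finset.sum_add_distrib]
    refine Finset.sum_congr rfl fun i _ => ?_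
    rcases lt_trichotomy (t i) p with h | h | h
    · rw [if_pos h, if_neg (by omega), if_neg (by omega)]; omega
    · rw [if_neg (by omega), if_pos h, if_neg (by omega)]; omega
    · rw [if_neg (by omega), if_neg (by omega), if_pos h]; omega
  have h2 : ∑ i ∈ s with t i = p, c i * X ^ t i = D * X ^ p := by
    rw [hD, Finset.sum_mul]
    refine Finset.sum_congr rfl fun i hi => ?_
    rw [(Finset.mem_filter.1 hi).2]
  have h3 : ∃ Q, ∑ i ∈ s with p < t i, c i * X ^ t i = Q * X * X ^ p := by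
    refine ⟨∑ i ∈ s with p < t i, c i * X ^ (t i - (p + 1)), ?_⟩
    rw [Finset.sum_mul, Finset.sum_mul]
    refine Finset.sum_congr rfl fun i hi => ?_
    have := (Finset.mem_filter.1 hi).2
    obtain ⟨d, hd⟩ := Nat.exists_eq_add_of_lt this
    rw [hd]
    have e : p + d + 1 - (p + 1) = d := by omega
    rw [e, mul_assoc, mul_assoc]
    congr 1
    rw [← pow_succ', ← pow_add]
    congr 1
    omega
  obtain ⟨Q, hQ⟩ := h3
  have h4 : A < X ^ p := by
    have h5 : A * X ≤ (∑ i ∈ s with t i < p, c i) * X ^ p := by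
      rw [hA, Finset.sum_mul, Finset.sum_mul]
      refine Finset.sum_le_sum fun i hi => ?_
      have := (Finset.mem_filter.1 hi).2
      rw [mul_assoc]
      refine Nat.mul_le_mul_left _ ?_
      rw [← pow_succ]
      exact Nat.pow_le_pow_right hX this
    have h6 : ∑ i ∈ s with t i < p, c i ≤ ∑ i ∈ s, c i :=
      Finset.sum_le_sum_of_subset (Finset.filter_subset _ _)
    have h7 : A * X < X ^ p * X := by
      calc A * X ≤ (∑ i ∈ s with t i < p, c i) * X ^ p := h5
        _ ≤ (∑ i ∈ s, c i) * X ^ p := Nat.mul_le_mul_right _ h6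
        _ < X * X ^ p := Nat.mul_lt_mul_of_pos_right hc (Nat.pow_pos hX)
        _ = X ^ p * X := by ring
    exact Nat.lt_of_mul_lt_mul_right h7
  have h8 : D < X := lt_of_le_of_lt
    (Finset.sum_le_sum_of_subset (Finset.filter_subset _ _)) hc
  rw [h1, h2, hQ]
  have h9 : A + (D * X ^ p + Q * X * X ^ p) = A + (D + Q * X) * X ^ p := by ring
  rw [h9, Nat.add_mul_div_right _ _ (Nat.pow_pos hX), Nat.div_eq_of_lt h4, zero_add,
    Nat.add_mul_mod_self_right, Nat.mod_eq_of_lt h8]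

/-- grouping a family by fibres, keeping only some of them -/
lemma fiber_le {ι κ τ : Type*} [DecidableEq κ] (s : Finset ι) (T : Finset τ) (φ : τ → κ)
    (hφ : Set.InjOn φ T) (g : ι → κ) (w : ι → ℕ) (H : κ → ℝ) (hH : ∀ i ∈ s, 0 ≤ H (g i)) :
    ∑ z ∈ T, ((∑ i ∈ s with g i = φ z, w i : ℕ) : ℝ) * H (φ z) ≤
      ∑ i ∈ s, (w i : ℝ) * H (g i) := by
  have h1 : ∀ z, ((∑ i ∈ s with g i = φ z, w i : ℕ) : ℝ) * H (φ z) =
      ∑ i ∈ s with g i = φ z, (w i : ℝ) * H (g i) := by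
    intro z
    rw [Nat.cast_sum, Finset.sum_mul]
    refine Finset.sum_congr rfl fun i hi => ?_
    rw [(Finset.mem_filter.1 hi).2]
  simp only [h1]
  rw [← Finset.sum_image (f := fun y => ∑ i ∈ s with g i = y, (w i : ℝ) * H (g i)) hφ]
  refine Finset.sum_fiberwise_le_sum_of_sum_fiber_nonneg fun y _ => ?_
  exact Finset.sum_nonneg fun i hi =>
    mul_nonneg (Nat.cast_nonneg _) (hH i (Finset.mem_filter.1 hi).1)

end Crest.Agent.R163.DE
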