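import Crest.Agent.R163.DE3

-- ▼ part R163/DE4
section

/-!
Row 163, density evolution: soundness of the check of a squaring step, algebraic part.
-/

set_option autoImplicit false

namespace Crest.Agent.R163.DE

open Crest.Agent.R163

/-! ### folding by symmetry -/

/-- weight of a vector in the closed sector `x ≥ y ≥ z` -/
noncomputable def u3 (x y z : ℝ) : ℝ :=
  if z ≤ y ∧ y ≤ x then
    (if x = y then (if y = z then 1 / 6 else 1 / 2) else (if y = z then 1 / 2 else 1))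
  else 0

lemma u3_nonneg (x y z : ℝ) : 0 ≤ u3 x y z := by
  unfold u3; split_ifs <;> norm_num

lemma u3_smul {c : ℝ} (hc : 0 < c) (x y z : ℝ) : u3 (c * x) (c * y) (c * z) = u3 x y z := by
  unfold u3
  simp only [mul_le_mul_iff_right₀ hc, mul_right_inj' hc.ne']

lemma u3_sum (x y z : ℝ) :
    u3 x y z + u3 y x z + u3 x z y + u3 z x y + u3 y z x + u3 z y x = 1 := by
  rcases lt_trichotomy x y with h1 | h1 | h1 <;> rcases lt_trichotomy y z with h2 | h2 | h2 <;>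
    rcases lt_trichotomy x z with h3 | h3 | h3 <;>
    first
    | (exfalso; linarith)
    | (unfold u3
       simp only [h1.le, h2.le, h3.le, h1.ne, h2.ne, h3.ne, h1.ne', h2.ne', h3.ne', not_le.2 h1,
         not_le.2 h2, not_le.2 h3, and_self, and_true, and_false, if_true, if_false]
       norm_num)
    | (subst h1
       unfold u3
       first
       | (simp only [h2.le, h2.ne, h2.ne', not_le.2 h2, le_refl, and_self, and_true, and_false,
            if_true, if_false]; norm_num)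
       | (subst h2; norm_num))
    | (subst h2
       unfold u3
       simp only [h1.le, h1.ne, h1.ne', not_le.2 h1, le_refl, and_self, and_true, and_false,
            if_true, if_false]; norm_num)
    | (subst h3
       unfold u3
       simp only [h1.le, h1.ne, h1.ne', not_le.2 h1, le_refl, and_self, and_true, and_false,
            if_true, if_false]; norm_num)

/-- folded functional -/
noncomputable def hh (G : (Fin 3 → ℝ) → ℝ) (v : Fin 3 → ℝ) : ℝ :=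
  u3 (v 0) (v 1) (v 2) * gs G (v 0) (v 1) (v 2)

/-- folded functional, first coordinate smallest -/
noncomputable def hh' (G : (Fin 3 → ℝ) → ℝ) (v : Fin 3 → ℝ) : ℝ :=
  u3 (v 1) (v 2) (v 0) * gs G (v 0) (v 1) (v 2)

lemma gs_hh (G : (Fin 3 → ℝ) → ℝ) (x y z : ℝ) : gs (hh G) x y z = gs G x y z := by
  have e : ∀ a b c : ℝ, hh G ![a, b, c] = u3 a b c * gs G a b c := fun _ _ _ => rfl
  have s1 := gs_swap01 G x y z
  have s2 := gs_swap12 G x y z
  have s3 : gs G z x y = gs G x y z := by rw [gs_swap01 G x z y, s2]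
  have s4 : gs G y z x = gs G x y z := by rw [gs_swap12 G y x z, s1]
  have s5 := gs_swap02 G x y z
  conv_lhs => unfold gs
  rw [e, e, e, e, e, e, s1, s2, s3, s4, s5]
  have := u3_sum x y z
  linear_combination (gs G x y z) * this

lemma gs_hh' (G : (Fin 3 → ℝ) → ℝ) (x y z : ℝ) : gs (hh' G) x y z = gs G x y z := by
  have e : ∀ a b c : ℝ, hh' G ![a, b, c] = u3 b c a * gs G a b c := fun _ _ _ => rfl
  have s1 := gs_swap01 G x y z
  have s2 := gs_swap12 G x y z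
  have s3 : gs G z x y = gs G x y z := by rw [gs_swap01 G x z y, s2]
  have s4 : gs G y z x = gs G x y z := by rw [gs_swap12 G y x z, s1]
  have s5 := gs_swap02 G x y z
  conv_lhs => unfold gs
  rw [e, e, e, e, e, e, s1, s2, s3, s4, s5]
  have := u3_sum x y z
  linear_combination (gs G x y z) * this

/-- double symmetrisation of a product -/
noncomputable def PP (G : (Fin 3 → ℝ) → ℝ) (x y z x' y' z' : ℝ) : ℝ :=
  gs (fun u => gs (fun v => G (fun i => u i * v i)) x' y' z') x y z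

lemma PP_eq (G : (Fin 3 → ℝ) → ℝ) (x y z x' y' z' : ℝ) :
    PP G x y z x' y' z' =
      gs G (x * x') (y * y') (z * z') + gs G (x * y') (y * x') (z * z') +
      gs G (x * x') (y * z') (z * y') + gs G (x * z') (y * x') (z * y') +
      gs G (x * y') (y * z') (z * x') + gs G (x * z') (y * y') (z * x') := by
  unfold PP gs
  simp only [mul_vec]
  ring

lemma PP_comm (G : (Fin 3 → ℝ) → ℝ) (x y z x' y' z' : ℝ) :
    PP G x y z x' y' z' = PP G x' y' z' x y z := by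
  rw [PP_eq, PP_eq]
  unfold gs
  rw [mul_comm x' x, mul_comm y' y, mul_comm z' z, mul_comm x' y, mul_comm y' x, mul_comm x' z,
    mul_comm y' z, mul_comm z' x, mul_comm z' y]
  ring

lemma PP_hh (G : (Fin 3 → ℝ) → ℝ) (x y z x' y' z' : ℝ) :
    PP G x y z x' y' z' = PP (hh G) x y z x' y' z' := by
  rw [PP_eq, PP_eq]
  simp only [gs_hh]

lemma PP_hh' (G : (Fin 3 → ℝ) → ℝ) (x y z x' y' z' : ℝ) :
    PP G x y z x' y' z' = PP (hh' G) x y z x' y' z' := by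
  rw [PP_eq, PP_eq]
  simp only [gs_hh']

/-! ### images -/

/-- the six permuted vectors -/
def img (x y z : ℝ) : Fin 6 → Fin 3 → ℝ :=
  ![![x, y, z], ![y, x, z], ![x, z, y], ![z, x, y], ![y, z, x], ![z, y, x]]

lemma gs_eq_sum (G : (Fin 3 → ℝ) → ℝ) (x y z : ℝ) : gs G x y z = ∑ g, G (img x y z g) := by
  rw [Fin.sum_univ_six]
  rfl

/-- positions and weights of the six images of the sector element `(k, j)` -/
def p1 (x : Σ _ : ℕ, ℕ) : Fin 6 → ℕ :=
  ![x.1 + x.2 + 20, x.2 + 20, x.1 + 20, 20 - x.2, 20 - x.1, 20 - (x.1 + x.2)]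

def p2 (x : Σ _ : ℕ, ℕ) : Fin 6 → ℕ :=
  ![x.2 + 20, x.1 + x.2 + 20, 20 - x.2, x.1 + 20, 20 - (x.1 + x.2), 20 - x.1]

def tA (x : Σ _ : ℕ, ℕ) : Fin 6 → ℕ := ![0, 0, x.2, x.2, x.1 + x.2, x.1 + x.2]

def wA (S : ℕ) (x : Σ _ : ℕ, ℕ) : Fin 6 → ℕ :=
  ![dig S (idx (x.1 + x.2) x.2), dig S (idx (x.1 + x.2) x.2),
    sc (dig S (idx (x.1 + x.2) x.2)) x.2, sc (dig S (idx (x.1 + x.2) x.2)) x.2,
    sc (dig S (idx (x.1 + x.2) x.2)) (x.1 + x.2), sc (dig S (idx (x.1 + x.2) x.2)) (x.1 + x.2)]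

lemma pw_id {a b c : ℕ} (h : a + b = c + 20) : rho ^ a * (rho ^ b / rho ^ 20) = rho ^ c := by
  have h20 : rho ^ 20 ≠ 0 := (rho_pow_pos 20).ne'
  rw [← mul_div_assoc, ← pow_add, h, pow_add, mul_div_assoc, div_self h20, mul_one]

lemma img_eq {x : Σ _ : ℕ, ℕ} (hx : x ∈ sec 21) (g : Fin 6) :
    img (rho ^ (x.1 + x.2)) (rho ^ x.2) 1 g =
      ![rho ^ tA x g * (rho ^ p1 x g / rho ^ 20), rho ^ tA x g * (rho ^ p2 x g / rho ^ 20),
        rho ^ tA x g] := by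
  have h := mem_sec.1 hx
  obtain ⟨k, j⟩ := x
  simp only at h
  have h1 : (1 : ℝ) = rho ^ 0 := (pow_zero _).symm
  fin_cases g
  · change ![rho ^ (k + j), rho ^ j, 1] = ![rho ^ 0 * (rho ^ (k + j + 20) / rho ^ 20),
      rho ^ 0 * (rho ^ (j + 20) / rho ^ 20), rho ^ 0]
    rw [pw_id (c := k + j) (by omega), pw_id (c := j) (by omega), pow_zero]
  · change ![rho ^ j, rho ^ (k + j), 1] = ![rho ^ 0 * (rho ^ (j + 20) / rho ^ 20),
      rho ^ 0 * (rho ^ (k + j + 20) / rho ^ 20), rho ^ 0]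
    rw [pw_id (c := j) (by omega), pw_id (c := k + j) (by omega), pow_zero]
  · change ![rho ^ (k + j), 1, rho ^ j] = ![rho ^ j * (rho ^ (k + 20) / rho ^ 20),
      rho ^ j * (rho ^ (20 - j) / rho ^ 20), rho ^ j]
    rw [pw_id (c := k + j) (by omega), pw_id (c := 0) (by omega), pow_zero]
  · change ![1, rho ^ (k + j), rho ^ j] = ![rho ^ j * (rho ^ (20 - j) / rho ^ 20),
      rho ^ j * (rho ^ (k + 20) / rho ^ 20), rho ^ j]
    rw [pw_id (c := 0) (by omega), pw_id (c := k + j) (by omega), pow_zero]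
  · change ![rho ^ j, 1, rho ^ (k + j)] = ![rho ^ (k + j) * (rho ^ (20 - k) / rho ^ 20),
      rho ^ (k + j) * (rho ^ (20 - (k + j)) / rho ^ 20), rho ^ (k + j)]
    rw [pw_id (c := j) (by omega), pw_id (c := 0) (by omega), pow_zero]
  · change ![1, rho ^ j, rho ^ (k + j)] = ![rho ^ (k + j) * (rho ^ (20 - (k + j)) / rho ^ 20),
      rho ^ (k + j) * (rho ^ (20 - k) / rho ^ 20), rho ^ (k + j)]
    rw [pw_id (c := 0) (by omega), pw_id (c := j) (by omega), pow_zero]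

lemma sc_cast_le (w i : ℕ) : (sc w i : ℝ) ≤ w * rho ^ i := by
  rw [sc_eq]
  refine Nat.cast_div_le.trans ?_
  push_cast
  unfold rho
  rw [div_pow, mul_div_assoc]

lemma wA_le (S : ℕ) (x : Σ _ : ℕ, ℕ) (g : Fin 6) :
    (wA S x g : ℝ) ≤ Y S x.1 x.2 * rho ^ tA x g := by
  have h0 : (dig S (idx (x.1 + x.2) x.2) : ℝ) ≤ Y S x.1 x.2 * rho ^ 0 := by
    rw [pow_zero, mul_one]; exact le_rfl
  have h1 := sc_cast_le (dig S (idx (x.1 + x.2) x.2)) x.2
  have h2 := sc_cast_le (dig S (idx (x.1 + x.2) x.2)) (x.1 + x.2)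
  fin_cases g
  · exact h0
  · exact h0
  · exact h1
  · exact h1
  · exact h2
  · exact h2

lemma wA_lt (S : ℕ) {x : Σ _ : ℕ, ℕ} (hx : x ∈ sec 21) (g : Fin 6) : wA S x g < 2 ^ 47 := by
  have h := mem_sec.1 hx
  have h0 : dig S (idx (x.1 + x.2) x.2) < 2 ^ 47 := (dig_lt _ _).trans (by norm_num)
  have h1 := sc_lt (dig_lt S (idx (x.1 + x.2) x.2)) (i := x.2) (by omega)
  have h2 := sc_lt (dig_lt S (idx (x.1 + x.2) x.2)) (i := x.1 + x.2) (by omega)
  fin_cases g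
  · exact h0
  · exact h0
  · exact h1
  · exact h1
  · exact h2
  · exact h2

lemma p1_le {x : Σ _ : ℕ, ℕ} (hx : x ∈ sec 21) (g : Fin 6) : p1 x g ≤ 40 := by
  have h := mem_sec.1 hx
  obtain ⟨k, j⟩ := x
  simp only at h
  fin_cases g
  · change k + j + 20 ≤ 40; omega
  · change j + 20 ≤ 40; omega
  · change k + 20 ≤ 40; omega
  · change 20 - j ≤ 40; omega
  · change 20 - k ≤ 40; omega
  · change 20 - (k + j) ≤ 40; omega

/-- index set of the images -/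
@[irreducible] def FA : Finset ((Σ _ : ℕ, ℕ) × Fin 6) := sec 21 ×ˢ Finset.univ

lemma card_FA : FA.card = 1386 := by
  unfold FA
  rw [Finset.card_product, card_sec, Finset.card_univ, Fintype.card_fin]

lemma term_eq (w wj wi i j k : ℕ) : term w wj wi i j k =
    (((w * (2 ^ 120) ^ (i + 20 + 81 * (j + 20)) + w * (2 ^ 120) ^ (j + 20 + 81 * (i + 20))) +
    (wj * (2 ^ 120) ^ (k + 20 + 81 * (20 - j)) + wj * (2 ^ 120) ^ (20 - j + 81 * (k + 20)))) +
    (wi * (2 ^ 120) ^ (20 - k + 81 * (20 - i)) + wi * (2 ^ 120) ^ (20 - i + 81 * (20 - k)))) := by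
  unfold term
  simp only [sh_eq]
  rfl

lemma termB_eq (w wj wi i j k : ℕ) : termB w wj wi i j k =
    (((w * (2 ^ 120) ^ (j + 20) + w * (2 ^ 120) ^ (i + 20)) +
    (wj * (2 ^ 120) ^ (20 - j) + wj * (2 ^ 120) ^ (k + 20))) +
    (wi * (2 ^ 120) ^ (20 - i) + wi * (2 ^ 120) ^ (20 - k))) := by
  unfold termB
  simp only [sh1_eq]
  rfl

lemma NA_eq (S : ℕ) : NA S = ∑ a ∈ FA, wA S a.1 a.2 * (2 ^ 120) ^ (p1 a.1 a.2 + 81 * p2 a.1 a.2) := by
  unfold FA
  rw [Finset.sum_product]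
  unfold NA
  simp only [ksum_eq]
  change ∑ k ∈ Finset.range 21, ∑ j ∈ Finset.range (21 - k), _ = _
  rw [sum_sec 21]
  refine Finset.sum_congr rfl fun x _ => ?_
  rw [Fin.sum_univ_six, term_eq]
  rw [add_assoc (wA S x 0 * _ + wA S x 1 * _ + wA S x 2 * _ + wA S x 3 * _),
    add_assoc (wA S x 0 * _ + wA S x 1 * _)]
  rfl

lemma NB_eq (S : ℕ) : NB S = ∑ a ∈ FA, wA S a.1 a.2 * (2 ^ 120) ^ (p2 a.1 a.2) := by
  unfold FA
  rw [Finset.sum_product]
  unfold NB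
  simp only [ksum_eq]
  change ∑ k ∈ Finset.range 21, ∑ j ∈ Finset.range (21 - k), _ = _
  rw [sum_sec 21]
  refine Finset.sum_congr rfl fun x _ => ?_
  rw [Fin.sum_univ_six, termB_eq]
  rw [add_assoc (wA S x 0 * _ + wA S x 1 * _ + wA S x 2 * _ + wA S x 3 * _),
    add_assoc (wA S x 0 * _ + wA S x 1 * _)]
  rfl

/-- edge images -/
def pE (k : ℕ) : Fin 2 → ℕ := ![k + 20, 20 - k]

def tE (k : ℕ) : Fin 2 → ℕ := ![0, k]

def wE (S k : ℕ) : Fin 2 → ℕ := ![dig S (441 + k), sc (dig S (441 + k)) k]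

@[irreducible] def FEd : Finset (ℕ × Fin 2) := Finset.range 21 ×ˢ Finset.univ

lemma card_FEd : FEd.card = 42 := by
  unfold FEd
  rw [Finset.card_product, Finset.card_range, Finset.card_univ, Fintype.card_fin]

lemma NE_eq (S : ℕ) : NE S = ∑ a ∈ FEd, wE S a.1 a.2 * (2 ^ 120) ^ (pE a.1 a.2) := by
  unfold FEd
  rw [Finset.sum_product]
  unfold NE
  simp only [ksum_eq]
  refine Finset.sum_congr rfl fun x _ => ?_
  rw [Fin.sum_univ_two]
  simp only [sh1_eq]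
  rfl

lemma wE_le (S k : ℕ) (g : Fin 2) : (wE S k g : ℝ) ≤ E S k * rho ^ tE k g := by
  have h0 : (dig S (441 + k) : ℝ) ≤ E S k * rho ^ 0 := by
    rw [pow_zero, mul_one]; exact le_rfl
  have h1 := sc_cast_le (dig S (441 + k)) k
  fin_cases g
  · exact h0
  · exact h1

lemma wE_lt (S : ℕ) {k : ℕ} (hk : k < 21) (g : Fin 2) : wE S k g < 2 ^ 47 := by
  have h0 : dig S (441 + k) < 2 ^ 47 := (dig_lt _ _).trans (by norm_num)
  have h1 := sc_lt (dig_lt S (441 + k)) (i := k) (by omega)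
  fin_cases g
  · exact h0
  · exact h1

/-! ### homogeneity of the folded functionals -/

variable {G : (Fin 3 → ℝ) → ℝ}

lemma SG.hh_nonneg (h : SG G) {x y z : ℝ} (hx : 0 ≤ x) (hy : 0 ≤ y) (hz : 0 ≤ z) :
    0 ≤ hh G ![x, y, z] := mul_nonneg (u3_nonneg _ _ _) (h.gs_nonneg hx hy hz)

lemma SG.hh'_nonneg (h : SG G) {x y z : ℝ} (hx : 0 ≤ x) (hy : 0 ≤ y) (hz : 0 ≤ z) :
    0 ≤ hh' G ![x, y, z] := mul_nonneg (u3_nonneg _ _ _) (h.gs_nonneg hx hy hz)

lemma SG.hh_hom (h : SG G) {c x y z : ℝ} (hc : 0 < c) (hx : 0 ≤ x) (hy : 0 ≤ y) (hz : 0 ≤ z) :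
    hh G ![c * x, c * y, c * z] = c * hh G ![x, y, z] := by
  change u3 (c * x) (c * y) (c * z) * gs G (c * x) (c * y) (c * z) =
    c * (u3 x y z * gs G x y z)
  rw [u3_smul hc, h.gs_hom hc.le hx hy hz]
  ring

lemma SG.hh'_hom (h : SG G) {c x y z : ℝ} (hc : 0 < c) (hx : 0 ≤ x) (hy : 0 ≤ y) (hz : 0 ≤ z) :
    hh' G ![c * x, c * y, c * z] = c * hh' G ![x, y, z] := by
  change u3 (c * y) (c * z) (c * x) * gs G (c * x) (c * y) (c * z) =
    c * (u3 y z x * gs G x y z)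
  rw [u3_smul hc, h.gs_hom hc.le hx hy hz]
  ring

/-- folded functional at a position -/
noncomputable def Hh (G : (Fin 3 → ℝ) → ℝ) (p : ℕ × ℕ) : ℝ :=
  hh G ![rho ^ p.1 / rho ^ 40, rho ^ p.2 / rho ^ 40, 1]

noncomputable def He (G : (Fin 3 → ℝ) → ℝ) (m : ℕ) : ℝ := hh' G ![0, rho ^ m / rho ^ 40, 1]

lemma div_pow_nonneg (m n : ℕ) : 0 ≤ rho ^ m / rho ^ n :=
  div_nonneg (rho_pow_pos _).le (rho_pow_pos _).le

lemma SG.Hh_nonneg (h : SG G) (p : ℕ × ℕ) : 0 ≤ Hh G p :=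
  h.hh_nonneg (div_pow_nonneg _ _) (div_pow_nonneg _ _) zero_le_one

lemma SG.He_nonneg (h : SG G) (m : ℕ) : 0 ≤ He G m :=
  h.hh'_nonneg le_rfl (div_pow_nonneg _ _) zero_le_one

lemma pos_mul (a b c d : ℕ) : rho ^ a * (rho ^ b / rho ^ 20) * (rho ^ c * (rho ^ d / rho ^ 20)) =
    rho ^ a * rho ^ c * (rho ^ (b + d) / rho ^ 40) := by
  rw [pow_add, show (40 : ℕ) = 20 + 20 by norm_num, pow_add]
  have h20 : rho ^ 20 ≠ 0 := (rho_pow_pos 20).ne'
  field_simp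

lemma SG.hh_img (h : SG G) {x x' : Σ _ : ℕ, ℕ} (hx : x ∈ sec 21) (hx' : x' ∈ sec 21)
    (g g' : Fin 6) :
    hh G (fun i => img (rho ^ (x.1 + x.2)) (rho ^ x.2) 1 g i *
      img (rho ^ (x'.1 + x'.2)) (rho ^ x'.2) 1 g' i) =
      rho ^ tA x g * rho ^ tA x' g' * Hh G (p1 x g + p1 x' g', p2 x g + p2 x' g') := by
  rw [img_eq hx, img_eq hx', mul_vec, pos_mul, pos_mul]
  have hc : 0 < rho ^ tA x g * rho ^ tA x' g' := mul_pos (rho_pow_pos _) (rho_pow_pos _)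
  have := h.hh_hom (x := rho ^ (p1 x g + p1 x' g') / rho ^ 40)
    (y := rho ^ (p2 x g + p2 x' g') / rho ^ 40) (z := 1) hc (div_pow_nonneg _ _)
    (div_pow_nonneg _ _) zero_le_one
  rw [mul_one] at this
  exact this

end Crest.Agent.R163.DE
end

-- ▼ part R163/DE5
section

/-!
Row 163, density evolution: soundness of the check of a squaring step, analytic part.
-/

set_option autoImplicit false

namespace Crest.Agent.R163.DE

open Crest.Agent.R163

variable {G : (Fin 3 → ℝ) → ℝ}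

lemma sum_mul_sum_pow {ι κ : Type*} (s : Finset ι) (t : Finset κ) (w : ι → ℕ) (w' : κ → ℕ)
    (p : ι → ℕ) (p' : κ → ℕ) (X : ℕ) :
    (∑ a ∈ s, w a * X ^ p a) * (∑ b ∈ t, w' b * X ^ p' b) =
      ∑ x ∈ s ×ˢ t, (w x.1 * w' x.2) * X ^ (p x.1 + p' x.2) := by
  rw [Finset.sum_mul_sum, Finset.sum_product]
  refine Finset.sum_congr rfl fun a _ => Finset.sum_congr rfl fun b _ => ?_
  rw [pow_add]; ring

lemma sum_prod_mul {ι κ : Type*} (s : Finset ι) (t : Finset κ) (w : ι → ℕ) (w' : κ → ℕ) :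
    ∑ x ∈ s ×ˢ t, w x.1 * w' x.2 = (∑ a ∈ s, w a) * (∑ b ∈ t, w' b) := by
  rw [Finset.sum_mul_sum, Finset.sum_product]

lemma mem_FA {a : (Σ _ : ℕ, ℕ) × Fin 6} (h : a ∈ FA) : a.1 ∈ sec 21 := by
  rw [FA, Finset.mem_product] at h
  exact h.1

lemma mem_FEd {a : ℕ × Fin 2} (h : a ∈ FEd) : a.1 < 21 := by
  rw [FEd, Finset.mem_product] at h
  exact Finset.mem_range.1 h.1

lemma sum_wA_le (S : ℕ) : ∑ a ∈ FA, wA S a.1 a.2 ≤ 1386 * 2 ^ 47 := by
  have h1 : ∀ a ∈ FA, wA S a.1 a.2 ≤ 2 ^ 47 := by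
    intro a ha
    exact (wA_lt S (mem_FA ha) a.2).le
  refine (Finset.sum_le_card_nsmul _ _ _ h1).trans ?_
  rw [card_FA]
  norm_num

lemma sum_wE_le (S : ℕ) : ∑ a ∈ FEd, wE S a.1 a.2 ≤ 42 * 2 ^ 47 := by
  have h1 : ∀ a ∈ FEd, wE S a.1 a.2 ≤ 2 ^ 47 := by
    intro a ha
    exact (wE_lt S (mem_FEd ha) a.2).le
  refine (Finset.sum_le_card_nsmul _ _ _ h1).trans ?_
  rw [card_FEd]
  norm_num

/-- digits of the interior square -/
lemma cf_digit (S S₂ p q : ℕ) (hp : p ≤ 40) :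
    cf (NA S * NA S₂) p q = ∑ x ∈ FA ×ˢ FA with
      (p1 x.1.1 x.1.2 + p1 x.2.1 x.2.2, p2 x.1.1 x.1.2 + p2 x.2.1 x.2.2) = (p + 40, q + 40),
        wA S x.1.1 x.1.2 * wA S₂ x.2.1 x.2.2 := by
  rw [cf_eq, NA_eq, NA_eq, sum_mul_sum_pow]
  rw [digit_sum (FA ×ˢ FA) (fun x => wA S x.1.1 x.1.2 * wA S₂ x.2.1 x.2.2)
    (fun x => (p1 x.1.1 x.1.2 + 81 * p2 x.1.1 x.1.2) + (p1 x.2.1 x.2.2 + 81 * p2 x.2.1 x.2.2))]
  · refine Finset.sum_congr ?_ fun _ _ => rfl
    refine Finset.filter_congr fun x hx => ?_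
    have h1 := p1_le (mem_FA (Finset.mem_product.1 hx).1) x.1.2
    have h2 := p1_le (mem_FA (Finset.mem_product.1 hx).2) x.2.2
    rw [Prod.mk.injEq]
    constructor
    · intro h
      constructor <;> omega
    · rintro ⟨h, h'⟩
      omega
  · refine lt_of_eq_of_lt (sum_prod_mul FA FA (fun a => wA S a.1 a.2)
      (fun b => wA S₂ b.1 b.2)) ?_
    refine lt_of_le_of_lt (Nat.mul_le_mul (sum_wA_le S) (sum_wA_le S₂)) ?_
    norm_num

/-- interior part of the square -/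
lemma partA (hG : SG G) (S S₂ : ℕ) :
    ∑ z ∈ sec 41, (cf (NA S * NA S₂) (z.1 + z.2) z.2 : ℝ) *
        (u3 (rho ^ (z.1 + z.2)) (rho ^ z.2) 1 * gs G (rho ^ (z.1 + z.2)) (rho ^ z.2) 1) ≤
      ∑ x ∈ sec 21, ∑ x' ∈ sec 21, (Y S x.1 x.2 : ℝ) * (Y S₂ x'.1 x'.2 *
        PP G (rho ^ (x.1 + x.2)) (rho ^ x.2) 1 (rho ^ (x'.1 + x'.2)) (rho ^ x'.2) 1) := by
  -- the families
  have hφ : Set.InjOn (fun z : Σ _ : ℕ, ℕ => (z.1 + z.2 + 40, z.2 + 40)) (sec 41) := by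
    rintro ⟨k, j⟩ _ ⟨k', j'⟩ _ heq
    simp only [Prod.mk.injEq] at heq
    have : j = j' := by omega
    have : k = k' := by omega
    subst_vars
    rfl
  have h1 := fiber_le (FA ×ˢ FA) (sec 41) (fun z : Σ _ : ℕ, ℕ => (z.1 + z.2 + 40, z.2 + 40)) hφ
    (fun x => (p1 x.1.1 x.1.2 + p1 x.2.1 x.2.2, p2 x.1.1 x.1.2 + p2 x.2.1 x.2.2))
    (fun x => wA S x.1.1 x.1.2 * wA S₂ x.2.1 x.2.2) (Hh G) (fun _ _ => hG.Hh_nonneg _)
  have h2 : ∑ z ∈ sec 41, (cf (NA S * NA S₂) (z.1 + z.2) z.2 : ℝ) *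
        (u3 (rho ^ (z.1 + z.2)) (rho ^ z.2) 1 * gs G (rho ^ (z.1 + z.2)) (rho ^ z.2) 1) =
      ∑ z ∈ sec 41, ((∑ x ∈ FA ×ˢ FA with
      (p1 x.1.1 x.1.2 + p1 x.2.1 x.2.2, p2 x.1.1 x.1.2 + p2 x.2.1 x.2.2) =
        (z.1 + z.2 + 40, z.2 + 40),
        wA S x.1.1 x.1.2 * wA S₂ x.2.1 x.2.2 : ℕ) : ℝ) * Hh G (z.1 + z.2 + 40, z.2 + 40) := by
    refine Finset.sum_congr rfl fun z hz => ?_
    have hz' := mem_sec.1 hz
    rw [cf_digit S S₂ _ _ (by omega)]
    congr 1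
    unfold Hh
    have h40 : rho ^ 40 ≠ 0 := (rho_pow_pos 40).ne'
    have e1 : ∀ n : ℕ, rho ^ (n + 40) / rho ^ 40 = rho ^ n := by
      intro n; rw [pow_add, mul_div_assoc, div_self h40, mul_one]
    simp only [e1]
    rfl
  rw [h2]
  refine h1.trans ?_
  rw [Finset.sum_product]
  unfold FA
  rw [Finset.sum_product]
  refine Finset.sum_le_sum fun x hx => ?_
  rw [Finset.sum_comm, Finset.sum_product]
  refine Finset.sum_le_sum fun x' hx' => ?_
  rw [PP_hh]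
  unfold PP
  rw [gs_eq_sum, Finset.mul_sum, Finset.mul_sum]
  rw [Finset.sum_comm]
  refine Finset.sum_le_sum fun g _ => ?_
  rw [gs_eq_sum, Finset.mul_sum, Finset.mul_sum]
  refine Finset.sum_le_sum fun g' _ => ?_
  rw [hG.hh_img hx hx']
  have a1 := wA_le S x g
  have a2 := wA_le S₂ x' g'
  have a3 := hG.Hh_nonneg (p1 x g + p1 x' g', p2 x g + p2 x' g')
  push_cast
  calc (wA S x g : ℝ) * wA S₂ x' g' * Hh G (p1 x g + p1 x' g', p2 x g + p2 x' g')
      ≤ (Y S x.1 x.2 * rho ^ tA x g) * (Y S₂ x'.1 x'.2 * rho ^ tA x' g') *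
        Hh G (p1 x g + p1 x' g', p2 x g + p2 x' g') := by
        refine mul_le_mul_of_nonneg_right ?_ a3
        exact mul_le_mul a1 a2 (Nat.cast_nonneg _)
          (mul_nonneg (Nat.cast_nonneg _) (rho_pow_pos _).le)
    _ = _ := by ring

/-! ### edges -/

/-- the family entering `2 NB + NE` -/
@[irreducible] def FC : Finset (((Σ _ : ℕ, ℕ) × Fin 6) ⊕ (ℕ × Fin 2)) := FA.disjSum FEd

def wC (S : ℕ) : ((Σ _ : ℕ, ℕ) × Fin 6) ⊕ (ℕ × Fin 2) → ℕ :=
  Sum.elim (fun a => 2 * wA S a.1 a.2) (fun b => wE S b.1 b.2)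

def pC : ((Σ _ : ℕ, ℕ) × Fin 6) ⊕ (ℕ × Fin 2) → ℕ :=
  Sum.elim (fun a => p2 a.1 a.2) (fun b => pE b.1 b.2)

lemma NC_eq (S : ℕ) : 2 * NB S + NE S = ∑ c ∈ FC, wC S c * (2 ^ 120) ^ pC c := by
  unfold FC
  rw [Finset.sum_disjSum, NB_eq, NE_eq, Finset.mul_sum]
  congr 1
  refine Finset.sum_congr rfl fun a _ => ?_
  change 2 * (wA S a.1 a.2 * (2 ^ 120) ^ p2 a.1 a.2) =
    (2 * wA S a.1 a.2) * (2 ^ 120) ^ p2 a.1 a.2
  rw [mul_assoc]

lemma cfe_digit (S m : ℕ) :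
    cfe ((2 * NB S + NE S) * NE S) m = ∑ x ∈ FC ×ˢ FEd with
      pC x.1 + pE x.2.1 x.2.2 = m + 40, wC S x.1 * wE S x.2.1 x.2.2 := by
  rw [cfe_eq, NC_eq, NE_eq, sum_mul_sum_pow]
  refine digit_sum (FC ×ˢ FEd) (fun x => wC S x.1 * wE S x.2.1 x.2.2)
    (fun x => pC x.1 + pE x.2.1 x.2.2) _ ?_ _
  refine lt_of_eq_of_lt (sum_prod_mul FC FEd (wC S) (fun b => wE S b.1 b.2)) ?_
  have h1 : ∑ c ∈ FC, wC S c ≤ 2 * (1386 * 2 ^ 47) + 42 * 2 ^ 47 := by
    unfold FC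
    rw [Finset.sum_disjSum]
    refine add_le_add ?_ (sum_wE_le S)
    change ∑ a ∈ FA, 2 * wA S a.1 a.2 ≤ _
    rw [← Finset.mul_sum]
    exact Nat.mul_le_mul_left _ (sum_wA_le S)
  refine lt_of_le_of_lt (Nat.mul_le_mul h1 (sum_wE_le S)) ?_
  norm_num


/-- images of an edge vector with first coordinate zero -/
lemma edge_img {k : ℕ} (hk : k < 21) (g : Fin 2) :
    (![![0, rho ^ k, 1], ![0, 1, rho ^ k]] : Fin 2 → Fin 3 → ℝ) g =
      ![0, rho ^ tE k g * (rho ^ pE k g / rho ^ 20), rho ^ tE k g] := by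
  fin_cases g
  · change ![0, rho ^ k, 1] = ![0, rho ^ 0 * (rho ^ (k + 20) / rho ^ 20), rho ^ 0]
    rw [pw_id (c := k) (by omega), pow_zero]
  · change ![0, 1, rho ^ k] = ![0, rho ^ k * (rho ^ (20 - k) / rho ^ 20), rho ^ k]
    rw [pw_id (c := 0) (by omega), pow_zero]

/-- lower bound for the symmetrisation over an edge vector -/
lemma gs_edge_ge {F : (Fin 3 → ℝ) → ℝ} (hF : ∀ v : Fin 3 → ℝ, (∀ i, 0 ≤ v i) → 0 ≤ F v) {k : ℕ} :
    ∑ g : Fin 2, F ((![![0, rho ^ k, 1], ![0, 1, rho ^ k]] : Fin 2 → Fin 3 → ℝ) g) ≤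
      gs F (rho ^ k) 1 0 := by
  rw [Fin.sum_univ_two]
  have h := (rho_pow_pos k).le
  have h1 := hF _ (nn3 h zero_le_one le_rfl)
  have h2 := hF _ (nn3 zero_le_one h le_rfl)
  have h3 := hF _ (nn3 h le_rfl zero_le_one)
  have h5 := hF _ (nn3 zero_le_one le_rfl h)
  unfold gs
  change F ![0, rho ^ k, 1] + F ![0, 1, rho ^ k] ≤ _
  linarith

lemma hh'_nn (hG : SG G) (v : Fin 3 → ℝ) (hv : ∀ i, 0 ≤ v i) : 0 ≤ hh' G v :=
  mul_nonneg (u3_nonneg _ _ _) (hG.gs_nonneg (hv 0) (hv 1) (hv 2))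

lemma SG.hh'_pos (h : SG G) (a b c d : ℕ) (x : ℝ) :
    hh' G (fun i => ![x, rho ^ a * (rho ^ b / rho ^ 20), rho ^ a] i *
      ![0, rho ^ c * (rho ^ d / rho ^ 20), rho ^ c] i) = rho ^ a * rho ^ c * He G (b + d) := by
  rw [mul_vec, pos_mul, mul_zero]
  have hc : 0 < rho ^ a * rho ^ c := mul_pos (rho_pow_pos _) (rho_pow_pos _)
  have := h.hh'_hom (x := 0) (y := rho ^ (b + d) / rho ^ 40) (z := 1) hc le_rfl
    (div_pow_nonneg _ _) zero_le_one
  rw [mul_one, mul_zero] at this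
  exact this

/-- interior vector times edge vector -/
lemma PP_int_edge (hG : SG G) (S : ℕ) {x : Σ _ : ℕ, ℕ} (hx : x ∈ sec 21) {k : ℕ} (hk : k < 21) :
    ∑ g : Fin 6, ∑ g' : Fin 2, (wA S x g : ℝ) * (wE S k g' * He G (p2 x g + pE k g')) ≤
      (Y S x.1 x.2 : ℝ) * (E S k * PP G (rho ^ (x.1 + x.2)) (rho ^ x.2) 1 (rho ^ k) 1 0) := by
  rw [PP_hh']
  unfold PP
  rw [gs_eq_sum, Finset.mul_sum, Finset.mul_sum]
  refine Finset.sum_le_sum fun g _ => ?_
  have hu : ∀ i, 0 ≤ img (rho ^ (x.1 + x.2)) (rho ^ x.2) 1 g i := by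
    rw [img_eq hx]
    exact nn3 (mul_nonneg (rho_pow_pos _).le (div_pow_nonneg _ _))
      (mul_nonneg (rho_pow_pos _).le (div_pow_nonneg _ _)) (rho_pow_pos _).le
  have h1 := gs_edge_ge (F := fun v => hh' G (fun i => img (rho ^ (x.1 + x.2)) (rho ^ x.2) 1 g i *
    v i)) (k := k) (fun v hv => hh'_nn hG _ fun i => mul_nonneg (hu i) (hv i))
  have h2 : ∑ g' : Fin 2, (wA S x g : ℝ) * (wE S k g' * He G (p2 x g + pE k g')) ≤
      (Y S x.1 x.2 : ℝ) * (E S k * ∑ g' : Fin 2, hh' G (fun i =>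
        img (rho ^ (x.1 + x.2)) (rho ^ x.2) 1 g i *
        (![![0, rho ^ k, 1], ![0, 1, rho ^ k]] : Fin 2 → Fin 3 → ℝ) g' i)) := by
    rw [Finset.mul_sum, Finset.mul_sum]
    refine Finset.sum_le_sum fun g' _ => ?_
    rw [edge_img hk, img_eq hx, hG.hh'_pos]
    have a1 := wA_le S x g
    have a2 := wE_le S k g'
    have a3 := hG.He_nonneg (p2 x g + pE k g')
    calc (wA S x g : ℝ) * (wE S k g' * He G (p2 x g + pE k g'))
        = ((wA S x g : ℝ) * wE S k g') * He G (p2 x g + pE k g') := by ring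
      _ ≤ ((Y S x.1 x.2 * rho ^ tA x g) * (E S k * rho ^ tE k g')) *
          He G (p2 x g + pE k g') := by
          refine mul_le_mul_of_nonneg_right ?_ a3
          exact mul_le_mul a1 a2 (Nat.cast_nonneg _)
            (mul_nonneg (Nat.cast_nonneg _) (rho_pow_pos _).le)
      _ = _ := by ring
  refine h2.trans ?_
  exact mul_le_mul_of_nonneg_left (mul_le_mul_of_nonneg_left h1 (Nat.cast_nonneg _))
    (Nat.cast_nonneg _)

/-- edge vector times edge vector -/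
lemma PP_edge_edge (hG : SG G) (S : ℕ) {k l : ℕ} (hk : k < 21) (hl : l < 21) :
    ∑ g : Fin 2, ∑ g' : Fin 2, (wE S k g : ℝ) * (wE S l g' * He G (pE k g + pE l g')) ≤
      (E S k : ℝ) * (E S l * PP G (rho ^ k) 1 0 (rho ^ l) 1 0) := by
  rw [PP_hh']
  unfold PP
  have hnn : ∀ u : Fin 3 → ℝ, (∀ i, 0 ≤ u i) →
      ∀ v : Fin 3 → ℝ, (∀ i, 0 ≤ v i) → 0 ≤ hh' G (fun i => u i * v i) :=
    fun u hu v hv => hh'_nn hG _ fun i => mul_nonneg (hu i) (hv i)
  have h0 := gs_edge_ge (F := fun u => gs (fun v => hh' G (fun i => u i * v i)) (rho ^ l) 1 0)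
    (k := k) (fun u hu => by
      have h := (rho_pow_pos l).le
      have h1 := hnn u hu _ (nn3 h zero_le_one le_rfl)
      have h2 := hnn u hu _ (nn3 zero_le_one h le_rfl)
      have h3 := hnn u hu _ (nn3 h le_rfl zero_le_one)
      have h4 := hnn u hu _ (nn3 le_rfl h zero_le_one)
      have h5 := hnn u hu _ (nn3 zero_le_one le_rfl h)
      have h6 := hnn u hu _ (nn3 le_rfl zero_le_one h)
      unfold gs
      linarith)
  refine le_trans ?_ (mul_le_mul_of_nonneg_left (mul_le_mul_of_nonneg_left h0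
    (Nat.cast_nonneg _)) (Nat.cast_nonneg _))
  rw [Finset.mul_sum, Finset.mul_sum]
  refine Finset.sum_le_sum fun g _ => ?_
  have hu : ∀ i, 0 ≤ (![![0, rho ^ k, 1], ![0, 1, rho ^ k]] : Fin 2 → Fin 3 → ℝ) g i := by
    rw [edge_img hk]
    exact nn3 le_rfl (mul_nonneg (rho_pow_pos _).le (div_pow_nonneg _ _)) (rho_pow_pos _).le
  have h1 := gs_edge_ge (F := fun v => hh' G (fun i =>
    (![![0, rho ^ k, 1], ![0, 1, rho ^ k]] : Fin 2 → Fin 3 → ℝ) g i * v i)) (k := l)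
    (fun v hv => hnn _ hu v hv)
  refine le_trans ?_ (mul_le_mul_of_nonneg_left (mul_le_mul_of_nonneg_left h1
    (Nat.cast_nonneg _)) (Nat.cast_nonneg _))
  rw [Finset.mul_sum, Finset.mul_sum]
  refine Finset.sum_le_sum fun g' _ => ?_
  rw [edge_img hk, edge_img hl, hG.hh'_pos]
  have a1 := wE_le S k g
  have a2 := wE_le S l g'
  have a3 := hG.He_nonneg (pE k g + pE l g')
  calc (wE S k g : ℝ) * (wE S l g' * He G (pE k g + pE l g'))
      = ((wE S k g : ℝ) * wE S l g') * He G (pE k g + pE l g') := by ring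
    _ ≤ ((E S k * rho ^ tE k g) * (E S l * rho ^ tE l g')) * He G (pE k g + pE l g') := by
        refine mul_le_mul_of_nonneg_right ?_ a3
        exact mul_le_mul a1 a2 (Nat.cast_nonneg _)
          (mul_nonneg (Nat.cast_nonneg _) (rho_pow_pos _).le)
    _ = _ := by ring

lemma partB (hG : SG G) (S : ℕ) :
    ∑ m ∈ Finset.range 41, (cfe ((2 * NB S + NE S) * NE S) m : ℝ) *
        (u3 (rho ^ m) 1 0 * gs G (rho ^ m) 1 0) ≤
      2 * (∑ x ∈ sec 21, ∑ k ∈ Finset.range 21, (Y S x.1 x.2 : ℝ) * (E S k *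
        PP G (rho ^ (x.1 + x.2)) (rho ^ x.2) 1 (rho ^ k) 1 0)) +
      ∑ k ∈ Finset.range 21, ∑ l ∈ Finset.range 21, (E S k : ℝ) * (E S l *
        PP G (rho ^ k) 1 0 (rho ^ l) 1 0) := by
  have hφ : Set.InjOn (fun z : ℕ => z + 40) (Finset.range 41) := by
    intro a _ b _ h
    simpa using h
  have h1 := fiber_le (FC ×ˢ FEd) (Finset.range 41) (fun z : ℕ => z + 40) hφ
    (fun x => pC x.1 + pE x.2.1 x.2.2) (fun x => wC S x.1 * wE S x.2.1 x.2.2) (He G)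
    (fun _ _ => hG.He_nonneg _)
  simp only [← cfe_digit] at h1
  have h2 : ∀ m ∈ Finset.range 41, (cfe ((2 * NB S + NE S) * NE S) m : ℝ) *
        (u3 (rho ^ m) 1 0 * gs G (rho ^ m) 1 0) =
      (cfe ((2 * NB S + NE S) * NE S) m : ℝ) * He G (m + 40) := by
    intro m _
    congr 1
    have h40 : rho ^ 40 ≠ 0 := (rho_pow_pos 40).ne'
    have e1 : rho ^ (m + 40) / rho ^ 40 = rho ^ m := by
      rw [pow_add, mul_div_assoc, div_self h40, mul_one]
    unfold He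
    rw [e1]
    change _ = u3 (rho ^ m) 1 0 * gs G 0 (rho ^ m) 1
    rw [gs_swap01 G (rho ^ m) 0 1, gs_swap12 G (rho ^ m) 1 0]
  rw [Finset.sum_congr rfl h2]
  refine h1.trans ?_
  rw [Finset.sum_product]
  unfold FC
  rw [Finset.sum_disjSum]
  refine add_le_add ?_ ?_
  · unfold FA
    rw [Finset.sum_product, Finset.mul_sum]
    refine Finset.sum_le_sum fun x hx => ?_
    unfold FEd
    rw [Finset.mul_sum]
    have h3 : ∀ g : Fin 6, ∑ b ∈ Finset.range 21 ×ˢ (Finset.univ : Finset (Fin 2)),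
        ((wC S (Sum.inl (x, g)) * wE S b.1 b.2 : ℕ) : ℝ) * He G (pC (Sum.inl (x, g)) + pE b.1 b.2) =
        ∑ k ∈ Finset.range 21, 2 * ∑ g' : Fin 2,
          (wA S x g : ℝ) * (wE S k g' * He G (p2 x g + pE k g')) := by
      intro g
      rw [Finset.sum_product]
      refine Finset.sum_congr rfl fun k _ => ?_
      rw [Finset.mul_sum]
      refine Finset.sum_congr rfl fun g' _ => ?_
      change ((2 * wA S x g * wE S k g' : ℕ) : ℝ) * He G (p2 x g + pE k g') = _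
      push_cast
      ring
    rw [Finset.sum_congr rfl fun g _ => h3 g, Finset.sum_comm]
    refine Finset.sum_le_sum fun k hk => ?_
    rw [← Finset.mul_sum]
    exact mul_le_mul_of_nonneg_left (PP_int_edge hG S hx (Finset.mem_range.1 hk)) (by norm_num)
  · unfold FEd
    rw [Finset.sum_product]
    refine Finset.sum_le_sum fun k hk => ?_
    have h3 : ∀ g : Fin 2, ∑ b ∈ Finset.range 21 ×ˢ (Finset.univ : Finset (Fin 2)),
        ((wC S (Sum.inr (k, g)) * wE S b.1 b.2 : ℕ) : ℝ) * He G (pC (Sum.inr (k, g)) + pE b.1 b.2) =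
        ∑ l ∈ Finset.range 21, ∑ g' : Fin 2,
          (wE S k g : ℝ) * (wE S l g' * He G (pE k g + pE l g')) := by
      intro g
      rw [Finset.sum_product]
      refine Finset.sum_congr rfl fun l _ => ?_
      refine Finset.sum_congr rfl fun g' _ => ?_
      change ((wE S k g * wE S l g' : ℕ) : ℝ) * He G (pE k g + pE l g') = _
      push_cast
      ring
    rw [Finset.sum_congr rfl fun g _ => h3 g, Finset.sum_comm]
    refine Finset.sum_le_sum fun l hl => ?_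
    exact PP_edge_edge hG S (Finset.mem_range.1 hk) (Finset.mem_range.1 hl)

end Crest.Agent.R163.DE
end

-- ▼ part R163/DE6

/-!
Row 163, density evolution: soundness of the check of a squaring step, conclusion.
-/

set_option autoImplicit false

namespace Crest.Agent.R163.DE

open Crest.Agent.R163

variable {G : (Fin 3 → ℝ) → ℝ}

/-- interior value -/
noncomputable def gI (G : (Fin 3 → ℝ) → ℝ) (a b : ℕ) : ℝ := gs G (rho ^ a) (rho ^ b) 1

/-- edge value -/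
noncomputable def gE (G : (Fin 3 → ℝ) → ℝ) (k : ℕ) : ℝ := gs G (rho ^ k) 1 0

lemma SG.gI_nonneg (h : SG G) (a b : ℕ) : 0 ≤ gI G a b :=
  h.gs_nonneg (rho_pow_pos _).le (rho_pow_pos _).le zero_le_one

lemma SG.gE_nonneg (h : SG G) (k : ℕ) : 0 ≤ gE G k :=
  h.gs_nonneg (rho_pow_pos _).le zero_le_one le_rfl

lemma SG.gE_mono (h : SG G) {k l : ℕ} (hkl : k ≤ l) : gE G k ≤ gE G l := by
  refine h.gs_mono (rho_pow_pos _).le zero_le_one le_rfl ?_ le_rfl le_rfl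
  exact pow_le_pow_right₀ (by unfold rho; norm_num) hkl

lemma rho_gt : 1 < rho := by unfold rho; norm_num

/-- far vectors, ratio in range -/
lemma SG.far1 (h : SG G) {k q : ℕ} (hk : k ≤ 20) :
    gI G 20 (20 - k) + (rho ^ (21 - k + q) - rho ^ (20 - k)) * gE G k ≤
      gI G (k + (21 - k + q)) (21 - k + q) := by
  have h1 : 0 ≤ rho ^ (21 - k + q) - rho ^ (20 - k) :=
    sub_nonneg.2 (pow_le_pow_right₀ rho_gt.le (by omega))
  have hp : ∀ n, 0 ≤ rho ^ n := fun n => (rho_pow_pos n).le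
  unfold gI gE
  rw [← h.gs_hom h1 (hp k) zero_le_one le_rfl]
  have h2 := h.gs_sup (hp 20) (hp (20 - k)) zero_le_one (mul_nonneg h1 (hp k))
    (mul_nonneg h1 zero_le_one) (mul_nonneg h1 le_rfl)
  refine h2.trans (le_of_eq ?_)
  congr 1
  · have e1 : rho ^ (k + (21 - k + q)) = rho ^ (21 - k + q) * rho ^ k := by
      rw [← pow_add]; congr 1; omega
    have e2 : rho ^ 20 = rho ^ (20 - k) * rho ^ k := by
      rw [← pow_add]; congr 1; omega
    rw [e1, e2]; ring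
  · ring
  · ring

/-- far vectors, large ratio -/
lemma SG.far2 (h : SG G) (k q : ℕ) :
    gI G 20 0 + (rho ^ q - 1) * gE G 20 ≤ gI G (21 + k + q) q := by
  have h1 : 0 ≤ rho ^ q - 1 := sub_nonneg.2 (one_le_rho_pow q)
  have hp : ∀ n, 0 ≤ rho ^ n := fun n => (rho_pow_pos n).le
  unfold gI gE
  rw [← h.gs_hom h1 (hp 20) zero_le_one le_rfl]
  have h2 := h.gs_sup (hp 20) (hp 0) zero_le_one (mul_nonneg h1 (hp 20))
    (mul_nonneg h1 zero_le_one) (mul_nonneg h1 le_rfl)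
  refine h2.trans (h.gs_mono ?_ ?_ ?_ ?_ ?_ ?_)
  · exact add_nonneg (hp _) (mul_nonneg h1 (hp _))
  · exact add_nonneg (hp _) (mul_nonneg h1 zero_le_one)
  · norm_num
  · have e1 : rho ^ 20 + (rho ^ q - 1) * rho ^ 20 = rho ^ (20 + q) := by rw [pow_add]; ring
    rw [e1]
    exact pow_le_pow_right₀ rho_gt.le (by omega)
  · rw [pow_zero]; linarith
  · norm_num

lemma exc_cast_le {c q m : ℕ} (hm : m ≤ q) : (exc c q m : ℝ) ≤ c * (rho ^ q - rho ^ m) := by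
  have h1 : exc c q m = c * (5 ^ q - 5 ^ m * 4 ^ (q - m)) / 4 ^ q := by
    unfold exc
    have : Nat.shiftRight (Nat.mul c (Nat.sub (Nat.pow 5 q) (Nat.mul (Nat.pow 5 m)
      (Nat.pow 4 (Nat.sub q m))))) (Nat.mul 2 q) =
        c * (5 ^ q - 5 ^ m * 4 ^ (q - m)) / 2 ^ (2 * q) := Nat.shiftRight_eq_div_pow _ _
    rw [this, pow_mul]
    norm_num
  rw [h1]
  refine Nat.cast_div_le.trans ?_
  have h2 : 5 ^ m * 4 ^ (q - m) ≤ 5 ^ q := by
    calc 5 ^ m * 4 ^ (q - m) ≤ 5 ^ m * 5 ^ (q - m) :=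
          Nat.mul_le_mul_left _ (Nat.pow_le_pow_left (by norm_num) _)
      _ = 5 ^ q := by rw [← pow_add]; congr 1; omega
  rw [Nat.cast_mul, Nat.cast_sub h2]
  push_cast
  rw [mul_div_assoc]
  refine le_of_eq ?_
  congr 1
  unfold rho
  rw [div_pow, div_pow, sub_div, pow_sub₀ _ (by norm_num : (4 : ℝ) ≠ 0) hm]
  congr 1
  field_simp

lemma mlt_cast (k j : ℕ) : (mlt k j : ℝ) = 6 * u3 (rho ^ (k + j)) (rho ^ j) 1 := by
  have hp : ∀ n, 0 < rho ^ n := rho_pow_pos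
  have h1 : (1 : ℝ) ≤ rho ^ j := one_le_rho_pow j
  have h2 : rho ^ j ≤ rho ^ (k + j) := pow_le_pow_right₀ rho_gt.le (by omega)
  unfold u3
  rw [if_pos ⟨h1, h2⟩]
  have h3 : rho ^ j = 1 ↔ j = 0 := by
    constructor
    · intro h
      by_contra hj
      have := one_lt_pow₀ rho_gt hj
      linarith
    · rintro rfl; exact pow_zero _
  have h4 : rho ^ (k + j) = rho ^ j ↔ k = 0 := by
    constructor
    · intro h
      by_contra hk
      have : rho ^ j < rho ^ (k + j) := pow_lt_pow_right₀ rho_gt (by omega)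
      linarith
    · rintro rfl; rw [zero_add]
  rcases Nat.eq_zero_or_pos k with hk | hk
  · rw [if_pos (h4.2 hk)]
    subst hk
    rcases Nat.eq_zero_or_pos j with hj | hj
    · rw [if_pos (h3.2 hj)]
      subst hj
      change ((1 : ℕ) : ℝ) = _
      norm_num
    · rw [if_neg (fun h => by have := h3.1 h; omega)]
      obtain ⟨j', rfl⟩ := Nat.exists_eq_succ_of_ne_zero hj.ne'
      change ((3 : ℕ) : ℝ) = _
      norm_num
  · rw [if_neg (fun h => by have := h4.1 h; omega)]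
    obtain ⟨k', rfl⟩ := Nat.exists_eq_succ_of_ne_zero hk.ne'
    rcases Nat.eq_zero_or_pos j with hj | hj
    · rw [if_pos (h3.2 hj)]
      subst hj
      change ((3 : ℕ) : ℝ) = _
      norm_num
    · rw [if_neg (fun h => by have := h3.1 h; omega)]
      obtain ⟨j', rfl⟩ := Nat.exists_eq_succ_of_ne_zero hj.ne'
      change ((6 : ℕ) : ℝ) = _
      norm_num

lemma mlte_cast (m : ℕ) : (mlte m : ℝ) = 6 * u3 (rho ^ m) 1 0 := by
  have h1 : (1 : ℝ) ≤ rho ^ m := one_le_rho_pow m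
  unfold u3
  rw [if_pos ⟨zero_le_one, h1⟩]
  rcases Nat.eq_zero_or_pos m with hm | hm
  · subst hm
    rw [pow_zero, if_pos rfl, if_neg one_ne_zero]
    change ((3 : ℕ) : ℝ) = _
    norm_num
  · have := one_lt_pow₀ rho_gt hm.ne'
    rw [if_neg (by linarith), if_neg one_ne_zero]
    obtain ⟨m', rfl⟩ := Nat.exists_eq_succ_of_ne_zero hm.ne'
    change ((6 : ℕ) : ℝ) = _
    norm_num

lemma Uf_sec (y : ℕ → ℕ → ℕ) (e : ℕ → ℕ) (F : (Fin 3 → ℝ) → ℝ) :
    Uf y e F = ∑ x ∈ sec 21, (y x.1 x.2 : ℝ) * gs F (rho ^ (x.1 + x.2)) (rho ^ x.2) 1 +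
      ∑ k ∈ Finset.range 21, (e k : ℝ) * gs F (rho ^ k) 1 0 := by
  unfold Uf
  rw [sum_sec 21 (fun k j => (y k j : ℝ) * gs F (rho ^ (k + j)) (rho ^ j) 1)]

/-- expansion of the double functional -/
lemma UU_eq (S S₂ : ℕ) :
    Uf (Y S) (E S) (fun u => Uf (Y S₂) (E S₂) (fun v => G (fun i => u i * v i))) =
      ∑ x ∈ sec 21, ∑ x' ∈ sec 21, (Y S x.1 x.2 : ℝ) * (Y S₂ x'.1 x'.2 *
        PP G (rho ^ (x.1 + x.2)) (rho ^ x.2) 1 (rho ^ (x'.1 + x'.2)) (rho ^ x'.2) 1) +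
      ∑ x ∈ sec 21, ∑ k ∈ Finset.range 21, (Y S x.1 x.2 : ℝ) * (E S₂ k *
        PP G (rho ^ (x.1 + x.2)) (rho ^ x.2) 1 (rho ^ k) 1 0) +
      (∑ k ∈ Finset.range 21, ∑ x ∈ sec 21, (E S k : ℝ) * (Y S₂ x.1 x.2 *
        PP G (rho ^ k) 1 0 (rho ^ (x.1 + x.2)) (rho ^ x.2) 1) +
      ∑ k ∈ Finset.range 21, ∑ l ∈ Finset.range 21, (E S k : ℝ) * (E S₂ l *
        PP G (rho ^ k) 1 0 (rho ^ l) 1 0)) := by
  have hlin : ∀ (x y z : ℝ), gs (fun u => Uf (Y S₂) (E S₂) (fun v => G (fun i => u i * v i))) x y z =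
      ∑ x' ∈ sec 21, (Y S₂ x'.1 x'.2 : ℝ) *
        PP G x y z (rho ^ (x'.1 + x'.2)) (rho ^ x'.2) 1 +
      ∑ k ∈ Finset.range 21, (E S₂ k : ℝ) * PP G x y z (rho ^ k) 1 0 := by
    intro x y z
    have e : ∀ u : Fin 3 → ℝ, Uf (Y S₂) (E S₂) (fun v => G (fun i => u i * v i)) =
        ∑ x' ∈ sec 21, (Y S₂ x'.1 x'.2 : ℝ) * gs (fun v => G (fun i => u i * v i))
          (rho ^ (x'.1 + x'.2)) (rho ^ x'.2) 1 +
        ∑ k ∈ Finset.range 21, (E S₂ k : ℝ) * gs (fun v => G (fun i => u i * v i)) (rho ^ k) 1 0 := by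
      intro u
      exact Uf_sec _ _ _
    rw [gs_eq_sum]
    simp only [e]
    rw [Finset.sum_add_distrib, Finset.sum_comm, Finset.sum_comm (s := Finset.univ)
      (t := Finset.range 21)]
    congr 1
    · refine Finset.sum_congr rfl fun x' _ => ?_
      unfold PP
      rw [gs_eq_sum (fun u => gs (fun v => G fun i => u i * v i) _ _ _), Finset.mul_sum]
    · refine Finset.sum_congr rfl fun x' _ => ?_
      unfold PP
      rw [gs_eq_sum (fun u => gs (fun v => G fun i => u i * v i) _ _ _), Finset.mul_sum]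
  rw [Uf_sec (Y S) (E S)]
  simp only [hlin]
  simp only [mul_add, Finset.sum_add_distrib, Finset.mul_sum]

/-- the main inequality behind a squaring check -/
lemma main_ineq (hG : SG G) (S : ℕ) :
    ∑ z ∈ sec 41, (mC (NA S * NA S) z.1 z.2 : ℝ) * gI G (z.1 + z.2) z.2 +
    ∑ m ∈ Finset.range 41, (mlte m * cfe ((2 * NB S + NE S) * NE S) m : ℝ) * gE G m ≤
      6 * Uf (Y S) (E S) (fun u => Uf (Y S) (E S) (fun v => G (fun i => u i * v i))) := by
  rw [UU_eq]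
  have h1 := partA hG S S
  have h2 := partB hG S
  have h3 : ∑ k ∈ Finset.range 21, ∑ x ∈ sec 21, (E S k : ℝ) * (Y S x.1 x.2 *
        PP G (rho ^ k) 1 0 (rho ^ (x.1 + x.2)) (rho ^ x.2) 1) =
      ∑ x ∈ sec 21, ∑ k ∈ Finset.range 21, (Y S x.1 x.2 : ℝ) * (E S k *
        PP G (rho ^ (x.1 + x.2)) (rho ^ x.2) 1 (rho ^ k) 1 0) := by
    rw [Finset.sum_comm]
    refine Finset.sum_congr rfl fun x _ => Finset.sum_congr rfl fun k _ => ?_
    rw [PP_comm]; ring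
  rw [h3]
  have h4 : ∑ z ∈ sec 41, (mC (NA S * NA S) z.1 z.2 : ℝ) * gI G (z.1 + z.2) z.2 =
      6 * ∑ z ∈ sec 41, (cf (NA S * NA S) (z.1 + z.2) z.2 : ℝ) *
        (u3 (rho ^ (z.1 + z.2)) (rho ^ z.2) 1 * gs G (rho ^ (z.1 + z.2)) (rho ^ z.2) 1) := by
    rw [Finset.mul_sum]
    refine Finset.sum_congr rfl fun z _ => ?_
    have e : mC (NA S * NA S) z.1 z.2 = mlt z.1 z.2 * cf (NA S * NA S) (z.1 + z.2) z.2 := rfl
    rw [e, Nat.cast_mul, mlt_cast]
    unfold gI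
    ring
  have h5 : ∑ m ∈ Finset.range 41, (mlte m * cfe ((2 * NB S + NE S) * NE S) m : ℝ) * gE G m =
      6 * ∑ m ∈ Finset.range 41, (cfe ((2 * NB S + NE S) * NE S) m : ℝ) *
        (u3 (rho ^ m) 1 0 * gs G (rho ^ m) 1 0) := by
    rw [Finset.mul_sum]
    refine Finset.sum_congr rfl fun m _ => ?_
    rw [mlte_cast]
    unfold gE
    ring
  rw [h4, h5]
  linarith

lemma sum_add_range (f : ℕ → ℝ) (n m : ℕ) :
    ∑ x ∈ Finset.range (n + m), f x = ∑ x ∈ Finset.range n, f x + ∑ x ∈ Finset.range m, f (n + x) := by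
  rw [Finset.sum_range_add]

/-- rearrangement with far vectors split -/
lemma split_far (hG : SG G) (N : ℕ) :
    ∑ k ∈ Finset.range 21, (∑ j ∈ Finset.range (20 - k), (mC N k j : ℝ) * gI G (k + j) j +
      ((mC N k (20 - k) : ℝ) + FI N k) * gI G 20 (20 - k) + FE N k * gE G k) +
      GI N * gI G 20 0 + GE N * gE G 20 ≤
    ∑ z ∈ sec 41, (mC N z.1 z.2 : ℝ) * gI G (z.1 + z.2) z.2 := by
  rw [← sum_sec 41 (fun k j => (mC N k j : ℝ) * gI G (k + j) j)]
  rw [show (41 : ℕ) = 21 + 20 by norm_num, sum_add_range _ 21 20, add_assoc]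
  refine add_le_add (Finset.sum_le_sum fun k hk => ?_) ?_
  · have hk' := Finset.mem_range.1 hk
    rw [show 21 + 20 - k = (20 - k + 1) + 20 by omega, sum_add_range _ (20 - k + 1) 20,
      Finset.sum_range_succ]
    have e0 : k + (20 - k) = 20 := by omega
    rw [e0, add_mul, add_assoc, add_assoc, add_assoc]
    refine add_le_add le_rfl (add_le_add le_rfl ?_)
    have e1 : (FI N k : ℝ) = ∑ q ∈ Finset.range 20, (mC N k (21 - k + q) : ℝ) := by
      unfold FI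
      rw [ksum_eq]
      push_cast
      rfl
    have e2 : (FE N k : ℝ) ≤ ∑ q ∈ Finset.range 20, (mC N k (21 - k + q) : ℝ) *
        (rho ^ (21 - k + q) - rho ^ (20 - k)) := by
      unfold FE
      rw [ksum_eq]
      push_cast
      refine Finset.sum_le_sum fun q _ => ?_
      exact exc_cast_le (c := mC N k (21 - k + q)) (q := 21 - k + q) (m := 20 - k) (by omega)
    have e3 := mul_le_mul_of_nonneg_right e2 (hG.gE_nonneg k)
    rw [e1]
    refine (add_le_add le_rfl e3).trans ?_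
    rw [Finset.sum_mul, Finset.sum_mul, ← Finset.sum_add_distrib]
    refine Finset.sum_le_sum fun q _ => ?_
    have h := mul_le_mul_of_nonneg_left (hG.far1 (k := k) (q := q) (by omega))
      (Nat.cast_nonneg (α := ℝ) (mC N k (21 - k + q)))
    have e4 : 20 - k + 1 + q = 21 - k + q := by omega
    rw [e4]
    refine le_trans (le_of_eq ?_) h
    ring
  · have e1 : (GI N : ℝ) = ∑ k ∈ Finset.range 20, ∑ q ∈ Finset.range (20 - k),
        (mC N (21 + k) q : ℝ) := by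
      unfold GI
      simp only [ksum_eq]
      push_cast
      rfl
    have e2 : (GE N : ℝ) ≤ ∑ k ∈ Finset.range 20, ∑ q ∈ Finset.range (20 - k),
        (mC N (21 + k) q : ℝ) * (rho ^ q - 1) := by
      unfold GE
      simp only [ksum_eq]
      push_cast
      refine Finset.sum_le_sum fun k _ => Finset.sum_le_sum fun q _ => ?_
      have := exc_cast_le (c := mC N (21 + k) q) (q := q) (m := 0) (Nat.zero_le _)
      rw [pow_zero] at this
      exact this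
    have e3 := mul_le_mul_of_nonneg_right e2 (hG.gE_nonneg 20)
    rw [e1]
    refine (add_le_add le_rfl e3).trans ?_
    rw [Finset.sum_mul, Finset.sum_mul, ← Finset.sum_add_distrib]
    refine Finset.sum_le_sum fun k hk => ?_
    have hk' := Finset.mem_range.1 hk
    rw [show 21 + 20 - (21 + k) = 20 - k by omega, Finset.sum_mul, Finset.sum_mul,
      ← Finset.sum_add_distrib]
    refine Finset.sum_le_sum fun q _ => ?_
    have h := mul_le_mul_of_nonneg_left (hG.far2 k q)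
      (Nat.cast_nonneg (α := ℝ) (mC N (21 + k) q))
    refine le_trans (le_of_eq ?_) h
    ring

lemma split_edge (hG : SG G) (N : ℕ) :
    ∑ m ∈ Finset.range 20, (mlte m * cfe N m : ℝ) * gE G m +
      6 * (∑ m ∈ Finset.range 21, (cfe N (20 + m) : ℝ)) * gE G 20 ≤
    ∑ m ∈ Finset.range 41, (mlte m * cfe N m : ℝ) * gE G m := by
  rw [show (41 : ℕ) = 20 + 21 by norm_num, sum_add_range _ 20 21]
  refine add_le_add le_rfl ?_
  rw [Finset.mul_sum, Finset.sum_mul]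
  refine Finset.sum_le_sum fun m _ => ?_
  have e : mlte (20 + m) = 6 := by
    rw [add_comm]; rfl
  rw [e]
  refine mul_le_mul_of_nonneg_left (hG.gE_mono (by omega)) (by positivity)


end Crest.Agent.R163.DE
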