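import Crest.Agent.R163.DE6
import Crest.Agent.R163.Conv
import Crest.Agent.R163.DE2
import Crest.Agent.R163.MonoPair

-- ▼ part R163/DE7
section

/-!
Row 163, density evolution: one level of the `4`-ary tree, and the final bound on chi-square.
-/

set_option autoImplicit false

namespace Crest.Agent.R163.DE

open Crest.Agent.R163

lemma J_pw_add {q : ℕ} {Ω : Type*} (φ : (Fin q → ℝ) → ℝ) (L : Ω → Fin q → ℝ) (m n : ℕ) :
    J φ (pw L (m + n)) = J φ (mrg (pw L m) (pw L n)) := by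
  rw [← J_equiv (Fin.appendEquiv m n) φ (pw L (m + n))]
  unfold J
  refine tsum_congr fun p => ?_
  congr 1
  funext i
  simp only [pw, mrg]
  rw [Fin.prod_univ_add]
  congr 1
  · refine Finset.prod_congr rfl fun x _ => ?_
    simp [Fin.appendEquiv]
  · refine Finset.prod_congr rfl fun x _ => ?_
    simp [Fin.appendEquiv]

lemma LB.congr {Ω Ω' : Type*} {L : Ω → Fin 3 → ℝ} {L' : Ω' → Fin 3 → ℝ} {y : ℕ → ℕ → ℕ}
    {e : ℕ → ℕ} (h : LB L y e) (hJ : ∀ φ : (Fin 3 → ℝ) → ℝ, J φ L' = J φ L) : LB L' y e := by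
  intro G hG
  rw [hJ]
  exact h G hG

/-- state `S` is a lower bound of the `4`-ary tree of depth `n` -/
def Lev (n S : ℕ) : Prop := LB (reg 3 4 (-(1 / 2)) n) (Y S) (E S)

theorem lev_zero : Lev 0 0 := by
  intro G hG
  have h1 : Uf (Y 0) (E 0) G = 0 := by
    unfold Uf
    have hY : ∀ k j, Y 0 k j = 0 := fun k j => dig_zero _
    have hE : ∀ k, E 0 k = 0 := fun k => dig_zero _
    simp [hY, hE]
  rw [h1]
  have h2 : 0 ≤ J G (reg 3 4 (-(1 / 2)) 0) :=
    (reg_isChan 4 adm_half 0).J_nonneg fun v hv => hG.nn v hv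
  positivity


/-! ### final evaluation -/

lemma sum_single (v : Fin 3 → ℝ) :
    (fun i => ∑ k : Fin 3, v k * (Pi.single k (1 : ℝ) : Fin 3 → ℝ) i) = v := by
  funext i
  rw [Finset.sum_eq_single i]
  · simp
  · intro b _ hb
    rw [Pi.single_eq_of_ne (Ne.symm hb), mul_zero]
  · intro h; exact absurd (Finset.mem_univ i) h

/-- test functional of a convex functional -/
theorem SG.of_CH {φ : (Fin 3 → ℝ) → ℝ} (h : CH φ) :
    SG (fun v => ∑ i, v i * φ (Pi.single i 1) - φ v) where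
  bdd := by
    refine Bdd.sub ?_ h.bdd
    have := (ch_linear (q := 3) (fun i => φ (Pi.single i 1))).bdd
    refine this.congr fun v _ => Finset.sum_congr rfl fun i _ => mul_comm _ _
  hom c v hc hv := by
    change ∑ i, (c * v i) * φ (Pi.single i 1) - φ (fun i => c * v i) = _
    rw [h.hom c v hc hv, mul_sub, Finset.mul_sum]
    congr 1
    refine Finset.sum_congr rfl fun i _ => ?_
    ring
  nn v hv := by
    have h1 := h.finset_sum Finset.univ (fun k i => v k * (Pi.single k (1 : ℝ) : Fin 3 → ℝ) i)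
      (fun k i => mul_nonneg (hv k) (by by_cases hki : i = k <;> simp [hki]))
    rw [sum_single] at h1
    have h2 : ∀ k ∈ (Finset.univ : Finset (Fin 3)),
        φ (fun i => v k * (Pi.single k (1 : ℝ) : Fin 3 → ℝ) i) = v k * φ (Pi.single k 1) :=
      fun k _ => h.hom _ _ (hv k) (fun i => by by_cases hki : i = k <;> simp [hki])
    rw [Finset.sum_congr rfl h2] at h1
    linarith
  sup u v hu hv := by
    have h1 := h.sub u v hu hv
    have h2 : ∑ i, (u i + v i) * φ (Pi.single i 1) =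
        ∑ i, u i * φ (Pi.single i 1) + ∑ i, v i * φ (Pi.single i 1) := by
      rw [← Finset.sum_add_distrib]
      exact Finset.sum_congr rfl fun i _ => by ring
    change _ ≤ ∑ i, (u i + v i) * φ (Pi.single i 1) - φ (fun i => u i + v i)
    linarith
  vert i := by
    change ∑ k, (Pi.single i (1 : ℝ) : Fin 3 → ℝ) k * φ (Pi.single k 1) - φ (Pi.single i 1) = 0
    rw [Finset.sum_eq_single i]
    · simp
    · intro b _ hb
      rw [Pi.single_eq_of_ne hb, zero_mul]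
    · intro h; exact absurd (Finset.mem_univ i) h

/-- value of a convex functional from a lower state -/
theorem LB.J_le {Ω : Type*} {L : Ω → Fin 3 → ℝ} (hL : IsChan L) {y : ℕ → ℕ → ℕ} {e : ℕ → ℕ}
    (h : LB L y e) {φ : (Fin 3 → ℝ) → ℝ} (hφ : CH φ) :
    2 ^ 36 * J φ L ≤ 2 ^ 36 * ∑ i, φ (Pi.single i 1) -
      Uf y e (fun v => ∑ i, v i * φ (Pi.single i 1) - φ v) := by
  have h1 := h _ (SG.of_CH hφ)
  have h2 : J (fun v => ∑ i, v i * φ (Pi.single i 1) - φ v) L =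
      ∑ i, φ (Pi.single i 1) - J φ L := by
    have hs : HasSum (fun o => ∑ i, L o i * φ (Pi.single i 1)) (∑ i, φ (Pi.single i 1)) := by
      have := hasSum_sum (s := Finset.univ) fun (i : Fin 3) _ =>
        (hL.hasSum i).mul_right (φ (Pi.single i 1))
      simpa using this
    have := hs.sub (hL.summable hφ.bdd).hasSum
    exact this.tsum_eq
  rw [h2] at h1
  linarith

lemma chi_vec {x y z : ℝ} (h : x + y + z ≠ 0) :
    chi ![x, y, z] = (x ^ 2 + y ^ 2 + z ^ 2) / (x + y + z) - (x + y + z) / 3 := by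
  have h1 : avg ![x, y, z] = (x + y + z) / 3 := by
    unfold avg; simp [Fin.sum_univ_three]
  have h2 : avg (fun i => ![x, y, z] i ^ 2) = (x ^ 2 + y ^ 2 + z ^ 2) / 3 := by
    unfold avg; simp [Fin.sum_univ_three]
  unfold chi
  rw [h1, h2]
  field_simp

lemma chi_single (i : Fin 3) : chi (Pi.single i (1 : ℝ) : Fin 3 → ℝ) = 2 / 3 := by
  have e0 : (Pi.single (0 : Fin 3) (1 : ℝ) : Fin 3 → ℝ) = ![1, 0, 0] := by
    funext j; fin_cases j <;> simp
  have e1 : (Pi.single (1 : Fin 3) (1 : ℝ) : Fin 3 → ℝ) = ![0, 1, 0] := by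
    funext j; fin_cases j <;> simp
  have e2 : (Pi.single (2 : Fin 3) (1 : ℝ) : Fin 3 → ℝ) = ![0, 0, 1] := by
    funext j; fin_cases j <;> simp
  fin_cases i
  · change chi (Pi.single (0 : Fin 3) (1 : ℝ)) = _
    rw [e0, chi_vec (by norm_num)]; norm_num
  · change chi (Pi.single (1 : Fin 3) (1 : ℝ)) = _
    rw [e1, chi_vec (by norm_num)]; norm_num
  · change chi (Pi.single (2 : Fin 3) (1 : ℝ)) = _
    rw [e2, chi_vec (by norm_num)]; norm_num

lemma gchi {x y z : ℝ} (h : x + y + z ≠ 0) :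
    ∑ i, ![x, y, z] i * chi (Pi.single i (1 : ℝ) : Fin 3 → ℝ) - chi ![x, y, z] =
      2 * (x * y + y * z + z * x) / (x + y + z) := by
  simp only [chi_single]
  rw [chi_vec h, Fin.sum_univ_three]
  simp only [Matrix.cons_val_zero, Matrix.cons_val_one, Matrix.cons_val]
  field_simp
  ring

lemma gs_gchi {x y z : ℝ} (h : 0 < x + y + z) :
    gs (fun v => ∑ i, v i * chi (Pi.single i (1 : ℝ) : Fin 3 → ℝ) - chi v) x y z =
      12 * (x * y + y * z + z * x) / (x + y + z) := by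
  unfold gs
  simp only []
  rw [gchi (by linarith), gchi (by linarith), gchi (by linarith), gchi (by linarith),
    gchi (by linarith), gchi (by linarith)]
  have h1 : y + x + z ≠ 0 := by linarith
  have h2 : x + z + y ≠ 0 := by linarith
  have h3 : z + x + y ≠ 0 := by linarith
  have h4 : y + z + x ≠ 0 := by linarith
  have h5 : z + y + x ≠ 0 := by linarith
  have h6 : x + y + z ≠ 0 := by linarith
  have e1 : y + x + z = x + y + z := by ring
  have e2 : x + z + y = x + y + z := by ring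
  have e3 : z + x + y = x + y + z := by ring
  have e4 : y + z + x = x + y + z := by ring
  have e5 : z + y + x = x + y + z := by ring
  rw [e1, e2, e3, e4, e5]
  field_simp
  ring

/-- integer lower bound of `2 ^ 20 * 4 ^ 20 * gs` -/
def gv (x y z : Nat) : Nat :=
  Nat.div (Nat.mul 12582912 (Nat.add (Nat.add (Nat.mul x y) (Nat.mul y z)) (Nat.mul z x)))
    (Nat.mul 1099511627776 (Nat.add (Nat.add x y) z))

/-- final evaluation -/
def fin (S : Nat) : Nat :=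
  Nat.add (ksum 21 fun k => ksum (Nat.sub 21 k) fun j =>
    Nat.mul (dig S (idx (Nat.add k j) j)) (gv (r20 (Nat.add k j)) (r20 j) 1099511627776))
   (ksum 21 fun k => Nat.mul (dig S (Nat.add 441 k)) (gv (r20 k) 1099511627776 0))

lemma gv_le {a b c : ℕ} {x y z : ℝ} (hx : (a : ℝ) = 4 ^ 20 * x) (hy : (b : ℝ) = 4 ^ 20 * y)
    (hz : (c : ℝ) = 4 ^ 20 * z) (hs : 0 < x + y + z) :
    (gv a b c : ℝ) ≤ 2 ^ 20 *
      gs (fun v => ∑ i, v i * chi (Pi.single i (1 : ℝ) : Fin 3 → ℝ) - chi v) x y z := by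
  rw [gs_gchi hs]
  have h1 : gv a b c = (12582912 * (a * b + b * c + c * a)) / (1099511627776 * (a + b + c)) := rfl
  rw [h1]
  refine Nat.cast_div_le.trans ?_
  push_cast
  rw [hx, hy, hz]
  refine le_of_eq ?_
  have h2 : (4 : ℝ) ^ 20 * x + 4 ^ 20 * y + 4 ^ 20 * z = 4 ^ 20 * (x + y + z) := by ring
  rw [h2]
  field_simp
  norm_num
  ring

theorem J_chi_le {n S : ℕ} (h : Lev n S) {B : ℕ} (hB : Nat.ble B (fin S) = true) :
    J chi (reg 3 4 (-(1 / 2)) n) ≤ 2 - B / 2 ^ 56 := by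
  have hL := reg_isChan (q := 3) 4 adm_half n
  have h1 := LB.J_le hL h (ch_chi (q := 3))
  have h2 : ∑ i : Fin 3, chi (Pi.single i (1 : ℝ) : Fin 3 → ℝ) = 2 := by
    simp only [chi_single]
    rw [Fin.sum_univ_three]; norm_num
  rw [h2] at h1
  have h3 : (fin S : ℝ) ≤ 2 ^ 20 * Uf (Y S) (E S)
      (fun v => ∑ i, v i * chi (Pi.single i (1 : ℝ) : Fin 3 → ℝ) - chi v) := by
    unfold fin Uf
    simp only [ksum_eq]
    have e : ∀ a b : ℕ, Nat.add a b = a + b := fun _ _ => rfl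
    rw [e]
    push_cast
    rw [mul_add, Finset.mul_sum, Finset.mul_sum]
    refine add_le_add ?_ ?_
    · refine Finset.sum_le_sum fun k hk => ?_
      rw [Finset.mul_sum]
      refine Finset.sum_le_sum fun j hj => ?_
      have hk' := Finset.mem_range.1 hk
      have hj' : j < 21 - k := Finset.mem_range.1 hj
      change ((dig S (idx (k + j) j) * gv (r20 (k + j)) (r20 j) 1099511627776 : ℕ) : ℝ) ≤ _
      rw [Nat.cast_mul]
      have h4 := mul_le_mul_of_nonneg_left (gv_le (r20_cast (i := k + j) (by omega))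
        (r20_cast (i := j) (by omega)) (c := 1099511627776) (z := 1) (by norm_num)
        (by have := rho_pow_pos (k + j); have := rho_pow_pos j; linarith))
        (Nat.cast_nonneg (α := ℝ) (dig S (idx (k + j) j)))
      refine h4.trans (le_of_eq ?_)
      unfold Y
      ring
    · refine Finset.sum_le_sum fun k hk => ?_
      have hk' := Finset.mem_range.1 hk
      change ((dig S (441 + k) * gv (r20 k) 1099511627776 0 : ℕ) : ℝ) ≤ _
      rw [Nat.cast_mul]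
      have h4 := mul_le_mul_of_nonneg_left (gv_le (r20_cast (i := k) (by omega))
        (b := 1099511627776) (y := 1) (c := 0) (z := 0) (by norm_num) (by norm_num)
        (by have := rho_pow_pos k; linarith))
        (Nat.cast_nonneg (α := ℝ) (dig S (441 + k)))
      refine h4.trans (le_of_eq ?_)
      unfold E
      ring
  have h5 : (B : ℝ) ≤ fin S := by exact_mod_cast Nat.le_of_ble_eq_true hB
  have h6 : (2 : ℝ) - B / 2 ^ 56 = (2 ^ 56 * 2 - B) / 2 ^ 56 := by field_simp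
  rw [h6, le_div_iff₀ (by positivity)]
  norm_num at h1 h3 ⊢
  linarith

end Crest.Agent.R163.DE
end

-- ▼ part R163/DG1
section

/-!
Row 163, generic density evolution (`q = 3`, any rational `lam = -p/r`, any branching number,
general multiplicative lattices), abstract part.
-/

set_option autoImplicit false

namespace Crest.Agent.R163.DG

open Crest.Agent.R163 Crest.Agent.R163.DE


/-- value of a lattice state on a functional (lattice ratio `ρ`, radius `n - 1`) -/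
noncomputable def Uf (ρ : ℝ) (n : ℕ) (y : ℕ → ℕ → ℕ) (e : ℕ → ℕ) (G : (Fin 3 → ℝ) → ℝ) : ℝ :=
  ∑ x ∈ sec n, (y x.1 x.2 : ℝ) * gs G (ρ ^ (x.1 + x.2)) (ρ ^ x.2) 1 +
    ∑ k ∈ Finset.range n, (e k : ℝ) * gs G (ρ ^ k) 1 0

/-- the lattice state `(y, e)` (scaled by `2 ^ 36`) is a lower bound of the channel -/
def LB {Ω : Type*} (L : Ω → Fin 3 → ℝ) (ρ : ℝ) (n : ℕ) (y : ℕ → ℕ → ℕ) (e : ℕ → ℕ) : Prop :=
  ∀ G : (Fin 3 → ℝ) → ℝ, SG G → Uf ρ n y e G ≤ 2 ^ 36 * J G L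

section merge

variable {Ω₁ Ω₂ : Type*} {L₁ : Ω₁ → Fin 3 → ℝ} {L₂ : Ω₂ → Fin 3 → ℝ}

lemma Uf_mul {G : (Fin 3 → ℝ) → ℝ} (h : SG G) {ρ : ℝ} (hρ : 0 < ρ) (n : ℕ) (y : ℕ → ℕ → ℕ)
    (e : ℕ → ℕ) : SG (fun u => Uf ρ n y e (fun v => G (fun i => u i * v i))) := by
  unfold Uf
  refine SG.add (SG.finset_sum _ fun x _ =>
    SG.smul (h.gs_mul (pow_pos hρ _).le (pow_pos hρ _).le zero_le_one) (Nat.cast_nonneg _))
    (SG.finset_sum _ fun k _ =>
    SG.smul (h.gs_mul (pow_pos hρ _).le zero_le_one le_rfl) (Nat.cast_nonneg _))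

theorem LB.mrg {ρ : ℝ} (hρ : 0 < ρ) {n : ℕ} {y₁ y₂ : ℕ → ℕ → ℕ} {e₁ e₂ : ℕ → ℕ}
    (hL₁ : IsChan L₁) (hL₂ : IsChan L₂)
    (h₁ : LB L₁ ρ n y₁ e₁) (h₂ : LB L₂ ρ n y₂ e₂) {G : (Fin 3 → ℝ) → ℝ} (hG : SG G) :
    Uf ρ n y₁ e₁ (fun u => Uf ρ n y₂ e₂ (fun v => G (fun i => u i * v i))) ≤
      2 ^ 72 * J G (mrg L₁ L₂) := by
  have hG2 := Uf_mul hG hρ n y₂ e₂
  refine (h₁ _ hG2).trans ?_
  have e : (2 : ℝ) ^ 72 * J G (R163.mrg L₁ L₂) = 2 ^ 36 * (2 ^ 36 * J G (R163.mrg L₁ L₂)) := by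
    ring
  rw [e]
  refine mul_le_mul_of_nonneg_left ?_ (by positivity)
  rw [J_mrg_iter hL₁ hL₂ hG.bdd, ← J_const_mul]
  refine Summable.tsum_le_tsum (fun o => ?_) (hL₁.summable hG2.bdd) ?_
  · exact h₂ _ (hG.mulc' (hL₁.nonneg o))
  · have hs := ((hL₁.mrg hL₂).summable hG.bdd)
    have h3 := hs.prod
    exact h3.mul_left _

end merge

section edge

variable {Ω : Type*} {L : Ω → Fin 3 → ℝ}

/-- coordinate of the edge operator: own coordinate `x`, the others `y, z` -/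
noncomputable def wx (lam x y z : ℝ) : ℝ := lam * x + (1 - lam) * ((x + y + z) / 3)

lemma W_vec (lam x y z : ℝ) :
    W lam ![x, y, z] = ![wx lam x y z, wx lam y x z, wx lam z x y] := by
  have ha : avg ![x, y, z] = (x + y + z) / 3 := by
    unfold avg; simp [Fin.sum_univ_three]
  funext i
  unfold W
  rw [ha]
  fin_cases i
  · rfl
  · change lam * y + (1 - lam) * ((x + y + z) / 3) = lam * y + (1 - lam) * ((y + x + z) / 3)
    ring
  · change lam * z + (1 - lam) * ((x + y + z) / 3) = lam * z + (1 - lam) * ((z + x + y) / 3)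
    ring

/-- the vertex contribution -/
noncomputable def gv3 (lam : ℝ) (G : (Fin 3 → ℝ) → ℝ) (i : Fin 3) : ℝ :=
  G (W lam (Pi.single i 1))

lemma W_lin (lam : ℝ) (u v : Fin 3 → ℝ) :
    W lam (fun i => u i + v i) = fun i => W lam u i + W lam v i := by
  funext i
  have : avg (fun i => u i + v i) = avg u + avg v := by
    unfold avg; rw [Finset.sum_add_distrib, add_div]
  unfold W
  rw [this]; ring

lemma W_smul (lam c : ℝ) (v : Fin 3 → ℝ) :
    W lam (fun i => c * v i) = fun i => c * W lam v i := by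
  funext i
  have : avg (fun i => c * v i) = c * avg v := by
    unfold avg; rw [← Finset.mul_sum, mul_div_assoc]
  unfold W
  rw [this]; ring

lemma single_nonneg (i : Fin 3) : ∀ j, 0 ≤ (Pi.single i (1 : ℝ) : Fin 3 → ℝ) j := by
  intro j
  by_cases hj : j = i
  · subst hj; simp
  · simp [hj]

/-- the corrected pull-back of a test functional along the edge operator -/
lemma SG_edge {G : (Fin 3 → ℝ) → ℝ} (h : SG G) {lam : ℝ} (hl : Adm 3 lam) :
    SG (fun v => G (W lam v) - (v 0 * gv3 lam G 0 + v 1 * gv3 lam G 1 + v 2 * gv3 lam G 2)) where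
  bdd := by
    have h1 : Bdd (fun v => G (W lam v)) := by
      obtain ⟨K, hK, hb⟩ := h.bdd
      refine ⟨K, hK, fun v hv => ?_⟩
      have := hb (W lam v) (W_nonneg hl hv)
      rwa [avg_W] at this
    refine h1.sub ?_
    have hco : ∀ i : Fin 3, Bdd (fun v : Fin 3 → ℝ => v i) := by
      intro i
      refine ⟨3, by norm_num, fun v hv => ?_⟩
      rw [abs_of_nonneg (hv i)]
      have := le_avg hv i
      rw [div_le_iff₀ (by norm_num)] at this
      push_cast at this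
      linarith
    refine (((hco 0).const_mul (gv3 lam G 0)).add
      ((hco 1).const_mul (gv3 lam G 1))).add
      ((hco 2).const_mul (gv3 lam G 2)) |>.congr fun v _ => ?_
    ring
  hom c v hc hv := by
    change G (W lam (fun i => c * v i)) - _ = _
    rw [W_smul, h.hom c _ hc (W_nonneg hl hv)]
    ring
  nn v hv := by
    have h0 := hv 0
    have h1 := hv 1
    have h2 := hv 2
    have e : v = fun i => (v 0 * (Pi.single (0 : Fin 3) (1 : ℝ) : Fin 3 → ℝ) i +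
        v 1 * (Pi.single (1 : Fin 3) (1 : ℝ) : Fin 3 → ℝ) i) +
        v 2 * (Pi.single (2 : Fin 3) (1 : ℝ) : Fin 3 → ℝ) i := by
      funext i; fin_cases i <;> simp
    have n0 := single_nonneg 0
    have n1 := single_nonneg 1
    have n2 := single_nonneg 2
    have w0 := W_nonneg hl n0
    have w1 := W_nonneg hl n1
    have w2 := W_nonneg hl n2
    have e2 : W lam v = fun i => (v 0 * W lam (Pi.single (0 : Fin 3) (1 : ℝ)) i +
        v 1 * W lam (Pi.single (1 : Fin 3) (1 : ℝ)) i) +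
        v 2 * W lam (Pi.single (2 : Fin 3) (1 : ℝ)) i := by
      conv_lhs => rw [e]
      rw [W_lin, W_lin, W_smul, W_smul, W_smul]
    have s1 := h.sup (fun i => v 0 * W lam (Pi.single (0 : Fin 3) (1 : ℝ)) i +
        v 1 * W lam (Pi.single (1 : Fin 3) (1 : ℝ)) i)
        (fun i => v 2 * W lam (Pi.single (2 : Fin 3) (1 : ℝ)) i)
        (fun i => add_nonneg (mul_nonneg h0 (w0 i)) (mul_nonneg h1 (w1 i)))
        (fun i => mul_nonneg h2 (w2 i))
    have s2 := h.sup (fun i => v 0 * W lam (Pi.single (0 : Fin 3) (1 : ℝ)) i)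
        (fun i => v 1 * W lam (Pi.single (1 : Fin 3) (1 : ℝ)) i)
        (fun i => mul_nonneg h0 (w0 i)) (fun i => mul_nonneg h1 (w1 i))
    rw [h.hom _ _ h0 w0, h.hom _ _ h1 w1] at s2
    rw [h.hom _ _ h2 w2, ← e2] at s1
    change 0 ≤ G (W lam v) - (v 0 * gv3 lam G 0 + v 1 * gv3 lam G 1 + v 2 * gv3 lam G 2)
    unfold gv3
    linarith
  sup u v hu hv := by
    have h1 := h.sup _ _ (W_nonneg hl hu) (W_nonneg hl hv)
    rw [← W_lin] at h1
    change _ ≤ G (W lam (fun i => u i + v i)) - _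
    linarith
  vert i := by
    fin_cases i
    · change G (W lam (Pi.single (0 : Fin 3) (1 : ℝ))) -
        ((Pi.single (0 : Fin 3) (1 : ℝ) : Fin 3 → ℝ) 0 * gv3 lam G 0 +
        (Pi.single (0 : Fin 3) (1 : ℝ) : Fin 3 → ℝ) 1 * gv3 lam G 1 +
        (Pi.single (0 : Fin 3) (1 : ℝ) : Fin 3 → ℝ) 2 * gv3 lam G 2) = 0
      simp [gv3]
    · change G (W lam (Pi.single (1 : Fin 3) (1 : ℝ))) -
        ((Pi.single (1 : Fin 3) (1 : ℝ) : Fin 3 → ℝ) 0 * gv3 lam G 0 +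
        (Pi.single (1 : Fin 3) (1 : ℝ) : Fin 3 → ℝ) 1 * gv3 lam G 1 +
        (Pi.single (1 : Fin 3) (1 : ℝ) : Fin 3 → ℝ) 2 * gv3 lam G 2) = 0
      simp [gv3]
    · change G (W lam (Pi.single (2 : Fin 3) (1 : ℝ))) -
        ((Pi.single (2 : Fin 3) (1 : ℝ) : Fin 3 → ℝ) 0 * gv3 lam G 0 +
        (Pi.single (2 : Fin 3) (1 : ℝ) : Fin 3 → ℝ) 1 * gv3 lam G 1 +
        (Pi.single (2 : Fin 3) (1 : ℝ) : Fin 3 → ℝ) 2 * gv3 lam G 2) = 0
      simp [gv3]

/-- the functional `J` of the pull-back -/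
lemma J_edge_eq {G : (Fin 3 → ℝ) → ℝ} (h : SG G) {lam : ℝ} (hl : Adm 3 lam) (hL : IsChan L) :
    J G (fun o => W lam (L o)) =
      J (fun v => G (W lam v) - (v 0 * gv3 lam G 0 + v 1 * gv3 lam G 1 + v 2 * gv3 lam G 2)) L +
      (gv3 lam G 0 + gv3 lam G 1 + gv3 lam G 2) := by
  have hs := hL.summable (SG_edge h hl).bdd
  have h1 : HasSum (fun o => L o 0 * gv3 lam G 0 + L o 1 * gv3 lam G 1 + L o 2 * gv3 lam G 2)
      (gv3 lam G 0 + gv3 lam G 1 + gv3 lam G 2) := by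
    have := (((hL.hasSum 0).mul_right (gv3 lam G 0)).add
      ((hL.hasSum 1).mul_right (gv3 lam G 1))).add
      ((hL.hasSum 2).mul_right (gv3 lam G 2))
    simpa using this
  have h2 := hs.hasSum.add h1
  unfold J
  rw [← h2.tsum_eq]
  exact tsum_congr fun o => by ring

/-- column mass of a lattice state -/
noncomputable def col (ρ : ℝ) (n : ℕ) (y : ℕ → ℕ → ℕ) (e : ℕ → ℕ) : ℝ :=
  ∑ x ∈ sec n, (y x.1 x.2 : ℝ) * (ρ ^ (x.1 + x.2) + ρ ^ x.2 + 1) +
    ∑ k ∈ Finset.range n, (e k : ℝ) * (ρ ^ k + 1)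

/-- symmetrised value of `G` after the edge operator, largest coordinate first -/
noncomputable def gw (lam : ℝ) (G : (Fin 3 → ℝ) → ℝ) (x y z : ℝ) : ℝ :=
  gs G (wx lam z x y) (wx lam y x z) (wx lam x y z)

lemma wx_swap (lam x y z : ℝ) : wx lam x y z = wx lam x z y := by unfold wx; ring

lemma gv3_sum (lam : ℝ) (G : (Fin 3 → ℝ) → ℝ) :
    2 * (gv3 lam G 0 + gv3 lam G 1 + gv3 lam G 2) = gw lam G 1 0 0 := by
  have e0 : (Pi.single (0 : Fin 3) (1 : ℝ) : Fin 3 → ℝ) = ![1, 0, 0] := by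
    funext j; fin_cases j <;> simp
  have e1 : (Pi.single (1 : Fin 3) (1 : ℝ) : Fin 3 → ℝ) = ![0, 1, 0] := by
    funext j; fin_cases j <;> simp
  have e2 : (Pi.single (2 : Fin 3) (1 : ℝ) : Fin 3 → ℝ) = ![0, 0, 1] := by
    funext j; fin_cases j <;> simp
  unfold gv3 gw
  rw [e0, e1, e2, W_vec, W_vec, W_vec, wx_swap lam 0 1 0]
  unfold gs
  ring

lemma gs_edge (lam : ℝ) (G : (Fin 3 → ℝ) → ℝ) (x y z : ℝ) :
    gs (fun v => G (W lam v) - (v 0 * gv3 lam G 0 + v 1 * gv3 lam G 1 + v 2 * gv3 lam G 2)) x y z =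
      gw lam G x y z - (x + y + z) * gw lam G 1 0 0 := by
  rw [← gv3_sum]
  unfold gs gw
  simp only [W_vec]
  simp only [Matrix.cons_val_zero, Matrix.cons_val_one, Matrix.cons_val]
  rw [wx_swap lam x z y, wx_swap lam y z x, wx_swap lam z y x]
  unfold gs
  ring

theorem LB.edge {ρ : ℝ} {n : ℕ} {y : ℕ → ℕ → ℕ} {e : ℕ → ℕ} (hL : IsChan L)
    (hlb : LB L ρ n y e) {lam : ℝ} (hl : Adm 3 lam) {G : (Fin 3 → ℝ) → ℝ} (hG : SG G) :
    ∑ x ∈ sec n, (y x.1 x.2 : ℝ) * gw lam G (ρ ^ (x.1 + x.2)) (ρ ^ x.2) 1 +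
    ∑ k ∈ Finset.range n, (e k : ℝ) * gw lam G (ρ ^ k) 1 0 +
    (2 ^ 36 - 2 * col ρ n y e) / 2 * gw lam G 1 0 0 ≤
      2 ^ 36 * J G (fun o => W lam (L o)) := by
  have h1 := hlb _ (SG_edge hG hl)
  rw [J_edge_eq hG hl hL]
  have hg := gv3_sum lam G
  have h2 : Uf ρ n y e (fun v => G (W lam v) - (v 0 * gv3 lam G 0 + v 1 * gv3 lam G 1 +
        v 2 * gv3 lam G 2)) =
      ∑ x ∈ sec n, (y x.1 x.2 : ℝ) * gw lam G (ρ ^ (x.1 + x.2)) (ρ ^ x.2) 1 +
      ∑ k ∈ Finset.range n, (e k : ℝ) * gw lam G (ρ ^ k) 1 0 -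
      col ρ n y e * gw lam G 1 0 0 := by
    unfold Uf col
    simp only [gs_edge]
    rw [add_mul, Finset.sum_mul, Finset.sum_mul, add_sub_add_comm, ← Finset.sum_sub_distrib,
      ← Finset.sum_sub_distrib]
    congr 1
    · refine Finset.sum_congr rfl fun k _ => ?_
      ring
    · refine Finset.sum_congr rfl fun k _ => ?_
      rw [add_zero]
      ring
  rw [h2] at h1
  linarith

end edge

end Crest.Agent.R163.DG
end

-- ▼ part R163/DG2
section

/-!
Row 163, generic density evolution: kernel friendly arithmetic.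
A lattice is given by `a s L`: ratio `a / 2 ^ s`, radius `L`.
-/

set_option autoImplicit false

namespace Crest.Agent.R163.DG

open Crest.Agent.R163.DE (ksum kall dig mlt mlte ksum_eq kall_iff dig_eq dig_lt dig_zero and_mask
  digit_sum fiber_le)

def idx (L i j : Nat) : Nat := Nat.add i (Nat.mul (Nat.succ L) j)

/-- first edge index -/
def ei (L : Nat) : Nat := Nat.mul (Nat.succ L) (Nat.succ L)

/-- row stride of the packed square -/
def st (L : Nat) : Nat := Nat.succ (Nat.mul 4 L)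

/-- `w * (a / 2 ^ s) ^ i` rounded down -/
def sc (a s w i : Nat) : Nat := Nat.shiftRight (Nat.mul w (Nat.pow a i)) (Nat.mul s i)

/-- `w` at position `p` -/
def sh1 (w p : Nat) : Nat := Nat.shiftLeft w (Nat.mul 128 p)

/-- row `L + m` of the images -/
def RU (a s L S m : Nat) : Nat :=
  Nat.add (ksum (Nat.sub (Nat.succ L) m) fun k => Nat.add
      (sh1 (dig S (idx L (Nat.add k m) m)) (Nat.add (Nat.add k m) L))
      (sh1 (sc a s (dig S (idx L (Nat.add m k) k)) k) (Nat.sub L k)))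
    (ksum (Nat.succ m) fun j => sh1 (dig S (idx L m j)) (Nat.add j L))

/-- row `L - m` of the images -/
def RD (a s L S m : Nat) : Nat :=
  Nat.add (ksum (Nat.sub (Nat.succ L) m) fun k => Nat.add
      (sh1 (sc a s (dig S (idx L (Nat.add k m) m)) m) (Nat.add k L))
      (sh1 (sc a s (dig S (idx L (Nat.add m k) k)) (Nat.add m k)) (Nat.sub L (Nat.add m k))))
    (ksum (Nat.succ m) fun j => sh1 (sc a s (dig S (idx L m j)) m) (Nat.sub L (Nat.sub m j)))

/-- packed images of a state -/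
def NA (a s L S : Nat) : Nat :=
  ksum (Nat.succ L) fun m => Nat.add
    (Nat.shiftLeft (RU a s L S m) (Nat.mul 128 (Nat.mul (st L) (Nat.add m L))))
    (Nat.shiftLeft (RD a s L S m) (Nat.mul 128 (Nat.mul (st L) (Nat.sub L m))))

def termB (L w wj wi i j k : Nat) : Nat :=
  Nat.add (Nat.add
    (Nat.add (sh1 w (Nat.add j L)) (sh1 w (Nat.add i L)))
    (Nat.add (sh1 wj (Nat.sub L j)) (sh1 wj (Nat.add k L))))
    (Nat.add (sh1 wi (Nat.sub L i)) (sh1 wi (Nat.sub L k)))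

def NB (a s L S : Nat) : Nat :=
  ksum (Nat.succ L) fun k => ksum (Nat.sub (Nat.succ L) k) fun j =>
    termB L (dig S (idx L (Nat.add k j) j)) (sc a s (dig S (idx L (Nat.add k j) j)) j)
      (sc a s (dig S (idx L (Nat.add k j) j)) (Nat.add k j)) (Nat.add k j) j k

def NE (a s L S : Nat) : Nat :=
  ksum (Nat.succ L) fun k => Nat.add
    (sh1 (dig S (Nat.add (ei L) k)) (Nat.add k L))
    (sh1 (sc a s (dig S (Nat.add (ei L) k)) k) (Nat.sub L k))

/-- row `q` of the product -/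
def rowc (L N q : Nat) : Nat :=
  Nat.land (Nat.shiftRight N (Nat.mul 128 (Nat.mul (st L) (Nat.add q (Nat.mul 2 L)))))
    (Nat.sub (Nat.pow 2 (Nat.mul 128 (st L))) 1)

/-- coefficient of the product -/
def cf0 (L N p q : Nat) : Nat :=
  Nat.land (Nat.shiftRight (rowc L N q) (Nat.mul 128 (Nat.add p (Nat.mul 2 L))))
    340282366920938463463374607431768211455

/-- coefficient of the product; the recursor forces the evaluation of `q` -/
def cf (L N p q : Nat) : Nat :=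
  Nat.rec (motive := fun _ => Nat) (cf0 L N p 0) (fun m _ => cf0 L N p (Nat.succ m)) q

def cfe (L N m : Nat) : Nat :=
  Nat.land (Nat.shiftRight N (Nat.mul 128 (Nat.add m (Nat.mul 2 L))))
    340282366920938463463374607431768211455

/-- multiplicity times coefficient at `(k + j, j)` -/
def mC (L N k j : Nat) : Nat := Nat.mul (mlt k j) (cf L N (Nat.add k j) j)

/-- far excess: `c * (ρ^q - ρ^m)` rounded down, `m ≤ q` -/
def exc (a s c q m : Nat) : Nat :=
  Nat.shiftRight (Nat.mul c (Nat.sub (Nat.pow a q)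
    (Nat.mul (Nat.pow a m) (Nat.pow 2 (Nat.mul s (Nat.sub q m)))))) (Nat.mul s q)

def FI (L N k : Nat) : Nat := ksum L fun q => mC L N k (Nat.add (Nat.sub (Nat.succ L) k) q)

def FE (a s L N k : Nat) : Nat := ksum L fun q =>
  exc a s (mC L N k (Nat.add (Nat.sub (Nat.succ L) k) q)) (Nat.add (Nat.sub (Nat.succ L) k) q)
    (Nat.sub L k)

def GI (L N : Nat) : Nat :=
  ksum L fun k => ksum (Nat.sub L k) fun q => mC L N (Nat.add (Nat.succ L) k) q

def GE (a s L N : Nat) : Nat := ksum L fun k => ksum (Nat.sub L k) fun q =>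
  exc a s (mC L N (Nat.add (Nat.succ L) k) q) q 0

/-- check of a product step -/
def chkPr2 (a s L NC NE2 S' : Nat) : Bool :=
  and (kall L fun k => and
      (kall (Nat.sub L k) fun j =>
        Nat.ble (Nat.mul 412316860416 (dig S' (idx L (Nat.add k j) j))) (mC L NC k j))
      (and (Nat.ble (Nat.mul 412316860416 (dig S' (idx L L (Nat.sub L k))))
              (Nat.add (mC L NC k (Nat.sub L k)) (FI L NC k)))
        (Nat.ble (Nat.mul 412316860416 (dig S' (Nat.add (ei L) k)))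
          (Nat.add (FE a s L NC k) (Nat.mul (mlte k) (cfe L NE2 k))))))
    (and (Nat.ble (Nat.mul 412316860416 (dig S' (idx L L 0)))
        (Nat.add (mC L NC L 0) (Nat.add (FI L NC L) (GI L NC))))
      (Nat.ble (Nat.mul 412316860416 (dig S' (Nat.add (ei L) L)))
        (Nat.add (Nat.add (FE a s L NC L) (GE a s L NC))
          (Nat.mul 6 (ksum (Nat.succ L) fun m => cfe L NE2 (Nat.add L m))))))

def chkPr (a s L S₁ S₂ S' : Nat) : Bool :=
  chkPr2 a s L (Nat.mul (NA a s L S₁) (NA a s L S₂))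
    (Nat.add (Nat.add (Nat.mul (NB a s L S₁) (NE a s L S₂))
      (Nat.mul (NE a s L S₁) (NB a s L S₂))) (Nat.mul (NE a s L S₁) (NE a s L S₂))) S'

/-! ### edge step -/

/-- table row -/
def trow (T s : Nat) : Nat :=
  Nat.land (Nat.shiftRight T (Nat.mul 384 s)) (Nat.sub (Nat.pow 2 384) 1)

/-- table entry -/
def tb (T s c : Nat) : Nat :=
  Nat.land (Nat.shiftRight (trow T s) (Nat.mul 48 c)) 281474976710655

def wterm (T w s : Nat) : Nat :=
  Nat.add (Nat.add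
    (Nat.shiftLeft (Nat.mul w (tb T s 1)) (Nat.mul 112 (tb T s 0)))
    (Nat.shiftLeft (Nat.mul w (tb T s 3)) (Nat.mul 112 (tb T s 2))))
    (Nat.shiftLeft (Nat.mul w (tb T s 5)) (Nat.mul 112 (tb T s 4)))

/-- packed images of all sources; `wV` is the weight of the vertex source -/
def NW (L T S wV : Nat) : Nat :=
  Nat.add (ksum (Nat.succ L) fun k => ksum (Nat.sub (Nat.succ L) k) fun j =>
    wterm T (dig S (idx L (Nat.add k j) j)) (idx L (Nat.add k j) j))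
   (Nat.add (ksum (Nat.succ L) fun k => wterm T (dig S (Nat.add (ei L) k)) (Nat.add (ei L) k))
     (wterm T wV (Nat.add (ei L) (Nat.succ L))))

/-- total weight sent to the edge vector `(1, 1, 0)` -/
def NG (L T S wV : Nat) : Nat :=
  Nat.add (ksum (Nat.succ L) fun k => ksum (Nat.sub (Nat.succ L) k) fun j =>
    Nat.mul (dig S (idx L (Nat.add k j) j)) (tb T (idx L (Nat.add k j) j) 6))
   (Nat.add (ksum (Nat.succ L) fun k => Nat.mul (dig S (Nat.add (ei L) k))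
      (tb T (Nat.add (ei L) k) 6))
     (Nat.mul wV (tb T (Nat.add (ei L) (Nat.succ L)) 6)))

/-- `2 ^ (s L) * ρ ^ i` -/
def rr (a s L i : Nat) : Nat := Nat.mul (Nat.pow a i) (Nat.pow 2 (Nat.mul s (Nat.sub L i)))

/-- column sum times `2 ^ (s L)` -/
def colnum (a s L S : Nat) : Nat :=
  Nat.add (ksum (Nat.succ L) fun k => ksum (Nat.sub (Nat.succ L) k) fun j =>
    Nat.mul (dig S (idx L (Nat.add k j) j))
      (Nat.add (Nat.add (rr a s L (Nat.add k j)) (rr a s L j)) (rr a s L 0)))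
   (ksum (Nat.succ L) fun k => Nat.mul (dig S (Nat.add (ei L) k))
      (Nat.add (rr a s L k) (rr a s L 0)))

/-- digit of `NW` -/
def dw (N t : Nat) : Nat :=
  Nat.land (Nat.shiftRight N (Nat.mul 112 t)) 5192296858534827628530496329220095

/-- weight of the vertex source -/
def wV (a s L S : Nat) : Nat :=
  Nat.shiftRight (Nat.sub (Nat.pow 2 (Nat.add 36 (Nat.mul s L))) (Nat.mul 2 (colnum a s L S)))
    (Nat.succ (Nat.mul s L))

/-- check of an edge step; source lattice `a s L`, target radius `L'` -/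
def chkW2 (a s L L' T S S' wV : Nat) : Bool :=
  and (Nat.ble (Nat.mul 2 (colnum a s L S)) (Nat.pow 2 (Nat.add 36 (Nat.mul s L))))
   (and (kall (Nat.succ L') fun k => kall (Nat.sub (Nat.succ L') k) fun j =>
      Nat.ble (Nat.mul 68719476736 (dig S' (idx L' (Nat.add k j) j)))
        (dw (NW L T S wV) (idx L' (Nat.add k j) j)))
    (and (Nat.ble (Nat.mul 68719476736 (dig S' (ei L'))) (NG L T S wV))
     (kall L' fun k => Nat.beq (dig S' (Nat.add (ei L') (Nat.succ k))) 0)))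

def chkW (a s L L' T S S' : Nat) : Bool := chkW2 a s L L' T S S' (wV a s L S)

/-- check of one row of the table: source vector `(X, Y, Z)` scaled by `2 ^ (s L)`, target lattice
`a' s' L'`, `lam = -p/r` -/
def chkRow (D a' s' L' p r T row X Y Z : Nat) : Bool :=
  and (and (Nat.ble (Nat.succ (tb T row 0)) (ei L'))
      (and (Nat.ble (Nat.succ (tb T row 2)) (ei L')) (Nat.ble (Nat.succ (tb T row 4)) (ei L'))))
   (and (Nat.ble (Nat.mul D (Nat.add (Nat.add (Nat.add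
          (Nat.mul (tb T row 1) (rr a' s' L' (Nat.mod (tb T row 0) (Nat.succ L'))))
          (Nat.mul (tb T row 3) (rr a' s' L' (Nat.mod (tb T row 2) (Nat.succ L')))))
          (Nat.mul (tb T row 5) (rr a' s' L' (Nat.mod (tb T row 4) (Nat.succ L')))))
          (Nat.mul (tb T row 6) (rr a' s' L' 0))))
        (Nat.mul (Nat.mul 68719476736 (rr a' s' L' 0))
          (Nat.add (Nat.mul (Nat.sub r (Nat.mul 2 p)) Z) (Nat.mul (Nat.add r p) (Nat.add X Y)))))
    (and (Nat.ble (Nat.mul D (Nat.add (Nat.add (Nat.add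
          (Nat.mul (tb T row 1) (rr a' s' L' (Nat.div (tb T row 0) (Nat.succ L'))))
          (Nat.mul (tb T row 3) (rr a' s' L' (Nat.div (tb T row 2) (Nat.succ L')))))
          (Nat.mul (tb T row 5) (rr a' s' L' (Nat.div (tb T row 4) (Nat.succ L')))))
          (Nat.mul (tb T row 6) (rr a' s' L' 0))))
        (Nat.mul (Nat.mul 68719476736 (rr a' s' L' 0))
          (Nat.add (Nat.mul (Nat.sub r (Nat.mul 2 p)) Y) (Nat.mul (Nat.add r p) (Nat.add X Z)))))
     (Nat.ble (Nat.mul D (Nat.add (Nat.add (tb T row 1) (tb T row 3)) (tb T row 5)))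
        (Nat.mul 68719476736
          (Nat.add (Nat.mul (Nat.sub r (Nat.mul 2 p)) X) (Nat.mul (Nat.add r p) (Nat.add Y Z)))))))

/-- check of the table -/
def chkT (a s L a' s' L' p r T : Nat) : Bool :=
  let D := Nat.mul (Nat.mul 3 r) (rr a s L 0)
  and (kall (Nat.succ L) fun k => kall (Nat.sub (Nat.succ L) k) fun j =>
      chkRow D a' s' L' p r T (idx L (Nat.add k j) j) (rr a s L (Nat.add k j)) (rr a s L j)
        (rr a s L 0))
   (and (kall (Nat.succ L) fun k =>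
      chkRow D a' s' L' p r T (Nat.add (ei L) k) (rr a s L k) (rr a s L 0) 0)
    (chkRow D a' s' L' p r T (Nat.add (ei L) (Nat.succ L)) (rr a s L 0) 0 0))

/-! ### elementary facts -/

lemma tb_lt (T s c : ℕ) : tb T s c < 2 ^ 48 := by
  have h := and_mask (Nat.shiftRight (trow T s) (Nat.mul 48 c)) 48
  have h2 : tb T s c = Nat.land (Nat.shiftRight (trow T s) (Nat.mul 48 c))
    (2 ^ 48 - 1) := rfl
  rw [h2, h]
  exact Nat.mod_lt _ (by norm_num)

lemma sh1_eq (w p : ℕ) : sh1 w p = w * (2 ^ 128) ^ p := by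
  unfold sh1
  have : Nat.shiftLeft w (Nat.mul 128 p) = w * 2 ^ (128 * p) := Nat.shiftLeft_eq _ _
  rw [this, pow_mul]

lemma sc_eq (a s w i : ℕ) : sc a s w i = w * a ^ i / 2 ^ (s * i) := by
  unfold sc
  exact Nat.shiftRight_eq_div_pow _ _

/-- validity of a lattice; `ρ ^ L ≤ 2 ^ K` -/
structure OK (a s L K : ℕ) : Prop where
  one_lt : 2 ^ s < a
  pow_le : a ^ L ≤ 2 ^ (K + s * L)
  size : 3 * (6 * (L + 1) ^ 2 * 2 ^ (40 + K)) ^ 2 < 2 ^ 128

lemma OK.pow_le' {a s L K : ℕ} (h : OK a s L K) {i : ℕ} (hi : i ≤ L) :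
    a ^ i ≤ 2 ^ K * 2 ^ (s * i) := by
  have h1 : a ^ i * 2 ^ (s * (L - i)) ≤ a ^ i * a ^ (L - i) := by
    refine Nat.mul_le_mul_left _ ?_
    rw [pow_mul]
    exact Nat.pow_le_pow_left h.one_lt.le _
  have h2 : a ^ i * a ^ (L - i) = a ^ L := by rw [← pow_add]; congr 1; omega
  have h3 := h.pow_le
  have h4 : (2 : ℕ) ^ (K + s * L) = 2 ^ K * 2 ^ (s * i) * 2 ^ (s * (L - i)) := by
    rw [← pow_add, ← pow_add]
    congr 1
    rw [add_assoc, ← mul_add]
    congr 2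
    omega
  have h5 : a ^ i * 2 ^ (s * (L - i)) ≤ 2 ^ K * 2 ^ (s * i) * 2 ^ (s * (L - i)) := by
    rw [← h4]; omega
  exact Nat.le_of_mul_le_mul_right h5 (by positivity)

lemma OK.sc_lt {a s L K : ℕ} (h : OK a s L K) {w i : ℕ} (hw : w < 2 ^ 40) (hi : i ≤ L) :
    sc a s w i < 2 ^ (40 + K) := by
  rw [sc_eq, Nat.div_lt_iff_lt_mul (by positivity)]
  calc w * a ^ i ≤ w * (2 ^ K * 2 ^ (s * i)) := Nat.mul_le_mul_left _ (h.pow_le' hi)
    _ < 2 ^ 40 * (2 ^ K * 2 ^ (s * i)) := Nat.mul_lt_mul_of_pos_right hw (by positivity)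
    _ = 2 ^ (40 + K) * 2 ^ (s * i) := by rw [pow_add]; ring

lemma mod_div_mod (N u v w : ℕ) (h : u + w ≤ v) :
    N % 2 ^ v / 2 ^ u % 2 ^ w = N / 2 ^ u % 2 ^ w := by
  have e : (2 : ℕ) ^ v = 2 ^ u * 2 ^ (v - u) := by rw [← pow_add]; congr 1; omega
  rw [e, Nat.mod_mul_right_div_self]
  exact Nat.mod_mod_of_dvd _ (pow_dvd_pow 2 (by omega))

lemma rowc_eq (L N q : ℕ) : rowc L N q =
    N / 2 ^ (128 * ((4 * L + 1) * (q + 2 * L))) % 2 ^ (128 * (4 * L + 1)) := by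
  have h := and_mask (Nat.shiftRight N (Nat.mul 128 (Nat.mul (st L) (Nat.add q (Nat.mul 2 L)))))
    (128 * (4 * L + 1))
  have h2 : Nat.shiftRight N (Nat.mul 128 (Nat.mul (st L) (Nat.add q (Nat.mul 2 L)))) =
    N / 2 ^ (128 * ((4 * L + 1) * (q + 2 * L))) := Nat.shiftRight_eq_div_pow _ _
  rw [← h2, ← h]
  rfl

lemma cf_eq (L N p q : ℕ) (hp : p ≤ 2 * L) : cf L N p q =
    N / (2 ^ 128) ^ ((p + 2 * L) + (4 * L + 1) * (q + 2 * L)) % 2 ^ 128 := by
  have h := and_mask (Nat.shiftRight (rowc L N q) (Nat.mul 128 (Nat.add p (Nat.mul 2 L)))) 128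
  have h2 : Nat.shiftRight (rowc L N q) (Nat.mul 128 (Nat.add p (Nat.mul 2 L))) =
    rowc L N q / 2 ^ (128 * (p + 2 * L)) := Nat.shiftRight_eq_div_pow _ _
  have h3 : cf L N p q = rowc L N q / 2 ^ (128 * (p + 2 * L)) % 2 ^ 128 := by
    rw [← h2, ← h]
    cases q <;> rfl
  rw [h3, rowc_eq, mod_div_mod _ _ _ _ (by omega), Nat.div_div_eq_div_mul, ← pow_add, ← pow_mul]
  congr 3
  ring

lemma cfe_eq (L N m : ℕ) : cfe L N m = N / (2 ^ 128) ^ (m + 2 * L) % 2 ^ 128 := by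
  have h := and_mask (Nat.shiftRight N (Nat.mul 128 (Nat.add m (Nat.mul 2 L)))) 128
  have h2 : Nat.shiftRight N (Nat.mul 128 (Nat.add m (Nat.mul 2 L))) =
    N / 2 ^ (128 * (m + 2 * L)) := Nat.shiftRight_eq_div_pow _ _
  rw [← pow_mul, ← h2, ← h]
  rfl

lemma dw_eq (N t : ℕ) : dw N t = N / (2 ^ 112) ^ t % 2 ^ 112 := by
  have h := and_mask (Nat.shiftRight N (Nat.mul 112 t)) 112
  have h2 : Nat.shiftRight N (Nat.mul 112 t) = N / 2 ^ (112 * t) := Nat.shiftRight_eq_div_pow _ _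
  rw [← pow_mul, ← h2, ← h]
  rfl

lemma mul_add_inj {M a b a' b' : ℕ} (ha : a < M) (ha' : a' < M) :
    a + M * b = a' + M * b' ↔ a = a' ∧ b = b' := by
  constructor
  · intro h
    have h1 : (a + M * b) % M = (a' + M * b') % M := by rw [h]
    rw [Nat.add_mul_mod_self_left, Nat.add_mul_mod_self_left, Nat.mod_eq_of_lt ha,
      Nat.mod_eq_of_lt ha'] at h1
    subst h1
    refine ⟨rfl, ?_⟩
    have h2 : M * b = M * b' := by omega
    exact Nat.eq_of_mul_eq_mul_left (by omega) h2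
  · rintro ⟨rfl, rfl⟩; rfl

end Crest.Agent.R163.DG
end

-- ▼ part R163/DG3
section

/-!
Row 163, generic density evolution: soundness of the edge step.
-/

set_option autoImplicit false

namespace Crest.Agent.R163.DG

open Crest.Agent.R163

open Crest.Agent.R163.DE (SG gs sec ksum kall dig sum_sec ksum_eq kall_iff
  dig_eq dig_lt dig_zero digit_sum fiber_le)

/-- lattice ratio -/
noncomputable def rho (a s : ℕ) : ℝ := a / 2 ^ s

/-- interior digits -/
def Y (L S : ℕ) (k j : ℕ) : ℕ := dig S (idx L (k + j) j)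

/-- edge digits -/
def E (L S : ℕ) (k : ℕ) : ℕ := dig S (ei L + k)

lemma rr_cast {a s L i : ℕ} (hi : i ≤ L) : (rr a s L i : ℝ) = 2 ^ (s * L) * rho a s ^ i := by
  have h : rr a s L i = a ^ i * 2 ^ (s * (L - i)) := rfl
  rw [h]
  push_cast
  unfold rho
  rw [div_pow, ← pow_mul]
  have h2 : (2 : ℝ) ^ (s * L) = 2 ^ (s * (L - i)) * 2 ^ (s * i) := by
    rw [← pow_add, ← mul_add]; congr 2; omega
  rw [h2]
  field_simp

lemma rr_zero (a s L : ℕ) : (rr a s L 0 : ℝ) = 2 ^ (s * L) := by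
  rw [rr_cast (Nat.zero_le _), pow_zero, mul_one]

lemma card_sec_le (n : ℕ) : (sec n).card ≤ n ^ 2 := by
  have h : (sec n).card = ∑ k ∈ Finset.range n, (n - k) := by
    rw [Finset.card_eq_sum_ones, ← sum_sec n (fun _ _ => 1)]
    simp
  rw [h]
  calc ∑ k ∈ Finset.range n, (n - k) ≤ ∑ _k ∈ Finset.range n, n :=
        Finset.sum_le_sum fun k _ => Nat.sub_le _ _
    _ = n ^ 2 := by simp [sq]

/-! ### the sources -/

/-- source identifiers -/
def sid (L : ℕ) : (Σ _ : ℕ, ℕ) ⊕ ℕ → ℕ :=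
  Sum.elim (fun x => idx L (x.1 + x.2) x.2) (fun k => ei L + k)

/-- source weights -/
def sw (L S w : ℕ) : (Σ _ : ℕ, ℕ) ⊕ ℕ → ℕ :=
  Sum.elim (fun x => dig S (idx L (x.1 + x.2) x.2)) (fun k => if k = L + 1 then w else
    dig S (ei L + k))

@[irreducible] def Src (L : ℕ) : Finset ((Σ _ : ℕ, ℕ) ⊕ ℕ) :=
  (sec (L + 1)).disjSum (Finset.range (L + 2))

lemma card_Src_le (L : ℕ) : (Src L).card ≤ (L + 1) ^ 2 + (L + 2) := by
  unfold Src
  rw [Finset.card_disjSum, Finset.card_range]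
  exact Nat.add_le_add_right (card_sec_le _) _

lemma sum_Src {M : Type*} [AddCommMonoid M] (L : ℕ) (f : (Σ _ : ℕ, ℕ) ⊕ ℕ → M) :
    ∑ x ∈ Src L, f x = ∑ x ∈ sec (L + 1), f (Sum.inl x) +
      (∑ k ∈ Finset.range (L + 1), f (Sum.inr k) + f (Sum.inr (L + 1))) := by
  unfold Src
  rw [Finset.sum_disjSum, Finset.sum_range_succ]

lemma sw_lt {L S w : ℕ} (hw : w < 2 ^ 40) (x : (Σ _ : ℕ, ℕ) ⊕ ℕ) : sw L S w x < 2 ^ 40 := by
  rcases x with x | k
  · exact dig_lt _ _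
  · change (if k = L + 1 then w else dig S (ei L + k)) < 2 ^ 40
    split_ifs
    · exact hw
    · exact dig_lt _ _

lemma wterm_eq (T w s : ℕ) : wterm T w s =
    ∑ c : Fin 3, w * tb T s (2 * c + 1) * (2 ^ 112) ^ tb T s (2 * c) := by
  have h : ∀ a b : ℕ, Nat.shiftLeft a (Nat.mul 112 b) = a * (2 ^ 112) ^ b := by
    intro a b
    have : Nat.shiftLeft a (Nat.mul 112 b) = a * 2 ^ (112 * b) := Nat.shiftLeft_eq _ _
    rw [this, pow_mul]
  unfold wterm
  rw [h, h, h, Fin.sum_univ_three]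
  rfl

lemma sw_inr {L S w k : ℕ} (hk : k < L + 1) : sw L S w (Sum.inr k) = dig S (ei L + k) := by
  change (if k = L + 1 then w else dig S (ei L + k)) = _
  rw [if_neg (by omega)]

lemma sw_last {L S w : ℕ} : sw L S w (Sum.inr (L + 1)) = w := by
  change (if L + 1 = L + 1 then w else dig S (ei L + (L + 1))) = _
  rw [if_pos rfl]

lemma NW_eq (L T S w : ℕ) : NW L T S w = ∑ x ∈ Src L ×ˢ (Finset.univ : Finset (Fin 3)),
    (sw L S w x.1 * tb T (sid L x.1) (2 * x.2 + 1)) *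
      (2 ^ 112) ^ tb T (sid L x.1) (2 * x.2) := by
  rw [Finset.sum_product, sum_Src]
  unfold NW
  simp only [ksum_eq]
  have h1 : ∑ k ∈ Finset.range (L + 1), ∑ c : Fin 3, sw L S w (Sum.inr k) *
      tb T (sid L (Sum.inr k)) (2 * c + 1) * (2 ^ 112) ^ tb T (sid L (Sum.inr k)) (2 * c) =
      ∑ k ∈ Finset.range (L + 1), wterm T (dig S (Nat.add (ei L) k)) (Nat.add (ei L) k) := by
    refine Finset.sum_congr rfl fun k hk => ?_
    rw [sw_inr (Finset.mem_range.1 hk), wterm_eq]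
    rfl
  rw [h1, sw_last]
  simp only [wterm_eq]
  rw [← sum_sec (L + 1) (fun k j => ∑ c : Fin 3, sw L S w (Sum.inl ⟨k, j⟩) *
    tb T (sid L (Sum.inl ⟨k, j⟩)) (2 * c + 1) *
      (2 ^ 112) ^ tb T (sid L (Sum.inl ⟨k, j⟩)) (2 * c))]
  rfl

lemma NG_eq (L T S w : ℕ) : NG L T S w = ∑ x ∈ Src L, sw L S w x * tb T (sid L x) 6 := by
  rw [sum_Src]
  unfold NG
  simp only [ksum_eq]
  have h1 : ∑ k ∈ Finset.range (L + 1), sw L S w (Sum.inr k) * tb T (sid L (Sum.inr k)) 6 =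
      ∑ k ∈ Finset.range (L + 1), Nat.mul (dig S (Nat.add (ei L) k)) (tb T (Nat.add (ei L) k) 6) := by
    refine Finset.sum_congr rfl fun k hk => ?_
    rw [sw_inr (Finset.mem_range.1 hk)]
    rfl
  rw [h1, sw_last]
  rw [← sum_sec (L + 1) (fun k j => sw L S w (Sum.inl ⟨k, j⟩) * tb T (sid L (Sum.inl ⟨k, j⟩)) 6)]
  rfl

lemma NW_digit {L T S w : ℕ} (hL : (L + 1) ^ 2 + (L + 2) < 2 ^ 20) (hw : w < 2 ^ 40) (t : ℕ) :
    dw (NW L T S w) t =
    ∑ x ∈ Src L ×ˢ (Finset.univ : Finset (Fin 3)) with tb T (sid L x.1) (2 * x.2) = t,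
      (sw L S w x.1 * tb T (sid L x.1) (2 * x.2 + 1)) := by
  rw [dw_eq, NW_eq]
  refine digit_sum _ _ _ _ ?_ t
  have h1 : ∀ x ∈ Src L ×ˢ (Finset.univ : Finset (Fin 3)),
      sw L S w x.1 * tb T (sid L x.1) (2 * x.2 + 1) ≤ 2 ^ 40 * 2 ^ 48 := by
    intro x _
    exact Nat.mul_le_mul (sw_lt hw _).le (tb_lt _ _ _).le
  have h2 := Finset.sum_le_card_nsmul _ _ _ h1
  rw [Finset.card_product, Finset.card_univ, Fintype.card_fin] at h2
  refine lt_of_le_of_lt h2 ?_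
  have h3 := card_Src_le L
  have h4 : (Src L).card * 3 ≤ 2 ^ 20 * 3 := Nat.mul_le_mul_right _ (by omega)
  calc ((Src L).card * 3) • (2 ^ 40 * 2 ^ 48) = ((Src L).card * 3) * (2 ^ 40 * 2 ^ 48) :=
        smul_eq_mul _ _
    _ ≤ (2 ^ 20 * 3) * (2 ^ 40 * 2 ^ 48) := Nat.mul_le_mul_right _ h4
    _ < 2 ^ 112 := by norm_num

/-! ### the table -/

/-- row of a table at a real source vector -/
def RowOK (T row L' : ℕ) (ρ' lam x y z : ℝ) : Prop :=
  (∀ c : Fin 3, tb T row (2 * c) < ei L') ∧ ∀ G, SG G →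
    ∑ c : Fin 3, (tb T row (2 * c + 1) : ℝ) *
      gs G (ρ' ^ (tb T row (2 * c) % (L' + 1))) (ρ' ^ (tb T row (2 * c) / (L' + 1))) 1 +
      (tb T row 6 : ℝ) * gs G 1 1 0 ≤ 2 ^ 36 * gw lam G x y z

lemma div_le' {t L : ℕ} (h : Nat.succ t ≤ ei L) : t / (L + 1) ≤ L := by
  have h2 : t < (L + 1) * (L + 1) := h
  exact Nat.lt_succ_iff.1 ((Nat.div_lt_iff_lt_mul (Nat.succ_pos L)).2 h2)

lemma mod_le' (t L : ℕ) : t % (L + 1) ≤ L := Nat.lt_succ_iff.1 (Nat.mod_lt t (Nat.succ_pos L))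

lemma rho_pos {a s : ℕ} (ha : 2 ^ s < a) : 0 < rho a s := by
  unfold rho
  have : (0 : ℝ) < a := by exact_mod_cast (Nat.zero_le _).trans_lt ha
  positivity

lemma wx_eq {p r : ℕ} (hr : 0 < r) (x y z : ℝ) :
    3 * r * wx (-(p / r : ℝ)) x y z = (r - 2 * p) * x + (r + p) * (y + z) := by
  unfold wx
  have : (r : ℝ) ≠ 0 := by positivity
  field_simp
  ring

theorem rowOK_of_chkRow {a' s' L' p r T row X Y Z : ℕ} {x y z N : ℝ} (ha : 2 ^ s' < a')
    (hr : 0 < r) (hpr : 2 * p ≤ r) (hN : 0 < N)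
    {M : ℕ} (hM : (M : ℝ) = N) (hX : (X : ℝ) = N * x) (hY : (Y : ℝ) = N * y) (hZ : (Z : ℝ) = N * z)
    (h : chkRow (Nat.mul (Nat.mul 3 r) M) a' s' L' p r T row X Y Z = true) :
    RowOK T row L' (rho a' s') (-(p / r : ℝ)) x y z := by
  unfold chkRow at h
  simp only [Bool.and_eq_true, Nat.ble_eq] at h
  change ((Nat.succ (tb T row 0) ≤ ei L' ∧ (Nat.succ (tb T row 2) ≤ ei L' ∧
      Nat.succ (tb T row 4) ≤ ei L')) ∧
      (3 * r * M * (tb T row 1 * rr a' s' L' (tb T row 0 % (L' + 1)) +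
          tb T row 3 * rr a' s' L' (tb T row 2 % (L' + 1)) +
          tb T row 5 * rr a' s' L' (tb T row 4 % (L' + 1)) + tb T row 6 * rr a' s' L' 0) ≤
        68719476736 * rr a' s' L' 0 * ((r - 2 * p) * Z + (r + p) * (X + Y))) ∧
      (3 * r * M * (tb T row 1 * rr a' s' L' (tb T row 0 / (L' + 1)) +
          tb T row 3 * rr a' s' L' (tb T row 2 / (L' + 1)) +
          tb T row 5 * rr a' s' L' (tb T row 4 / (L' + 1)) + tb T row 6 * rr a' s' L' 0) ≤
        68719476736 * rr a' s' L' 0 * ((r - 2 * p) * Y + (r + p) * (X + Z))) ∧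
      (3 * r * M * (tb T row 1 + tb T row 3 + tb T row 5) ≤
        68719476736 * ((r - 2 * p) * X + (r + p) * (Y + Z)))) at h
  obtain ⟨⟨d0, d1, d2⟩, h1, h2, h3⟩ := h
  refine ⟨?_, fun G hG => ?_⟩
  · intro c
    fin_cases c
    · exact d0
    · exact d1
    · exact d2
  generalize ht0 : tb T row 0 = t0 at *
  generalize ha0 : tb T row 1 = a0 at *
  generalize ht1 : tb T row 2 = t1 at *
  generalize ha1 : tb T row 3 = a1 at *
  generalize ht2 : tb T row 4 = t2 at *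
  generalize ha2 : tb T row 5 = a2 at *
  generalize hb : tb T row 6 = b at *
  have hρ := rho_pos ha
  have hrp : ∀ n, 0 ≤ rho a' s' ^ n := fun n => (pow_pos hρ n).le
  have h1' : (3 : ℝ) * r * M * (a0 * rr a' s' L' (t0 % (L' + 1)) + a1 * rr a' s' L' (t1 % (L' + 1)) +
      a2 * rr a' s' L' (t2 % (L' + 1)) + b * rr a' s' L' 0) ≤
      68719476736 * rr a' s' L' 0 * (((r - 2 * p : ℕ) : ℝ) * Z + (r + p) * (X + Y)) := by
    exact_mod_cast h1
  have h2' : (3 : ℝ) * r * M * (a0 * rr a' s' L' (t0 / (L' + 1)) + a1 * rr a' s' L' (t1 / (L' + 1)) +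
      a2 * rr a' s' L' (t2 / (L' + 1)) + b * rr a' s' L' 0) ≤
      68719476736 * rr a' s' L' 0 * (((r - 2 * p : ℕ) : ℝ) * Y + (r + p) * (X + Z)) := by
    exact_mod_cast h2
  have h3' : (3 : ℝ) * r * M * (a0 + a1 + a2) ≤
      68719476736 * (((r - 2 * p : ℕ) : ℝ) * X + (r + p) * (Y + Z)) := by
    exact_mod_cast h3
  rw [Nat.cast_sub hpr] at h1' h2' h3'
  push_cast at h1' h2' h3'
  rw [rr_cast (mod_le' _ _), rr_cast (mod_le' _ _), rr_cast (mod_le' _ _), rr_zero, hM, hX, hY, hZ]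
    at h1'
  rw [rr_cast (div_le' d0), rr_cast (div_le' d1), rr_cast (div_le' d2), rr_zero, hM, hX, hY, hZ]
    at h2'
  rw [hM, hX, hY, hZ] at h3'
  have hr' : (0 : ℝ) < r := by exact_mod_cast hr
  have hpr' : (2 : ℝ) * p ≤ r := by exact_mod_cast hpr
  have hD : (0 : ℝ) < 3 * r * N := by positivity
  have h2p : (0 : ℝ) < 2 ^ (s' * L') := by positivity
  -- cancel the scalings
  have k1 : (a0 : ℝ) * rho a' s' ^ (t0 % (L' + 1)) + a1 * rho a' s' ^ (t1 % (L' + 1)) +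
      a2 * rho a' s' ^ (t2 % (L' + 1)) + b ≤ 2 ^ 36 * wx (-(p / r : ℝ)) z x y := by
    have e := wx_eq (p := p) hr z x y
    have e2 : (3 * r * N) * 2 ^ (s' * L') * ((a0 : ℝ) * rho a' s' ^ (t0 % (L' + 1)) +
        a1 * rho a' s' ^ (t1 % (L' + 1)) + a2 * rho a' s' ^ (t2 % (L' + 1)) + b) ≤
        (3 * r * N) * 2 ^ (s' * L') * (2 ^ 36 * wx (-(p / r : ℝ)) z x y) := by
      calc _ = 3 * r * N * (a0 * (2 ^ (s' * L') * rho a' s' ^ (t0 % (L' + 1))) +
            a1 * (2 ^ (s' * L') * rho a' s' ^ (t1 % (L' + 1))) +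
            a2 * (2 ^ (s' * L') * rho a' s' ^ (t2 % (L' + 1))) + b * 2 ^ (s' * L')) := by ring
        _ ≤ _ := h1'
        _ = 68719476736 * 2 ^ (s' * L') * N * (3 * r * wx (-(p / r : ℝ)) z x y) := by
            rw [e]; ring
        _ = _ := by norm_num; ring
    exact le_of_mul_le_mul_left e2 (by positivity)
  have k2 : (a0 : ℝ) * rho a' s' ^ (t0 / (L' + 1)) + a1 * rho a' s' ^ (t1 / (L' + 1)) +
      a2 * rho a' s' ^ (t2 / (L' + 1)) + b ≤ 2 ^ 36 * wx (-(p / r : ℝ)) y x z := by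
    have e := wx_eq (p := p) hr y x z
    have e2 : (3 * r * N) * 2 ^ (s' * L') * ((a0 : ℝ) * rho a' s' ^ (t0 / (L' + 1)) +
        a1 * rho a' s' ^ (t1 / (L' + 1)) + a2 * rho a' s' ^ (t2 / (L' + 1)) + b) ≤
        (3 * r * N) * 2 ^ (s' * L') * (2 ^ 36 * wx (-(p / r : ℝ)) y x z) := by
      calc _ = 3 * r * N * (a0 * (2 ^ (s' * L') * rho a' s' ^ (t0 / (L' + 1))) +
            a1 * (2 ^ (s' * L') * rho a' s' ^ (t1 / (L' + 1))) +
            a2 * (2 ^ (s' * L') * rho a' s' ^ (t2 / (L' + 1))) + b * 2 ^ (s' * L')) := by ring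
        _ ≤ _ := h2'
        _ = 68719476736 * 2 ^ (s' * L') * N * (3 * r * wx (-(p / r : ℝ)) y x z) := by
            rw [e]; ring
        _ = _ := by norm_num; ring
    exact le_of_mul_le_mul_left e2 (by positivity)
  have k3 : (a0 : ℝ) + a1 + a2 ≤ 2 ^ 36 * wx (-(p / r : ℝ)) x y z := by
    have e := wx_eq (p := p) hr x y z
    have e2 : (3 * r * N) * ((a0 : ℝ) + a1 + a2) ≤
        (3 * r * N) * (2 ^ 36 * wx (-(p / r : ℝ)) x y z) := by
      calc _ ≤ _ := h3'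
        _ = 68719476736 * N * (3 * r * wx (-(p / r : ℝ)) x y z) := by rw [e]; ring
        _ = _ := by norm_num; ring
    exact le_of_mul_le_mul_left e2 hD
  have c0 : (0 : ℝ) ≤ a0 := Nat.cast_nonneg _
  have c1 : (0 : ℝ) ≤ a1 := Nat.cast_nonneg _
  have c2 : (0 : ℝ) ≤ a2 := Nat.cast_nonneg _
  have c3 : (0 : ℝ) ≤ b := Nat.cast_nonneg _
  have hA : (0 : ℝ) ≤ a0 * rho a' s' ^ (t0 % (L' + 1)) + a1 * rho a' s' ^ (t1 % (L' + 1)) +
      a2 * rho a' s' ^ (t2 % (L' + 1)) :=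
    add_nonneg (add_nonneg (mul_nonneg c0 (hrp _)) (mul_nonneg c1 (hrp _)))
      (mul_nonneg c2 (hrp _))
  have hB : (0 : ℝ) ≤ a0 * rho a' s' ^ (t0 / (L' + 1)) + a1 * rho a' s' ^ (t1 / (L' + 1)) +
      a2 * rho a' s' ^ (t2 / (L' + 1)) :=
    add_nonneg (add_nonneg (mul_nonneg c0 (hrp _)) (mul_nonneg c1 (hrp _)))
      (mul_nonneg c2 (hrp _))
  have hC : (0 : ℝ) ≤ a0 + a1 + a2 := by positivity
  have e1 : (b : ℝ) * gs G 1 1 0 = gs G b b 0 := by
    rw [← hG.gs_hom c3 zero_le_one zero_le_one le_rfl]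
    simp
  have w1 : 0 ≤ wx (-(p / r : ℝ)) z x y := by
    have : (0 : ℝ) ≤ 2 ^ 36 * wx (-(p / r : ℝ)) z x y := le_trans (by positivity) k1
    exact nonneg_of_mul_nonneg_right this (by positivity)
  have w2 : 0 ≤ wx (-(p / r : ℝ)) y x z := by
    have : (0 : ℝ) ≤ 2 ^ 36 * wx (-(p / r : ℝ)) y x z := le_trans (by positivity) k2
    exact nonneg_of_mul_nonneg_right this (by positivity)
  have w3 : 0 ≤ wx (-(p / r : ℝ)) x y z := by
    have : (0 : ℝ) ≤ 2 ^ 36 * wx (-(p / r : ℝ)) x y z := le_trans hC k3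
    exact nonneg_of_mul_nonneg_right this (by positivity)
  have s1 := hG.comb3 (a₁ := a0) (a₂ := a1) (a₃ := a2) (x₁ := rho a' s' ^ (t0 % (L' + 1)))
    (x₂ := rho a' s' ^ (t1 % (L' + 1))) (x₃ := rho a' s' ^ (t2 % (L' + 1)))
    (y₁ := rho a' s' ^ (t0 / (L' + 1)))
    (y₂ := rho a' s' ^ (t1 / (L' + 1))) (y₃ := rho a' s' ^ (t2 / (L' + 1)))
    c0 c1 c2 (hrp _) (hrp _) (hrp _) (hrp _) (hrp _) (hrp _) hA hB hC zero_le_one
    (by rw [one_mul]) (by rw [one_mul]) (by rw [one_mul])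
  rw [one_mul] at s1
  have s2 := hG.gs_sup hA hB hC c3 c3 le_rfl
  have k3' : (a0 : ℝ) + a1 + a2 + 0 ≤ 2 ^ 36 * wx (-(p / r : ℝ)) x y z := by
    rw [add_zero]; exact k3
  have s3 := hG.gs_mono (add_nonneg hA c3) (add_nonneg hB c3) (add_nonneg hC le_rfl) k1 k2 k3'
  have e2 : gs G (2 ^ 36 * wx (-(p / r : ℝ)) z x y) (2 ^ 36 * wx (-(p / r : ℝ)) y x z)
      (2 ^ 36 * wx (-(p / r : ℝ)) x y z) = 2 ^ 36 * gw (-(p / r : ℝ)) G x y z :=
    hG.gs_hom (by positivity) w1 w2 w3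
  rw [e2] at s3
  rw [Fin.sum_univ_three, e1]
  simp only [Fin.val_zero, Fin.val_one, Fin.val_two, mul_zero, zero_add, mul_one,
    show 2 * 2 = 4 from rfl, show 4 + 1 = 5 from rfl, show 2 + 1 = 3 from rfl, ht0, ha0, ht1, ha1,
    ht2, ha2]
  linarith

/-- the facts contained in the table check -/
structure TabOK (a s L a' s' L' : ℕ) (lam : ℝ) (T : ℕ) : Prop where
  int : ∀ x ∈ sec (L + 1), RowOK T (idx L (x.1 + x.2) x.2) L' (rho a' s') lam
    (rho a s ^ (x.1 + x.2)) (rho a s ^ x.2) 1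
  edge : ∀ k, k < L + 1 → RowOK T (ei L + k) L' (rho a' s') lam (rho a s ^ k) 1 0
  vert : RowOK T (ei L + (L + 1)) L' (rho a' s') lam 1 0 0

theorem tabOK_of_chkT {a s L a' s' L' p r T : ℕ} (ha : 2 ^ s < a) (ha' : 2 ^ s' < a')
    (hr : 0 < r) (hpr : 2 * p ≤ r) (h : chkT a s L a' s' L' p r T = true) :
    TabOK a s L a' s' L' (-(p / r : ℝ)) T := by
  unfold chkT at h
  rw [Bool.and_eq_true, Bool.and_eq_true, kall_iff, kall_iff] at h
  obtain ⟨h1, h2, h3⟩ := h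
  have hρ := rho_pos ha
  have hrp : ∀ n, 0 ≤ rho a s ^ n := fun n => (pow_pos hρ n).le
  have hN : (0 : ℝ) < 2 ^ (s * L) := by positivity
  refine ⟨fun x hx => ?_, fun k hk => ?_, ?_⟩
  · have hx' := DE.mem_sec.1 hx
    have h4 := h1 x.1 (by change x.1 < L + 1; omega)
    rw [kall_iff] at h4
    have h5 := h4 x.2 (by change x.2 < L + 1 - x.1; omega)
    exact rowOK_of_chkRow ha' hr hpr hN (rr_zero a s L) (rr_cast (by omega)) (rr_cast (by omega))
      (by rw [rr_zero, mul_one]) h5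
  · have h4 := h2 k hk
    exact rowOK_of_chkRow ha' hr hpr hN (rr_zero a s L) (rr_cast (by omega))
      (by rw [rr_zero, mul_one]) (by simp) h4
  · exact rowOK_of_chkRow ha' hr hpr hN (rr_zero a s L) (by rw [rr_zero, mul_one])
      (by simp) (by simp) h3

/-! ### column sums -/

lemma colnum_cast (a s L S : ℕ) :
    (colnum a s L S : ℝ) = 2 ^ (s * L) * col (rho a s) (L + 1) (Y L S) (E L S) := by
  unfold colnum col
  simp only [ksum_eq]
  have e : ∀ a b : ℕ, Nat.add a b = a + b := fun _ _ => rfl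
  rw [e]
  rw [← sum_sec (L + 1) (fun k j => (Y L S k j : ℝ) * (rho a s ^ (k + j) + rho a s ^ j + 1))]
  push_cast
  rw [mul_add, Finset.mul_sum, Finset.mul_sum]
  congr 1
  · refine Finset.sum_congr rfl fun k hk => ?_
    rw [Finset.mul_sum]
    refine Finset.sum_congr rfl fun j hj => ?_
    have hk' : k < L + 1 := Finset.mem_range.1 hk
    have hj' : j < L + 1 - k := Finset.mem_range.1 hj
    change ((dig S (idx L (k + j) j) * (rr a s L (k + j) + rr a s L j + rr a s L 0) : ℕ) : ℝ) = _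
    push_cast
    rw [rr_cast (by omega), rr_cast (by omega), rr_zero]
    unfold Y
    ring
  · refine Finset.sum_congr rfl fun k hk => ?_
    have hk' : k < L + 1 := Finset.mem_range.1 hk
    change ((dig S (ei L + k) * (rr a s L k + rr a s L 0) : ℕ) : ℝ) = _
    push_cast
    rw [rr_cast (by omega), rr_zero]
    unfold E
    ring

lemma idx_mod {L a b : ℕ} (ha : a < L + 1) : idx L a b % (L + 1) = a := by
  change (a + (L + 1) * b) % (L + 1) = a
  rw [Nat.add_mul_mod_self_left, Nat.mod_eq_of_lt ha]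

lemma idx_div {L a b : ℕ} (ha : a < L + 1) : idx L a b / (L + 1) = b := by
  change (a + (L + 1) * b) / (L + 1) = b
  rw [Nat.add_mul_div_left _ _ (Nat.succ_pos L), Nat.div_eq_of_lt ha, zero_add]

theorem chkW_sound {Ω : Type*} {C : Ω → Fin 3 → ℝ} (hC : IsChan C) {a s L a' s' L' T S S' : ℕ}
    {lam : ℝ} (hl : Adm 3 lam) (ha : 2 ^ s < a) (ha' : 2 ^ s' < a')
    (hL : (L + 1) ^ 2 + (L + 2) < 2 ^ 20) (hT : TabOK a s L a' s' L' lam T)
    (h : chkW a s L L' T S S' = true)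
    (hlb : LB C (rho a s) (L + 1) (Y L S) (E L S)) :
    LB (fun o => W lam (C o)) (rho a' s') (L' + 1) (Y L' S') (E L' S') := by
  intro G hG
  unfold chkW at h
  generalize hw : wV a s L S = w at h
  unfold chkW2 at h
  rw [Bool.and_eq_true, Bool.and_eq_true, Bool.and_eq_true, kall_iff, kall_iff] at h
  obtain ⟨c1, c2, c3, c4⟩ := h
  have hρ := rho_pos ha
  have hρ' := rho_pos ha'
  have hrp : ∀ n, 0 ≤ rho a s ^ n := fun n => (pow_pos hρ n).le
  have hrp' : ∀ n, 0 ≤ rho a' s' ^ n := fun n => (pow_pos hρ' n).le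
  -- column sum
  have c1' : 2 * colnum a s L S ≤ 2 ^ (36 + s * L) := Nat.le_of_ble_eq_true c1
  have hcol : 2 * col (rho a s) (L + 1) (Y L S) (E L S) ≤ 2 ^ 36 := by
    have h1 : ((2 * colnum a s L S : ℕ) : ℝ) ≤ ((2 ^ (36 + s * L) : ℕ) : ℝ) := by
      exact_mod_cast c1'
    push_cast at h1
    rw [colnum_cast, pow_add] at h1
    have h2 : (2 : ℝ) ^ (s * L) * (2 * col (rho a s) (L + 1) (Y L S) (E L S)) ≤
        2 ^ (s * L) * 2 ^ 36 := by linarith
    exact le_of_mul_le_mul_left h2 (by positivity)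
  have hwV : w = (2 ^ (36 + s * L) - 2 * colnum a s L S) / 2 ^ (s * L + 1) := by
    rw [← hw]
    exact Nat.shiftRight_eq_div_pow _ _
  have hw1 : (w : ℝ) ≤ (2 ^ 36 - 2 * col (rho a s) (L + 1) (Y L S) (E L S)) / 2 := by
    rw [hwV]
    refine Nat.cast_div_le.trans ?_
    rw [Nat.cast_sub c1']
    push_cast
    rw [colnum_cast, pow_add, pow_succ]
    refine le_of_eq ?_
    field_simp
    ring
  have hw2 : w < 2 ^ 40 := by
    rw [hwV, Nat.div_lt_iff_lt_mul (by positivity)]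
    calc 2 ^ (36 + s * L) - 2 * colnum a s L S ≤ 2 ^ (36 + s * L) := Nat.sub_le _ _
      _ < 2 ^ 40 * 2 ^ (s * L + 1) := by
        rw [← pow_add]
        exact Nat.pow_lt_pow_right (by norm_num) (by omega)
  -- interior digits
  have c2' : ∀ x ∈ sec (L' + 1), 68719476736 * Y L' S' x.1 x.2 ≤
      dw (NW L T S w) (idx L' (x.1 + x.2) x.2) := by
    intro x hx
    have hx' := DE.mem_sec.1 hx
    have h3 := c2 x.1 (by change x.1 < L' + 1; omega)
    rw [kall_iff] at h3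
    exact Nat.le_of_ble_eq_true (h3 x.2 (by change x.2 < L' + 1 - x.1; omega))
  have c3' : 68719476736 * E L' S' 0 ≤ NG L T S w := Nat.le_of_ble_eq_true c3
  have c4' : ∀ k, k < L' → E L' S' (k + 1) = 0 := by
    intro k hk
    exact Nat.eq_of_beq_eq_true (c4 k hk)
  have h1 := hlb.edge hC hl hG
  refine le_trans ?_ h1
  -- the new state
  have hg0 : 0 ≤ gs G 1 1 0 := hG.gs_nonneg zero_le_one zero_le_one le_rfl
  have hE : ∑ k ∈ Finset.range (L' + 1), (E L' S' k : ℝ) * gs G (rho a' s' ^ k) 1 0 =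
      (E L' S' 0 : ℝ) * gs G 1 1 0 := by
    rw [Finset.sum_range_succ']
    have : ∑ k ∈ Finset.range L', (E L' S' (k + 1) : ℝ) * gs G (rho a' s' ^ (k + 1)) 1 0 = 0 := by
      refine Finset.sum_eq_zero fun k hk => ?_
      rw [c4' k (Finset.mem_range.1 hk)]
      simp
    rw [this]
    simp
  -- interior part
  set H : ℕ → ℝ := fun t => gs G (rho a' s' ^ (t % (L' + 1))) (rho a' s' ^ (t / (L' + 1))) 1
    with hH
  have hH0 : ∀ t, 0 ≤ H t := fun t => hG.gs_nonneg (hrp' _) (hrp' _) zero_le_one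
  have hφ : Set.InjOn (fun x : Σ _ : ℕ, ℕ => idx L' (x.1 + x.2) x.2) (sec (L' + 1)) := by
    rintro ⟨k, j⟩ hx ⟨k', j'⟩ hx' heq
    have h3 := DE.mem_sec.1 (Finset.mem_coe.1 hx)
    have h4 := DE.mem_sec.1 (Finset.mem_coe.1 hx')
    simp only at h3 h4
    change (k + j) + (L' + 1) * j = (k' + j') + (L' + 1) * j' at heq
    obtain ⟨e1, e2⟩ := (mul_add_inj (by omega) (by omega)).1 heq
    subst e2
    have : k = k' := by omega
    subst this
    rfl
  have h5 := fiber_le (Src L ×ˢ (Finset.univ : Finset (Fin 3))) (sec (L' + 1))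
    (fun x : Σ _ : ℕ, ℕ => idx L' (x.1 + x.2) x.2) hφ
    (fun x => tb T (sid L x.1) (2 * x.2))
    (fun x => sw L S w x.1 * tb T (sid L x.1) (2 * x.2 + 1)) H (fun _ _ => hH0 _)
  simp only [← NW_digit hL hw2] at h5
  have h6 : (2 : ℝ) ^ 36 * ∑ x ∈ sec (L' + 1),
      (Y L' S' x.1 x.2 : ℝ) * gs G (rho a' s' ^ (x.1 + x.2)) (rho a' s' ^ x.2) 1 ≤
      ∑ x ∈ sec (L' + 1), (dw (NW L T S w) (idx L' (x.1 + x.2) x.2) : ℝ) *
        H (idx L' (x.1 + x.2) x.2) := by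
    rw [Finset.mul_sum]
    refine Finset.sum_le_sum fun x hx => ?_
    have hx' := DE.mem_sec.1 hx
    have e1 : H (idx L' (x.1 + x.2) x.2) = gs G (rho a' s' ^ (x.1 + x.2)) (rho a' s' ^ x.2) 1 := by
      simp only [hH, idx_mod hx', idx_div hx']
    rw [e1, ← mul_assoc]
    refine mul_le_mul_of_nonneg_right ?_ (hG.gs_nonneg (hrp' _) (hrp' _) zero_le_one)
    have := c2' x hx
    have h7 : ((68719476736 * Y L' S' x.1 x.2 : ℕ) : ℝ) ≤
        dw (NW L T S w) (idx L' (x.1 + x.2) x.2) := by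
      exact_mod_cast this
    push_cast at h7
    norm_num at h7 ⊢
    linarith
  have h7 : ((E L' S' 0 : ℝ) * gs G 1 1 0) * 2 ^ 36 ≤
      ∑ x ∈ Src L, (sw L S w x : ℝ) * ((tb T (sid L x) 6 : ℝ) * gs G 1 1 0) := by
    have h8 : ((68719476736 * E L' S' 0 : ℕ) : ℝ) ≤ NG L T S w := by exact_mod_cast c3'
    rw [NG_eq] at h8
    push_cast at h8
    have h9 := mul_le_mul_of_nonneg_right h8 hg0
    rw [Finset.sum_mul] at h9
    have e1 : ∑ x ∈ Src L, (sw L S w x : ℝ) * ((tb T (sid L x) 6 : ℝ) * gs G 1 1 0) =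
        ∑ x ∈ Src L, (sw L S w x : ℝ) * (tb T (sid L x) 6 : ℝ) * gs G 1 1 0 := by
      refine Finset.sum_congr rfl fun x _ => ?_
      ring
    rw [e1]
    refine le_trans (le_of_eq ?_) h9
    norm_num
    ring
  -- rows
  have hrow : ∀ (x : (Σ _ : ℕ, ℕ) ⊕ ℕ) (wt X Y Z : ℝ), 0 ≤ wt →
      RowOK T (sid L x) L' (rho a' s') lam X Y Z →
      ∑ c : Fin 3, wt * ((tb T (sid L x) (2 * c + 1) : ℝ) * H (tb T (sid L x) (2 * c))) +
        wt * ((tb T (sid L x) 6 : ℝ) * gs G 1 1 0) ≤ 2 ^ 36 * (wt * gw lam G X Y Z) := by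
    intro x wt X Y Z hwt hrow
    have h8 := mul_le_mul_of_nonneg_left (hrow.2 G hG) hwt
    rw [mul_add, Finset.mul_sum] at h8
    linarith
  have h8 : ∑ x ∈ Src L ×ˢ (Finset.univ : Finset (Fin 3)),
      ((sw L S w x.1 * tb T (sid L x.1) (2 * x.2 + 1) : ℕ) : ℝ) * H (tb T (sid L x.1) (2 * x.2)) +
      ∑ x ∈ Src L, (sw L S w x : ℝ) * ((tb T (sid L x) 6 : ℝ) * gs G 1 1 0) ≤
      2 ^ 36 * (∑ x ∈ sec (L + 1), (Y L S x.1 x.2 : ℝ) *
        gw lam G (rho a s ^ (x.1 + x.2)) (rho a s ^ x.2) 1 +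
      (∑ k ∈ Finset.range (L + 1), (E L S k : ℝ) * gw lam G (rho a s ^ k) 1 0 +
      w * gw lam G 1 0 0)) := by
    rw [Finset.sum_product, ← Finset.sum_add_distrib]
    have e1 : ∀ x : (Σ _ : ℕ, ℕ) ⊕ ℕ, ∑ c : Fin 3,
        ((sw L S w x * tb T (sid L x) (2 * c + 1) : ℕ) : ℝ) * H (tb T (sid L x) (2 * c)) =
        ∑ c : Fin 3, (sw L S w x : ℝ) * ((tb T (sid L x) (2 * c + 1) : ℝ) *
          H (tb T (sid L x) (2 * c))) := by
      intro x
      refine Finset.sum_congr rfl fun c _ => ?_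
      rw [Nat.cast_mul, mul_assoc]
    simp only [e1]
    rw [sum_Src, mul_add, mul_add, Finset.mul_sum, Finset.mul_sum]
    refine add_le_add (Finset.sum_le_sum fun x hx => ?_) (add_le_add
      (Finset.sum_le_sum fun k hk => ?_) ?_)
    · exact hrow (Sum.inl x) _ _ _ _ (Nat.cast_nonneg _) (hT.int x hx)
    · have hk' : k < L + 1 := Finset.mem_range.1 hk
      have := hrow (Sum.inr k) (E L S k) _ _ _ (Nat.cast_nonneg _) (hT.edge k hk')
      rw [sw_inr hk']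
      exact this
    · have := hrow (Sum.inr (L + 1)) w _ _ _ (Nat.cast_nonneg _) hT.vert
      rw [sw_last]
      exact this
  -- the vertex weight
  have hv0 : 0 ≤ gw lam G 1 0 0 := by
    rw [← gv3_sum]
    have hn : ∀ i, 0 ≤ gv3 lam G i := fun i => hG.nn _ (W_nonneg hl (single_nonneg i))
    have := hn 0; have := hn 1; have := hn 2
    linarith
  have h9 := mul_le_mul_of_nonneg_right hw1 hv0
  unfold Uf
  rw [hE]
  set P := ∑ x ∈ sec (L' + 1),
      (Y L' S' x.1 x.2 : ℝ) * gs G (rho a' s' ^ (x.1 + x.2)) (rho a' s' ^ x.2) 1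
  set Q := ∑ x ∈ sec (L + 1), (Y L S x.1 x.2 : ℝ) *
        gw lam G (rho a s ^ (x.1 + x.2)) (rho a s ^ x.2) 1
  set R := ∑ k ∈ Finset.range (L + 1), (E L S k : ℝ) * gw lam G (rho a s ^ k) 1 0
  have h10 : (2 : ℝ) ^ 36 * P + ((E L' S' 0 : ℝ) * gs G 1 1 0) * 2 ^ 36 ≤
      2 ^ 36 * (Q + (R + w * gw lam G 1 0 0)) := by linarith
  have h11 : P + (E L' S' 0 : ℝ) * gs G 1 1 0 ≤ Q + (R + w * gw lam G 1 0 0) := by
    have : (2 : ℝ) ^ 36 * (P + (E L' S' 0 : ℝ) * gs G 1 1 0) ≤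
        2 ^ 36 * (Q + (R + w * gw lam G 1 0 0)) := by linarith
    exact le_of_mul_le_mul_left this (by positivity)
  linarith

end Crest.Agent.R163.DG
end

-- ▼ part R163/DG4
section

/-!
Row 163, generic density evolution: soundness of the product step, digits.
-/

set_option autoImplicit false

namespace Crest.Agent.R163.DG

open Crest.Agent.R163

open Crest.Agent.R163.DE (SG gs sec ksum kall dig sum_sec ksum_eq kall_iff
  dig_eq dig_lt dig_zero digit_sum fiber_le tA img gs_eq_sum u3 u3_nonneg hh hh' PP PP_hh PP_hh'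
  PP_comm mul_vec nn3 sum_prod_mul sum_mul_sum_pow hh'_nn)

/-- positions of the six images of the sector element `(k, j)` -/
def p1 (L : ℕ) (x : Σ _ : ℕ, ℕ) : Fin 6 → ℕ :=
  ![x.1 + x.2 + L, x.2 + L, x.1 + L, L - x.2, L - x.1, L - (x.1 + x.2)]

def p2 (L : ℕ) (x : Σ _ : ℕ, ℕ) : Fin 6 → ℕ :=
  ![x.2 + L, x.1 + x.2 + L, L - x.2, x.1 + L, L - (x.1 + x.2), L - x.1]

def wA (a s L S : ℕ) (x : Σ _ : ℕ, ℕ) : Fin 6 → ℕ :=
  ![dig S (idx L (x.1 + x.2) x.2), dig S (idx L (x.1 + x.2) x.2),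
    sc a s (dig S (idx L (x.1 + x.2) x.2)) x.2, sc a s (dig S (idx L (x.1 + x.2) x.2)) x.2,
    sc a s (dig S (idx L (x.1 + x.2) x.2)) (x.1 + x.2),
    sc a s (dig S (idx L (x.1 + x.2) x.2)) (x.1 + x.2)]

lemma pw_id {ρ : ℝ} (hρ : 0 < ρ) {L a b c : ℕ} (h : a + b = c + L) :
    ρ ^ a * (ρ ^ b / ρ ^ L) = ρ ^ c := by
  have h20 : ρ ^ L ≠ 0 := (pow_pos hρ L).ne'
  rw [← mul_div_assoc, ← pow_add, h, pow_add, mul_div_assoc, div_self h20, mul_one]

lemma img_eq {ρ : ℝ} (hρ : 0 < ρ) {L : ℕ} {x : Σ _ : ℕ, ℕ} (hx : x ∈ sec (L + 1)) (g : Fin 6) :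
    img (ρ ^ (x.1 + x.2)) (ρ ^ x.2) 1 g =
      ![ρ ^ tA x g * (ρ ^ p1 L x g / ρ ^ L), ρ ^ tA x g * (ρ ^ p2 L x g / ρ ^ L),
        ρ ^ tA x g] := by
  have h := DE.mem_sec.1 hx
  obtain ⟨k, j⟩ := x
  simp only at h
  fin_cases g
  · change ![ρ ^ (k + j), ρ ^ j, 1] = ![ρ ^ 0 * (ρ ^ (k + j + L) / ρ ^ L),
      ρ ^ 0 * (ρ ^ (j + L) / ρ ^ L), ρ ^ 0]
    rw [pw_id hρ (c := k + j) (by omega), pw_id hρ (c := j) (by omega), pow_zero]
  · change ![ρ ^ j, ρ ^ (k + j), 1] = ![ρ ^ 0 * (ρ ^ (j + L) / ρ ^ L),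
      ρ ^ 0 * (ρ ^ (k + j + L) / ρ ^ L), ρ ^ 0]
    rw [pw_id hρ (c := j) (by omega), pw_id hρ (c := k + j) (by omega), pow_zero]
  · change ![ρ ^ (k + j), 1, ρ ^ j] = ![ρ ^ j * (ρ ^ (k + L) / ρ ^ L),
      ρ ^ j * (ρ ^ (L - j) / ρ ^ L), ρ ^ j]
    rw [pw_id hρ (c := k + j) (by omega), pw_id hρ (c := 0) (by omega), pow_zero]
  · change ![1, ρ ^ (k + j), ρ ^ j] = ![ρ ^ j * (ρ ^ (L - j) / ρ ^ L),
      ρ ^ j * (ρ ^ (k + L) / ρ ^ L), ρ ^ j]
    rw [pw_id hρ (c := 0) (by omega), pw_id hρ (c := k + j) (by omega), pow_zero]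
  · change ![ρ ^ j, 1, ρ ^ (k + j)] = ![ρ ^ (k + j) * (ρ ^ (L - k) / ρ ^ L),
      ρ ^ (k + j) * (ρ ^ (L - (k + j)) / ρ ^ L), ρ ^ (k + j)]
    rw [pw_id hρ (c := j) (by omega), pw_id hρ (c := 0) (by omega), pow_zero]
  · change ![1, ρ ^ j, ρ ^ (k + j)] = ![ρ ^ (k + j) * (ρ ^ (L - (k + j)) / ρ ^ L),
      ρ ^ (k + j) * (ρ ^ (L - k) / ρ ^ L), ρ ^ (k + j)]
    rw [pw_id hρ (c := 0) (by omega), pw_id hρ (c := j) (by omega), pow_zero]

lemma sc_cast_le (a s w i : ℕ) : (sc a s w i : ℝ) ≤ w * rho a s ^ i := by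
  rw [sc_eq]
  refine Nat.cast_div_le.trans ?_
  push_cast
  unfold rho
  rw [div_pow, ← pow_mul, mul_div_assoc]

lemma wA_le (a s L S : ℕ) (x : Σ _ : ℕ, ℕ) (g : Fin 6) :
    (wA a s L S x g : ℝ) ≤ Y L S x.1 x.2 * rho a s ^ tA x g := by
  have h0 : (dig S (idx L (x.1 + x.2) x.2) : ℝ) ≤ Y L S x.1 x.2 * rho a s ^ 0 := by
    rw [pow_zero, mul_one]; exact le_rfl
  have h1 := sc_cast_le a s (dig S (idx L (x.1 + x.2) x.2)) x.2
  have h2 := sc_cast_le a s (dig S (idx L (x.1 + x.2) x.2)) (x.1 + x.2)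
  fin_cases g
  · exact h0
  · exact h0
  · exact h1
  · exact h1
  · exact h2
  · exact h2

lemma wA_lt {a s L K : ℕ} (hO : OK a s L K) (S : ℕ) {x : Σ _ : ℕ, ℕ} (hx : x ∈ sec (L + 1))
    (g : Fin 6) : wA a s L S x g < 2 ^ (40 + K) := by
  have h := DE.mem_sec.1 hx
  have h0 : dig S (idx L (x.1 + x.2) x.2) < 2 ^ (40 + K) :=
    (dig_lt _ _).trans_le (Nat.pow_le_pow_right (by norm_num) (by omega))
  have h1 := hO.sc_lt (dig_lt S (idx L (x.1 + x.2) x.2)) (i := x.2) (by omega)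
  have h2 := hO.sc_lt (dig_lt S (idx L (x.1 + x.2) x.2)) (i := x.1 + x.2) (by omega)
  fin_cases g
  · exact h0
  · exact h0
  · exact h1
  · exact h1
  · exact h2
  · exact h2

lemma p1_le {L : ℕ} {x : Σ _ : ℕ, ℕ} (hx : x ∈ sec (L + 1)) (g : Fin 6) : p1 L x g ≤ 2 * L := by
  have h := DE.mem_sec.1 hx
  obtain ⟨k, j⟩ := x
  simp only at h
  fin_cases g
  · change k + j + L ≤ 2 * L; omega
  · change j + L ≤ 2 * L; omega
  · change k + L ≤ 2 * L; omega
  · change L - j ≤ 2 * L; omega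
  · change L - k ≤ 2 * L; omega
  · change L - (k + j) ≤ 2 * L; omega

/-- index set of the images -/
@[irreducible] def FA (L : ℕ) : Finset ((Σ _ : ℕ, ℕ) × Fin 6) := sec (L + 1) ×ˢ Finset.univ

lemma card_FA_le (L : ℕ) : (FA L).card ≤ 6 * (L + 1) ^ 2 := by
  unfold FA
  rw [Finset.card_product, Finset.card_univ, Fintype.card_fin]
  have := card_sec_le (L + 1)
  omega

lemma termB_eq (L w wj wi i j k : ℕ) : termB L w wj wi i j k =
    (((w * (2 ^ 128) ^ (j + L) + w * (2 ^ 128) ^ (i + L)) +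
    (wj * (2 ^ 128) ^ (L - j) + wj * (2 ^ 128) ^ (k + L))) +
    (wi * (2 ^ 128) ^ (L - i) + wi * (2 ^ 128) ^ (L - k))) := by
  unfold termB
  simp only [sh1_eq]
  rfl

lemma sum_sec_j (n : ℕ) (f : ℕ → ℕ → ℕ) :
    ∑ m ∈ Finset.range n, ∑ k ∈ Finset.range (n - m), f k m = ∑ x ∈ sec n, f x.1 x.2 := by
  rw [← sum_sec n f]
  refine Finset.sum_comm' fun x y => ?_
  simp only [Finset.mem_range]
  omega

lemma sum_sec_i (n : ℕ) (f : ℕ → ℕ → ℕ) :
    ∑ m ∈ Finset.range n, ∑ j ∈ Finset.range (m + 1), f (m - j) j = ∑ x ∈ sec n, f x.1 x.2 := by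
  rw [Finset.sum_sigma']
  refine Finset.sum_bij' (fun x _ => ⟨x.1 - x.2, x.2⟩) (fun x _ => ⟨x.1 + x.2, x.2⟩) ?_ ?_ ?_ ?_ ?_
  · intro x hx
    rw [Finset.mem_sigma, Finset.mem_range, Finset.mem_range] at hx
    rw [DE.mem_sec]
    change x.1 - x.2 + x.2 < n
    omega
  · intro x hx
    rw [DE.mem_sec] at hx
    rw [Finset.mem_sigma, Finset.mem_range, Finset.mem_range]
    change x.1 + x.2 < n ∧ x.2 < x.1 + x.2 + 1
    omega
  · rintro ⟨m, j⟩ hx
    rw [Finset.mem_sigma, Finset.mem_range, Finset.mem_range] at hx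
    simp only at hx ⊢
    congr 1
    omega
  · rintro ⟨k, j⟩ _
    simp only
    congr 1
    omega
  · intro x _
    rfl

lemma NA_eq (a s L S : ℕ) : NA a s L S = ∑ b ∈ FA L, wA a s L S b.1 b.2 *
    (2 ^ 128) ^ (p1 L b.1 b.2 + (4 * L + 1) * p2 L b.1 b.2) := by
  set X : ℕ := 2 ^ 128 with hX
  set f : Fin 6 → ℕ → ℕ → ℕ := fun g k j => wA a s L S ⟨k, j⟩ g *
    X ^ (p1 L ⟨k, j⟩ g + (4 * L + 1) * p2 L ⟨k, j⟩ g) with hf
  have hR : ∑ b ∈ FA L, wA a s L S b.1 b.2 *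
      X ^ (p1 L b.1 b.2 + (4 * L + 1) * p2 L b.1 b.2) =
      ∑ m ∈ Finset.range (L + 1),
        ((∑ k ∈ Finset.range (L + 1 - m), (f 0 k m + f 3 m k) +
          ∑ j ∈ Finset.range (m + 1), f 1 (m - j) j) +
        (∑ k ∈ Finset.range (L + 1 - m), (f 2 k m + f 5 m k) +
          ∑ j ∈ Finset.range (m + 1), f 4 (m - j) j)) := by
    simp only [Finset.sum_add_distrib]
    rw [sum_sec_j (L + 1) (f 0), sum_sec_j (L + 1) (f 2), sum_sec (L + 1) (f 3),
      sum_sec (L + 1) (f 5), sum_sec_i (L + 1) (f 1), sum_sec_i (L + 1) (f 4)]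
    unfold FA
    rw [Finset.sum_product, ← Finset.sum_add_distrib, ← Finset.sum_add_distrib,
      ← Finset.sum_add_distrib, ← Finset.sum_add_distrib, ← Finset.sum_add_distrib]
    refine Finset.sum_congr rfl fun x _ => ?_
    rw [Fin.sum_univ_six]
    change f 0 x.1 x.2 + f 1 x.1 x.2 + f 2 x.1 x.2 + f 3 x.1 x.2 + f 4 x.1 x.2 + f 5 x.1 x.2 = _
    ring
  rw [hR]
  unfold NA
  rw [ksum_eq]
  refine Finset.sum_congr rfl fun m hm => ?_
  have hm' : m < L + 1 := Finset.mem_range.1 hm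
  have e1 : Nat.shiftLeft (RU a s L S m) (Nat.mul 128 (Nat.mul (st L) (Nat.add m L))) =
      RU a s L S m * X ^ ((4 * L + 1) * (m + L)) := by
    have : Nat.shiftLeft (RU a s L S m) (Nat.mul 128 (Nat.mul (st L) (Nat.add m L))) =
      RU a s L S m * 2 ^ (128 * ((4 * L + 1) * (m + L))) := Nat.shiftLeft_eq _ _
    rw [this, pow_mul]
  have e2 : Nat.shiftLeft (RD a s L S m) (Nat.mul 128 (Nat.mul (st L) (Nat.sub L m))) =
      RD a s L S m * X ^ ((4 * L + 1) * (L - m)) := by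
    have : Nat.shiftLeft (RD a s L S m) (Nat.mul 128 (Nat.mul (st L) (Nat.sub L m))) =
      RD a s L S m * 2 ^ (128 * ((4 * L + 1) * (L - m))) := Nat.shiftLeft_eq _ _
    rw [this, pow_mul]
  change Nat.shiftLeft (RU a s L S m) _ + Nat.shiftLeft (RD a s L S m) _ = _
  rw [e1, e2]
  congr 1
  · unfold RU
    simp only [ksum_eq]
    change (∑ k ∈ Finset.range (L + 1 - m), (sh1 (dig S (idx L (k + m) m)) (k + m + L) +
      sh1 (sc a s (dig S (idx L (m + k) k)) k) (L - k)) +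
      ∑ j ∈ Finset.range (m + 1), sh1 (dig S (idx L m j)) (j + L)) *
      X ^ ((4 * L + 1) * (m + L)) = _
    rw [add_mul, Finset.sum_mul, Finset.sum_mul]
    congr 1
    · refine Finset.sum_congr rfl fun k _ => ?_
      rw [sh1_eq, sh1_eq, add_mul, mul_assoc, mul_assoc, ← pow_add, ← pow_add]
      rfl
    · refine Finset.sum_congr rfl fun j hj => ?_
      have hj' : j < m + 1 := Finset.mem_range.1 hj
      rw [sh1_eq, mul_assoc, ← pow_add]
      change _ = dig S (idx L (m - j + j) j) * X ^ (j + L + (4 * L + 1) * (m - j + j + L))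
      rw [show m - j + j = m by omega]
  · unfold RD
    simp only [ksum_eq]
    change (∑ k ∈ Finset.range (L + 1 - m), (sh1 (sc a s (dig S (idx L (k + m) m)) m) (k + L) +
      sh1 (sc a s (dig S (idx L (m + k) k)) (m + k)) (L - (m + k))) +
      ∑ j ∈ Finset.range (m + 1), sh1 (sc a s (dig S (idx L m j)) m) (L - (m - j))) *
      X ^ ((4 * L + 1) * (L - m)) = _
    rw [add_mul, Finset.sum_mul, Finset.sum_mul]
    congr 1
    · refine Finset.sum_congr rfl fun k _ => ?_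
      rw [sh1_eq, sh1_eq, add_mul, mul_assoc, mul_assoc, ← pow_add, ← pow_add]
      rfl
    · refine Finset.sum_congr rfl fun j hj => ?_
      have hj' : j < m + 1 := Finset.mem_range.1 hj
      rw [sh1_eq, mul_assoc, ← pow_add]
      change _ = sc a s (dig S (idx L (m - j + j) j)) (m - j + j) *
        X ^ (L - (m - j) + (4 * L + 1) * (L - (m - j + j)))
      rw [show m - j + j = m by omega]

lemma NB_eq (a s L S : ℕ) : NB a s L S = ∑ b ∈ FA L, wA a s L S b.1 b.2 *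
    (2 ^ 128) ^ (p2 L b.1 b.2) := by
  unfold FA
  rw [Finset.sum_product]
  unfold NB
  simp only [ksum_eq]
  change ∑ k ∈ Finset.range (L + 1), ∑ j ∈ Finset.range (L + 1 - k), _ = _
  rw [sum_sec (L + 1)]
  refine Finset.sum_congr rfl fun x _ => ?_
  rw [Fin.sum_univ_six, termB_eq]
  rw [add_assoc (wA a s L S x 0 * _ + wA a s L S x 1 * _ + wA a s L S x 2 * _ +
    wA a s L S x 3 * _), add_assoc (wA a s L S x 0 * _ + wA a s L S x 1 * _)]
  rfl

/-- edge images -/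
def pE (L k : ℕ) : Fin 2 → ℕ := ![k + L, L - k]

def tE (k : ℕ) : Fin 2 → ℕ := ![0, k]

def wE (a s L S k : ℕ) : Fin 2 → ℕ := ![dig S (ei L + k), sc a s (dig S (ei L + k)) k]

@[irreducible] def FEd (L : ℕ) : Finset (ℕ × Fin 2) := Finset.range (L + 1) ×ˢ Finset.univ

lemma card_FEd (L : ℕ) : (FEd L).card = (L + 1) * 2 := by
  unfold FEd
  rw [Finset.card_product, Finset.card_range, Finset.card_univ, Fintype.card_fin]

lemma NE_eq (a s L S : ℕ) : NE a s L S = ∑ b ∈ FEd L, wE a s L S b.1 b.2 *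
    (2 ^ 128) ^ (pE L b.1 b.2) := by
  unfold FEd
  rw [Finset.sum_product]
  unfold NE
  simp only [ksum_eq]
  refine Finset.sum_congr rfl fun x _ => ?_
  rw [Fin.sum_univ_two]
  simp only [sh1_eq]
  rfl

lemma wE_le (a s L S k : ℕ) (g : Fin 2) :
    (wE a s L S k g : ℝ) ≤ E L S k * rho a s ^ tE k g := by
  have h0 : (dig S (ei L + k) : ℝ) ≤ E L S k * rho a s ^ 0 := by
    rw [pow_zero, mul_one]; exact le_rfl
  have h1 := sc_cast_le a s (dig S (ei L + k)) k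
  fin_cases g
  · exact h0
  · exact h1

lemma wE_lt {a s L K : ℕ} (hO : OK a s L K) (S : ℕ) {k : ℕ} (hk : k < L + 1) (g : Fin 2) :
    wE a s L S k g < 2 ^ (40 + K) := by
  have h0 : dig S (ei L + k) < 2 ^ (40 + K) :=
    (dig_lt _ _).trans_le (Nat.pow_le_pow_right (by norm_num) (by omega))
  have h1 := hO.sc_lt (dig_lt S (ei L + k)) (i := k) (by omega)
  fin_cases g
  · exact h0
  · exact h1

lemma mem_FA {L : ℕ} {b : (Σ _ : ℕ, ℕ) × Fin 6} (h : b ∈ FA L) : b.1 ∈ sec (L + 1) := by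
  rw [FA, Finset.mem_product] at h
  exact h.1

lemma mem_FEd {L : ℕ} {b : ℕ × Fin 2} (h : b ∈ FEd L) : b.1 < L + 1 := by
  rw [FEd, Finset.mem_product] at h
  exact Finset.mem_range.1 h.1

lemma sum_wA_le {a s L K : ℕ} (hO : OK a s L K) (S : ℕ) :
    ∑ b ∈ FA L, wA a s L S b.1 b.2 ≤ 6 * (L + 1) ^ 2 * 2 ^ (40 + K) := by
  have h1 : ∀ b ∈ FA L, wA a s L S b.1 b.2 ≤ 2 ^ (40 + K) := by
    intro b hb
    exact (wA_lt hO S (mem_FA hb) b.2).le
  have h2 := Finset.sum_le_card_nsmul _ _ _ h1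
  rw [smul_eq_mul] at h2
  exact h2.trans (Nat.mul_le_mul_right _ (card_FA_le L))

lemma sum_wE_le {a s L K : ℕ} (hO : OK a s L K) (S : ℕ) :
    ∑ b ∈ FEd L, wE a s L S b.1 b.2 ≤ 6 * (L + 1) ^ 2 * 2 ^ (40 + K) := by
  have h1 : ∀ b ∈ FEd L, wE a s L S b.1 b.2 ≤ 2 ^ (40 + K) := by
    intro b hb
    exact (wE_lt hO S (mem_FEd hb) b.2).le
  have h2 := Finset.sum_le_card_nsmul _ _ _ h1
  rw [smul_eq_mul, card_FEd] at h2
  refine h2.trans (Nat.mul_le_mul_right _ ?_)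
  nlinarith

lemma OK.size' {a s L K : ℕ} (hO : OK a s L K) :
    (6 * (L + 1) ^ 2 * 2 ^ (40 + K)) * (6 * (L + 1) ^ 2 * 2 ^ (40 + K)) * 3 < 2 ^ 128 := by
  have := hO.size
  calc _ = 3 * (6 * (L + 1) ^ 2 * 2 ^ (40 + K)) ^ 2 := by ring
    _ < _ := this

/-- digits of the interior product -/
lemma cf_digit {a s L K : ℕ} (hO : OK a s L K) (S S₂ p q : ℕ) (hp : p ≤ 2 * L) :
    cf L (NA a s L S * NA a s L S₂) p q = ∑ x ∈ FA L ×ˢ FA L with
      (p1 L x.1.1 x.1.2 + p1 L x.2.1 x.2.2, p2 L x.1.1 x.1.2 + p2 L x.2.1 x.2.2) =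
        (p + 2 * L, q + 2 * L),
        wA a s L S x.1.1 x.1.2 * wA a s L S₂ x.2.1 x.2.2 := by
  rw [cf_eq _ _ _ _ hp, NA_eq, NA_eq, sum_mul_sum_pow]
  rw [digit_sum (FA L ×ˢ FA L) (fun x => wA a s L S x.1.1 x.1.2 * wA a s L S₂ x.2.1 x.2.2)
    (fun x => (p1 L x.1.1 x.1.2 + (4 * L + 1) * p2 L x.1.1 x.1.2) +
      (p1 L x.2.1 x.2.2 + (4 * L + 1) * p2 L x.2.1 x.2.2))]
  · refine Finset.sum_congr ?_ fun _ _ => rfl
    refine Finset.filter_congr fun x hx => ?_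
    have h1 := p1_le (mem_FA (Finset.mem_product.1 hx).1) x.1.2
    have h2 := p1_le (mem_FA (Finset.mem_product.1 hx).2) x.2.2
    rw [Prod.mk.injEq]
    have e : (p1 L x.1.1 x.1.2 + (4 * L + 1) * p2 L x.1.1 x.1.2) +
      (p1 L x.2.1 x.2.2 + (4 * L + 1) * p2 L x.2.1 x.2.2) =
      (p1 L x.1.1 x.1.2 + p1 L x.2.1 x.2.2) +
        (4 * L + 1) * (p2 L x.1.1 x.1.2 + p2 L x.2.1 x.2.2) := by ring
    rw [e]
    exact mul_add_inj (by omega) (by omega)
  · refine lt_of_eq_of_lt (sum_prod_mul (FA L) (FA L) (fun b => wA a s L S b.1 b.2)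
      (fun b => wA a s L S₂ b.1 b.2)) ?_
    refine lt_of_le_of_lt (Nat.mul_le_mul (sum_wA_le hO S) (sum_wA_le hO S₂)) ?_
    have := hO.size'
    omega

/-! ### positions and folded functionals -/

noncomputable def Hh (ρ : ℝ) (L : ℕ) (G : (Fin 3 → ℝ) → ℝ) (p : ℕ × ℕ) : ℝ :=
  hh G ![ρ ^ p.1 / ρ ^ (2 * L), ρ ^ p.2 / ρ ^ (2 * L), 1]

noncomputable def He (ρ : ℝ) (L : ℕ) (G : (Fin 3 → ℝ) → ℝ) (m : ℕ) : ℝ :=
  hh' G ![0, ρ ^ m / ρ ^ (2 * L), 1]

section pos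

variable {ρ : ℝ} {L : ℕ} {G : (Fin 3 → ℝ) → ℝ}

lemma div_pow_nonneg (hρ : 0 < ρ) (m n : ℕ) : 0 ≤ ρ ^ m / ρ ^ n :=
  div_nonneg (pow_pos hρ _).le (pow_pos hρ _).le

lemma Hh_nonneg (hρ : 0 < ρ) (h : SG G) (p : ℕ × ℕ) : 0 ≤ Hh ρ L G p :=
  h.hh_nonneg (div_pow_nonneg hρ _ _) (div_pow_nonneg hρ _ _) zero_le_one

lemma He_nonneg (hρ : 0 < ρ) (h : SG G) (m : ℕ) : 0 ≤ He ρ L G m :=
  h.hh'_nonneg le_rfl (div_pow_nonneg hρ _ _) zero_le_one

lemma pos_mul (hρ : 0 < ρ) (a b c d : ℕ) :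
    ρ ^ a * (ρ ^ b / ρ ^ L) * (ρ ^ c * (ρ ^ d / ρ ^ L)) =
    ρ ^ a * ρ ^ c * (ρ ^ (b + d) / ρ ^ (2 * L)) := by
  rw [pow_add, show 2 * L = L + L by ring, pow_add]
  have h20 : ρ ^ L ≠ 0 := (pow_pos hρ L).ne'
  field_simp

lemma hh_img (hρ : 0 < ρ) (h : SG G) {x x' : Σ _ : ℕ, ℕ} (hx : x ∈ sec (L + 1))
    (hx' : x' ∈ sec (L + 1)) (g g' : Fin 6) :
    hh G (fun i => img (ρ ^ (x.1 + x.2)) (ρ ^ x.2) 1 g i *
      img (ρ ^ (x'.1 + x'.2)) (ρ ^ x'.2) 1 g' i) =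
      ρ ^ tA x g * ρ ^ tA x' g' * Hh ρ L G (p1 L x g + p1 L x' g', p2 L x g + p2 L x' g') := by
  rw [img_eq hρ hx, img_eq hρ hx', mul_vec, pos_mul hρ, pos_mul hρ]
  have hc : 0 < ρ ^ tA x g * ρ ^ tA x' g' := mul_pos (pow_pos hρ _) (pow_pos hρ _)
  have := h.hh_hom (x := ρ ^ (p1 L x g + p1 L x' g') / ρ ^ (2 * L))
    (y := ρ ^ (p2 L x g + p2 L x' g') / ρ ^ (2 * L)) (z := 1) hc (div_pow_nonneg hρ _ _)
    (div_pow_nonneg hρ _ _) zero_le_one
  rw [mul_one] at this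
  exact this

/-- images of an edge vector with first coordinate zero -/
lemma edge_img (hρ : 0 < ρ) {k : ℕ} (hk : k < L + 1) (g : Fin 2) :
    (![![0, ρ ^ k, 1], ![0, 1, ρ ^ k]] : Fin 2 → Fin 3 → ℝ) g =
      ![0, ρ ^ tE k g * (ρ ^ pE L k g / ρ ^ L), ρ ^ tE k g] := by
  fin_cases g
  · change ![0, ρ ^ k, 1] = ![0, ρ ^ 0 * (ρ ^ (k + L) / ρ ^ L), ρ ^ 0]
    rw [pw_id hρ (c := k) (by omega), pow_zero]
  · change ![0, 1, ρ ^ k] = ![0, ρ ^ k * (ρ ^ (L - k) / ρ ^ L), ρ ^ k]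
    rw [pw_id hρ (c := 0) (by omega), pow_zero]

/-- lower bound for the symmetrisation over an edge vector -/
lemma gs_edge_ge (hρ : 0 < ρ) {F : (Fin 3 → ℝ) → ℝ}
    (hF : ∀ v : Fin 3 → ℝ, (∀ i, 0 ≤ v i) → 0 ≤ F v) {k : ℕ} :
    ∑ g : Fin 2, F ((![![0, ρ ^ k, 1], ![0, 1, ρ ^ k]] : Fin 2 → Fin 3 → ℝ) g) ≤
      gs F (ρ ^ k) 1 0 := by
  rw [Fin.sum_univ_two]
  have h := (pow_pos hρ k).le
  have h1 := hF _ (nn3 h zero_le_one le_rfl)
  have h2 := hF _ (nn3 zero_le_one h le_rfl)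
  have h3 := hF _ (nn3 h le_rfl zero_le_one)
  have h5 := hF _ (nn3 zero_le_one le_rfl h)
  unfold gs
  change F ![0, ρ ^ k, 1] + F ![0, 1, ρ ^ k] ≤ _
  linarith

lemma hh'_pos (hρ : 0 < ρ) (h : SG G) (a b c d : ℕ) (x : ℝ) :
    hh' G (fun i => ![x, ρ ^ a * (ρ ^ b / ρ ^ L), ρ ^ a] i *
      ![0, ρ ^ c * (ρ ^ d / ρ ^ L), ρ ^ c] i) = ρ ^ a * ρ ^ c * He ρ L G (b + d) := by
  rw [mul_vec, pos_mul hρ, mul_zero]
  have hc : 0 < ρ ^ a * ρ ^ c := mul_pos (pow_pos hρ _) (pow_pos hρ _)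
  have := h.hh'_hom (x := 0) (y := ρ ^ (b + d) / ρ ^ (2 * L)) (z := 1) hc le_rfl
    (div_pow_nonneg hρ _ _) zero_le_one
  rw [mul_one, mul_zero] at this
  exact this

end pos

/-! ### interior part -/

lemma partA {a s L K : ℕ} (hO : OK a s L K) {G : (Fin 3 → ℝ) → ℝ} (hG : SG G) (S S₂ : ℕ) :
    ∑ z ∈ sec (2 * L + 1), (cf L (NA a s L S * NA a s L S₂) (z.1 + z.2) z.2 : ℝ) *
        (u3 (rho a s ^ (z.1 + z.2)) (rho a s ^ z.2) 1 *
          gs G (rho a s ^ (z.1 + z.2)) (rho a s ^ z.2) 1) ≤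
      ∑ x ∈ sec (L + 1), ∑ x' ∈ sec (L + 1), (Y L S x.1 x.2 : ℝ) * (Y L S₂ x'.1 x'.2 *
        PP G (rho a s ^ (x.1 + x.2)) (rho a s ^ x.2) 1
          (rho a s ^ (x'.1 + x'.2)) (rho a s ^ x'.2) 1) := by
  have hρ := rho_pos hO.one_lt
  have hφ : Set.InjOn (fun z : Σ _ : ℕ, ℕ => (z.1 + z.2 + 2 * L, z.2 + 2 * L))
      (sec (2 * L + 1)) := by
    rintro ⟨k, j⟩ _ ⟨k', j'⟩ _ heq
    simp only [Prod.mk.injEq] at heq
    have : j = j' := by omega
    have : k = k' := by omega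
    subst_vars
    rfl
  have h1 := fiber_le (FA L ×ˢ FA L) (sec (2 * L + 1))
    (fun z : Σ _ : ℕ, ℕ => (z.1 + z.2 + 2 * L, z.2 + 2 * L)) hφ
    (fun x => (p1 L x.1.1 x.1.2 + p1 L x.2.1 x.2.2, p2 L x.1.1 x.1.2 + p2 L x.2.1 x.2.2))
    (fun x => wA a s L S x.1.1 x.1.2 * wA a s L S₂ x.2.1 x.2.2) (Hh (rho a s) L G)
    (fun _ _ => Hh_nonneg hρ hG _)
  have h2 : ∑ z ∈ sec (2 * L + 1), (cf L (NA a s L S * NA a s L S₂) (z.1 + z.2) z.2 : ℝ) *
        (u3 (rho a s ^ (z.1 + z.2)) (rho a s ^ z.2) 1 *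
          gs G (rho a s ^ (z.1 + z.2)) (rho a s ^ z.2) 1) =
      ∑ z ∈ sec (2 * L + 1), ((∑ x ∈ FA L ×ˢ FA L with
      (p1 L x.1.1 x.1.2 + p1 L x.2.1 x.2.2, p2 L x.1.1 x.1.2 + p2 L x.2.1 x.2.2) =
        (z.1 + z.2 + 2 * L, z.2 + 2 * L),
        wA a s L S x.1.1 x.1.2 * wA a s L S₂ x.2.1 x.2.2 : ℕ) : ℝ) *
          Hh (rho a s) L G (z.1 + z.2 + 2 * L, z.2 + 2 * L) := by
    refine Finset.sum_congr rfl fun z hz => ?_
    have hz' := DE.mem_sec.1 hz
    rw [cf_digit hO S S₂ _ _ (by omega)]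
    congr 1
    unfold Hh
    have h40 : rho a s ^ (2 * L) ≠ 0 := (pow_pos hρ _).ne'
    have e1 : ∀ n : ℕ, rho a s ^ (n + 2 * L) / rho a s ^ (2 * L) = rho a s ^ n := by
      intro n; rw [pow_add, mul_div_assoc, div_self h40, mul_one]
    simp only [e1]
    rfl
  rw [h2]
  refine h1.trans ?_
  rw [Finset.sum_product]
  unfold FA
  rw [Finset.sum_product]
  refine Finset.sum_le_sum fun x hx => ?_
  rw [Finset.sum_comm, Finset.sum_product]
  refine Finset.sum_le_sum fun x' hx' => ?_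
  rw [PP_hh]
  unfold PP
  rw [gs_eq_sum, Finset.mul_sum, Finset.mul_sum]
  rw [Finset.sum_comm]
  refine Finset.sum_le_sum fun g _ => ?_
  rw [gs_eq_sum, Finset.mul_sum, Finset.mul_sum]
  refine Finset.sum_le_sum fun g' _ => ?_
  rw [hh_img hρ hG hx hx']
  have a1 := wA_le a s L S x g
  have a2 := wA_le a s L S₂ x' g'
  have a3 := Hh_nonneg (L := L) hρ hG (p1 L x g + p1 L x' g', p2 L x g + p2 L x' g')
  push_cast
  calc (wA a s L S x g : ℝ) * wA a s L S₂ x' g' *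
        Hh (rho a s) L G (p1 L x g + p1 L x' g', p2 L x g + p2 L x' g')
      ≤ (Y L S x.1 x.2 * rho a s ^ tA x g) * (Y L S₂ x'.1 x'.2 * rho a s ^ tA x' g') *
        Hh (rho a s) L G (p1 L x g + p1 L x' g', p2 L x g + p2 L x' g') := by
        refine mul_le_mul_of_nonneg_right ?_ a3
        exact mul_le_mul a1 a2 (Nat.cast_nonneg _)
          (mul_nonneg (Nat.cast_nonneg _) (pow_pos hρ _).le)
    _ = _ := by ring

end Crest.Agent.R163.DG
end

-- ▼ part R163/DG5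
section

/-!
Row 163, generic density evolution: soundness of the product step, edge part.
-/

set_option autoImplicit false

namespace Crest.Agent.R163.DG

open Crest.Agent.R163

open Crest.Agent.R163.DE (SG gs sec ksum kall dig sum_sec ksum_eq kall_iff
  dig_eq dig_lt dig_zero digit_sum fiber_le tA img gs_eq_sum u3 u3_nonneg hh hh' PP PP_hh PP_hh'
  PP_comm mul_vec nn3 sum_prod_mul sum_mul_sum_pow hh'_nn gs_swap01 gs_swap12)

variable {G : (Fin 3 → ℝ) → ℝ}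

/-- interior vector times edge vector -/
lemma PP_int_edge {a s L : ℕ} (hρ : 0 < rho a s) (hG : SG G) (S S₂ : ℕ) {x : Σ _ : ℕ, ℕ}
    (hx : x ∈ sec (L + 1)) {k : ℕ} (hk : k < L + 1) :
    ∑ g : Fin 6, ∑ g' : Fin 2, (wA a s L S x g : ℝ) *
        (wE a s L S₂ k g' * He (rho a s) L G (p2 L x g + pE L k g')) ≤
      (Y L S x.1 x.2 : ℝ) * (E L S₂ k *
        PP G (rho a s ^ (x.1 + x.2)) (rho a s ^ x.2) 1 (rho a s ^ k) 1 0) := by
  rw [PP_hh']
  unfold PP
  rw [gs_eq_sum, Finset.mul_sum, Finset.mul_sum]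
  refine Finset.sum_le_sum fun g _ => ?_
  have hu : ∀ i, 0 ≤ img (rho a s ^ (x.1 + x.2)) (rho a s ^ x.2) 1 g i := by
    rw [img_eq hρ hx]
    exact nn3 (mul_nonneg (pow_pos hρ _).le (div_pow_nonneg hρ _ _))
      (mul_nonneg (pow_pos hρ _).le (div_pow_nonneg hρ _ _)) (pow_pos hρ _).le
  have h1 := gs_edge_ge hρ (F := fun v => hh' G (fun i =>
    img (rho a s ^ (x.1 + x.2)) (rho a s ^ x.2) 1 g i *
    v i)) (k := k) (fun v hv => hh'_nn hG _ fun i => mul_nonneg (hu i) (hv i))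
  have h2 : ∑ g' : Fin 2, (wA a s L S x g : ℝ) *
        (wE a s L S₂ k g' * He (rho a s) L G (p2 L x g + pE L k g')) ≤
      (Y L S x.1 x.2 : ℝ) * (E L S₂ k * ∑ g' : Fin 2, hh' G (fun i =>
        img (rho a s ^ (x.1 + x.2)) (rho a s ^ x.2) 1 g i *
        (![![0, rho a s ^ k, 1], ![0, 1, rho a s ^ k]] : Fin 2 → Fin 3 → ℝ) g' i)) := by
    rw [Finset.mul_sum, Finset.mul_sum]
    refine Finset.sum_le_sum fun g' _ => ?_
    rw [edge_img hρ hk, img_eq hρ hx, hh'_pos hρ hG]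
    have a1 := wA_le a s L S x g
    have a2 := wE_le a s L S₂ k g'
    have a3 := He_nonneg (L := L) hρ hG (p2 L x g + pE L k g')
    calc (wA a s L S x g : ℝ) * (wE a s L S₂ k g' * He (rho a s) L G (p2 L x g + pE L k g'))
        = ((wA a s L S x g : ℝ) * wE a s L S₂ k g') *
          He (rho a s) L G (p2 L x g + pE L k g') := by ring
      _ ≤ ((Y L S x.1 x.2 * rho a s ^ tA x g) * (E L S₂ k * rho a s ^ tE k g')) *
          He (rho a s) L G (p2 L x g + pE L k g') := by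
          refine mul_le_mul_of_nonneg_right ?_ a3
          exact mul_le_mul a1 a2 (Nat.cast_nonneg _)
            (mul_nonneg (Nat.cast_nonneg _) (pow_pos hρ _).le)
      _ = _ := by ring
  refine h2.trans ?_
  exact mul_le_mul_of_nonneg_left (mul_le_mul_of_nonneg_left h1 (Nat.cast_nonneg _))
    (Nat.cast_nonneg _)

/-- edge vector times edge vector -/
lemma PP_edge_edge {a s L : ℕ} (hρ : 0 < rho a s) (hG : SG G) (S S₂ : ℕ) {k l : ℕ}
    (hk : k < L + 1) (hl : l < L + 1) :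
    ∑ g : Fin 2, ∑ g' : Fin 2, (wE a s L S k g : ℝ) *
        (wE a s L S₂ l g' * He (rho a s) L G (pE L k g + pE L l g')) ≤
      (E L S k : ℝ) * (E L S₂ l * PP G (rho a s ^ k) 1 0 (rho a s ^ l) 1 0) := by
  rw [PP_hh']
  unfold PP
  have hnn : ∀ u : Fin 3 → ℝ, (∀ i, 0 ≤ u i) →
      ∀ v : Fin 3 → ℝ, (∀ i, 0 ≤ v i) → 0 ≤ hh' G (fun i => u i * v i) :=
    fun u hu v hv => hh'_nn hG _ fun i => mul_nonneg (hu i) (hv i)
  have h0 := gs_edge_ge hρ (F := fun u =>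
      gs (fun v => hh' G (fun i => u i * v i)) (rho a s ^ l) 1 0)
    (k := k) (fun u hu => by
      have h := (pow_pos hρ l).le
      have h1 := hnn u hu _ (nn3 h zero_le_one le_rfl)
      have h2 := hnn u hu _ (nn3 zero_le_one h le_rfl)
      have h3 := hnn u hu _ (nn3 h le_rfl zero_le_one)
      have h4 := hnn u hu _ (nn3 le_rfl h zero_le_one)
      have h5 := hnn u hu _ (nn3 zero_le_one le_rfl h)
      have h6 := hnn u hu _ (nn3 le_rfl zero_le_one h)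
      unfold gs
      linarith)
  refine le_trans ?_ (mul_le_mul_of_nonneg_left (mul_le_mul_of_nonneg_left h0
    (Nat.cast_nonneg _)) (Nat.cast_nonneg _))
  rw [Finset.mul_sum, Finset.mul_sum]
  refine Finset.sum_le_sum fun g _ => ?_
  have hu : ∀ i, 0 ≤ (![![0, rho a s ^ k, 1], ![0, 1, rho a s ^ k]] : Fin 2 → Fin 3 → ℝ) g i := by
    rw [edge_img hρ hk]
    exact nn3 le_rfl (mul_nonneg (pow_pos hρ _).le (div_pow_nonneg hρ _ _)) (pow_pos hρ _).le
  have h1 := gs_edge_ge hρ (F := fun v => hh' G (fun i =>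
    (![![0, rho a s ^ k, 1], ![0, 1, rho a s ^ k]] : Fin 2 → Fin 3 → ℝ) g i * v i)) (k := l)
    (fun v hv => hnn _ hu v hv)
  refine le_trans ?_ (mul_le_mul_of_nonneg_left (mul_le_mul_of_nonneg_left h1
    (Nat.cast_nonneg _)) (Nat.cast_nonneg _))
  rw [Finset.mul_sum, Finset.mul_sum]
  refine Finset.sum_le_sum fun g' _ => ?_
  rw [edge_img hρ hk, edge_img hρ hl, hh'_pos hρ hG]
  have a1 := wE_le a s L S k g
  have a2 := wE_le a s L S₂ l g'
  have a3 := He_nonneg (L := L) hρ hG (pE L k g + pE L l g')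
  calc (wE a s L S k g : ℝ) * (wE a s L S₂ l g' * He (rho a s) L G (pE L k g + pE L l g'))
      = ((wE a s L S k g : ℝ) * wE a s L S₂ l g') *
        He (rho a s) L G (pE L k g + pE L l g') := by ring
    _ ≤ ((E L S k * rho a s ^ tE k g) * (E L S₂ l * rho a s ^ tE l g')) *
        He (rho a s) L G (pE L k g + pE L l g') := by
        refine mul_le_mul_of_nonneg_right ?_ a3
        exact mul_le_mul a1 a2 (Nat.cast_nonneg _)
          (mul_nonneg (Nat.cast_nonneg _) (pow_pos hρ _).le)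
    _ = _ := by ring

/-! ### the family of the three products -/

abbrev TA := (Σ _ : ℕ, ℕ) × Fin 6

abbrev TE := ℕ × Fin 2

@[irreducible] def FM (L : ℕ) : Finset (((TA × TE) ⊕ (TE × TA)) ⊕ (TE × TE)) :=
  ((FA L ×ˢ FEd L).disjSum (FEd L ×ˢ FA L)).disjSum (FEd L ×ˢ FEd L)

def wM (a s L S S₂ : ℕ) : ((TA × TE) ⊕ (TE × TA)) ⊕ (TE × TE) → ℕ :=
  Sum.elim (Sum.elim
    (fun x => wA a s L S x.1.1 x.1.2 * wE a s L S₂ x.2.1 x.2.2)
    (fun x => wE a s L S x.1.1 x.1.2 * wA a s L S₂ x.2.1 x.2.2))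
    (fun x => wE a s L S x.1.1 x.1.2 * wE a s L S₂ x.2.1 x.2.2)

def pM (L : ℕ) : ((TA × TE) ⊕ (TE × TA)) ⊕ (TE × TE) → ℕ :=
  Sum.elim (Sum.elim
    (fun x => p2 L x.1.1 x.1.2 + pE L x.2.1 x.2.2)
    (fun x => pE L x.1.1 x.1.2 + p2 L x.2.1 x.2.2))
    (fun x => pE L x.1.1 x.1.2 + pE L x.2.1 x.2.2)

/-- the three edge products -/
def NM (a s L S S₂ : ℕ) : ℕ :=
  NB a s L S * NE a s L S₂ + NE a s L S * NB a s L S₂ + NE a s L S * NE a s L S₂

lemma NM_eq (a s L S S₂ : ℕ) : NM a s L S S₂ =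
    ∑ c ∈ FM L, wM a s L S S₂ c * (2 ^ 128) ^ pM L c := by
  unfold FM
  rw [Finset.sum_disjSum, Finset.sum_disjSum]
  unfold NM
  rw [NB_eq, NE_eq, NB_eq, NE_eq, sum_mul_sum_pow, sum_mul_sum_pow, sum_mul_sum_pow]
  rfl

lemma sum_wM_lt {a s L K : ℕ} (hO : OK a s L K) (S S₂ : ℕ) :
    ∑ c ∈ FM L, wM a s L S S₂ c < 2 ^ 128 := by
  unfold FM
  rw [Finset.sum_disjSum, Finset.sum_disjSum]
  have h1 : ∑ x ∈ FA L ×ˢ FEd L, wM a s L S S₂ (Sum.inl (Sum.inl x)) =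
      (∑ x ∈ FA L, wA a s L S x.1 x.2) * (∑ x ∈ FEd L, wE a s L S₂ x.1 x.2) :=
    sum_prod_mul (FA L) (FEd L) (fun x => wA a s L S x.1 x.2) (fun x => wE a s L S₂ x.1 x.2)
  have h2 : ∑ x ∈ FEd L ×ˢ FA L, wM a s L S S₂ (Sum.inl (Sum.inr x)) =
      (∑ x ∈ FEd L, wE a s L S x.1 x.2) * (∑ x ∈ FA L, wA a s L S₂ x.1 x.2) :=
    sum_prod_mul (FEd L) (FA L) (fun x => wE a s L S x.1 x.2) (fun x => wA a s L S₂ x.1 x.2)
  have h3 : ∑ x ∈ FEd L ×ˢ FEd L, wM a s L S S₂ (Sum.inr x) =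
      (∑ x ∈ FEd L, wE a s L S x.1 x.2) * (∑ x ∈ FEd L, wE a s L S₂ x.1 x.2) :=
    sum_prod_mul (FEd L) (FEd L) (fun x => wE a s L S x.1 x.2) (fun x => wE a s L S₂ x.1 x.2)
  rw [h1, h2, h3]
  have b1 := Nat.mul_le_mul (sum_wA_le hO S) (sum_wE_le hO S₂)
  have b2 := Nat.mul_le_mul (sum_wE_le hO S) (sum_wA_le hO S₂)
  have b3 := Nat.mul_le_mul (sum_wE_le hO S) (sum_wE_le hO S₂)
  have := hO.size'
  omega

lemma cfe_digit {a s L K : ℕ} (hO : OK a s L K) (S S₂ m : ℕ) :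
    cfe L (NM a s L S S₂) m = ∑ x ∈ FM L with pM L x = m + 2 * L, wM a s L S S₂ x := by
  rw [cfe_eq, NM_eq]
  exact digit_sum (FM L) (wM a s L S S₂) (pM L) _ (sum_wM_lt hO S S₂) _

lemma partB {a s L K : ℕ} (hO : OK a s L K) (hG : SG G) (S S₂ : ℕ) :
    ∑ m ∈ Finset.range (2 * L + 1), (cfe L (NM a s L S S₂) m : ℝ) *
        (u3 (rho a s ^ m) 1 0 * gs G (rho a s ^ m) 1 0) ≤
      ∑ x ∈ sec (L + 1), ∑ k ∈ Finset.range (L + 1), (Y L S x.1 x.2 : ℝ) * (E L S₂ k *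
        PP G (rho a s ^ (x.1 + x.2)) (rho a s ^ x.2) 1 (rho a s ^ k) 1 0) +
      ∑ k ∈ Finset.range (L + 1), ∑ x ∈ sec (L + 1), (E L S k : ℝ) * (Y L S₂ x.1 x.2 *
        PP G (rho a s ^ k) 1 0 (rho a s ^ (x.1 + x.2)) (rho a s ^ x.2) 1) +
      ∑ k ∈ Finset.range (L + 1), ∑ l ∈ Finset.range (L + 1), (E L S k : ℝ) * (E L S₂ l *
        PP G (rho a s ^ k) 1 0 (rho a s ^ l) 1 0) := by
  have hρ := rho_pos hO.one_lt
  have hφ : Set.InjOn (fun z : ℕ => z + 2 * L) (Finset.range (2 * L + 1)) := by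
    intro a _ b _ h
    simpa using h
  have h1 := fiber_le (FM L) (Finset.range (2 * L + 1)) (fun z : ℕ => z + 2 * L) hφ
    (pM L) (wM a s L S S₂) (He (rho a s) L G)
    (fun _ _ => He_nonneg hρ hG _)
  simp only [← cfe_digit hO] at h1
  have h2 : ∀ m ∈ Finset.range (2 * L + 1), (cfe L (NM a s L S S₂) m : ℝ) *
        (u3 (rho a s ^ m) 1 0 * gs G (rho a s ^ m) 1 0) =
      (cfe L (NM a s L S S₂) m : ℝ) * He (rho a s) L G (m + 2 * L) := by
    intro m _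
    congr 1
    have h40 : rho a s ^ (2 * L) ≠ 0 := (pow_pos hρ _).ne'
    have e1 : rho a s ^ (m + 2 * L) / rho a s ^ (2 * L) = rho a s ^ m := by
      rw [pow_add, mul_div_assoc, div_self h40, mul_one]
    unfold He
    rw [e1]
    change _ = u3 (rho a s ^ m) 1 0 * gs G 0 (rho a s ^ m) 1
    rw [gs_swap01 G (rho a s ^ m) 0 1, gs_swap12 G (rho a s ^ m) 1 0]
  rw [Finset.sum_congr rfl h2]
  refine h1.trans ?_
  unfold FM
  rw [Finset.sum_disjSum, Finset.sum_disjSum]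
  refine add_le_add (add_le_add ?_ ?_) ?_
  · rw [Finset.sum_product]
    unfold FA
    rw [Finset.sum_product]
    refine Finset.sum_le_sum fun x hx => ?_
    unfold FEd
    have h3 : ∀ g : Fin 6, ∑ b ∈ Finset.range (L + 1) ×ˢ (Finset.univ : Finset (Fin 2)),
        (wM a s L S S₂ (Sum.inl (Sum.inl ((x, g), b))) : ℝ) *
          He (rho a s) L G (pM L (Sum.inl (Sum.inl ((x, g), b)))) =
        ∑ k ∈ Finset.range (L + 1), ∑ g' : Fin 2,
          (wA a s L S x g : ℝ) * (wE a s L S₂ k g' *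
            He (rho a s) L G (p2 L x g + pE L k g')) := by
      intro g
      rw [Finset.sum_product]
      refine Finset.sum_congr rfl fun k _ => ?_
      refine Finset.sum_congr rfl fun g' _ => ?_
      change ((wA a s L S x g * wE a s L S₂ k g' : ℕ) : ℝ) *
        He (rho a s) L G (p2 L x g + pE L k g') = _
      push_cast
      ring
    rw [Finset.sum_congr rfl fun g _ => h3 g, Finset.sum_comm]
    refine Finset.sum_le_sum fun k hk => ?_
    exact PP_int_edge hρ hG S S₂ hx (Finset.mem_range.1 hk)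
  · rw [Finset.sum_product]
    unfold FEd
    rw [Finset.sum_product]
    refine Finset.sum_le_sum fun k hk => ?_
    unfold FA
    have h3 : ∀ g : Fin 2, ∑ b ∈ sec (L + 1) ×ˢ (Finset.univ : Finset (Fin 6)),
        (wM a s L S S₂ (Sum.inl (Sum.inr ((k, g), b))) : ℝ) *
          He (rho a s) L G (pM L (Sum.inl (Sum.inr ((k, g), b)))) =
        ∑ x ∈ sec (L + 1), ∑ g' : Fin 6,
          (wA a s L S₂ x g' : ℝ) * (wE a s L S k g *
            He (rho a s) L G (p2 L x g' + pE L k g)) := by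
      intro g
      rw [Finset.sum_product]
      refine Finset.sum_congr rfl fun x _ => ?_
      refine Finset.sum_congr rfl fun g' _ => ?_
      change ((wE a s L S k g * wA a s L S₂ x g' : ℕ) : ℝ) *
        He (rho a s) L G (pE L k g + p2 L x g') = _
      rw [add_comm (pE L k g)]
      push_cast
      ring
    rw [Finset.sum_congr rfl fun g _ => h3 g, Finset.sum_comm]
    refine Finset.sum_le_sum fun x hx => ?_
    rw [Finset.sum_comm]
    refine (PP_int_edge hρ hG S₂ S hx (Finset.mem_range.1 hk)).trans (le_of_eq ?_)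
    rw [PP_comm]
    ring
  · rw [Finset.sum_product]
    unfold FEd
    rw [Finset.sum_product]
    refine Finset.sum_le_sum fun k hk => ?_
    have h3 : ∀ g : Fin 2, ∑ b ∈ Finset.range (L + 1) ×ˢ (Finset.univ : Finset (Fin 2)),
        (wM a s L S S₂ (Sum.inr ((k, g), b)) : ℝ) *
          He (rho a s) L G (pM L (Sum.inr ((k, g), b))) =
        ∑ l ∈ Finset.range (L + 1), ∑ g' : Fin 2,
          (wE a s L S k g : ℝ) * (wE a s L S₂ l g' *
            He (rho a s) L G (pE L k g + pE L l g')) := by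
      intro g
      rw [Finset.sum_product]
      refine Finset.sum_congr rfl fun l _ => ?_
      refine Finset.sum_congr rfl fun g' _ => ?_
      change ((wE a s L S k g * wE a s L S₂ l g' : ℕ) : ℝ) *
        He (rho a s) L G (pE L k g + pE L l g') = _
      push_cast
      ring
    rw [Finset.sum_congr rfl fun g _ => h3 g, Finset.sum_comm]
    refine Finset.sum_le_sum fun l hl => ?_
    exact PP_edge_edge hρ hG S S₂ (Finset.mem_range.1 hk) (Finset.mem_range.1 hl)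

end Crest.Agent.R163.DG
end

-- ▼ part R163/DG6
section

/-!
Row 163, generic density evolution: soundness of the product step, conclusion.
-/

set_option autoImplicit false

namespace Crest.Agent.R163.DG

open Crest.Agent.R163

open Crest.Agent.R163.DE (SG gs sec ksum kall dig sum_sec ksum_eq kall_iff mlt mlte
  gs_eq_sum u3 PP PP_comm sum_add_range)

variable {G : (Fin 3 → ℝ) → ℝ}

/-- interior value -/
noncomputable def gI (ρ : ℝ) (G : (Fin 3 → ℝ) → ℝ) (a b : ℕ) : ℝ := gs G (ρ ^ a) (ρ ^ b) 1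

/-- edge value -/
noncomputable def gE (ρ : ℝ) (G : (Fin 3 → ℝ) → ℝ) (k : ℕ) : ℝ := gs G (ρ ^ k) 1 0

section vals

variable {ρ : ℝ}

lemma gI_nonneg (hρ : 1 < ρ) (h : SG G) (a b : ℕ) : 0 ≤ gI ρ G a b :=
  h.gs_nonneg (pow_pos (zero_lt_one.trans hρ) _).le (pow_pos (zero_lt_one.trans hρ) _).le
    zero_le_one

lemma gE_nonneg (hρ : 1 < ρ) (h : SG G) (k : ℕ) : 0 ≤ gE ρ G k :=
  h.gs_nonneg (pow_pos (zero_lt_one.trans hρ) _).le zero_le_one le_rfl

lemma gE_mono (hρ : 1 < ρ) (h : SG G) {k l : ℕ} (hkl : k ≤ l) : gE ρ G k ≤ gE ρ G l := by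
  refine h.gs_mono (pow_pos (zero_lt_one.trans hρ) _).le zero_le_one le_rfl ?_ le_rfl le_rfl
  exact pow_le_pow_right₀ hρ.le hkl

/-- far vectors, ratio in range -/
lemma far1 (hρ : 1 < ρ) (h : SG G) {L k q : ℕ} (hk : k ≤ L) :
    gI ρ G L (L - k) + (ρ ^ (L + 1 - k + q) - ρ ^ (L - k)) * gE ρ G k ≤
      gI ρ G (k + (L + 1 - k + q)) (L + 1 - k + q) := by
  have h1 : 0 ≤ ρ ^ (L + 1 - k + q) - ρ ^ (L - k) :=
    sub_nonneg.2 (pow_le_pow_right₀ hρ.le (by omega))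
  have hp : ∀ n, 0 ≤ ρ ^ n := fun n => (pow_pos (zero_lt_one.trans hρ) n).le
  unfold gI gE
  rw [← h.gs_hom h1 (hp k) zero_le_one le_rfl]
  have h2 := h.gs_sup (hp L) (hp (L - k)) zero_le_one (mul_nonneg h1 (hp k))
    (mul_nonneg h1 zero_le_one) (mul_nonneg h1 le_rfl)
  refine h2.trans (le_of_eq ?_)
  congr 1
  · have e1 : ρ ^ (k + (L + 1 - k + q)) = ρ ^ (L + 1 - k + q) * ρ ^ k := by
      rw [← pow_add]; congr 1; omega
    have e2 : ρ ^ L = ρ ^ (L - k) * ρ ^ k := by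
      rw [← pow_add]; congr 1; omega
    rw [e1, e2]; ring
  · ring
  · ring

/-- far vectors, large ratio -/
lemma far2 (hρ : 1 < ρ) (h : SG G) (L k q : ℕ) :
    gI ρ G L 0 + (ρ ^ q - 1) * gE ρ G L ≤ gI ρ G (L + 1 + k + q) q := by
  have h1 : 0 ≤ ρ ^ q - 1 := sub_nonneg.2 (one_le_pow₀ hρ.le)
  have hp : ∀ n, 0 ≤ ρ ^ n := fun n => (pow_pos (zero_lt_one.trans hρ) n).le
  unfold gI gE
  rw [← h.gs_hom h1 (hp L) zero_le_one le_rfl]
  have h2 := h.gs_sup (hp L) (hp 0) zero_le_one (mul_nonneg h1 (hp L))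
    (mul_nonneg h1 zero_le_one) (mul_nonneg h1 le_rfl)
  refine h2.trans (h.gs_mono ?_ ?_ ?_ ?_ ?_ ?_)
  · exact add_nonneg (hp _) (mul_nonneg h1 (hp _))
  · exact add_nonneg (hp _) (mul_nonneg h1 zero_le_one)
  · norm_num
  · have e1 : ρ ^ L + (ρ ^ q - 1) * ρ ^ L = ρ ^ (L + q) := by rw [pow_add]; ring
    rw [e1]
    exact pow_le_pow_right₀ hρ.le (by omega)
  · rw [pow_zero]; linarith
  · norm_num

lemma mlt_cast (hρ : 1 < ρ) (k j : ℕ) : (mlt k j : ℝ) = 6 * u3 (ρ ^ (k + j)) (ρ ^ j) 1 := by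
  have h1 : (1 : ℝ) ≤ ρ ^ j := one_le_pow₀ hρ.le
  have h2 : ρ ^ j ≤ ρ ^ (k + j) := pow_le_pow_right₀ hρ.le (by omega)
  unfold u3
  rw [if_pos ⟨h1, h2⟩]
  have h3 : ρ ^ j = 1 ↔ j = 0 := by
    constructor
    · intro h
      by_contra hj
      have := one_lt_pow₀ hρ hj
      linarith
    · rintro rfl; exact pow_zero _
  have h4 : ρ ^ (k + j) = ρ ^ j ↔ k = 0 := by
    constructor
    · intro h
      by_contra hk
      have : ρ ^ j < ρ ^ (k + j) := pow_lt_pow_right₀ hρ (by omega)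
      linarith
    · rintro rfl; rw [zero_add]
  rcases Nat.eq_zero_or_pos k with hk | hk
  · rw [if_pos (h4.2 hk)]
    subst hk
    rcases Nat.eq_zero_or_pos j with hj | hj
    · rw [if_pos (h3.2 hj)]
      subst hj
      change ((1 : ℕ) : ℝ) = _
      norm_num
    · rw [if_neg (fun h => by have := h3.1 h; omega)]
      obtain ⟨j', rfl⟩ := Nat.exists_eq_succ_of_ne_zero hj.ne'
      change ((3 : ℕ) : ℝ) = _
      norm_num
  · rw [if_neg (fun h => by have := h4.1 h; omega)]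
    obtain ⟨k', rfl⟩ := Nat.exists_eq_succ_of_ne_zero hk.ne'
    rcases Nat.eq_zero_or_pos j with hj | hj
    · rw [if_pos (h3.2 hj)]
      subst hj
      change ((3 : ℕ) : ℝ) = _
      norm_num
    · rw [if_neg (fun h => by have := h3.1 h; omega)]
      obtain ⟨j', rfl⟩ := Nat.exists_eq_succ_of_ne_zero hj.ne'
      change ((6 : ℕ) : ℝ) = _
      norm_num

lemma mlte_cast (hρ : 1 < ρ) (m : ℕ) : (mlte m : ℝ) = 6 * u3 (ρ ^ m) 1 0 := by
  have h1 : (1 : ℝ) ≤ ρ ^ m := one_le_pow₀ hρ.le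
  unfold u3
  rw [if_pos ⟨zero_le_one, h1⟩]
  rcases Nat.eq_zero_or_pos m with hm | hm
  · subst hm
    rw [pow_zero, if_pos rfl, if_neg one_ne_zero]
    change ((3 : ℕ) : ℝ) = _
    norm_num
  · have := one_lt_pow₀ hρ hm.ne'
    rw [if_neg (by linarith), if_neg one_ne_zero]
    obtain ⟨m', rfl⟩ := Nat.exists_eq_succ_of_ne_zero hm.ne'
    change ((6 : ℕ) : ℝ) = _
    norm_num

lemma Uf_sec (ρ : ℝ) (n : ℕ) (y : ℕ → ℕ → ℕ) (e : ℕ → ℕ) (F : (Fin 3 → ℝ) → ℝ) :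
    Uf ρ n y e F = ∑ x ∈ sec n, (y x.1 x.2 : ℝ) * gs F (ρ ^ (x.1 + x.2)) (ρ ^ x.2) 1 +
      ∑ k ∈ Finset.range n, (e k : ℝ) * gs F (ρ ^ k) 1 0 := by
  rfl

/-- expansion of the double functional -/
lemma UU_eq (ρ : ℝ) (L : ℕ) (S S₂ : ℕ) :
    Uf ρ (L + 1) (Y L S) (E L S) (fun u =>
      Uf ρ (L + 1) (Y L S₂) (E L S₂) (fun v => G (fun i => u i * v i))) =
      ∑ x ∈ sec (L + 1), ∑ x' ∈ sec (L + 1), (Y L S x.1 x.2 : ℝ) * (Y L S₂ x'.1 x'.2 *
        PP G (ρ ^ (x.1 + x.2)) (ρ ^ x.2) 1 (ρ ^ (x'.1 + x'.2)) (ρ ^ x'.2) 1) +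
      ∑ x ∈ sec (L + 1), ∑ k ∈ Finset.range (L + 1), (Y L S x.1 x.2 : ℝ) * (E L S₂ k *
        PP G (ρ ^ (x.1 + x.2)) (ρ ^ x.2) 1 (ρ ^ k) 1 0) +
      (∑ k ∈ Finset.range (L + 1), ∑ x ∈ sec (L + 1), (E L S k : ℝ) * (Y L S₂ x.1 x.2 *
        PP G (ρ ^ k) 1 0 (ρ ^ (x.1 + x.2)) (ρ ^ x.2) 1) +
      ∑ k ∈ Finset.range (L + 1), ∑ l ∈ Finset.range (L + 1), (E L S k : ℝ) * (E L S₂ l *
        PP G (ρ ^ k) 1 0 (ρ ^ l) 1 0)) := by
  have hlin : ∀ (x y z : ℝ), gs (fun u =>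
        Uf ρ (L + 1) (Y L S₂) (E L S₂) (fun v => G (fun i => u i * v i))) x y z =
      ∑ x' ∈ sec (L + 1), (Y L S₂ x'.1 x'.2 : ℝ) *
        PP G x y z (ρ ^ (x'.1 + x'.2)) (ρ ^ x'.2) 1 +
      ∑ k ∈ Finset.range (L + 1), (E L S₂ k : ℝ) * PP G x y z (ρ ^ k) 1 0 := by
    intro x y z
    have e : ∀ u : Fin 3 → ℝ,
        Uf ρ (L + 1) (Y L S₂) (E L S₂) (fun v => G (fun i => u i * v i)) =
        ∑ x' ∈ sec (L + 1), (Y L S₂ x'.1 x'.2 : ℝ) * gs (fun v => G (fun i => u i * v i))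
          (ρ ^ (x'.1 + x'.2)) (ρ ^ x'.2) 1 +
        ∑ k ∈ Finset.range (L + 1), (E L S₂ k : ℝ) *
          gs (fun v => G (fun i => u i * v i)) (ρ ^ k) 1 0 := by
      intro u
      exact Uf_sec _ _ _ _ _
    rw [gs_eq_sum]
    simp only [e]
    rw [Finset.sum_add_distrib, Finset.sum_comm, Finset.sum_comm (s := Finset.univ)
      (t := Finset.range (L + 1))]
    congr 1
    · refine Finset.sum_congr rfl fun x' _ => ?_
      unfold PP
      rw [gs_eq_sum (fun u => gs (fun v => G fun i => u i * v i) _ _ _), Finset.mul_sum]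
    · refine Finset.sum_congr rfl fun x' _ => ?_
      unfold PP
      rw [gs_eq_sum (fun u => gs (fun v => G fun i => u i * v i) _ _ _), Finset.mul_sum]
  rw [Uf_sec ρ (L + 1) (Y L S) (E L S)]
  simp only [hlin]
  simp only [mul_add, Finset.sum_add_distrib, Finset.mul_sum]

end vals

lemma one_lt_rho {a s : ℕ} (ha : 2 ^ s < a) : 1 < rho a s := by
  unfold rho
  rw [lt_div_iff₀ (by positivity), one_mul]
  exact_mod_cast ha

lemma exc_cast_le {a s c q m : ℕ} (ha : 2 ^ s < a) (hm : m ≤ q) :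
    (exc a s c q m : ℝ) ≤ c * (rho a s ^ q - rho a s ^ m) := by
  have h1 : exc a s c q m = c * (a ^ q - a ^ m * 2 ^ (s * (q - m))) / 2 ^ (s * q) := by
    unfold exc
    exact Nat.shiftRight_eq_div_pow _ _
  rw [h1]
  refine Nat.cast_div_le.trans ?_
  have h2 : a ^ m * 2 ^ (s * (q - m)) ≤ a ^ q := by
    calc a ^ m * 2 ^ (s * (q - m)) ≤ a ^ m * a ^ (q - m) := by
          refine Nat.mul_le_mul_left _ ?_
          rw [pow_mul]
          exact Nat.pow_le_pow_left ha.le _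
      _ = a ^ q := by rw [← pow_add]; congr 1; omega
  rw [Nat.cast_mul, Nat.cast_sub h2]
  push_cast
  rw [mul_div_assoc]
  refine le_of_eq ?_
  congr 1
  unfold rho
  rw [div_pow, div_pow, sub_div, ← pow_mul, ← pow_mul]
  congr 1
  have h3 : (2 : ℝ) ^ (s * q) = 2 ^ (s * m) * 2 ^ (s * (q - m)) := by
    rw [← pow_add, ← mul_add]; congr 2; omega
  rw [h3, mul_div_mul_right _ _ (by positivity)]

/-- the main inequality behind a product check -/
lemma main_ineq {a s L K : ℕ} (hO : OK a s L K) (hG : SG G) (S S₂ : ℕ) :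
    ∑ z ∈ sec (2 * L + 1), (mC L (NA a s L S * NA a s L S₂) z.1 z.2 : ℝ) *
      gI (rho a s) G (z.1 + z.2) z.2 +
    ∑ m ∈ Finset.range (2 * L + 1), (mlte m * cfe L (NM a s L S S₂) m : ℝ) *
      gE (rho a s) G m ≤
      6 * Uf (rho a s) (L + 1) (Y L S) (E L S) (fun u =>
        Uf (rho a s) (L + 1) (Y L S₂) (E L S₂) (fun v => G (fun i => u i * v i))) := by
  have hρ := one_lt_rho hO.one_lt
  rw [UU_eq]
  have h1 := partA hO hG S S₂
  have h2 := partB hO hG S S₂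
  have h4 : ∑ z ∈ sec (2 * L + 1), (mC L (NA a s L S * NA a s L S₂) z.1 z.2 : ℝ) *
      gI (rho a s) G (z.1 + z.2) z.2 =
      6 * ∑ z ∈ sec (2 * L + 1), (cf L (NA a s L S * NA a s L S₂) (z.1 + z.2) z.2 : ℝ) *
        (u3 (rho a s ^ (z.1 + z.2)) (rho a s ^ z.2) 1 *
          gs G (rho a s ^ (z.1 + z.2)) (rho a s ^ z.2) 1) := by
    rw [Finset.mul_sum]
    refine Finset.sum_congr rfl fun z _ => ?_
    have e : mC L (NA a s L S * NA a s L S₂) z.1 z.2 =
      mlt z.1 z.2 * cf L (NA a s L S * NA a s L S₂) (z.1 + z.2) z.2 := rfl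
    rw [e, Nat.cast_mul, mlt_cast hρ]
    unfold gI
    ring
  have h5 : ∑ m ∈ Finset.range (2 * L + 1), (mlte m * cfe L (NM a s L S S₂) m : ℝ) *
      gE (rho a s) G m =
      6 * ∑ m ∈ Finset.range (2 * L + 1), (cfe L (NM a s L S S₂) m : ℝ) *
        (u3 (rho a s ^ m) 1 0 * gs G (rho a s ^ m) 1 0) := by
    rw [Finset.mul_sum]
    refine Finset.sum_congr rfl fun m _ => ?_
    rw [mlte_cast hρ]
    unfold gE
    ring
  rw [h4, h5]
  linarith

/-- rearrangement with far vectors split -/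
lemma split_far {a s : ℕ} (ha : 2 ^ s < a) (hG : SG G) (L N : ℕ) :
    ∑ k ∈ Finset.range (L + 1), (∑ j ∈ Finset.range (L - k), (mC L N k j : ℝ) *
        gI (rho a s) G (k + j) j +
      ((mC L N k (L - k) : ℝ) + FI L N k) * gI (rho a s) G L (L - k) +
      FE a s L N k * gE (rho a s) G k) +
      GI L N * gI (rho a s) G L 0 + GE a s L N * gE (rho a s) G L ≤
    ∑ z ∈ sec (2 * L + 1), (mC L N z.1 z.2 : ℝ) * gI (rho a s) G (z.1 + z.2) z.2 := by
  have hρ := one_lt_rho ha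
  rw [← sum_sec (2 * L + 1) (fun k j => (mC L N k j : ℝ) * gI (rho a s) G (k + j) j)]
  rw [show (2 * L + 1 : ℕ) = (L + 1) + L by ring, sum_add_range _ (L + 1) L, add_assoc]
  refine add_le_add (Finset.sum_le_sum fun k hk => ?_) ?_
  · have hk' := Finset.mem_range.1 hk
    rw [show L + 1 + L - k = (L - k + 1) + L by omega, sum_add_range _ (L - k + 1) L,
      Finset.sum_range_succ]
    have e0 : k + (L - k) = L := by omega
    rw [e0, add_mul, add_assoc, add_assoc, add_assoc]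
    refine add_le_add le_rfl (add_le_add le_rfl ?_)
    have e1 : (FI L N k : ℝ) = ∑ q ∈ Finset.range L, (mC L N k (L + 1 - k + q) : ℝ) := by
      unfold FI
      rw [ksum_eq]
      push_cast
      rfl
    have e2 : (FE a s L N k : ℝ) ≤ ∑ q ∈ Finset.range L, (mC L N k (L + 1 - k + q) : ℝ) *
        (rho a s ^ (L + 1 - k + q) - rho a s ^ (L - k)) := by
      unfold FE
      rw [ksum_eq]
      push_cast
      refine Finset.sum_le_sum fun q _ => ?_
      exact exc_cast_le ha (c := mC L N k (L + 1 - k + q)) (q := L + 1 - k + q) (m := L - k)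
        (by omega)
    have e3 := mul_le_mul_of_nonneg_right e2 (gE_nonneg hρ hG k)
    rw [e1]
    refine (add_le_add le_rfl e3).trans ?_
    rw [Finset.sum_mul, Finset.sum_mul, ← Finset.sum_add_distrib]
    refine Finset.sum_le_sum fun q _ => ?_
    have h := mul_le_mul_of_nonneg_left (far1 hρ hG (L := L) (k := k) (q := q) (by omega))
      (Nat.cast_nonneg (α := ℝ) (mC L N k (L + 1 - k + q)))
    have e4 : L - k + 1 + q = L + 1 - k + q := by omega
    rw [e4]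
    refine le_trans (le_of_eq ?_) h
    ring
  · have e1 : (GI L N : ℝ) = ∑ k ∈ Finset.range L, ∑ q ∈ Finset.range (L - k),
        (mC L N (L + 1 + k) q : ℝ) := by
      unfold GI
      simp only [ksum_eq]
      push_cast
      rfl
    have e2 : (GE a s L N : ℝ) ≤ ∑ k ∈ Finset.range L, ∑ q ∈ Finset.range (L - k),
        (mC L N (L + 1 + k) q : ℝ) * (rho a s ^ q - 1) := by
      unfold GE
      simp only [ksum_eq]
      push_cast
      refine Finset.sum_le_sum fun k _ => Finset.sum_le_sum fun q _ => ?_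
      have := exc_cast_le ha (c := mC L N (L + 1 + k) q) (q := q) (m := 0) (Nat.zero_le _)
      rw [pow_zero] at this
      exact this
    have e3 := mul_le_mul_of_nonneg_right e2 (gE_nonneg hρ hG L)
    rw [e1]
    refine (add_le_add le_rfl e3).trans ?_
    rw [Finset.sum_mul, Finset.sum_mul, ← Finset.sum_add_distrib]
    refine Finset.sum_le_sum fun k hk => ?_
    have hk' := Finset.mem_range.1 hk
    rw [show L + 1 + L - (L + 1 + k) = L - k by omega, Finset.sum_mul, Finset.sum_mul,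
      ← Finset.sum_add_distrib]
    refine Finset.sum_le_sum fun q _ => ?_
    have h := mul_le_mul_of_nonneg_left (far2 hρ hG L k q)
      (Nat.cast_nonneg (α := ℝ) (mC L N (L + 1 + k) q))
    refine le_trans (le_of_eq ?_) h
    ring

lemma split_edge {a s : ℕ} (ha : 2 ^ s < a) (hG : SG G) {L : ℕ} (hL : 0 < L) (N : ℕ) :
    ∑ m ∈ Finset.range L, (mlte m * cfe L N m : ℝ) * gE (rho a s) G m +
      6 * (∑ m ∈ Finset.range (L + 1), (cfe L N (L + m) : ℝ)) * gE (rho a s) G L ≤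
    ∑ m ∈ Finset.range (2 * L + 1), (mlte m * cfe L N m : ℝ) * gE (rho a s) G m := by
  rw [show (2 * L + 1 : ℕ) = L + (L + 1) by ring, sum_add_range _ L (L + 1)]
  refine add_le_add le_rfl ?_
  rw [Finset.mul_sum, Finset.sum_mul]
  refine Finset.sum_le_sum fun m _ => ?_
  have e : mlte (L + m) = 6 := by
    obtain ⟨l, rfl⟩ := Nat.exists_eq_succ_of_ne_zero hL.ne'
    rw [Nat.succ_add]
    rfl
  rw [e]
  refine mul_le_mul_of_nonneg_left (gE_mono (one_lt_rho ha) hG (by omega)) (by positivity)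

/-- the constant `6 * 2 ^ 36` -/
def c0 : ℕ := 412316860416

theorem chkPr_sound {Ω₁ Ω₂ : Type*} {L₁ : Ω₁ → Fin 3 → ℝ} {L₂ : Ω₂ → Fin 3 → ℝ}
    (hL₁ : IsChan L₁) (hL₂ : IsChan L₂) {a s L K S₁ S₂ S' : ℕ} (hO : OK a s L K) (hL : 0 < L)
    (h : chkPr a s L S₁ S₂ S' = true)
    (h₁ : LB L₁ (rho a s) (L + 1) (Y L S₁) (E L S₁))
    (h₂ : LB L₂ (rho a s) (L + 1) (Y L S₂) (E L S₂)) :
    LB (mrg L₁ L₂) (rho a s) (L + 1) (Y L S') (E L S') := by
  intro G hG
  have hρ := one_lt_rho hO.one_lt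
  have hm := main_ineq hO hG S₁ S₂
  have hJ := h₁.mrg (rho_pos hO.one_lt) hL₁ hL₂ h₂ hG
  have e0 : chkPr a s L S₁ S₂ S' =
    chkPr2 a s L (NA a s L S₁ * NA a s L S₂) (NM a s L S₁ S₂) S' := rfl
  rw [e0] at h
  set N := NA a s L S₁ * NA a s L S₂ with hN
  set M := NM a s L S₁ S₂ with hM
  clear_value N M
  have s1 := split_far hO.one_lt hG L N
  have s2 := split_edge hO.one_lt hG hL M
  unfold chkPr2 at h
  rw [Bool.and_eq_true, Bool.and_eq_true, kall_iff] at h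
  obtain ⟨c1, c2, c3⟩ := h
  have c1' : ∀ k, k < L → (∀ j, j < L - k → (c0 * Y L S' k j : ℕ) ≤ mC L N k j) ∧
      (c0 * Y L S' k (L - k) ≤ mC L N k (L - k) + FI L N k) ∧
      (c0 * E L S' k ≤ FE a s L N k + mlte k * cfe L M k) := by
    intro k hk
    have h3 := c1 k hk
    rw [Bool.and_eq_true, Bool.and_eq_true, kall_iff] at h3
    obtain ⟨a1, a2, a3⟩ := h3
    refine ⟨fun j hj => Nat.le_of_ble_eq_true (a1 j hj), ?_, Nat.le_of_ble_eq_true a3⟩
    have a2' := Nat.le_of_ble_eq_true a2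
    have e : Y L S' k (L - k) = dig S' (idx L L (Nat.sub L k)) := by
      unfold Y
      have : k + (L - k) = L := by omega
      rw [this]
      rfl
    rw [e]
    exact a2'
  have c2' : c0 * Y L S' L 0 ≤ mC L N L 0 + (FI L N L + GI L N) := Nat.le_of_ble_eq_true c2
  have c3' : c0 * E L S' L ≤ (FE a s L N L + GE a s L N) +
      6 * ksum (L + 1) (fun m => cfe L M (L + m)) :=
    Nat.le_of_ble_eq_true c3
  rw [ksum_eq] at c3'
  -- real versions
  have hc0 : (c0 : ℝ) = 6 * 2 ^ 36 := by unfold c0; norm_num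
  have r2 : (6 * 2 ^ 36 : ℝ) * Y L S' L 0 ≤ mC L N L 0 + (FI L N L + GI L N) := by
    rw [← hc0]; exact_mod_cast c2'
  have r3 : (6 * 2 ^ 36 : ℝ) * E L S' L ≤ (FE a s L N L + GE a s L N) +
      6 * ∑ m ∈ Finset.range (L + 1), (cfe L M (L + m) : ℝ) := by
    rw [← hc0]; exact_mod_cast c3'
  have r1 : ∀ k, k < L → (∀ j, j < L - k → (6 * 2 ^ 36 : ℝ) * Y L S' k j ≤ mC L N k j) ∧
      ((6 * 2 ^ 36 : ℝ) * Y L S' k (L - k) ≤ mC L N k (L - k) + FI L N k) ∧
      ((6 * 2 ^ 36 : ℝ) * E L S' k ≤ FE a s L N k + mlte k * cfe L M k) := by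
    intro k hk
    obtain ⟨a1, a2, a3⟩ := c1' k hk
    refine ⟨fun j hj => ?_, ?_, ?_⟩
    · rw [← hc0]; exact_mod_cast a1 j hj
    · rw [← hc0]; exact_mod_cast a2
    · rw [← hc0]; exact_mod_cast a3
  -- the new functional
  have hI := gI_nonneg hρ hG
  have hE := gE_nonneg hρ hG
  have hU : (6 * 2 ^ 36 : ℝ) * Uf (rho a s) (L + 1) (Y L S') (E L S') G ≤
      (∑ k ∈ Finset.range (L + 1), (∑ j ∈ Finset.range (L - k), (mC L N k j : ℝ) *
          gI (rho a s) G (k + j) j +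
      ((mC L N k (L - k) : ℝ) + FI L N k) * gI (rho a s) G L (L - k) +
      FE a s L N k * gE (rho a s) G k) +
      GI L N * gI (rho a s) G L 0 + GE a s L N * gE (rho a s) G L) +
      (∑ m ∈ Finset.range L, (mlte m * cfe L M m : ℝ) * gE (rho a s) G m +
      6 * (∑ m ∈ Finset.range (L + 1), (cfe L M (L + m) : ℝ)) * gE (rho a s) G L) := by
    unfold Uf
    rw [← sum_sec (L + 1) (fun k j => (Y L S' k j : ℝ) *
      gs G (rho a s ^ (k + j)) (rho a s ^ j) 1)]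
    rw [mul_add, Finset.mul_sum, Finset.mul_sum]
    rw [Finset.sum_range_succ, Finset.sum_range_succ (n := L), Finset.sum_range_succ
      (f := fun k => (∑ j ∈ Finset.range (L - k), (mC L N k j : ℝ) * gI (rho a s) G (k + j) j +
      ((mC L N k (L - k) : ℝ) + FI L N k) * gI (rho a s) G L (L - k) +
      FE a s L N k * gE (rho a s) G k))]
    have t1 : ∑ k ∈ Finset.range L, (6 * 2 ^ 36 : ℝ) * ∑ j ∈ Finset.range (L + 1 - k),
          (Y L S' k j : ℝ) * gs G (rho a s ^ (k + j)) (rho a s ^ j) 1 +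
        ∑ k ∈ Finset.range L, (6 * 2 ^ 36 : ℝ) * ((E L S' k : ℝ) * gs G (rho a s ^ k) 1 0) ≤
        ∑ k ∈ Finset.range L, (∑ j ∈ Finset.range (L - k), (mC L N k j : ℝ) *
          gI (rho a s) G (k + j) j +
        ((mC L N k (L - k) : ℝ) + FI L N k) * gI (rho a s) G L (L - k) +
        FE a s L N k * gE (rho a s) G k) +
        ∑ m ∈ Finset.range L, (mlte m * cfe L M m : ℝ) * gE (rho a s) G m := by
      rw [← Finset.sum_add_distrib, ← Finset.sum_add_distrib]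
      refine Finset.sum_le_sum fun k hk => ?_
      have hk' := Finset.mem_range.1 hk
      obtain ⟨a1, a2, a3⟩ := r1 k hk'
      rw [show L + 1 - k = L - k + 1 by omega, Finset.sum_range_succ, mul_add, Finset.mul_sum]
      have e0 : k + (L - k) = L := by omega
      rw [e0]
      have b1 : ∑ j ∈ Finset.range (L - k), (6 * 2 ^ 36 : ℝ) *
          ((Y L S' k j : ℝ) * gs G (rho a s ^ (k + j)) (rho a s ^ j) 1) ≤
          ∑ j ∈ Finset.range (L - k), (mC L N k j : ℝ) * gI (rho a s) G (k + j) j := by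
        refine Finset.sum_le_sum fun j hj => ?_
        rw [← mul_assoc]
        exact mul_le_mul_of_nonneg_right (a1 j (Finset.mem_range.1 hj)) (hI _ _)
      have b2 := mul_le_mul_of_nonneg_right a2 (hI L (L - k))
      have b3 := mul_le_mul_of_nonneg_right a3 (hE k)
      unfold gI gE at *
      linarith
    have t2 : (6 * 2 ^ 36 : ℝ) * ∑ j ∈ Finset.range (L + 1 - L),
          (Y L S' L j : ℝ) * gs G (rho a s ^ (L + j)) (rho a s ^ j) 1 =
        (6 * 2 ^ 36 : ℝ) * Y L S' L 0 * gI (rho a s) G L 0 := by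
      rw [show L + 1 - L = 1 by omega, Finset.sum_range_one]
      unfold gI
      rw [add_zero]
      ring
    have t3 := mul_le_mul_of_nonneg_right r2 (hI L 0)
    have t4 := mul_le_mul_of_nonneg_right r3 (hE L)
    rw [t2]
    rw [show L - L = 0 by omega, Finset.sum_range_zero]
    unfold gE at *
    linarith
  have hfin : (6 * 2 ^ 36 : ℝ) * Uf (rho a s) (L + 1) (Y L S') (E L S') G ≤
      6 * (2 ^ 72 * J G (mrg L₁ L₂)) := by
    linarith
  have h6 : (6 : ℝ) * (2 ^ 72 * J G (mrg L₁ L₂)) =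
      6 * 2 ^ 36 * (2 ^ 36 * J G (mrg L₁ L₂)) := by ring
  rw [h6] at hfin
  exact le_of_mul_le_mul_left hfin (by positivity)

end Crest.Agent.R163.DG
end

-- ▼ part R163/DG7

/-!
Row 163, generic density evolution: one level of the regular tree, final bound on chi-square.
-/

set_option autoImplicit false

namespace Crest.Agent.R163.DG

open Crest.Agent.R163

open Crest.Agent.R163.DE (SG gs sec ksum kall dig sum_sec ksum_eq kall_iff dig_zero J_pw_add
  gs_gchi chi_single)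

lemma LB.congr {Ω Ω' : Type*} {C : Ω → Fin 3 → ℝ} {C' : Ω' → Fin 3 → ℝ} {ρ : ℝ} {n : ℕ}
    {y : ℕ → ℕ → ℕ} {e : ℕ → ℕ} (h : LB C ρ n y e)
    (hJ : ∀ φ : (Fin 3 → ℝ) → ℝ, J φ C' = J φ C) : LB C' ρ n y e := by
  intro G hG
  rw [hJ]
  exact h G hG

/-- state `S` is a lower bound of the `b`-ary tree of depth `n` -/
def Lev (b : ℕ) (lam : ℝ) (a s L n S : ℕ) : Prop :=
  LB (reg 3 b lam n) (rho a s) (L + 1) (Y L S) (E L S)

/-- state `S` is a lower bound of the `m`-th power of an edge of the `b`-ary tree -/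
def PW (b : ℕ) (lam : ℝ) (a s L n m S : ℕ) : Prop :=
  LB (pw (fun o => W lam (reg 3 b lam n o)) m) (rho a s) (L + 1) (Y L S) (E L S)

theorem lev_zero {b : ℕ} {lam : ℝ} (hl : Adm 3 lam) (a s L : ℕ) : Lev b lam a s L 0 0 := by
  intro G hG
  have h1 : Uf (rho a s) (L + 1) (Y L 0) (E L 0) G = 0 := by
    unfold Uf
    have hY : ∀ k j, Y L 0 k j = 0 := fun k j => dig_zero _
    have hE : ∀ k, E L 0 k = 0 := fun k => dig_zero _
    simp [hY, hE]
  rw [h1]
  have h2 : 0 ≤ J G (reg 3 b lam 0) :=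
    (reg_isChan b hl 0).J_nonneg fun v hv => hG.nn v hv
  positivity

theorem PW.mul {b : ℕ} {lam : ℝ} {a s L K n m₁ m₂ S₁ S₂ S' : ℕ} (hl : Adm 3 lam)
    (hO : OK a s L K) (hL : 0 < L)
    (h₁ : PW b lam a s L n m₁ S₁) (h₂ : PW b lam a s L n m₂ S₂)
    (hc : chkPr a s L S₁ S₂ S' = true) : PW b lam a s L n (m₁ + m₂) S' := by
  have hcW := (reg_isChan (q := 3) b hl n).edge hl
  exact LB.congr (chkPr_sound (hcW.pw m₁) (hcW.pw m₂) hO hL hc h₁ h₂) fun φ => J_pw_add φ _ m₁ m₂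

theorem PW.lev {b : ℕ} {lam : ℝ} {a s L n S : ℕ} (h : PW b lam a s L n b S) :
    Lev b lam a s L (n + 1) S :=
  LB.congr h fun φ => J_reg_succ φ b lam n

/-- parameters of one level: source lattice `a s L`, target lattice `a' s' L'` -/
structure Ctx (a s L a' s' L' : ℕ) (lam : ℝ) (T : ℕ) : Prop where
  adm : Adm 3 lam
  lt : 2 ^ s < a
  size : (L + 1) ^ 2 + (L + 2) < 2 ^ 20
  pos : 0 < L'
  ok : ∃ K, OK a' s' L' K
  tab : TabOK a s L a' s' L' lam T

theorem Ctx.edge {a s L a' s' L' : ℕ} {lam : ℝ} {T b n S₀ S₁ : ℕ} (c : Ctx a s L a' s' L' lam T)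
    (h : Lev b lam a s L n S₀) (hc : chkW a s L L' T S₀ S₁ = true) :
    PW b lam a' s' L' n 1 S₁ := by
  obtain ⟨K, hK⟩ := c.ok
  have l1 := chkW_sound (reg_isChan (q := 3) b c.adm n) c.adm c.lt hK.one_lt c.size c.tab hc h
  exact LB.congr l1 fun φ => J_pw_one φ _

theorem ctx_of {a s L a' s' L' K p r T : ℕ} (hr : 0 < r) (hpr : 2 * p ≤ r) (h1 : 2 ^ s < a)
    (h2 : (L + 1) ^ 2 + (L + 2) < 2 ^ 20) (h3 : 0 < L') (h4 : OK a' s' L' K)
    (h5 : chkT a s L a' s' L' p r T = true) : Ctx a s L a' s' L' (-(p / r : ℝ)) T where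
  adm := by
    have hr' : (0 : ℝ) < r := by exact_mod_cast hr
    have hpr' : (2 : ℝ) * p ≤ r := by exact_mod_cast hpr
    refine adm3_neg (by positivity) ?_
    rw [div_le_iff₀ hr']
    linarith
  lt := h1
  size := h2
  pos := h3
  ok := ⟨K, h4⟩
  tab := tabOK_of_chkT h1 h4.one_lt hr hpr h5

section steps

variable {a s L a' s' L' : ℕ} {lam : ℝ} {T n S₀ S₁ S₂ S₃ S₄ S₅ S₆ : ℕ}

theorem Ctx.step4 (c : Ctx a s L a' s' L' lam T) (h : Lev 4 lam a s L n S₀)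
    (h₁ : chkW a s L L' T S₀ S₁ = true) (h₂ : chkPr a' s' L' S₁ S₁ S₂ = true)
    (h₃ : chkPr a' s' L' S₂ S₂ S₃ = true) : Lev 4 lam a' s' L' (n + 1) S₃ := by
  obtain ⟨K, hK⟩ := c.ok
  have p1 := c.edge h h₁
  have p2 := p1.mul c.adm hK c.pos p1 h₂
  exact (p2.mul c.adm hK c.pos p2 h₃).lev

theorem Ctx.step5 (c : Ctx a s L a' s' L' lam T) (h : Lev 5 lam a s L n S₀)
    (h₁ : chkW a s L L' T S₀ S₁ = true) (h₂ : chkPr a' s' L' S₁ S₁ S₂ = true)
    (h₃ : chkPr a' s' L' S₂ S₂ S₃ = true) (h₄ : chkPr a' s' L' S₃ S₁ S₄ = true) :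
    Lev 5 lam a' s' L' (n + 1) S₄ := by
  obtain ⟨K, hK⟩ := c.ok
  have p1 := c.edge h h₁
  have p2 := p1.mul c.adm hK c.pos p1 h₂
  have p4 := p2.mul c.adm hK c.pos p2 h₃
  exact (p4.mul c.adm hK c.pos p1 h₄).lev

theorem Ctx.step6 (c : Ctx a s L a' s' L' lam T) (h : Lev 6 lam a s L n S₀)
    (h₁ : chkW a s L L' T S₀ S₁ = true) (h₂ : chkPr a' s' L' S₁ S₁ S₂ = true)
    (h₃ : chkPr a' s' L' S₂ S₂ S₃ = true) (h₄ : chkPr a' s' L' S₃ S₂ S₄ = true) :
    Lev 6 lam a' s' L' (n + 1) S₄ := by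
  obtain ⟨K, hK⟩ := c.ok
  have p1 := c.edge h h₁
  have p2 := p1.mul c.adm hK c.pos p1 h₂
  have p4 := p2.mul c.adm hK c.pos p2 h₃
  exact (p4.mul c.adm hK c.pos p2 h₄).lev

/-- `Q³ = Q² Q`, `Q⁴ = Q² Q²`, `Q⁷ = Q⁴ Q³` -/
theorem Ctx.step7 (c : Ctx a s L a' s' L' lam T) (h : Lev 7 lam a s L n S₀)
    (h₁ : chkW a s L L' T S₀ S₁ = true) (h₂ : chkPr a' s' L' S₁ S₁ S₂ = true)
    (h₃ : chkPr a' s' L' S₂ S₁ S₃ = true) (h₄ : chkPr a' s' L' S₂ S₂ S₄ = true)
    (h₅ : chkPr a' s' L' S₄ S₃ S₅ = true) : Lev 7 lam a' s' L' (n + 1) S₅ := by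
  obtain ⟨K, hK⟩ := c.ok
  have p1 := c.edge h h₁
  have p2 := p1.mul c.adm hK c.pos p1 h₂
  have p3 := p2.mul c.adm hK c.pos p1 h₃
  have p4 := p2.mul c.adm hK c.pos p2 h₄
  exact (p4.mul c.adm hK c.pos p3 h₅).lev

end steps


/-! ### final evaluation -/

theorem LB.J_le {Ω : Type*} {C : Ω → Fin 3 → ℝ} (hC : IsChan C) {ρ : ℝ} {n : ℕ}
    {y : ℕ → ℕ → ℕ} {e : ℕ → ℕ} (h : LB C ρ n y e) {φ : (Fin 3 → ℝ) → ℝ} (hφ : CH φ) :
    2 ^ 36 * J φ C ≤ 2 ^ 36 * ∑ i, φ (Pi.single i 1) -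
      Uf ρ n y e (fun v => ∑ i, v i * φ (Pi.single i 1) - φ v) := by
  have h1 := h _ (SG.of_CH hφ)
  have h2 : J (fun v => ∑ i, v i * φ (Pi.single i 1) - φ v) C =
      ∑ i, φ (Pi.single i 1) - J φ C := by
    have hs : HasSum (fun o => ∑ i, C o i * φ (Pi.single i 1)) (∑ i, φ (Pi.single i 1)) := by
      have := hasSum_sum (s := Finset.univ) fun (i : Fin 3) _ =>
        (hC.hasSum i).mul_right (φ (Pi.single i 1))
      simpa using this
    have := hs.sub (hC.summable hφ.bdd).hasSum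
    exact this.tsum_eq
  rw [h2] at h1
  linarith

/-- integer lower bound of `2 ^ 20 * N * gs`, `N = 2 ^ (s L)` the scale of the arguments -/
def gv (N x y z : Nat) : Nat :=
  Nat.div (Nat.mul 12582912 (Nat.add (Nat.add (Nat.mul x y) (Nat.mul y z)) (Nat.mul z x)))
    (Nat.mul N (Nat.add (Nat.add x y) z))

/-- final evaluation -/
def fin (a s L S : Nat) : Nat :=
  Nat.add (ksum (Nat.succ L) fun k => ksum (Nat.sub (Nat.succ L) k) fun j =>
    Nat.mul (dig S (idx L (Nat.add k j) j))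
      (gv (rr a s L 0) (rr a s L (Nat.add k j)) (rr a s L j) (rr a s L 0)))
   (ksum (Nat.succ L) fun k => Nat.mul (dig S (Nat.add (ei L) k))
     (gv (rr a s L 0) (rr a s L k) (rr a s L 0) 0))

lemma gv_le {N a b c : ℕ} {M x y z : ℝ} (hM : 0 < M) (hN : (N : ℝ) = M) (hx : (a : ℝ) = M * x)
    (hy : (b : ℝ) = M * y) (hz : (c : ℝ) = M * z) (hs : 0 < x + y + z) :
    (gv N a b c : ℝ) ≤ 2 ^ 20 *
      gs (fun v => ∑ i, v i * chi (Pi.single i (1 : ℝ) : Fin 3 → ℝ) - chi v) x y z := by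
  rw [gs_gchi hs]
  have h1 : gv N a b c = (12582912 * (a * b + b * c + c * a)) / (N * (a + b + c)) := rfl
  rw [h1]
  refine Nat.cast_div_le.trans ?_
  push_cast
  rw [hx, hy, hz, hN]
  refine le_of_eq ?_
  have h2 : M * x + M * y + M * z = M * (x + y + z) := by ring
  rw [h2]
  have h3 : x + y + z ≠ 0 := hs.ne'
  field_simp
  norm_num
  ring

theorem J_chi_le {b : ℕ} {lam : ℝ} (hl : Adm 3 lam) {a s L n S : ℕ} (ha : 2 ^ s < a)
    (h : Lev b lam a s L n S) {B : ℕ} (hB : Nat.ble B (fin a s L S) = true) :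
    J chi (reg 3 b lam n) ≤ 2 - B / 2 ^ 56 := by
  have hL := reg_isChan (q := 3) b hl n
  have h1 := LB.J_le hL h (ch_chi (q := 3))
  have hρ := rho_pos ha
  have hM : (0 : ℝ) < 2 ^ (s * L) := by positivity
  have h2 : ∑ i : Fin 3, chi (Pi.single i (1 : ℝ) : Fin 3 → ℝ) = 2 := by
    simp only [chi_single]
    rw [Fin.sum_univ_three]; norm_num
  rw [h2] at h1
  have h3 : (fin a s L S : ℝ) ≤ 2 ^ 20 * Uf (rho a s) (L + 1) (Y L S) (E L S)
      (fun v => ∑ i, v i * chi (Pi.single i (1 : ℝ) : Fin 3 → ℝ) - chi v) := by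
    unfold fin Uf
    simp only [ksum_eq]
    have e : ∀ a b : ℕ, Nat.add a b = a + b := fun _ _ => rfl
    rw [e, ← sum_sec (L + 1) (fun k j => (Y L S k j : ℝ) *
      gs (fun v => ∑ i, v i * chi (Pi.single i (1 : ℝ) : Fin 3 → ℝ) - chi v)
        (rho a s ^ (k + j)) (rho a s ^ j) 1)]
    push_cast
    rw [mul_add, Finset.mul_sum, Finset.mul_sum]
    refine add_le_add ?_ ?_
    · refine Finset.sum_le_sum fun k hk => ?_
      rw [Finset.mul_sum]
      refine Finset.sum_le_sum fun j hj => ?_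
      have hk' := Finset.mem_range.1 hk
      have hj' : j < L + 1 - k := Finset.mem_range.1 hj
      change ((dig S (idx L (k + j) j) *
        gv (rr a s L 0) (rr a s L (k + j)) (rr a s L j) (rr a s L 0) : ℕ) : ℝ) ≤ _
      rw [Nat.cast_mul]
      have h4 := mul_le_mul_of_nonneg_left (gv_le hM (rr_zero a s L)
        (rr_cast (a := a) (s := s) (L := L) (i := k + j) (by omega))
        (rr_cast (a := a) (s := s) (L := L) (i := j) (by omega))
        (c := rr a s L 0) (z := 1) (by rw [rr_zero, mul_one])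
        (by have := pow_pos hρ (k + j); have := pow_pos hρ j; linarith))
        (Nat.cast_nonneg (α := ℝ) (dig S (idx L (k + j) j)))
      refine h4.trans (le_of_eq ?_)
      unfold Y
      ring
    · refine Finset.sum_le_sum fun k hk => ?_
      have hk' := Finset.mem_range.1 hk
      change ((dig S (ei L + k) * gv (rr a s L 0) (rr a s L k) (rr a s L 0) 0 : ℕ) : ℝ) ≤ _
      rw [Nat.cast_mul]
      have h4 := mul_le_mul_of_nonneg_left (gv_le hM (rr_zero a s L)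
        (rr_cast (a := a) (s := s) (L := L) (i := k) (by omega))
        (b := rr a s L 0) (y := 1) (c := 0) (z := 0) (by rw [rr_zero, mul_one])
        (by rw [mul_zero]; norm_num)
        (by have := pow_pos hρ k; linarith))
        (Nat.cast_nonneg (α := ℝ) (dig S (ei L + k)))
      refine h4.trans (le_of_eq ?_)
      unfold E
      ring
  have h5 : (B : ℝ) ≤ fin a s L S := by exact_mod_cast Nat.le_of_ble_eq_true hB
  have h6 : (2 : ℝ) - B / 2 ^ 56 = (2 ^ 56 * 2 - B) / 2 ^ 56 := by field_simp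
  rw [h6, le_div_iff₀ (by positivity)]
  norm_num at h1 h3 ⊢
  linarith

/-- strict bound at level `n` -/
theorem regLt_of {b p r : ℕ} (hr : 0 < r) (hpr : 2 * p ≤ r) {a s L n S : ℕ} (ha : 2 ^ s < a)
    (h : Lev b (-(p / r : ℝ)) a s L n S) {B : ℕ} (hB : Nat.ble B (fin a s L S) = true) {x : ℝ}
    (hx : 2 - (B : ℝ) / 2 ^ 56 < x) : RegLt b (p / r : ℝ) x := by
  refine ⟨n, lt_of_le_of_lt (J_chi_le ?_ ha h hB) hx⟩
  have hr' : (0 : ℝ) < r := by exact_mod_cast hr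
  have hpr' : (2 : ℝ) * p ≤ r := by exact_mod_cast hpr
  refine adm3_neg (by positivity) ?_
  rw [div_le_iff₀ hr']
  linarith

end Crest.Agent.R163.DG
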