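import Mathlib
import Crest.Prelude.Def_Broadcast

-- ▼ part R163/Chan
section

/-!
Row 163: discrete `q`-ary channels (families of likelihood vectors), functionals of them,
merging, and the transfer of pointwise orbit inequalities to functionals.
-/

set_option autoImplicit false

namespace Crest.Agent.R163

variable {q : ℕ}

/-- mean of a vector -/
noncomputable def avg (v : Fin q → ℝ) : ℝ := (∑ i, v i) / q

/-- A symmetric discrete channel, given by its family of likelihood vectors. -/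
structure IsChan {Ω : Type*} (L : Ω → Fin q → ℝ) : Prop where
  nonneg : ∀ o i, 0 ≤ L o i
  hasSum : ∀ i, HasSum (fun o => L o i) 1
  symm : ∀ σ : Equiv.Perm (Fin q), ∃ e : Ω ≃ Ω, ∀ o i, L (e o) (σ i) = L o i

/-- the functional `∑' o, φ (L o)` -/
noncomputable def J {Ω : Type*} (φ : (Fin q → ℝ) → ℝ) (L : Ω → Fin q → ℝ) : ℝ :=
  ∑' o, φ (L o)

/-- `φ` is dominated by a multiple of the mean on nonnegative vectors. -/
def Bdd (φ : (Fin q → ℝ) → ℝ) : Prop :=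
  ∃ K : ℝ, 0 ≤ K ∧ ∀ v : Fin q → ℝ, (∀ i, 0 ≤ v i) → |φ v| ≤ K * avg v

lemma avg_nonneg {v : Fin q → ℝ} (hv : ∀ i, 0 ≤ v i) : 0 ≤ avg v :=
  div_nonneg (Finset.sum_nonneg fun i _ => hv i) (Nat.cast_nonneg _)

lemma bdd_avg : Bdd (avg (q := q)) :=
  ⟨1, zero_le_one, fun v hv => by rw [abs_of_nonneg (avg_nonneg hv), one_mul]⟩

lemma Bdd.add {φ ψ : (Fin q → ℝ) → ℝ} (h₁ : Bdd φ) (h₂ : Bdd ψ) : Bdd (fun v => φ v + ψ v) := by
  obtain ⟨K, hK, h⟩ := h₁
  obtain ⟨K', hK', h'⟩ := h₂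
  refine ⟨K + K', add_nonneg hK hK', fun v hv => ?_⟩
  calc |φ v + ψ v| ≤ |φ v| + |ψ v| := abs_add_le _ _
    _ ≤ K * avg v + K' * avg v := add_le_add (h v hv) (h' v hv)
    _ = (K + K') * avg v := by ring

lemma Bdd.const_mul {φ : (Fin q → ℝ) → ℝ} (c : ℝ) (h₁ : Bdd φ) : Bdd (fun v => c * φ v) := by
  obtain ⟨K, hK, h⟩ := h₁
  refine ⟨|c| * K, mul_nonneg (abs_nonneg _) hK, fun v hv => ?_⟩
  rw [abs_mul, mul_assoc]
  exact mul_le_mul_of_nonneg_left (h v hv) (abs_nonneg _)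

lemma Bdd.neg {φ : (Fin q → ℝ) → ℝ} (h₁ : Bdd φ) : Bdd (fun v => -φ v) := by
  simpa using h₁.const_mul (-1)

lemma Bdd.sub {φ ψ : (Fin q → ℝ) → ℝ} (h₁ : Bdd φ) (h₂ : Bdd ψ) : Bdd (fun v => φ v - ψ v) := by
  simpa [sub_eq_add_neg] using h₁.add h₂.neg

lemma Bdd.congr {φ ψ : (Fin q → ℝ) → ℝ} (h₁ : Bdd φ)
    (h : ∀ v : Fin q → ℝ, (∀ i, 0 ≤ v i) → ψ v = φ v) : Bdd ψ := by
  obtain ⟨K, hK, h'⟩ := h₁
  exact ⟨K, hK, fun v hv => by rw [h v hv]; exact h' v hv⟩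

section basic

variable {Ω : Type*} {L : Ω → Fin q → ℝ}

lemma IsChan.avg_hasSum [NeZero q] (h : IsChan L) : HasSum (fun o => avg (L o)) 1 := by
  have h1 : HasSum (fun o => ∑ i, L o i) (∑ _i : Fin q, (1 : ℝ)) :=
    hasSum_sum fun i _ => h.hasSum i
  have h2 := h1.div_const (q : ℝ)
  have hq : (q : ℝ) ≠ 0 := Nat.cast_ne_zero.mpr (NeZero.ne q)
  simpa [avg, hq] using h2

lemma IsChan.J_avg [NeZero q] (h : IsChan L) : J avg L = 1 := h.avg_hasSum.tsum_eq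

lemma IsChan.summable [NeZero q] (h : IsChan L) {φ : (Fin q → ℝ) → ℝ} (hφ : Bdd φ) :
    Summable (fun o => φ (L o)) := by
  obtain ⟨K, _, hK⟩ := hφ
  refine Summable.of_norm_bounded (h.avg_hasSum.summable.mul_left K) fun o => ?_
  rw [Real.norm_eq_abs]
  exact hK _ (h.nonneg o)

lemma IsChan.summable_abs [NeZero q] (h : IsChan L) {φ : (Fin q → ℝ) → ℝ} (hφ : Bdd φ) :
    Summable (fun o => |φ (L o)|) := by
  simpa [Real.norm_eq_abs] using (h.summable hφ).norm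

lemma IsChan.J_mono [NeZero q] (h : IsChan L) {φ ψ : (Fin q → ℝ) → ℝ} (hφ : Bdd φ) (hψ : Bdd ψ)
    (hle : ∀ v : Fin q → ℝ, (∀ i, 0 ≤ v i) → φ v ≤ ψ v) : J φ L ≤ J ψ L :=
  Summable.tsum_le_tsum (fun o => hle _ (h.nonneg o)) (h.summable hφ) (h.summable hψ)

lemma IsChan.J_nonneg (h : IsChan L) {φ : (Fin q → ℝ) → ℝ}
    (hle : ∀ v : Fin q → ℝ, (∀ i, 0 ≤ v i) → 0 ≤ φ v) : 0 ≤ J φ L :=
  tsum_nonneg fun o => hle _ (h.nonneg o)

lemma IsChan.J_add [NeZero q] (h : IsChan L) {φ ψ : (Fin q → ℝ) → ℝ} (hφ : Bdd φ) (hψ : Bdd ψ) :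
    J (fun v => φ v + ψ v) L = J φ L + J ψ L :=
  (h.summable hφ).tsum_add (h.summable hψ)

lemma IsChan.J_sub [NeZero q] (h : IsChan L) {φ ψ : (Fin q → ℝ) → ℝ} (hφ : Bdd φ) (hψ : Bdd ψ) :
    J (fun v => φ v - ψ v) L = J φ L - J ψ L :=
  (h.summable hφ).tsum_sub (h.summable hψ)

lemma J_const_mul (c : ℝ) (φ : (Fin q → ℝ) → ℝ) (L : Ω → Fin q → ℝ) :
    J (fun v => c * φ v) L = c * J φ L := tsum_mul_left


/-- reindexing -/
lemma J_equiv {Ω' : Type*} (e : Ω' ≃ Ω) (φ : (Fin q → ℝ) → ℝ) (L : Ω → Fin q → ℝ) :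
    J φ (fun o => L (e o)) = J φ L := e.tsum_eq (fun o => φ (L o))

lemma IsChan.reindex {Ω' : Type*} (h : IsChan L) (e : Ω' ≃ Ω) : IsChan (fun o => L (e o)) where
  nonneg o i := h.nonneg _ i
  hasSum i := (e.hasSum_iff (f := fun o => L o i)).2 (h.hasSum i)
  symm σ := by
    obtain ⟨f, hf⟩ := h.symm σ
    refine ⟨(e.trans f).trans e.symm, fun o i => ?_⟩
    simp [hf]

/-- a symmetric channel functional does not see a permutation of the spins -/
lemma IsChan.tsum_perm (h : IsChan L) (φ : (Fin q → ℝ) → ℝ) (σ : Equiv.Perm (Fin q)) :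
    ∑' o, φ (fun i => L o (σ i)) = J φ L := by
  obtain ⟨e, he⟩ := h.symm σ
  rw [← e.tsum_eq (fun o => φ (fun i => L o (σ i)))]
  refine tsum_congr fun o => ?_
  congr 1
  funext i
  exact he o i

end basic

section merge

variable {Ω₁ Ω₂ : Type*}

/-- merging two conditionally independent observations -/
def mrg (L₁ : Ω₁ → Fin q → ℝ) (L₂ : Ω₂ → Fin q → ℝ) : Ω₁ × Ω₂ → Fin q → ℝ :=
  fun p i => L₁ p.1 i * L₂ p.2 i

lemma IsChan.mrg {L₁ : Ω₁ → Fin q → ℝ} {L₂ : Ω₂ → Fin q → ℝ} (h₁ : IsChan L₁)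
    (h₂ : IsChan L₂) : IsChan (mrg L₁ L₂) where
  nonneg p i := mul_nonneg (h₁.nonneg _ _) (h₂.nonneg _ _)
  hasSum i := by
    have hs : Summable (fun p : Ω₁ × Ω₂ => L₁ p.1 i * L₂ p.2 i) :=
      (h₁.hasSum i).summable.mul_of_nonneg (h₂.hasSum i).summable (fun o => h₁.nonneg o i)
        (fun o => h₂.nonneg o i)
    have := (h₁.hasSum i).mul (h₂.hasSum i) hs
    simpa [R163.mrg] using this
  symm σ := by
    obtain ⟨e, he⟩ := h₁.symm σ
    obtain ⟨f, hf⟩ := h₂.symm σ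
    refine ⟨e.prodCongr f, fun p i => ?_⟩
    simp [R163.mrg, he, hf]

/-- orbit average of `φ (u * σ v)` over all permutations -/
noncomputable def orb (φ : (Fin q → ℝ) → ℝ) (u v : Fin q → ℝ) : ℝ :=
  (∑ σ : Equiv.Perm (Fin q), φ (fun i => u i * v (σ i))) / (Nat.factorial q)

lemma J_mrg_perm {L₁ : Ω₁ → Fin q → ℝ} {L₂ : Ω₂ → Fin q → ℝ}
    (h₂ : IsChan L₂) (φ : (Fin q → ℝ) → ℝ) (σ : Equiv.Perm (Fin q)) :
    ∑' p : Ω₁ × Ω₂, φ (fun i => L₁ p.1 i * L₂ p.2 (σ i)) = J φ (mrg L₁ L₂) := by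
  obtain ⟨e, he⟩ := h₂.symm σ
  rw [← ((Equiv.refl Ω₁).prodCongr e).tsum_eq
    (fun p : Ω₁ × Ω₂ => φ (fun i => L₁ p.1 i * L₂ p.2 (σ i)))]
  refine tsum_congr fun p => ?_
  congr 1
  funext i
  simp [mrg, he]

lemma summable_mrg_perm [NeZero q] {L₁ : Ω₁ → Fin q → ℝ} {L₂ : Ω₂ → Fin q → ℝ}
    (h₁ : IsChan L₁) (h₂ : IsChan L₂) {φ : (Fin q → ℝ) → ℝ} (hφ : Bdd φ)
    (σ : Equiv.Perm (Fin q)) :
    Summable (fun p : Ω₁ × Ω₂ => φ (fun i => L₁ p.1 i * L₂ p.2 (σ i))) := by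
  obtain ⟨e, he⟩ := h₂.symm σ
  rw [← ((Equiv.refl Ω₁).prodCongr e).summable_iff]
  refine ((h₁.mrg h₂).summable hφ).congr fun p => ?_
  simp only [Function.comp]
  congr 1
  funext i
  simp [mrg, he]

lemma J_mrg_orb [NeZero q] {L₁ : Ω₁ → Fin q → ℝ} {L₂ : Ω₂ → Fin q → ℝ}
    (h₁ : IsChan L₁) (h₂ : IsChan L₂) {φ : (Fin q → ℝ) → ℝ} (hφ : Bdd φ) :
    HasSum (fun p : Ω₁ × Ω₂ => orb φ (L₁ p.1) (L₂ p.2)) (J φ (mrg L₁ L₂)) := by
  have h : HasSum (fun p : Ω₁ × Ω₂ => ∑ σ : Equiv.Perm (Fin q),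
      φ (fun i => L₁ p.1 i * L₂ p.2 (σ i)))
      (∑ _σ : Equiv.Perm (Fin q), J φ (mrg L₁ L₂)) := by
    refine hasSum_sum fun σ _ => ?_
    rw [← J_mrg_perm h₂ φ σ]
    exact (summable_mrg_perm h₁ h₂ hφ σ).hasSum
  have h2 := h.div_const (Nat.factorial q : ℝ)
  have hf : (Nat.factorial q : ℝ) ≠ 0 := by exact_mod_cast Nat.factorial_ne_zero q
  simpa [orb, Finset.sum_const, Finset.card_univ, Fintype.card_perm, nsmul_eq_mul, hf] using h2

lemma hasSum_mul_J [NeZero q] {L₁ : Ω₁ → Fin q → ℝ} {L₂ : Ω₂ → Fin q → ℝ}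
    (h₁ : IsChan L₁) (h₂ : IsChan L₂) {α β : (Fin q → ℝ) → ℝ} (hα : Bdd α) (hβ : Bdd β) :
    HasSum (fun p : Ω₁ × Ω₂ => α (L₁ p.1) * β (L₂ p.2)) (J α L₁ * J β L₂) := by
  have hs : Summable (fun p : Ω₁ × Ω₂ => α (L₁ p.1) * β (L₂ p.2)) :=
    summable_mul_of_summable_norm (h₁.summable hα).norm (h₂.summable hβ).norm
  have := (h₁.summable hα).tsum_mul_tsum (h₂.summable hβ) hs
  unfold J
  rw [this]
  exact hs.hasSum

/-- transfer of a pointwise orbit inequality (upper bound) -/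
theorem J_mrg_le [NeZero q] {L₁ : Ω₁ → Fin q → ℝ} {L₂ : Ω₂ → Fin q → ℝ}
    (h₁ : IsChan L₁) (h₂ : IsChan L₂) {φ : (Fin q → ℝ) → ℝ} (hφ : Bdd φ)
    {κ : Type*} (s : Finset κ) {α β : κ → (Fin q → ℝ) → ℝ} (hα : ∀ k ∈ s, Bdd (α k))
    (hβ : ∀ k ∈ s, Bdd (β k))
    (H : ∀ u v : Fin q → ℝ, (∀ i, 0 ≤ u i) → (∀ i, 0 ≤ v i) →
      orb φ u v ≤ ∑ k ∈ s, α k u * β k v) :
    J φ (mrg L₁ L₂) ≤ ∑ k ∈ s, J (α k) L₁ * J (β k) L₂ := by
  have hr : HasSum (fun p : Ω₁ × Ω₂ => ∑ k ∈ s, α k (L₁ p.1) * β k (L₂ p.2))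
      (∑ k ∈ s, J (α k) L₁ * J (β k) L₂) :=
    hasSum_sum fun k hk => hasSum_mul_J h₁ h₂ (hα k hk) (hβ k hk)
  exact hasSum_le (fun p => H _ _ (h₁.nonneg _) (h₂.nonneg _)) (J_mrg_orb h₁ h₂ hφ) hr

/-- transfer of a pointwise orbit inequality (lower bound) -/
theorem le_J_mrg [NeZero q] {L₁ : Ω₁ → Fin q → ℝ} {L₂ : Ω₂ → Fin q → ℝ}
    (h₁ : IsChan L₁) (h₂ : IsChan L₂) {φ : (Fin q → ℝ) → ℝ} (hφ : Bdd φ)
    {κ : Type*} (s : Finset κ) {α β : κ → (Fin q → ℝ) → ℝ} (hα : ∀ k ∈ s, Bdd (α k))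
    (hβ : ∀ k ∈ s, Bdd (β k))
    (H : ∀ u v : Fin q → ℝ, (∀ i, 0 ≤ u i) → (∀ i, 0 ≤ v i) →
      ∑ k ∈ s, α k u * β k v ≤ orb φ u v) :
    ∑ k ∈ s, J (α k) L₁ * J (β k) L₂ ≤ J φ (mrg L₁ L₂) := by
  have hr : HasSum (fun p : Ω₁ × Ω₂ => ∑ k ∈ s, α k (L₁ p.1) * β k (L₂ p.2))
      (∑ k ∈ s, J (α k) L₁ * J (β k) L₂) :=
    hasSum_sum fun k hk => hasSum_mul_J h₁ h₂ (hα k hk) (hβ k hk)
  exact hasSum_le (fun p => H _ _ (h₁.nonneg _) (h₂.nonneg _)) hr (J_mrg_orb h₁ h₂ hφ)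

end merge

end Crest.Agent.R163
end

-- ▼ part R163/Edge

/-!
Row 163: the edge operator, chi-square, total variation, and the comparison TV ≤ √χ²/2.
-/

set_option autoImplicit false

namespace Crest.Agent.R163

variable {q : ℕ}

/-- the edge operator on likelihood vectors -/
noncomputable def W (lam : ℝ) (v : Fin q → ℝ) : Fin q → ℝ :=
  fun i => lam * v i + (1 - lam) * avg v

lemma channel_sum (lam : ℝ) (v : Fin q → ℝ) (i : Fin q) :
    ∑ j : Fin q, Crest.ProbabilityR.Broadcast.channel q lam i j * v j = W lam v i := by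
  unfold Crest.ProbabilityR.Broadcast.channel W avg
  simp only [add_mul, ite_mul, zero_mul, Finset.sum_add_distrib, Finset.sum_ite_eq,
    Finset.mem_univ, if_true, ← Finset.mul_sum]
  ring

lemma avg_W [NeZero q] (lam : ℝ) (v : Fin q → ℝ) : avg (W lam v) = avg v := by
  have hq : (q : ℝ) ≠ 0 := Nat.cast_ne_zero.mpr (NeZero.ne q)
  unfold W
  have : avg (fun i => lam * v i + (1 - lam) * avg v) = lam * avg v + (1 - lam) * avg v := by
    conv_lhs => unfold avg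
    rw [Finset.sum_add_distrib, ← Finset.mul_sum]
    simp only [Finset.sum_const, Finset.card_univ, Fintype.card_fin, nsmul_eq_mul]
    have : ∑ i, v i = q * avg v := by
      unfold avg; field_simp
    rw [this]
    field_simp
  rw [this]; ring

/-- admissible edge parameters -/
structure Adm (q : ℕ) (lam : ℝ) : Prop where
  le_one : lam ≤ 1
  low : 0 ≤ lam + (1 - lam) / q

lemma le_avg [NeZero q] {v : Fin q → ℝ} (hv : ∀ i, 0 ≤ v i) (i : Fin q) : v i / q ≤ avg v := by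
  unfold avg
  exact div_le_div_of_nonneg_right
    (Finset.single_le_sum (f := v) (fun j _ => hv j) (Finset.mem_univ i)) (Nat.cast_nonneg _)

lemma W_nonneg [NeZero q] {lam : ℝ} (h : Adm q lam) {v : Fin q → ℝ} (hv : ∀ i, 0 ≤ v i)
    (i : Fin q) : 0 ≤ W lam v i := by
  unfold W
  have h1 : (1 - lam) * (v i / q) ≤ (1 - lam) * avg v :=
    mul_le_mul_of_nonneg_left (le_avg hv i) (by linarith [h.le_one])
  have h2 : 0 ≤ v i * (lam + (1 - lam) / q) := mul_nonneg (hv i) h.low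
  have : v i * (lam + (1 - lam) / q) = lam * v i + (1 - lam) * (v i / q) := by ring
  linarith

lemma IsChan.edge [NeZero q] {Ω : Type*} {L : Ω → Fin q → ℝ} (h : IsChan L) {lam : ℝ}
    (hl : Adm q lam) : IsChan (fun o => W lam (L o)) where
  nonneg o i := W_nonneg hl (h.nonneg o) i
  hasSum i := by
    have h1 := ((h.hasSum i).mul_left lam).add (h.avg_hasSum.mul_left (1 - lam))
    simpa [W] using h1
  symm σ := by
    obtain ⟨e, he⟩ := h.symm σ
    refine ⟨e, fun o i => ?_⟩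
    have : avg (L (e o)) = avg (L o) := by
      unfold avg
      rw [← Equiv.sum_comp σ (L (e o))]
      simp [he]
    simp [W, he, this]

/-- chi-square functional (homogeneous form) -/
noncomputable def chi (v : Fin q → ℝ) : ℝ := avg (fun i => v i ^ 2) / avg v - avg v

lemma eq_zero_of_avg [NeZero q] {v : Fin q → ℝ} (hv : ∀ i, 0 ≤ v i) (h : avg v = 0) :
    v = fun _ => 0 := by
  have hq : (q : ℝ) ≠ 0 := Nat.cast_ne_zero.mpr (NeZero.ne q)
  unfold avg at h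
  have h1 : ∑ i, v i = 0 := by
    rcases div_eq_zero_iff.1 h with h | h
    · exact h
    · exact absurd h hq
  funext i
  exact (Finset.sum_eq_zero_iff_of_nonneg fun i _ => hv i).1 h1 i (Finset.mem_univ i)

lemma avg_sub_sq [NeZero q] (v : Fin q → ℝ) :
    avg (fun i => (v i - avg v) ^ 2) = avg (fun i => v i ^ 2) - avg v ^ 2 := by
  have hq : (q : ℝ) ≠ 0 := Nat.cast_ne_zero.mpr (NeZero.ne q)
  have hs : ∑ i, v i = q * avg v := by unfold avg; field_simp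
  have : ∑ i, (v i - avg v) ^ 2 = ∑ i, v i ^ 2 - q * avg v ^ 2 := by
    have : ∀ i, (v i - avg v) ^ 2 = v i ^ 2 - 2 * avg v * v i + avg v ^ 2 := fun i => by ring
    simp only [this, Finset.sum_add_distrib, Finset.sum_sub_distrib, ← Finset.mul_sum, hs,
      Finset.sum_const, Finset.card_univ, Fintype.card_fin, nsmul_eq_mul]
    ring
  conv_lhs => unfold avg
  rw [show (∑ i, v i) / (q : ℝ) = avg v from rfl] at *
  rw [this]
  unfold avg
  field_simp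

lemma chi_eq [NeZero q] {v : Fin q → ℝ} (h : avg v ≠ 0) :
    chi v = avg (fun i => (v i - avg v) ^ 2) / avg v := by
  rw [avg_sub_sq, chi]
  field_simp

lemma chi_nonneg [NeZero q] {v : Fin q → ℝ} (hv : ∀ i, 0 ≤ v i) : 0 ≤ chi v := by
  by_cases h : avg v = 0
  · simp [chi, h]
  · rw [chi_eq h]
    exact div_nonneg (avg_nonneg fun i => sq_nonneg _) (avg_nonneg hv)

lemma chi_le [NeZero q] {v : Fin q → ℝ} (hv : ∀ i, 0 ≤ v i) : chi v ≤ (q - 1) * avg v := by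
  by_cases h : avg v = 0
  · simp [chi, h]
  have hpos : 0 < avg v := lt_of_le_of_ne (avg_nonneg hv) (Ne.symm h)
  have hq : (0 : ℝ) < q := Nat.cast_pos.mpr (Nat.pos_of_ne_zero (NeZero.ne q))
  have h1 : ∀ i, v i ^ 2 ≤ q * avg v * v i := fun i => by
    have := le_avg hv i
    have h2 : v i ≤ q * avg v := by
      rw [div_le_iff₀ hq] at this; linarith
    nlinarith [hv i]
  have h2 : avg (fun i => v i ^ 2) ≤ q * avg v * avg v := by
    unfold avg
    rw [← mul_div_assoc]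
    apply div_le_div_of_nonneg_right _ hq.le
    rw [Finset.mul_sum]
    exact Finset.sum_le_sum fun i _ => h1 i
  unfold chi
  have : avg (fun i => v i ^ 2) / avg v ≤ q * avg v := by
    rw [div_le_iff₀ hpos]; exact h2
  linarith

lemma bdd_chi [NeZero q] : Bdd (chi (q := q)) := by
  have hq : (1 : ℝ) ≤ q := by exact_mod_cast Nat.pos_of_ne_zero (NeZero.ne q)
  exact ⟨q - 1, by linarith, fun v hv => by rw [abs_of_nonneg (chi_nonneg hv)]; exact chi_le hv⟩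

lemma chi_W [NeZero q] (lam : ℝ) (v : Fin q → ℝ) (hv : avg v ≠ 0) :
    chi (W lam v) = lam ^ 2 * chi v := by
  rw [chi_eq (by rwa [avg_W]), chi_eq hv, avg_W]
  have : (fun i => (W lam v i - avg v) ^ 2) = fun i => lam ^ 2 * (v i - avg v) ^ 2 := by
    funext i; unfold W; ring
  rw [this]
  have h2 : avg (fun i => lam ^ 2 * (v i - avg v) ^ 2) = lam ^ 2 * avg (fun i => (v i - avg v) ^ 2) := by
    unfold avg; rw [← Finset.mul_sum, mul_div_assoc]
  rw [h2, mul_div_assoc]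

lemma chi_W' [NeZero q] (lam : ℝ) {v : Fin q → ℝ} (hv : ∀ i, 0 ≤ v i) :
    chi (W lam v) = lam ^ 2 * chi v := by
  by_cases h : avg v = 0
  · have h2 : avg (W lam v) = 0 := by rw [avg_W]; exact h
    simp [chi, h, h2]
  · exact chi_W lam v h

lemma IsChan.J_chi_edge [NeZero q] {Ω : Type*} {L : Ω → Fin q → ℝ} (h : IsChan L) (lam : ℝ) :
    J chi (fun o => W lam (L o)) = lam ^ 2 * J chi L := by
  unfold J
  rw [← tsum_mul_left]
  exact tsum_congr fun o => chi_W' lam (h.nonneg o)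

/-- total variation functional -/
noncomputable def tv (v : Fin q → ℝ) : ℝ := (1 / 2) * avg (fun i => |v i - avg v|)

lemma tv_nonneg (v : Fin q → ℝ) : 0 ≤ tv v :=
  mul_nonneg (by norm_num) (avg_nonneg fun _ => abs_nonneg _)

lemma avg_abs_sq_le [NeZero q] (w : Fin q → ℝ) : avg (fun i => |w i|) ^ 2 ≤ avg (fun i => w i ^ 2) := by
  have h := avg_sub_sq (fun i => |w i|)
  have h2 : 0 ≤ avg (fun i => (|w i| - avg fun i => |w i|) ^ 2) := avg_nonneg fun i => sq_nonneg _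
  rw [h] at h2
  simp only [sq_abs] at h2
  linarith

/-- pointwise AM-GM bound of TV by chi-square -/
lemma tv_le [NeZero q] {v : Fin q → ℝ} (hv : ∀ i, 0 ≤ v i) {s : ℝ} (hs : 0 < s) :
    tv v ≤ (1 / 4) * (s * avg v + chi v / s) := by
  by_cases h : avg v = 0
  · have := eq_zero_of_avg hv h
    have h3 : tv v = 0 := by
      unfold tv
      rw [h]
      subst this
      simp [avg]
    have h4 : chi v = 0 := by simp [chi, h]
    rw [h3, h4, h]; simp
  have hpos : 0 < avg v := lt_of_le_of_ne (avg_nonneg hv) (Ne.symm h)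
  set A := avg (fun i => |v i - avg v|) with hA
  have hA0 : 0 ≤ A := avg_nonneg fun _ => abs_nonneg _
  have h1 : A ^ 2 ≤ avg v * chi v := by
    rw [chi_eq h]
    have := avg_abs_sq_le (fun i => v i - avg v)
    calc A ^ 2 ≤ avg (fun i => (v i - avg v) ^ 2) := this
      _ = avg v * (avg (fun i => (v i - avg v) ^ 2) / avg v) := by field_simp
  have hc : 0 ≤ chi v := chi_nonneg hv
  have h2 : 2 * A ≤ s * avg v + chi v / s := by
    have h3 : (2 * A) ^ 2 ≤ (s * avg v + chi v / s) ^ 2 := by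
      have : (s * avg v + chi v / s) ^ 2 = (s * avg v - chi v / s) ^ 2 + 4 * (avg v * chi v) := by
        field_simp; ring
      rw [this]
      nlinarith [sq_nonneg (s * avg v - chi v / s)]
    exact le_of_sq_le_sq h3 (by positivity)
  unfold tv
  linarith
where
  le_of_sq_le_sq {a b : ℝ} (h : a ^ 2 ≤ b ^ 2) (hb : 0 ≤ b) : a ≤ b := abs_le_of_sq_le_sq' h hb |>.2

lemma bdd_tv [NeZero q] : Bdd (tv (q := q)) := by
  obtain ⟨K, hK, h⟩ := bdd_chi (q := q)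
  refine ⟨(1 / 4) * (1 + K), by positivity, fun v hv => ?_⟩
  rw [abs_of_nonneg (tv_nonneg v)]
  have h1 := tv_le hv one_pos
  have h2 := h v hv
  rw [abs_of_nonneg (chi_nonneg hv)] at h2
  calc tv v ≤ (1 / 4) * (1 * avg v + chi v / 1) := h1
    _ ≤ (1 / 4) * (1 + K) * avg v := by
      rw [div_one]; nlinarith

lemma IsChan.J_tv_le [NeZero q] {Ω : Type*} {L : Ω → Fin q → ℝ} (h : IsChan L) :
    J tv L ≤ (1 / 2) * Real.sqrt (J chi L) := by
  have key : ∀ s : ℝ, 0 < s → J tv L ≤ (1 / 4) * (s + J chi L / s) := by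
    intro s hs
    have h1 : J tv L ≤ J (fun v => (1 / 4) * (s * avg v + (1 / s) * chi v)) L := by
      refine h.J_mono bdd_tv ?_ fun v hv => ?_
      · exact ((bdd_avg.const_mul s).add (bdd_chi.const_mul (1 / s))).const_mul (1 / 4)
      · have := tv_le hv hs
        calc tv v ≤ _ := this
          _ = _ := by ring
    rw [J_const_mul, h.J_add (bdd_avg.const_mul s) (bdd_chi.const_mul (1 / s)), J_const_mul,
      J_const_mul, h.J_avg] at h1
    calc J tv L ≤ _ := h1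
      _ = _ := by ring
  have hX : 0 ≤ J chi L := h.J_nonneg fun v hv => chi_nonneg hv
  rcases hX.eq_or_lt with hX0 | hX0
  · rw [← hX0]
    simp only [Real.sqrt_zero, mul_zero]
    refine le_of_forall_pos_le_add fun ε hε => ?_
    have := key (4 * ε) (by positivity)
    rw [← hX0] at this
    simp at this
    linarith
  · have hs : 0 < Real.sqrt (J chi L) := Real.sqrt_pos.2 hX0
    have := key _ hs
    have h2 : J chi L / Real.sqrt (J chi L) = Real.sqrt (J chi L) := Real.div_sqrt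
    rw [h2] at this
    linarith

end Crest.Agent.R163
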