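import Mathlib
import Crest.Prelude.Def_TreeBroadcast
import Crest.Agent.R163.Class

-- ▼ part R163/CapBasic
section

/-! Row 163 (S0246): deterministic part, basics on `LocFinTree`. -/

set_option autoImplicit false
set_option linter.unusedSectionVars false

open Finset

namespace Crest.Agent.R163.CapF

open Crest.ProbabilityR.TreeBroadcast

variable {V : Type*} [DecidableEq V] (T : LocFinTree V)

lemma root_depth : T.depth T.root = 0 := (T.depth_eq_zero_iff _).2 rfl


lemma mem_children {v w : V} : w ∈ T.children v ↔ w ≠ T.root ∧ T.parent w = v := by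
  unfold LocFinTree.children
  rw [Finset.mem_filter, T.mem_level_iff]
  constructor
  · rintro ⟨h1, h2⟩
    refine ⟨?_, h2⟩
    rintro rfl
    rw [root_depth] at h1
    omega
  · rintro ⟨h1, h2⟩
    have := T.depth_parent w h1
    rw [h2] at this
    exact ⟨this.symm, h2⟩

lemma depth_of_mem_children {v w : V} (h : w ∈ T.children v) : T.depth w = T.depth v + 1 := by
  rw [mem_children] at h
  have := T.depth_parent w h.1
  rw [h.2] at this
  exact this.symm

lemma parent_of_mem_children {v w : V} (h : w ∈ T.children v) : T.parent w = v :=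
  ((mem_children T).1 h).2

lemma mem_children_parent {w : V} (h : w ≠ T.root) : w ∈ T.children (T.parent w) :=
  (mem_children T).2 ⟨h, rfl⟩




end Crest.Agent.R163.CapF
end

-- ▼ part R163/CapFwd
section

/-! Row 163 (S0246): deterministic part, forward direction: from a supermartingale-like recursion
with cubic loss to a flow of finite potential. -/

set_option autoImplicit false
set_option linter.unusedSectionVars false

open Finset Filter Topology

namespace Crest.Agent.R163.CapF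

open Crest.ProbabilityR.TreeBroadcast

variable {V : Type*} [DecidableEq V] (T : LocFinTree V)

/-! ### merging `k` children -/

/-- the cubic correction -/
def cub (η x : ℝ) : ℝ := x + η * x ^ 3

lemma cub_nonneg {η x : ℝ} (hη : 0 ≤ η) (hx : 0 ≤ x) : 0 ≤ cub η x := by
  unfold cub; positivity

lemma le_cub {η x : ℝ} (hη : 0 ≤ η) (hx : 0 ≤ x) : x ≤ cub η x := by
  unfold cub
  have : 0 ≤ η * x ^ 3 := by positivity
  linarith

lemma cub_le {η x M : ℝ} (hη : 0 ≤ η) (hx : 0 ≤ x) (hM : x ≤ M) :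
    cub η x ≤ (1 + η * M ^ 2) * x := by
  unfold cub
  have h1 : x ^ 2 ≤ M ^ 2 := by nlinarith
  have h2 : η * x ^ 2 ≤ η * M ^ 2 := mul_le_mul_of_nonneg_left h1 hη
  nlinarith


/-- one merge step with the cubic defect. `a` = value of the partial merge, `s` = sum of the
inputs of the partial merge, `D` = defect. -/
lemma merge_step {c η M K c₁ a s b z F D : ℝ} (hc : 0 < c) (hη : 0 ≤ η) (hη3 : 3 * η ≤ c / 2)
    (hM : 0 ≤ M) (hηM : η * M ^ 2 ≤ 1 / 4) (hK : 0 < K)
    (hc₁ : 0 ≤ c₁) (hc₁K : 56 * K ^ 2 * c₁ ≤ 3) (hc₁c : 24 * c₁ ≤ c)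
    (ha : 0 ≤ a) (haM : a ≤ M) (hs : 0 ≤ s) (hb : 0 ≤ b) (hsb : s + b ≤ K)
    (hz : 0 ≤ z) (hzle : z ≤ a + b - c * (a ^ 2 * b + a * b ^ 2))
    (hsF : s ≤ F) (hD : D ≤ s ^ 3) (hIH : cub η a ≤ F - c₁ * D) :
    cub η z ≤ F + cub η b - c₁ * (D + ((s + b) ^ 3 - s ^ 3 - b ^ 3)) := by
  have hab : 0 ≤ a ^ 2 * b + a * b ^ 2 := by positivity
  have h1 : cub η z ≤ cub η a + cub η b - (c - 3 * η) * (a ^ 2 * b + a * b ^ 2) := by
    unfold cub
    have h2 : z ≤ a + b := by nlinarith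
    have h3 : z ^ 3 ≤ (a + b) ^ 3 := by gcongr
    have h4 := mul_le_mul_of_nonneg_left h3 hη
    nlinarith
  by_cases hcase : a ≤ s / 2
  · -- crude bound
    have h2 : cub η a ≤ (5 / 8) * s := by
      have := cub_le hη ha haM
      nlinarith
    have h3 : 0 ≤ (c - 3 * η) * (a ^ 2 * b + a * b ^ 2) := by
      apply mul_nonneg _ hab; linarith
    have h4 : D + ((s + b) ^ 3 - s ^ 3 - b ^ 3) ≤ 7 * K ^ 2 * s := by
      have h5 : (s + b) ^ 3 - b ^ 3 = s * (s ^ 2 + 3 * s * b + 3 * b ^ 2) := by ring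
      have h6 : s ^ 2 + 3 * s * b + 3 * b ^ 2 ≤ 7 * K ^ 2 := by
        have h7 : s ≤ K := by linarith
        have h8 : b ≤ K := by linarith
        have h9 : s ^ 2 ≤ K ^ 2 := by nlinarith
        have h10 : b ^ 2 ≤ K ^ 2 := by nlinarith
        have h11 : s * b ≤ K ^ 2 := by nlinarith
        nlinarith
      have h12 := mul_le_mul_of_nonneg_left h6 hs
      nlinarith
    have h5 : c₁ * (D + ((s + b) ^ 3 - s ^ 3 - b ^ 3)) ≤ c₁ * (7 * K ^ 2 * s) :=
      mul_le_mul_of_nonneg_left h4 hc₁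
    have h6 : c₁ * (7 * K ^ 2 * s) ≤ (3 / 8) * s := by nlinarith
    linarith
  · push Not at hcase
    have h2 : c₁ * ((s + b) ^ 3 - s ^ 3 - b ^ 3) ≤ (c - 3 * η) * (a ^ 2 * b + a * b ^ 2) := by
      have h3 : (s + b) ^ 3 - s ^ 3 - b ^ 3 = 3 * (s ^ 2 * b + s * b ^ 2) := by ring
      have h4 : s ^ 2 * b + s * b ^ 2 ≤ 4 * (a ^ 2 * b + a * b ^ 2) := by
        have h5 : s ≤ 2 * a := by linarith
        have h6 : s ^ 2 ≤ 4 * a ^ 2 := by nlinarith
        have h7 : s ^ 2 * b ≤ 4 * a ^ 2 * b := mul_le_mul_of_nonneg_right h6 hb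
        have h8 : s * b ^ 2 ≤ 2 * a * b ^ 2 := mul_le_mul_of_nonneg_right h5 (by positivity)
        have h9 : 0 ≤ a * b ^ 2 := by positivity
        linarith
      rw [h3]
      calc c₁ * (3 * (s ^ 2 * b + s * b ^ 2)) ≤ c₁ * (3 * (4 * (a ^ 2 * b + a * b ^ 2))) := by
            gcongr
        _ = 12 * c₁ * (a ^ 2 * b + a * b ^ 2) := by ring
        _ ≤ (c - 3 * η) * (a ^ 2 * b + a * b ^ 2) := by
            apply mul_le_mul_of_nonneg_right _ hab
            linarith
    linarith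

/-- **merging finitely many children**: pairwise subadditivity with cubic loss gives
subadditivity of `x + η x³` with a fully symmetric cubic loss -/
lemma merge_all {ι : Type*} [DecidableEq ι] {c η M K c₁ : ℝ} (hc : 0 < c) (hη : 0 ≤ η)
    (hη3 : 3 * η ≤ c / 2) (hM : 0 ≤ M) (hηM : η * M ^ 2 ≤ 1 / 4) (hK : 0 < K)
    (hc₁ : 0 ≤ c₁) (hc₁K : 56 * K ^ 2 * c₁ ≤ 3) (hc₁c : 24 * c₁ ≤ c)
    (S : Finset ι) (y : ι → ℝ) (hy : ∀ i ∈ S, 0 ≤ y i) (hSK : ∑ i ∈ S, y i ≤ K)
    (Z : Finset ι → ℝ) (hZ0 : ∀ A ⊆ S, 0 ≤ Z A) (hZM : ∀ A ⊆ S, Z A ≤ M) (hZe : Z ∅ = 0)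
    (hZ : ∀ A ⊆ S, ∀ i ∈ S, i ∉ A → Z (insert i A) ≤
      Z A + y i - c * ((Z A) ^ 2 * y i + Z A * (y i) ^ 2)) :
    cub η (Z S) ≤ ∑ i ∈ S, cub η (y i) - c₁ * ((∑ i ∈ S, y i) ^ 3 - ∑ i ∈ S, (y i) ^ 3) := by
  have key : ∀ A : Finset ι, A ⊆ S → cub η (Z A) ≤ ∑ i ∈ A, cub η (y i) -
      c₁ * ((∑ i ∈ A, y i) ^ 3 - ∑ i ∈ A, (y i) ^ 3) := by
    intro A
    induction A using Finset.induction_on with
    | empty =>
      intro _
      rw [hZe]
      simp [cub]
    | insert i A hi ih =>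
      intro hA
      have hAS : A ⊆ S := (Finset.subset_insert i A).trans hA
      have hiS : i ∈ S := hA (Finset.mem_insert_self i A)
      have hyA : ∀ j ∈ A, 0 ≤ y j := fun j hj => hy j (hAS hj)
      rw [Finset.sum_insert hi, Finset.sum_insert hi, Finset.sum_insert hi]
      have hsum : y i + ∑ j ∈ A, y j ≤ K := by
        rw [← Finset.sum_insert hi]
        exact (Finset.sum_le_sum_of_subset_of_nonneg hA (fun j hj _ => hy j hj)).trans hSK
      have := merge_step (F := ∑ j ∈ A, cub η (y j))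
        (D := (∑ j ∈ A, y j) ^ 3 - ∑ j ∈ A, (y j) ^ 3) hc hη hη3 hM hηM hK hc₁ hc₁K hc₁c
        (hZ0 A hAS) (hZM A hAS) (Finset.sum_nonneg hyA) (hy i hiS) (by linarith)
        (hZ0 _ hA) (hZ A hAS i hiS hi) (Finset.sum_le_sum fun j hj => le_cub hη (hyA j hj))
        (by
          have : 0 ≤ ∑ j ∈ A, (y j) ^ 3 :=
            Finset.sum_nonneg fun j hj => pow_nonneg (hyA j hj) 3
          linarith) (ih hAS)
      refine this.trans (le_of_eq ?_)
      ring
  exact key S Finset.Subset.rfl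

/-- the cubic defect dominates each `x₀² ∑ x` up to the diagonal -/
lemma defect_ge {ι : Type*} [DecidableEq ι] (S : Finset ι) (y : ι → ℝ) (hy : ∀ i ∈ S, 0 ≤ y i)
    {i₀ : ι} (hi₀ : i₀ ∈ S) :
    3 * ((y i₀) ^ 2 * (∑ i ∈ S, y i) - (y i₀) ^ 3) ≤
      (∑ i ∈ S, y i) ^ 3 - ∑ i ∈ S, (y i) ^ 3 := by
  rw [← Finset.insert_erase hi₀]
  set A := S.erase i₀ with hA
  have hi : i₀ ∉ A := Finset.notMem_erase i₀ S
  rw [Finset.sum_insert hi, Finset.sum_insert hi]
  have hyA : ∀ j ∈ A, 0 ≤ y j := fun j hj => hy j (Finset.mem_of_mem_erase hj)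
  have hR : 0 ≤ ∑ j ∈ A, y j := Finset.sum_nonneg hyA
  have hP : 0 ≤ y i₀ := hy i₀ hi₀
  have h3 : ∑ j ∈ A, (y j) ^ 3 ≤ (∑ j ∈ A, y j) ^ 3 := by
    calc ∑ j ∈ A, (y j) ^ 3 ≤ ∑ j ∈ A, y j * (∑ j ∈ A, y j) ^ 2 := by
          apply Finset.sum_le_sum
          intro j hj
          have h4 : y j ≤ ∑ j ∈ A, y j := Finset.single_le_sum hyA hj
          have h5 := hyA j hj
          have h6 : (y j) ^ 2 ≤ (∑ j ∈ A, y j) ^ 2 := by nlinarith
          have := mul_le_mul_of_nonneg_left h6 h5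
          nlinarith
      _ = (∑ j ∈ A, y j) ^ 3 := by rw [← Finset.sum_mul]; ring
  set R := ∑ j ∈ A, y j
  nlinarith [mul_nonneg hP (mul_nonneg hR hR)]

/-- the recursion hypothesis with loss, from `merge_all` and the edge contraction -/
lemma vertex_loss {ι : Type*} [DecidableEq ι] {c η M K c₁ lam : ℝ} (hl0 : 0 < lam) (hl1 : lam < 1)
    (hc : 0 < c) (hη : 0 < η)
    (hη3 : 3 * η ≤ c / 2) (hM : 0 ≤ M) (hηM : η * M ^ 2 ≤ 1 / 4) (hK : 0 < K)
    (hc₁ : 0 < c₁) (hc₁K : 56 * K ^ 2 * c₁ ≤ 3) (hc₁c : 24 * c₁ ≤ c)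
    (S : Finset ι) (x : ι → ℝ) (hx : ∀ i ∈ S, 0 ≤ x i) (hSK : ∑ i ∈ S, x i ≤ K)
    (Z : Finset ι → ℝ) (hZ0 : ∀ A ⊆ S, 0 ≤ Z A) (hZM : ∀ A ⊆ S, Z A ≤ M) (hZe : Z ∅ = 0)
    (hZ : ∀ A ⊆ S, ∀ i ∈ S, i ∉ A → Z (insert i A) ≤
      Z A + lam ^ 2 * x i - c * ((Z A) ^ 2 * (lam ^ 2 * x i) + Z A * (lam ^ 2 * x i) ^ 2))
    {i₀ : ι} (hi₀ : i₀ ∈ S) :
    cub η (Z S) ≤ lam ^ 2 * ∑ i ∈ S, cub η (x i) -
      min (η * lam ^ 2 * (1 - lam ^ 4)) (3 * c₁ * lam ^ 6) * ((x i₀) ^ 2 * ∑ i ∈ S, x i) := by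
  have hl2 : lam ^ 2 ≤ 1 := by nlinarith
  have hl4 : lam ^ 4 ≤ 1 := by nlinarith [sq_nonneg (lam ^ 2)]
  have h1 := merge_all hc hη.le hη3 hM hηM hK hc₁.le hc₁K hc₁c S (fun i => lam ^ 2 * x i)
    (fun i hi => mul_nonneg (by positivity) (hx i hi))
    (by
      rw [← Finset.mul_sum]
      have : 0 ≤ ∑ i ∈ S, x i := Finset.sum_nonneg hx
      nlinarith) Z hZ0 hZM hZe hZ
  have h2 : ∑ i ∈ S, cub η (lam ^ 2 * x i) = lam ^ 2 * ∑ i ∈ S, cub η (x i) -
      η * lam ^ 2 * (1 - lam ^ 4) * ∑ i ∈ S, (x i) ^ 3 := by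
    rw [Finset.mul_sum, Finset.mul_sum, ← Finset.sum_sub_distrib]
    apply Finset.sum_congr rfl
    intro i _
    unfold cub
    ring
  have h3 : (∑ i ∈ S, lam ^ 2 * x i) ^ 3 - ∑ i ∈ S, (lam ^ 2 * x i) ^ 3 =
      lam ^ 6 * ((∑ i ∈ S, x i) ^ 3 - ∑ i ∈ S, (x i) ^ 3) := by
    rw [← Finset.mul_sum]
    have : ∑ i ∈ S, (lam ^ 2 * x i) ^ 3 = lam ^ 6 * ∑ i ∈ S, (x i) ^ 3 := by
      rw [Finset.mul_sum]
      apply Finset.sum_congr rfl
      intro i _
      ring
    rw [this]; ring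
  rw [h2, h3] at h1
  have h4 := defect_ge S x hx hi₀
  have h5 : (x i₀) ^ 3 ≤ ∑ i ∈ S, (x i) ^ 3 :=
    Finset.single_le_sum (f := fun i => (x i) ^ 3) (fun i hi => pow_nonneg (hx i hi) 3) hi₀
  set s := ∑ i ∈ S, x i with hs
  set μ := min (η * lam ^ 2 * (1 - lam ^ 4)) (3 * c₁ * lam ^ 6) with hμ
  have h6 : μ ≤ η * lam ^ 2 * (1 - lam ^ 4) := min_le_left _ _
  have h7 : μ ≤ 3 * c₁ * lam ^ 6 := min_le_right _ _
  have hxi : 0 ≤ x i₀ := hx i₀ hi₀
  have h8 : 0 ≤ (x i₀) ^ 2 * s - (x i₀) ^ 3 := by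
    have : x i₀ ≤ s := Finset.single_le_sum hx hi₀
    nlinarith [sq_nonneg (x i₀)]
  have h9 : μ * (x i₀) ^ 3 ≤ η * lam ^ 2 * (1 - lam ^ 4) * ∑ i ∈ S, (x i) ^ 3 := by
    calc μ * (x i₀) ^ 3 ≤ η * lam ^ 2 * (1 - lam ^ 4) * (x i₀) ^ 3 :=
          mul_le_mul_of_nonneg_right h6 (pow_nonneg hxi 3)
      _ ≤ _ := by
          apply mul_le_mul_of_nonneg_left h5
          apply mul_nonneg (by positivity)
          linarith
  have h10 : μ * ((x i₀) ^ 2 * s - (x i₀) ^ 3) ≤
      c₁ * (lam ^ 6 * (s ^ 3 - ∑ i ∈ S, (x i) ^ 3)) := by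
    calc μ * ((x i₀) ^ 2 * s - (x i₀) ^ 3) ≤ 3 * c₁ * lam ^ 6 * ((x i₀) ^ 2 * s - (x i₀) ^ 3) :=
          mul_le_mul_of_nonneg_right h7 h8
      _ = c₁ * lam ^ 6 * (3 * ((x i₀) ^ 2 * s - (x i₀) ^ 3)) := by ring
      _ ≤ c₁ * lam ^ 6 * (s ^ 3 - ∑ i ∈ S, (x i) ^ 3) := by
          apply mul_le_mul_of_nonneg_left h4 (by positivity)
      _ = _ := by ring
  nlinarith

end Crest.Agent.R163.CapF
end

-- ▼ part R163/CapFlow
section

/-! Row 163 (S0246): deterministic part, forward direction: construction of the flow. -/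

set_option autoImplicit false
set_option linter.unusedSectionVars false

open Finset Filter Topology

namespace Crest.Agent.R163.CapF

open Crest.ProbabilityR.TreeBroadcast

variable {V : Type*} [DecidableEq V] (T : LocFinTree V)

/-- split the mass `m` proportionally to `g` -/
noncomputable def thN (g : V → ℝ) (m : ℝ) : ℕ → V → ℝ
  | 0, _ => m
  | k + 1, w => thN g m k (T.parent w) * (g w / ∑ w' ∈ T.children (T.parent w), g w')

/-- the flow of mass `m` split proportionally to `g` -/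
noncomputable def th (g : V → ℝ) (m : ℝ) (w : V) : ℝ := thN T g m (T.depth w) w

lemma th_root (g : V → ℝ) (m : ℝ) : th T g m T.root = m := by
  unfold th
  rw [root_depth]
  rfl

lemma th_child (g : V → ℝ) (m : ℝ) {v w : V} (h : w ∈ T.children v) :
    th T g m w = th T g m v * (g w / ∑ w' ∈ T.children v, g w') := by
  unfold th
  rw [depth_of_mem_children T h]
  show thN T g m (T.depth v) (T.parent w) * (g w / ∑ w' ∈ T.children (T.parent w), g w') = _
  rw [parent_of_mem_children T h]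

/-- induction along the tree -/
lemma tree_induction {P : V → Prop} (h0 : P T.root)
    (h1 : ∀ v w, w ∈ T.children v → P v → P w) (v : V) : P v := by
  induction hd : T.depth v generalizing v with
  | zero => rw [(T.depth_eq_zero_iff v).1 hd]; exact h0
  | succ k ih =>
    have hv : v ≠ T.root := by
      rintro rfl
      rw [root_depth] at hd
      omega
    have h2 := T.depth_parent v hv
    exact h1 (T.parent v) v (mem_children_parent T hv) (ih (T.parent v) (by omega))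

lemma th_nonneg {g : V → ℝ} (hg : ∀ v, 0 ≤ g v) {m : ℝ} (hm : 0 ≤ m) (v : V) :
    0 ≤ th T g m v := by
  refine tree_induction T (P := fun v => 0 ≤ th T g m v) ?_ ?_ v
  · show 0 ≤ th T g m T.root
    rw [th_root]; exact hm
  · intro v w hw h
    show 0 ≤ th T g m w
    rw [th_child T g m hw]
    exact mul_nonneg h (div_nonneg (hg w) (Finset.sum_nonneg fun i _ => hg i))

lemma th_le {g : V → ℝ} (hg : ∀ v, 0 ≤ g v) {m : ℝ} (hm : 0 ≤ m) (v : V) :
    th T g m v ≤ m := by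
  refine tree_induction T (P := fun v => th T g m v ≤ m) ?_ ?_ v
  · show th T g m T.root ≤ m
    rw [th_root]
  · intro v w hw h
    show th T g m w ≤ m
    rw [th_child T g m hw]
    have h1 : g w / ∑ w' ∈ T.children v, g w' ≤ 1 := by
      apply div_le_one_of_le₀ _ (Finset.sum_nonneg fun i _ => hg i)
      exact Finset.single_le_sum (fun i _ => hg i) hw
    have h2 := th_nonneg T hg hm v
    calc th T g m v * (g w / ∑ w' ∈ T.children v, g w') ≤ th T g m v * 1 :=
          mul_le_mul_of_nonneg_left h1 h2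
      _ ≤ m := by rw [mul_one]; exact h

lemma th_eq_zero {g : V → ℝ} {m : ℝ} {v : V} (hv : v ≠ T.root) (h : g v = 0) :
    th T g m v = 0 := by
  rw [th_child T g m (mem_children_parent T hv), h, zero_div, mul_zero]

lemma sum_th {g : V → ℝ} {m : ℝ} {v : V}
    (h : ∑ w ∈ T.children v, g w = 0 → th T g m v = 0) :
    ∑ w ∈ T.children v, th T g m w = th T g m v := by
  rw [Finset.sum_congr rfl fun w hw => th_child T g m hw, ← Finset.mul_sum, ← Finset.sum_div]
  by_cases h0 : ∑ w ∈ T.children v, g w = 0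
  · rw [h h0, zero_mul]
  · rw [div_self h0, mul_one]

set_option maxHeartbeats 1600000 in
/-- one step of the telescoping -/
lemma tele_step {lam η M μ : ℝ} (hl : 0 < lam) (hη : 0 ≤ η) (hM : 0 ≤ M) (hμ : 0 < μ)
    {x : V → ℝ} (hx0 : ∀ v, 0 ≤ x v) (hxM : ∀ v, x v ≤ M) {m : ℝ} (hm : 0 ≤ m)
    {v w : V} (hw : w ∈ T.children v)
    (hrec : cub η (x v) ≤ lam ^ 2 * ∑ w' ∈ T.children v, cub η (x w') -
      μ * ((x w) ^ 2 * ∑ w' ∈ T.children v, x w'))
    (hz : cub η (x v) = 0 → th T (fun v => cub η (x v)) m v = 0) :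
    (th T (fun v => cub η (x v)) m w / lam ^ (2 * T.depth w)) ^ 2 +
      (1 + η * M ^ 2) ^ 3 * lam ^ 2 / μ *
        (th T (fun v => cub η (x v)) m w / (lam ^ (2 * T.depth w) * cub η (x w))) ^ 2 ≤
      (1 + η * M ^ 2) ^ 3 * lam ^ 2 / μ *
        (th T (fun v => cub η (x v)) m v / (lam ^ (2 * T.depth v) * cub η (x v))) ^ 2 := by
  set g : V → ℝ := fun v => cub η (x v) with hg
  have hg0 : ∀ v, 0 ≤ g v := fun v => cub_nonneg hη (hx0 v)
  set L := 1 + η * M ^ 2 with hL
  have hL1 : 1 ≤ L := by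
    rw [hL]; have : 0 ≤ η * M ^ 2 := by positivity
    linarith
  set A := L ^ 3 * lam ^ 2 / μ with hA
  have hA0 : 0 < A := by positivity
  show (th T g m w / lam ^ (2 * T.depth w)) ^ 2 +
      A * (th T g m w / (lam ^ (2 * T.depth w) * g w)) ^ 2 ≤
      A * (th T g m v / (lam ^ (2 * T.depth v) * g v)) ^ 2
  have hRHS : 0 ≤ A * (th T g m v / (lam ^ (2 * T.depth v) * g v)) ^ 2 := by positivity
  have hch := th_child T g m hw
  rcases (hg0 w).eq_or_lt with h0 | hgw
  · have h1 : th T g m w = 0 := by rw [hch, ← h0, zero_div, mul_zero]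
    rw [h1]
    simpa using hRHS
  rcases (hg0 v).eq_or_lt with h0 | hgv
  · have h1 : th T g m w = 0 := by rw [hch, hz h0.symm, zero_mul]
    rw [h1]
    simpa using hRHS
  set G := ∑ w' ∈ T.children v, g w' with hG
  set X := ∑ w' ∈ T.children v, x w' with hX
  have hGpos : 0 < G := lt_of_lt_of_le hgw (Finset.single_le_sum (fun i _ => hg0 i) hw)
  have hX0 : 0 ≤ X := Finset.sum_nonneg fun i _ => hx0 i
  have hGX : G ≤ L * X := by
    rw [hG, hX, Finset.mul_sum]
    exact Finset.sum_le_sum fun i _ => cub_le hη (hx0 i) (hxM i)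
  have hgwx : g w ≤ L * x w := cub_le hη (hx0 w) (hxM w)
  have hd := depth_of_mem_children T hw
  set P := lam ^ (2 * T.depth v) with hP
  have hP0 : 0 < P := by positivity
  have hPw : lam ^ (2 * T.depth w) = P * lam ^ 2 := by
    rw [hd, hP, ← pow_add]; congr 1
  have hth0 : 0 ≤ th T g m v := th_nonneg T hg0 hm v
  set r := th T g m v / (P * g v) with hr
  have hr0 : 0 ≤ r := by positivity
  set q := g v / (lam ^ 2 * G) with hq
  have hq0 : 0 ≤ q := by positivity
  have e1 : th T g m w / (lam ^ (2 * T.depth w) * g w) = r * q := by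
    rw [hPw, hch, hr, hq]
    field_simp
  have e2 : th T g m w / lam ^ (2 * T.depth w) = r * q * g w := by
    rw [← e1]
    field_simp
  have hq1 : q ≤ 1 - μ / (lam ^ 2 * L) * (x w) ^ 2 := by
    rw [hq, div_le_iff₀ (by positivity)]
    have h1 : μ * ((x w) ^ 2 * G) ≤ μ * ((x w) ^ 2 * (L * X)) := by gcongr
    have h2 : (1 - μ / (lam ^ 2 * L) * (x w) ^ 2) * (lam ^ 2 * G) =
        lam ^ 2 * G - μ * ((x w) ^ 2 * G) / L := by
      field_simp
    rw [h2]
    have h3 : μ * ((x w) ^ 2 * G) / L ≤ μ * ((x w) ^ 2 * X) := by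
      rw [div_le_iff₀ (by positivity)]
      calc μ * ((x w) ^ 2 * G) ≤ μ * ((x w) ^ 2 * (L * X)) := h1
        _ = μ * ((x w) ^ 2 * X) * L := by ring
    have h4 : g v ≤ lam ^ 2 * G - μ * ((x w) ^ 2 * X) := hrec
    linarith
  have hq1' : q ≤ 1 := by
    have : 0 ≤ μ / (lam ^ 2 * L) * (x w) ^ 2 := by positivity
    linarith
  rw [e1, e2]
  have h5 : (r * q * g w) ^ 2 ≤ r ^ 2 * (L ^ 2 * (x w) ^ 2) := by
    have h6 : q ^ 2 ≤ 1 := by nlinarith
    have h7 : (g w) ^ 2 ≤ (L * x w) ^ 2 := by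
      apply pow_le_pow_left₀ hgw.le hgwx
    calc (r * q * g w) ^ 2 = r ^ 2 * (q ^ 2 * (g w) ^ 2) := by ring
      _ ≤ r ^ 2 * (1 * (L * x w) ^ 2) := by gcongr
      _ = _ := by ring
  have h8 : A * (r ^ 2 * (1 - q ^ 2)) ≥ r ^ 2 * (L ^ 2 * (x w) ^ 2) := by
    have h9 : 1 - q ^ 2 ≥ μ / (lam ^ 2 * L) * (x w) ^ 2 := by nlinarith
    have h10 : A * (μ / (lam ^ 2 * L) * (x w) ^ 2) = L ^ 2 * (x w) ^ 2 := by
      rw [hA]; field_simp
    calc A * (r ^ 2 * (1 - q ^ 2)) = r ^ 2 * (A * (1 - q ^ 2)) := by ring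
      _ ≥ r ^ 2 * (A * (μ / (lam ^ 2 * L) * (x w) ^ 2)) := by
          apply mul_le_mul_of_nonneg_left _ (by positivity)
          exact mul_le_mul_of_nonneg_left h9 hA0.le
      _ = _ := by rw [h10]
  nlinarith

/-- **Forward direction, deterministic part.** -/
theorem exists_flow {lam η M μ ε : ℝ} (hl : 0 < lam) (hη : 0 ≤ η) (hM : 0 ≤ M) (hμ : 0 < μ)
    (hε : 0 < ε) (x : ℕ → V → ℝ) (hx0 : ∀ n v, 0 ≤ x n v) (hxM : ∀ n v, x n v ≤ M)
    (hroot : ∀ n, ε ≤ x n T.root)
    (hleaf : ∀ n v, T.depth v < n → T.children v = ∅ → x n v = 0)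
    (hrec : ∀ n v, T.depth v < n → ∀ w ∈ T.children v,
      cub η (x n v) ≤ lam ^ 2 * ∑ w' ∈ T.children v, cub η (x n w') -
        μ * ((x n w) ^ 2 * ∑ w' ∈ T.children v, x n w')) :
    ∃ θ : V → ℝ, IsFlow T θ ∧ 0 < flowMass T θ ∧
      ∀ ξ : ℕ → V, T.IsRay ξ → rayPotential lam θ ξ ≤ 1 := by
  set L := 1 + η * M ^ 2 with hL
  have hL1 : 1 ≤ L := by
    rw [hL]; have : 0 ≤ η * M ^ 2 := by positivity
    linarith
  set A := L ^ 3 * lam ^ 2 / μ with hA
  have hA0 : 0 < A := by positivity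
  set m := ε / (A + 1) with hm
  have hm0 : 0 < m := by positivity
  set g : ℕ → V → ℝ := fun n v => cub η (x n v) with hg
  have hg0 : ∀ n v, 0 ≤ g n v := fun n v => cub_nonneg hη (hx0 n v)
  have hgroot : ∀ n, ε ≤ g n T.root := fun n =>
    (hroot n).trans (le_cub hη (hx0 n T.root))
  set F : ℕ → V → ℝ := fun n v => th T (g n) m v with hF
  have hF0 : ∀ n v, 0 ≤ F n v := fun n v => th_nonneg T (hg0 n) hm0.le v
  have hFm : ∀ n v, F n v ≤ m := fun n v => th_le T (hg0 n) hm0.le v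
  -- vanishing
  have hz : ∀ n v, g n v = 0 → F n v = 0 := by
    intro n v h
    have hv : v ≠ T.root := by
      rintro rfl
      have := hgroot n
      rw [h] at this
      linarith
    exact th_eq_zero T hv h
  -- conservation
  have hcons : ∀ n v, T.depth v < n → ∑ w ∈ T.children v, F n w = F n v := by
    intro n v hv
    apply sum_th
    intro h
    apply hz
    by_cases hc : T.children v = ∅
    · show cub η (x n v) = 0
      rw [hleaf n v hv hc]
      simp [cub]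
    · obtain ⟨w, hw⟩ := Finset.nonempty_iff_ne_empty.mpr hc
      have h1 := hrec n v hv w hw
      have h2 : ∑ w' ∈ T.children v, cub η (x n w') = 0 := h
      rw [h2, mul_zero] at h1
      have h3 : 0 ≤ μ * ((x n w) ^ 2 * ∑ w' ∈ T.children v, x n w') := by
        have : 0 ≤ ∑ w' ∈ T.children v, x n w' := Finset.sum_nonneg fun i _ => hx0 n i
        positivity
      have h4 := hg0 n v
      have h5 : g n v = cub η (x n v) := rfl
      rw [h5] at h4 ⊢
      linarith
  -- potentials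
  have hpot : ∀ (ξ : ℕ → V), T.IsRay ξ → ∀ n K, K ≤ n →
      ∑ k ∈ Finset.range K, (F n (ξ (k + 1)) / lam ^ (2 * (k + 1))) ^ 2 ≤ 1 := by
    intro ξ hξ n K hK
    have hdepth : ∀ k, T.depth (ξ k) = k := by
      intro k
      induction k with
      | zero => rw [hξ.1, root_depth]
      | succ k ih => rw [depth_of_mem_children T (hξ.2 k), ih]
    have key : ∀ K, K ≤ n →
        ∑ k ∈ Finset.range K, (F n (ξ (k + 1)) / lam ^ (2 * (k + 1))) ^ 2 +
          A * (F n (ξ K) / (lam ^ (2 * K) * g n (ξ K))) ^ 2 ≤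
          A * (F n (ξ 0) / (lam ^ (2 * 0) * g n (ξ 0))) ^ 2 := by
      intro K
      induction K with
      | zero => intro _; simp
      | succ K ih =>
        intro hK
        have h1 := ih (by omega)
        have h2 := tele_step T hl hη hM hμ (hx0 n) (hxM n) hm0.le (hξ.2 K)
          (hrec n (ξ K) (by rw [hdepth]; omega) _ (hξ.2 K)) (fun h => hz n (ξ K) h)
        rw [hdepth K, hdepth (K + 1)] at h2
        rw [Finset.sum_range_succ]
        have h3 : (F n (ξ (K + 1)) / lam ^ (2 * (K + 1))) ^ 2 +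
            A * (F n (ξ (K + 1)) / (lam ^ (2 * (K + 1)) * g n (ξ (K + 1)))) ^ 2 ≤
            A * (F n (ξ K) / (lam ^ (2 * K) * g n (ξ K))) ^ 2 := h2
        linarith
    have h1 := key K hK
    have h2 : 0 ≤ A * (F n (ξ K) / (lam ^ (2 * K) * g n (ξ K))) ^ 2 := by positivity
    have h3 : A * (F n (ξ 0) / (lam ^ (2 * 0) * g n (ξ 0))) ^ 2 ≤ 1 := by
      rw [hξ.1]
      have h4 : F n T.root = m := th_root T (g n) m
      rw [h4, mul_zero, pow_zero, one_mul]
      have h5 : m / g n T.root ≤ m / ε := div_le_div_of_nonneg_left hm0.le hε (hgroot n)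
      have h6 : 0 ≤ m / g n T.root := div_nonneg hm0.le (hg0 n _)
      have h7 : (m / g n T.root) ^ 2 ≤ (m / ε) ^ 2 := pow_le_pow_left₀ h6 h5 2
      have h8 : m / ε = 1 / (A + 1) := by
        rw [hm]; field_simp
      rw [h8] at h7
      calc A * (m / g n T.root) ^ 2 ≤ A * (1 / (A + 1)) ^ 2 :=
            mul_le_mul_of_nonneg_left h7 hA0.le
        _ = A / (A + 1) ^ 2 := by rw [one_div, inv_pow]; rfl
        _ ≤ 1 := by
            rw [div_le_one (by positivity)]
            nlinarith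
    linarith
  -- compactness
  let U : Ultrafilter ℕ := Filter.hyperfilter ℕ
  have hlim : ∀ v, ∃ a ∈ Set.Icc 0 m, Tendsto (fun n => F n v) (U : Filter ℕ) (𝓝 a) := by
    intro v
    have h1 : Set.Icc (0 : ℝ) m ∈ (U.map fun n => F n v) := by
      rw [Ultrafilter.mem_map]
      apply Filter.univ_mem'
      intro n
      exact ⟨hF0 n v, hFm n v⟩
    obtain ⟨a, ha, h2⟩ := isCompact_Icc.ultrafilter_le_nhds' (U.map fun n => F n v) h1
    exact ⟨a, ha, h2⟩
  choose θ hθ hθlim using hlim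
  have hev : ∀ N : ℕ, ∀ᶠ n in (U : Filter ℕ), N ≤ n := by
    intro N
    have h1 : (U : Filter ℕ) ≤ atTop := Nat.hyperfilter_le_atTop
    exact h1 (Filter.eventually_ge_atTop N)
  have hcons' : ∀ v, θ v = ∑ w ∈ T.children v, θ w := by
    intro v
    have h1 : Tendsto (fun n => ∑ w ∈ T.children v, F n w) (U : Filter ℕ)
        (𝓝 (∑ w ∈ T.children v, θ w)) := tendsto_finsetSum _ fun w _ => hθlim w
    have h2 : Tendsto (fun n => F n v) (U : Filter ℕ) (𝓝 (∑ w ∈ T.children v, θ w)) := by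
      refine h1.congr' ?_
      filter_upwards [hev (T.depth v + 1)] with n hn
      exact hcons n v (by omega)
    exact tendsto_nhds_unique (hθlim v) h2
  refine ⟨θ, ⟨fun v => (hθ v).1, fun v _ => hcons' v⟩, ?_, ?_⟩
  · unfold flowMass
    rw [← hcons' T.root]
    have h1 : Tendsto (fun n => F n T.root) (U : Filter ℕ) (𝓝 m) := by
      have : (fun n => F n T.root) = fun _ => m := by
        funext n
        exact th_root T (g n) m
      rw [this]
      exact tendsto_const_nhds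
    rw [tendsto_nhds_unique (hθlim T.root) h1]
    exact hm0
  · intro ξ hξ
    unfold rayPotential
    apply ENNReal.tsum_le_of_sum_range_le
    intro K
    rw [← ENNReal.ofReal_sum_of_nonneg (fun _ _ => sq_nonneg _), ← ENNReal.ofReal_one]
    apply ENNReal.ofReal_le_ofReal
    have h1 : Tendsto (fun n => ∑ k ∈ Finset.range K,
        (F n (ξ (k + 1)) / lam ^ (2 * (k + 1))) ^ 2) (U : Filter ℕ)
        (𝓝 (∑ k ∈ Finset.range K, (θ (ξ (k + 1)) / lam ^ (2 * (k + 1))) ^ 2)) :=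
      tendsto_finsetSum _ fun k _ => ((hθlim (ξ (k + 1))).div_const _).pow 2
    apply le_of_tendsto h1
    filter_upwards [hev K] with n hn
    exact hpot ξ hξ n K hn

end Crest.Agent.R163.CapF
end

-- ▼ part R163/Forward

/-!
Row 163 (S0246): the forward direction (reconstruction implies positive cubic capacity), from
the law-level hypotheses `LawHyp`.
-/

set_option autoImplicit false

universe u

namespace Crest.Agent.R163

open Crest.ProbabilityR.Broadcast Crest.ProbabilityR.TreeBroadcast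

variable {q : ℕ}

/-- chi-square information of the subtree channel -/
noncomputable def Xt (q : ℕ) [NeZero q] {V : Type u} [DecidableEq V] (T : LocFinTree V) (lam : ℝ)
    (k : ℕ) (v : V) : ℝ := J chi (tc q T lam k v)

/-- chi-square information of the merged channel of a set of children -/
noncomputable def XS (q : ℕ) [NeZero q] {V : Type u} [DecidableEq V] (T : LocFinTree V) (lam : ℝ)
    (k : ℕ) (S : Finset V) : ℝ := J chi (sc q T lam k S)

lemma Xt_succ [NeZero q] {V : Type u} [DecidableEq V] (T : LocFinTree V) (lam : ℝ)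
    (k : ℕ) (v : V) : Xt q T lam (k + 1) v = XS q T lam k (T.children v) := rfl

lemma XS_empty [NeZero q] {V : Type u} [DecidableEq V] (T : LocFinTree V) (lam : ℝ)
    (k : ℕ) : XS q T lam k ∅ = 0 := by
  unfold XS
  rw [sc_empty]
  have : IsEmpty ↥((∅ : Finset V).biUnion (D T k)) := by
    rw [Finset.biUnion_empty]
    infer_instance
  rw [J_unit, chi_one]

/-- reconstruction implies positive cubic capacity -/
theorem LawHyp.forward [NeZero q] {ψ : (Fin q → ℝ) → ℝ} {c κ : ℝ} {Λ : Set ℝ}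
    (H : LawHyp.{u} q ψ c κ Λ) {V : Type u} [DecidableEq V] (T : LocFinTree V) (B : ℕ)
    (hB : ∀ v, (T.children v).card ≤ B) {lam : ℝ} (hlam : lam ∈ Λ) (h0 : 0 < lam) (h1 : lam < 1)
    {ε : ℝ} (hε : 0 < ε) (h : ∀ n, ε ≤ treeAdvantage q T lam n) :
    ∃ θ : V → ℝ, IsFlow T θ ∧ 0 < flowMass T θ ∧
      ∀ ξ : ℕ → V, T.IsRay ξ → rayPotential lam θ ξ ≤ 1 := by
  have hadm := H.adm lam hlam
  have hq1 : (1 : ℝ) ≤ q := by exact_mod_cast Nat.pos_of_ne_zero (NeZero.ne q)
  set M : ℝ := q - 1 with hM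
  have hM0 : 0 ≤ M := by rw [hM]; linarith
  set K : ℝ := B * M + 1 with hK
  have hK0 : 0 < K := by positivity
  have hκ := H.κpos
  set η : ℝ := min (κ / 6) (1 / (4 * (M ^ 2 + 1))) with hη
  have hη0 : 0 < η := lt_min (by positivity) (by positivity)
  have hη3 : 3 * η ≤ κ / 2 := by
    have : η ≤ κ / 6 := min_le_left _ _
    linarith
  have hηM : η * M ^ 2 ≤ 1 / 4 := by
    have h2 : η ≤ 1 / (4 * (M ^ 2 + 1)) := min_le_right _ _
    calc η * M ^ 2 ≤ 1 / (4 * (M ^ 2 + 1)) * (M ^ 2 + 1) :=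
          mul_le_mul h2 (by linarith) (by positivity) (by positivity)
      _ = 1 / 4 := by field_simp
  set c₁ : ℝ := min (κ / 24) (3 / (56 * K ^ 2)) with hc₁
  have hc₁0 : 0 < c₁ := lt_min (by positivity) (by positivity)
  have hc₁c : 24 * c₁ ≤ κ := by
    have : c₁ ≤ κ / 24 := min_le_left _ _
    linarith
  have hc₁K : 56 * K ^ 2 * c₁ ≤ 3 := by
    have h2 : c₁ ≤ 3 / (56 * K ^ 2) := min_le_right _ _
    calc 56 * K ^ 2 * c₁ ≤ 56 * K ^ 2 * (3 / (56 * K ^ 2)) :=
          mul_le_mul_of_nonneg_left h2 (by positivity)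
      _ = 3 := by field_simp
  have hl4 : 0 < 1 - lam ^ 4 := by
    have : lam ^ 4 < 1 := pow_lt_one₀ h0.le h1 (by norm_num)
    linarith
  set μ : ℝ := min (η * lam ^ 2 * (1 - lam ^ 4)) (3 * c₁ * lam ^ 6) with hμ
  have hμ0 : 0 < μ := lt_min (by positivity) (by positivity)
  -- the quantities
  have htc : ∀ k v, InC ψ c (tc q T lam k v) := H.inC_tc T hlam
  have hXt0 : ∀ k v, 0 ≤ Xt q T lam k v := fun k v => (htc k v).1.X_nonneg
  have hXtM : ∀ k v, Xt q T lam k v ≤ M := fun k v => (htc k v).1.X_le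
  set x : ℕ → V → ℝ := fun n v => Xt q T lam (n - T.depth v) v with hx
  have hx0 : ∀ n v, 0 ≤ x n v := fun n v => hXt0 _ _
  have hxM : ∀ n v, x n v ≤ M := fun n v => hXtM _ _
  refine CapF.exists_flow T h0 hη0.le hM0 hμ0 (ε := 4 * ε ^ 2) (by positivity) x hx0 hxM
    ?_ ?_ ?_
  · intro n
    have e : x n T.root = Xt q T lam n T.root := by
      simp only [hx, CapF.root_depth, Nat.sub_zero]
    have h2 := h n
    rw [treeAdvantage_eq] at h2
    have h3 := (htc n T.root).1.J_tv_le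
    rw [e]
    have hX := hXt0 n T.root
    have h4 : ε ≤ 1 / 2 * Real.sqrt (Xt q T lam n T.root) := h2.trans h3
    have h5 : 2 * ε ≤ Real.sqrt (Xt q T lam n T.root) := by linarith
    have h6 := Real.sq_sqrt hX
    nlinarith
  · intro n v hv hc
    obtain ⟨k, hk⟩ : ∃ k, n - T.depth v = k + 1 := ⟨n - T.depth v - 1, by omega⟩
    simp only [hx]
    rw [hk, Xt_succ, hc, XS_empty]
  · intro n v hv w hw
    obtain ⟨k, hk⟩ : ∃ k, n - T.depth v = k + 1 := ⟨n - T.depth v - 1, by omega⟩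
    have hkw : ∀ w' ∈ T.children v, n - T.depth w' = k := fun w' hw' => by
      have := CapF.depth_of_mem_children T hw'
      omega
    have e1 : x n v = XS q T lam k (T.children v) := by
      simp only [hx]
      rw [hk, Xt_succ]
    have e2 : ∀ w' ∈ T.children v, x n w' = Xt q T lam k w' := fun w' hw' => by
      simp only [hx]
      rw [hkw w' hw']
    have e3 : ∑ w' ∈ T.children v, CapF.cub η (x n w') =
        ∑ w' ∈ T.children v, CapF.cub η (Xt q T lam k w') :=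
      Finset.sum_congr rfl fun w' hw' => by rw [e2 w' hw']
    have e4 : ∑ w' ∈ T.children v, x n w' = ∑ w' ∈ T.children v, Xt q T lam k w' :=
      Finset.sum_congr rfl e2
    rw [e1, e3, e4, e2 w hw]
    have hsc : ∀ A : Finset V, InC ψ c (sc q T lam k A) := fun A =>
      H.inC_sc_of T hlam k A fun w _ => htc k w
    refine CapF.vertex_loss (K := K) (M := M) (c₁ := c₁) h0 h1 hκ hη0 hη3 hM0 hηM hK0 hc₁0 hc₁K hc₁c
      (T.children v) (fun w' => Xt q T lam k w') (fun w' _ => hXt0 k w') ?_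
      (fun A => XS q T lam k A) ?_ ?_ ?_ ?_ hw
    · calc ∑ w' ∈ T.children v, Xt q T lam k w' ≤ ∑ _w' ∈ T.children v, M :=
            Finset.sum_le_sum fun w' _ => hXtM k w'
        _ = (T.children v).card * M := by rw [Finset.sum_const, nsmul_eq_mul]
        _ ≤ B * M := mul_le_mul_of_nonneg_right (by exact_mod_cast hB v) hM0
        _ ≤ K := by rw [hK]; linarith
    · intro A _
      exact (hsc A).1.X_nonneg
    · intro A _
      exact (hsc A).1.X_le
    · exact XS_empty T lam k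
    · intro A _ i _ hiA
      have g1 := H.inC_edge (htc k i) hlam
      have g3 := H.X_mrg_le g1 (hsc A)
      rw [(htc k i).1.J_chi_edge lam] at g3
      have g4 : XS q T lam k (insert i A) =
          J chi (mrg (fun o => W lam (tc q T lam k i o)) (sc q T lam k A)) :=
        J_sc_insert T lam k hiA chi
      rw [g4]
      change _ ≤ XS q T lam k A + lam ^ 2 * Xt q T lam k i -
        κ * (XS q T lam k A ^ 2 * (lam ^ 2 * Xt q T lam k i) +
          XS q T lam k A * (lam ^ 2 * Xt q T lam k i) ^ 2)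
      change _ ≤ lam ^ 2 * Xt q T lam k i + XS q T lam k A -
        κ * ((lam ^ 2 * Xt q T lam k i) ^ 2 * XS q T lam k A +
          lam ^ 2 * Xt q T lam k i * XS q T lam k A ^ 2) at g3
      calc _ ≤ _ := g3
        _ = _ := by ring

end Crest.Agent.R163
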