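import Crest.Agent.R163.Back2
import Crest.Agent.R163.Class
import Crest.Agent.R163.Mono
import Mathlib
import Crest.Prelude.Def_TreeBroadcast
import Crest.Agent.R163.Forward
import Crest.Agent.R163.Pair

-- ▼ part R163/Back3
section

/-!
Row 163 (S0246, backward direction): pointwise third-order expansions for a normalized pair,
with error bounds.
-/

set_option autoImplicit false

namespace Crest.Agent.R163.Bk

open Finset

lemma GG_sq {g k : Fin 4 → ℝ} (hg : Cen g) (hk : Cen k) (v : ℝ) (hv : v = avg fun i => g i * k i) :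
    avg (fun i => GG g k v i ^ 2) = avg (fun i => g i ^ 2) + avg (fun i => k i ^ 2) + 2 * v +
      2 * avg (fun i => g i ^ 2 * k i) + 2 * avg (fun i => g i * k i ^ 2) +
      avg (fun i => (g i * k i - v) ^ 2) := by
  have h1 := hg.mean
  have h2 := hk.mean
  rw [avg4] at h1 h2 hv
  simp only [avg4, GG]
  linear_combination (-2 * v) * h1 + (-2 * v) * h2 - 2 * hv

lemma mm_sq {g k : Fin 4 → ℝ} (v : ℝ) (hv : v = avg fun i => g i * k i) :
    avg (fun i => (g i * k i - v) ^ 2) = avg (fun i => g i ^ 2 * k i ^ 2) - v ^ 2 := by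
  rw [avg4] at hv
  simp only [avg4]
  linear_combination (2 * v) * hv

lemma GG_cube {g k : Fin 4 → ℝ} (v : ℝ) :
    avg (fun i => GG g k v i ^ 3) = avg (fun i => g i ^ 3) + avg (fun i => k i ^ 3) +
      3 * avg (fun i => g i ^ 2 * k i) + 3 * avg (fun i => g i * k i ^ 2) +
      3 * (avg (fun i => g i ^ 3 * k i) - v * avg (fun i => g i ^ 2)) +
      3 * (avg (fun i => g i * k i ^ 3) - v * avg (fun i => k i ^ 2)) +
      avg (fun i => 6 * (g i * k i) * (g i * k i - v) + 3 * (g i + k i) * (g i * k i - v) ^ 2 +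
        (g i * k i - v) ^ 3) := by
  simp only [avg4, GG]
  ring

section bounds

variable {g k : Fin 4 → ℝ} {t : ℝ}

lemma bd_v (h : ∀ i, |g i * k i| ≤ 3 * t) : |avg fun i => g i * k i| ≤ 3 * t := abs_avg_le h

lemma bd_p (hg : Cen g) (ht : 0 ≤ t) (h : ∀ i, |g i * k i| ≤ 3 * t) :
    |avg fun i => g i ^ 2 * k i| ≤ 9 * t := abs_avg_le fun i => by
  have e : g i ^ 2 * k i = g i * (g i * k i) := by ring
  rw [e, abs_mul]
  calc |g i| * |g i * k i| ≤ 3 * (3 * t) :=
        mul_le_mul (hg.abs_le i) (h i) (abs_nonneg _) (by norm_num)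
    _ = 9 * t := by ring

lemma bd_p' (hk : Cen k) (ht : 0 ≤ t) (h : ∀ i, |g i * k i| ≤ 3 * t) :
    |avg fun i => g i * k i ^ 2| ≤ 9 * t := abs_avg_le fun i => by
  have e : g i * k i ^ 2 = k i * (g i * k i) := by ring
  rw [e, abs_mul]
  calc |k i| * |g i * k i| ≤ 3 * (3 * t) :=
        mul_le_mul (hk.abs_le i) (h i) (abs_nonneg _) (by norm_num)
    _ = 9 * t := by ring

lemma bd_q (hg : Cen g) (ht : 0 ≤ t) (h : ∀ i, |g i * k i| ≤ 3 * t) :
    |avg fun i => g i ^ 3 * k i| ≤ 27 * t := abs_avg_le fun i => by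
  have e : g i ^ 3 * k i = g i ^ 2 * (g i * k i) := by ring
  have h2 : |g i ^ 2| ≤ 9 := by
    rw [abs_of_nonneg (sq_nonneg _)]
    have := _root_.abs_le.1 (hg.abs_le i)
    nlinarith [this.1, this.2]
  rw [e, abs_mul]
  calc |g i ^ 2| * |g i * k i| ≤ 9 * (3 * t) :=
        mul_le_mul h2 (h i) (abs_nonneg _) (by norm_num)
    _ = 27 * t := by ring

lemma bd_q' (hk : Cen k) (ht : 0 ≤ t) (h : ∀ i, |g i * k i| ≤ 3 * t) :
    |avg fun i => g i * k i ^ 3| ≤ 27 * t := abs_avg_le fun i => by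
  have e : g i * k i ^ 3 = k i ^ 2 * (g i * k i) := by ring
  have h2 : |k i ^ 2| ≤ 9 := by
    rw [abs_of_nonneg (sq_nonneg _)]
    have := _root_.abs_le.1 (hk.abs_le i)
    nlinarith [this.1, this.2]
  rw [e, abs_mul]
  calc |k i ^ 2| * |g i * k i| ≤ 9 * (3 * t) :=
        mul_le_mul h2 (h i) (abs_nonneg _) (by norm_num)
    _ = 27 * t := by ring

lemma bd_m (ht : 0 ≤ t) (h : ∀ i, |g i * k i| ≤ 3 * t) {v : ℝ} (hv : |v| ≤ 3 * t) (i : Fin 4) :
    |g i * k i - v| ≤ 6 * t := by
  calc |g i * k i - v| ≤ |g i * k i| + |v| := abs_sub _ _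
    _ ≤ 6 * t := by linarith [h i]

lemma bd_m2 (ht : 0 ≤ t) (h : ∀ i, |g i * k i| ≤ 3 * t) {v : ℝ} (hv : |v| ≤ 3 * t) (i : Fin 4) :
    (g i * k i - v) ^ 2 ≤ 36 * t ^ 2 := by
  have := bd_m ht h hv i
  calc (g i * k i - v) ^ 2 = |g i * k i - v| ^ 2 := (sq_abs _).symm
    _ ≤ (6 * t) ^ 2 := pow_le_pow_left₀ (abs_nonneg _) this 2
    _ = 36 * t ^ 2 := by ring

end bounds

/-- third-order expansion of `chi` -/
theorem chi_core {g k : Fin 4 → ℝ} (hg : Cen g) (hk : Cen k) :
    |chi (FF g k) - (avg (fun i => g i ^ 2) + avg (fun i => k i ^ 2) +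
      2 * avg (fun i => g i * k i) + 2 * avg (fun i => g i ^ 2 * k i) +
      2 * avg (fun i => g i * k i ^ 2) + avg (fun i => g i ^ 2 * k i ^ 2) -
      3 * (avg (fun i => g i * k i) * avg (fun i => g i * k i)) -
      avg (fun i => g i * k i) * (avg (fun i => g i ^ 2) + avg (fun i => k i ^ 2)) -
      2 * (avg (fun i => g i * k i) * avg (fun i => g i ^ 2 * k i)) -
      2 * (avg (fun i => g i * k i) * avg (fun i => g i * k i ^ 2)))| ≤
    1000 * (avg (fun i => g i ^ 2) * avg (fun i => k i ^ 2) *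
      (avg (fun i => g i ^ 2) + avg (fun i => k i ^ 2))) := by
  obtain ⟨t, ht0, ht2, htx, ht3, hgk⟩ := pair_bound hg hk
  have hv := bd_v hgk
  have hp := bd_p hg ht0 hgk
  have hp' := bd_p' hk ht0 hgk
  have hG := GG_sq hg hk _ rfl
  have hm := mm_sq (g := g) (k := k) _ rfl
  have hchi := chi_FF hg hk
  have hx := Cen.avg_sq_nonneg g
  have hx' := Cen.avg_sq_nonneg k
  have hrm : 0 ≤ avg (fun i => g i ^ 2 * k i ^ 2) := avg_nonneg fun i => by positivity
  have hr : avg (fun i => g i ^ 2 * k i ^ 2) ≤ 9 * t ^ 2 := avg_le_const fun i => by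
    have h1 : (g i * k i) ^ 2 ≤ (3 * t) ^ 2 := by
      rw [← sq_abs (g i * k i)]
      exact pow_le_pow_left₀ (abs_nonneg _) (hgk i) 2
    calc g i ^ 2 * k i ^ 2 = (g i * k i) ^ 2 := by ring
      _ ≤ (3 * t) ^ 2 := h1
      _ = 9 * t ^ 2 := by ring
  have hF := FF_nonneg hg hk
  have hc0 : 0 ≤ chi (FF g k) := chi_nonneg hF
  have hc3 : chi (FF g k) ≤ 3 * (1 + avg fun i => g i * k i) := by
    have := chi_le3 hF
    rwa [avg_FF hg hk] at this
  rw [hm] at hG
  rw [hG] at hchi
  rw [← ht2]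
  generalize avg (fun i => g i ^ 2) = x at *
  generalize avg (fun i => k i ^ 2) = x' at *
  generalize avg (fun i => g i * k i) = v at *
  generalize avg (fun i => g i ^ 2 * k i) = p at *
  generalize avg (fun i => g i * k i ^ 2) = p' at *
  generalize avg (fun i => g i ^ 2 * k i ^ 2) = r at *
  generalize chi (FF g k) = c at *
  clear hG hm hF hgk
  have hv' := _root_.abs_le.1 hv
  have hp1 := _root_.abs_le.1 hp
  have hp1' := _root_.abs_le.1 hp'
  -- `chi ≤ 72 (x + x')`
  have hA : x + x' + 2 * v + 2 * p + 2 * p' + (r - v ^ 2) ≤ 36 * (x + x') := by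
    nlinarith [sq_nonneg v, hv'.2, hp1.2, hp1'.2]
  have hc : c ≤ 72 * (x + x') := by
    by_cases hw : 1 / 2 ≤ 1 + v
    · -- c (1+v) = A
      have h1 : c * (1 + v) ≤ 36 * (x + x') := by
        by_cases hw1 : v = 1
        · have : c * (1 - v ^ 2) = (x + x' + 2 * v + 2 * p + 2 * p' + (r - v ^ 2)) * (1 - v) := by
            linear_combination hchi
          -- the case v = 1 cannot be read off; use the generic bound instead
          nlinarith [hc3]
        · have : (1 - v) * (c * (1 + v)) =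
              (1 - v) * (x + x' + 2 * v + 2 * p + 2 * p' + (r - v ^ 2)) := by
            linear_combination hchi
          have := mul_left_cancel₀ (sub_ne_zero.2 (Ne.symm hw1)) this
          rw [this]; exact hA
      nlinarith
    · push Not at hw
      have h2 : 1 / 6 ≤ t := by linarith [hv'.1]
      linarith
  have hkey : c - (x + x' + 2 * v + 2 * p + 2 * p' + r - 3 * (v * v) - v * (x + x') -
      2 * (v * p) - 2 * (v * p')) = -(v * r) + v ^ 3 + v ^ 2 * c := by
    linear_combination hchi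
  rw [hkey]
  have ht2' : 0 ≤ t ^ 2 := sq_nonneg t
  have hv2 : v ^ 2 ≤ 9 * t ^ 2 := by nlinarith [hv'.1, hv'.2]
  have b1 : |v * r| ≤ 27 * t ^ 3 := by
    rw [abs_mul, abs_of_nonneg hrm]
    calc |v| * r ≤ (3 * t) * (9 * t ^ 2) := mul_le_mul hv hr hrm (by positivity)
      _ = 27 * t ^ 3 := by ring
  have b2 : |v ^ 3| ≤ 27 * t ^ 3 := by
    rw [abs_pow]
    calc |v| ^ 3 ≤ (3 * t) ^ 3 := pow_le_pow_left₀ (abs_nonneg _) hv 3
      _ = 27 * t ^ 3 := by ring
  have b3 : |v ^ 2 * c| ≤ 9 * t ^ 2 * (72 * (x + x')) := by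
    rw [abs_of_nonneg (mul_nonneg (sq_nonneg v) hc0)]
    exact mul_le_mul hv2 hc hc0 (by positivity)
  have b4 : t ^ 3 ≤ t ^ 2 * (x + x') / 2 := by nlinarith
  calc |-(v * r) + v ^ 3 + v ^ 2 * c| ≤ |v * r| + |v ^ 3| + |v ^ 2 * c| := by
        refine (abs_add_le _ _).trans ?_
        refine add_le_add ((abs_add_le _ _).trans ?_) le_rfl
        rw [abs_neg]
    _ ≤ 27 * t ^ 3 + 27 * t ^ 3 + 9 * t ^ 2 * (72 * (x + x')) := by linarith
    _ ≤ 1000 * (t ^ 2 * (x + x')) := by nlinarith [mul_nonneg ht2' (add_nonneg hx hx')]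

end Crest.Agent.R163.Bk
end

-- ▼ part R163/Back4
section

/-!
Row 163 (S0246, backward direction): pointwise third-order expansions for a normalized pair,
with error bounds (`y3` and `x2`).
-/

set_option autoImplicit false

namespace Crest.Agent.R163.Bk

open Finset

lemma abs_y3_FF_le {g k : Fin 4 → ℝ} (hg : Cen g) (hk : Cen k) : |y3 (FF g k)| ≤ 36 := by
  have hF := FF_nonneg hg hk
  have h1 := abs_y3_le_chi hF
  have h2 := chi_le3 hF
  have h3 := avg_FF_le hg hk
  linarith

lemma abs_x2_FF_le {g k : Fin 4 → ℝ} (hg : Cen g) (hk : Cen k) : |x2 (FF g k)| ≤ 108 := by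
  have hF := FF_nonneg hg hk
  rw [abs_of_nonneg (x2_nonneg hF)]
  have h1 := x2_le_chi hF
  have h2 := chi_le3 hF
  have h3 := avg_FF_le hg hk
  linarith

set_option maxHeartbeats 1000000 in
/-- third-order expansion of `y3` -/
theorem y3_core {g k : Fin 4 → ℝ} (hg : Cen g) (hk : Cen k) :
    |y3 (FF g k) - (avg (fun i => g i ^ 3) + avg (fun i => k i ^ 3) +
      3 * avg (fun i => g i ^ 2 * k i) + 3 * avg (fun i => g i * k i ^ 2) +
      3 * avg (fun i => g i ^ 3 * k i) + 3 * avg (fun i => g i * k i ^ 3) -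
      3 * (avg (fun i => g i * k i) * (avg (fun i => g i ^ 2) + avg (fun i => k i ^ 2))) -
      2 * (avg (fun i => g i * k i) * (avg (fun i => g i ^ 3) + avg (fun i => k i ^ 3))))| ≤
    60000 * (avg (fun i => g i ^ 2) * avg (fun i => k i ^ 2)) := by
  obtain ⟨t, ht0, ht2, htx, ht3, hgk⟩ := pair_bound hg hk
  have hv := bd_v hgk
  have hp := bd_p hg ht0 hgk
  have hp' := bd_p' hk ht0 hgk
  have hq := bd_q hg ht0 hgk
  have hq' := bd_q' hk ht0 hgk
  have hG := GG_cube (g := g) (k := k) (avg fun i => g i * k i)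
  have hc := y3_FF hg hk
  have hb := abs_y3_FF_le hg hk
  have hx := Cen.avg_sq_nonneg g
  have hx' := Cen.avg_sq_nonneg k
  have hx3 := hg.avg_sq_le
  have hx3' := hk.avg_sq_le
  -- the remainder
  have hR : |avg (fun i => 6 * (g i * k i) * (g i * k i - avg fun i => g i * k i) +
      3 * (g i + k i) * (g i * k i - avg fun i => g i * k i) ^ 2 +
        (g i * k i - avg fun i => g i * k i) ^ 3)| ≤ 2000 * t ^ 2 := abs_avg_le fun i => by
    have h1 := hgk i
    have h2 := bd_m ht0 hgk hv i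
    have h3 := bd_m2 ht0 hgk hv i
    have h4 := hg.abs_le i
    have h5 := hk.abs_le i
    have h6 : |g i * k i - avg fun i => g i * k i| ≤ 18 := by linarith
    generalize (g i * k i - avg fun i => g i * k i) = m at *
    generalize g i * k i = z at *
    have e1 : |6 * z * m| ≤ 108 * t ^ 2 := by
      rw [abs_mul, abs_mul, abs_of_nonneg (by norm_num : (0 : ℝ) ≤ 6)]
      calc 6 * |z| * |m| ≤ 6 * (3 * t) * (6 * t) :=
            mul_le_mul (by linarith) h2 (abs_nonneg _) (by positivity)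
        _ = 108 * t ^ 2 := by ring
    have e2 : |3 * (g i + k i) * m ^ 2| ≤ 18 * (36 * t ^ 2) := by
      rw [abs_mul, abs_mul, abs_of_nonneg (by norm_num : (0 : ℝ) ≤ 3), abs_of_nonneg (sq_nonneg m)]
      refine mul_le_mul ?_ h3 (sq_nonneg _) (by norm_num)
      have := abs_add_le (g i) (k i)
      linarith
    have e3 : |m ^ 3| ≤ 18 * (36 * t ^ 2) := by
      have : |m ^ 3| = |m| * m ^ 2 := by rw [abs_pow, pow_succ, mul_comm, sq_abs]
      rw [this]
      exact mul_le_mul h6 h3 (sq_nonneg _) (by norm_num)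
    calc |6 * z * m + 3 * (g i + k i) * m ^ 2 + m ^ 3|
        ≤ |6 * z * m| + |3 * (g i + k i) * m ^ 2| + |m ^ 3| :=
          (abs_add_le _ _).trans (add_le_add (abs_add_le _ _) le_rfl)
      _ ≤ 2000 * t ^ 2 := by nlinarith [sq_nonneg t]
  rw [hG] at hc
  rw [← ht2]
  generalize avg (fun i => 6 * (g i * k i) * (g i * k i - avg fun i => g i * k i) +
      3 * (g i + k i) * (g i * k i - avg fun i => g i * k i) ^ 2 +
        (g i * k i - avg fun i => g i * k i) ^ 3) = R at *
  generalize avg (fun i => g i ^ 2) = x at *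
  generalize avg (fun i => k i ^ 2) = x' at *
  generalize avg (fun i => g i ^ 3) = y at *
  generalize avg (fun i => k i ^ 3) = y' at *
  generalize avg (fun i => g i * k i) = v at *
  generalize avg (fun i => g i ^ 2 * k i) = p at *
  generalize avg (fun i => g i * k i ^ 2) = p' at *
  generalize avg (fun i => g i ^ 3 * k i) = a at *
  generalize avg (fun i => g i * k i ^ 3) = a' at *
  generalize y3 (FF g k) = c at *
  clear hG hgk
  have hv' := _root_.abs_le.1 hv
  have hv9 : |v| ≤ 9 := by linarith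
  have hv9' := _root_.abs_le.1 hv9
  have hv2 : v ^ 2 ≤ 9 * t ^ 2 := by nlinarith [hv'.1, hv'.2]
  -- the second remainder
  set S : ℝ := 3 * p + 3 * p' + 3 * (a - v * x) + 3 * (a' - v * x') + R with hS
  have hSb : |S| ≤ 7000 * t := by
    have hvx : |v * x| ≤ 9 * t := by
      rw [abs_mul, abs_of_nonneg hx]
      nlinarith [abs_nonneg v]
    have hvx' : |v * x'| ≤ 9 * t := by
      rw [abs_mul, abs_of_nonneg hx']
      nlinarith [abs_nonneg v]
    have b1 := _root_.abs_le.1 hp
    have b2 := _root_.abs_le.1 hp'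
    have b3 := _root_.abs_le.1 hq
    have b4 := _root_.abs_le.1 hq'
    have b5 := _root_.abs_le.1 hR
    have b6 := _root_.abs_le.1 hvx
    have b7 := _root_.abs_le.1 hvx'
    have b8 : t ^ 2 ≤ 3 * t := by nlinarith
    rw [hS, _root_.abs_le]
    constructor
    · linarith [b1.1, b2.1, b3.1, b4.1, b5.1, b6.2, b7.2]
    · linarith [b1.2, b2.2, b3.2, b4.2, b5.2, b6.1, b7.1]
  have hkey : c - (y + y' + 3 * p + 3 * p' + 3 * a + 3 * a' - 3 * (v * (x + x')) -
      2 * (v * (y + y'))) = R - 2 * (v * S) + v ^ 2 * (3 + 2 * v) * c := by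
    rw [hS]
    linear_combination hc
  rw [hkey]
  have c1 : |2 * (v * S)| ≤ 42000 * t ^ 2 := by
    rw [abs_mul, abs_mul, abs_of_nonneg (by norm_num : (0 : ℝ) ≤ 2)]
    calc 2 * (|v| * |S|) ≤ 2 * ((3 * t) * (7000 * t)) := by
          have := mul_le_mul hv hSb (abs_nonneg _) (by positivity)
          linarith
      _ = 42000 * t ^ 2 := by ring
  have hv3 : |3 + 2 * v| ≤ 21 := by
    rw [_root_.abs_le]; constructor <;> linarith [hv9'.1, hv9'.2]
  have c2 : |v ^ 2 * (3 + 2 * v) * c| ≤ 7000 * t ^ 2 := by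
    rw [abs_mul, abs_mul, abs_of_nonneg (sq_nonneg v)]
    calc v ^ 2 * |3 + 2 * v| * |c| ≤ (9 * t ^ 2) * 21 * 36 :=
          mul_le_mul (mul_le_mul hv2 hv3 (abs_nonneg _) (by positivity)) hb (abs_nonneg _)
            (by positivity)
      _ ≤ 7000 * t ^ 2 := by nlinarith [sq_nonneg t]
  have d1 := _root_.abs_le.1 hR
  have d2 := _root_.abs_le.1 c1
  have d3 := _root_.abs_le.1 c2
  have ht2p : 0 ≤ t ^ 2 := sq_nonneg t
  rw [_root_.abs_le]
  constructor
  · linarith [d1.1, d2.2, d3.1]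
  · linarith [d1.2, d2.1, d3.2]

set_option maxHeartbeats 1000000 in
/-- third-order expansion of `x2` -/
theorem x2_core {g k : Fin 4 → ℝ} (hg : Cen g) (hk : Cen k) :
    |x2 (FF g k) - ((avg (fun i => g i ^ 2) + avg (fun i => k i ^ 2)) ^ 2 +
      4 * ((avg (fun i => g i ^ 2) + avg (fun i => k i ^ 2)) * (avg (fun i => g i * k i) +
        avg (fun i => g i ^ 2 * k i) + avg (fun i => g i * k i ^ 2))) -
      3 * (avg (fun i => g i * k i) * (avg (fun i => g i ^ 2) + avg (fun i => k i ^ 2)) ^ 2))| ≤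
    2000000 * (avg (fun i => g i ^ 2) * avg (fun i => k i ^ 2)) := by
  obtain ⟨t, ht0, ht2, htx, ht3, hgk⟩ := pair_bound hg hk
  have hv := bd_v hgk
  have hp := bd_p hg ht0 hgk
  have hp' := bd_p' hk ht0 hgk
  have hG := GG_sq hg hk _ rfl
  have hc := x2_FF hg hk
  have hb := abs_x2_FF_le hg hk
  have hx := Cen.avg_sq_nonneg g
  have hx' := Cen.avg_sq_nonneg k
  have hx3 := hg.avg_sq_le
  have hx3' := hk.avg_sq_le
  have hR0 : 0 ≤ avg (fun i => (g i * k i - avg fun i => g i * k i) ^ 2) :=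
    avg_nonneg fun i => sq_nonneg _
  have hR : avg (fun i => (g i * k i - avg fun i => g i * k i) ^ 2) ≤ 36 * t ^ 2 :=
    avg_le_const fun i => bd_m2 ht0 hgk hv i
  rw [hG] at hc
  rw [← ht2]
  generalize avg (fun i => (g i * k i - avg fun i => g i * k i) ^ 2) = R at *
  generalize avg (fun i => g i ^ 2) = x at *
  generalize avg (fun i => k i ^ 2) = x' at *
  generalize avg (fun i => g i * k i) = v at *
  generalize avg (fun i => g i ^ 2 * k i) = p at *
  generalize avg (fun i => g i * k i ^ 2) = p' at *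
  generalize x2 (FF g k) = c at *
  clear hG hgk
  have hv' := _root_.abs_le.1 hv
  have hv9 : |v| ≤ 9 := by linarith
  have hv9' := _root_.abs_le.1 hv9
  have hv2 : v ^ 2 ≤ 9 * t ^ 2 := by nlinarith [hv'.1, hv'.2]
  have b1 := _root_.abs_le.1 hp
  have b2 := _root_.abs_le.1 hp'
  have hxx0 : 0 ≤ x + x' := by linarith
  have hxx6 : x + x' ≤ 6 := by linarith
  -- `l = 2v+2p+2p'`
  obtain ⟨l, hl⟩ : ∃ l : ℝ, l = 2 * v + 2 * p + 2 * p' := ⟨_, rfl⟩
  have hlb : |l| ≤ 42 * t := by
    rw [hl, _root_.abs_le]; constructor <;> linarith [b1.1, b1.2, b2.1, b2.2, hv'.1, hv'.2]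
  have hR3 : R ≤ 108 * t := by nlinarith
  have hlR : |l + R| ≤ 150 * t := by
    have := _root_.abs_le.1 hlb
    rw [_root_.abs_le]; constructor <;> linarith [this.1, this.2]
  obtain ⟨U, hU⟩ : ∃ U : ℝ, U = 2 * (x + x') * R + (l + R) ^ 2 := ⟨_, rfl⟩
  have hUb : |U| ≤ 23000 * t ^ 2 := by
    have h1 : (l + R) ^ 2 ≤ 22500 * t ^ 2 := by
      rw [← sq_abs]
      calc |l + R| ^ 2 ≤ (150 * t) ^ 2 := pow_le_pow_left₀ (abs_nonneg _) hlR 2
        _ = 22500 * t ^ 2 := by ring
    have h2 : 2 * (x + x') * R ≤ 12 * (36 * t ^ 2) :=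
      mul_le_mul (by linarith) hR hR0 (by norm_num)
    have h3 : 0 ≤ 2 * (x + x') * R := by positivity
    rw [hU, abs_of_nonneg (add_nonneg h3 (sq_nonneg _))]
    nlinarith [sq_nonneg t]
  obtain ⟨Z, hZ⟩ : ∃ Z : ℝ, Z = 2 * (x + x') * l + U := ⟨_, rfl⟩
  have hZb : |Z| ≤ 70000 * t := by
    have h1 : |2 * (x + x') * l| ≤ 12 * (42 * t) := by
      rw [abs_mul, abs_of_nonneg (by linarith : (0 : ℝ) ≤ 2 * (x + x'))]
      exact mul_le_mul (by linarith) hlb (abs_nonneg _) (by norm_num)
    have h2 : |U| ≤ 69000 * t := by nlinarith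
    rw [hZ]
    calc |2 * (x + x') * l + U| ≤ |2 * (x + x') * l| + |U| := abs_add_le _ _
      _ ≤ 70000 * t := by linarith
  have hkey : c - ((x + x') ^ 2 + 4 * ((x + x') * (v + p + p')) - 3 * (v * (x + x') ^ 2)) =
      U - 3 * (v * Z) + v ^ 2 * (6 + 8 * v + 3 * v ^ 2) * c := by
    have e1 : x + x' + 2 * v + 2 * p + 2 * p' + R = (x + x') + (l + R) := by rw [hl]; ring
    rw [e1] at hc
    have e2 : ((x + x') + (l + R)) ^ 2 = (x + x') ^ 2 + Z := by rw [hZ, hU]; ring
    rw [e2] at hc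
    have e3 : Z = 4 * ((x + x') * (v + p + p')) + U := by rw [hZ, hl]; ring
    linear_combination hc + e3
  rw [hkey]
  have c1 : |3 * (v * Z)| ≤ 630000 * t ^ 2 := by
    rw [abs_mul, abs_mul, abs_of_nonneg (by norm_num : (0 : ℝ) ≤ 3)]
    calc 3 * (|v| * |Z|) ≤ 3 * ((3 * t) * (70000 * t)) := by
          have := mul_le_mul hv hZb (abs_nonneg _) (by positivity)
          linarith
      _ = 630000 * t ^ 2 := by ring
  have hv3 : |6 + 8 * v + 3 * v ^ 2| ≤ 400 := by
    rw [_root_.abs_le]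
    have hvv : v ^ 2 ≤ 81 := by nlinarith [hv9'.1, hv9'.2]
    constructor
    · linarith [hv9'.1, sq_nonneg v]
    · linarith [hv9'.1, hv9'.2]
  have c2 : |v ^ 2 * (6 + 8 * v + 3 * v ^ 2) * c| ≤ 400000 * t ^ 2 := by
    rw [abs_mul, abs_mul, abs_of_nonneg (sq_nonneg v)]
    calc v ^ 2 * |6 + 8 * v + 3 * v ^ 2| * |c| ≤ (9 * t ^ 2) * 400 * 108 :=
          mul_le_mul (mul_le_mul hv2 hv3 (abs_nonneg _) (by positivity)) hb (abs_nonneg _)
            (by positivity)
      _ ≤ 400000 * t ^ 2 := by nlinarith [sq_nonneg t]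
  have d1 := _root_.abs_le.1 hUb
  have d2 := _root_.abs_le.1 c1
  have d3 := _root_.abs_le.1 c2
  have ht2p : 0 ≤ t ^ 2 := sq_nonneg t
  rw [_root_.abs_le]
  constructor
  · linarith [d1.1, d2.2, d3.1]
  · linarith [d1.2, d2.1, d3.2]

end Crest.Agent.R163.Bk
end

-- ▼ part R163/Back5
section

/-!
Row 163 (S0246, backward direction): orbit inequalities and two-fold merge inequalities.
-/

set_option autoImplicit false

namespace Crest.Agent.R163.Bk

open Finset

lemma avg_comp (p : Fin 4 → ℝ) (σ : Equiv.Perm (Fin 4)) : avg (fun i => p (σ i)) = avg p := by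
  unfold avg
  rw [Equiv.sum_comp σ p]

lemma Cen.comp {k : Fin 4 → ℝ} (hk : Cen k) (σ : Equiv.Perm (Fin 4)) :
    Cen (fun i => k (σ i)) where
  mean := by rw [avg_comp k σ]; exact hk.mean
  ge i := hk.ge _

lemma sum_bound {ι : Type*} (s : Finset ι) (f P : ι → ℝ) {B : ℝ} (h : ∀ i ∈ s, |f i - P i| ≤ B) :
    |∑ i ∈ s, f i - ∑ i ∈ s, P i| ≤ s.card * B := by
  rw [← Finset.sum_sub_distrib]
  refine (Finset.abs_sum_le_sum_abs _ _).trans ?_
  refine (Finset.sum_le_sum h).trans ?_
  rw [Finset.sum_const, nsmul_eq_mul]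

lemma card_perm4 : ((Finset.univ : Finset (Equiv.Perm (Fin 4))).card : ℝ) = 24 := by
  rw [Finset.card_univ, Fintype.card_perm, Fintype.card_fin]
  norm_num [Nat.factorial]

/-- averaged `chi` expansion -/
theorem chi_orb {g k : Fin 4 → ℝ} (hg : Cen g) (hk : Cen k) :
    |∑ σ : Equiv.Perm (Fin 4), chi (FF g (fun i => k (σ i))) -
      (24 * (avg (fun i => g i ^ 2) + avg (fun i => k i ^ 2)) -
        16 * (avg (fun i => g i ^ 3) * avg (fun i => k i ^ 2) +
          avg (fun i => g i ^ 2) * avg (fun i => k i ^ 3)))| ≤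
    24 * (1000 * (avg (fun i => g i ^ 2) * avg (fun i => k i ^ 2) *
      (avg (fun i => g i ^ 2) + avg (fun i => k i ^ 2)))) := by
  have hc2 : ∀ σ : Equiv.Perm (Fin 4), avg (fun i => k (σ i) ^ 2) = avg (fun i => k i ^ 2) :=
    fun σ => avg_comp (fun i => k i ^ 2) σ
  have key := sum_bound (Finset.univ : Finset (Equiv.Perm (Fin 4)))
    (fun σ => chi (FF g (fun i => k (σ i)))) _ (fun σ _ => by
      have := chi_core hg (hk.comp σ)
      rw [hc2 σ] at this
      exact this)
  rw [card_perm4] at key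
  have h1 : ∑ σ : Equiv.Perm (Fin 4), avg (fun i => g i * k (σ i)) = 0 := by
    rw [E1 g k, hg.mean, zero_mul, mul_zero]
  have h2 : ∑ σ : Equiv.Perm (Fin 4), avg (fun i => g i ^ 2 * k (σ i)) = 0 := by
    rw [E1 (fun i => g i ^ 2) k, hk.mean, mul_zero, mul_zero]
  have h3 : ∑ σ : Equiv.Perm (Fin 4), avg (fun i => g i * k (σ i) ^ 2) = 0 := by
    rw [E1 g (fun i => k i ^ 2), hg.mean, zero_mul, mul_zero]
  have h4 : ∑ σ : Equiv.Perm (Fin 4), avg (fun i => g i ^ 2 * k (σ i) ^ 2) =
      24 * (avg (fun i => g i ^ 2) * avg (fun i => k i ^ 2)) :=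
    E1 (fun i => g i ^ 2) (fun i => k i ^ 2)
  have h5 : ∑ σ : Equiv.Perm (Fin 4), avg (fun i => g i * k (σ i)) *
      avg (fun i => g i * k (σ i)) = 8 * (avg (fun i => g i ^ 2) * avg (fun i => k i ^ 2)) := by
    rw [E2 g g k k hg.mean hk.mean]
    simp only [pow_two]
  have h6 : ∑ σ : Equiv.Perm (Fin 4), avg (fun i => g i * k (σ i)) *
      avg (fun i => g i ^ 2 * k (σ i)) =
      8 * (avg (fun i => g i ^ 3) * avg (fun i => k i ^ 2)) := by
    have := E2 g (fun i => g i ^ 2) k k hg.mean hk.mean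
    rw [this]
    congr 2
    · congr 1; funext i; ring
    · congr 1; funext i; ring
  have h7 : ∑ σ : Equiv.Perm (Fin 4), avg (fun i => g i * k (σ i)) *
      avg (fun i => g i * k (σ i) ^ 2) =
      8 * (avg (fun i => g i ^ 2) * avg (fun i => k i ^ 3)) := by
    have := E2 g g k (fun i => k i ^ 2) hg.mean hk.mean
    rw [this]
    congr 2
    · congr 1; funext i; ring
    · congr 1; funext i; ring
  have hP : ∑ σ : Equiv.Perm (Fin 4), (avg (fun i => g i ^ 2) + avg (fun i => k i ^ 2) +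
      2 * avg (fun i => g i * k (σ i)) + 2 * avg (fun i => g i ^ 2 * k (σ i)) +
      2 * avg (fun i => g i * k (σ i) ^ 2) + avg (fun i => g i ^ 2 * k (σ i) ^ 2) -
      3 * (avg (fun i => g i * k (σ i)) * avg (fun i => g i * k (σ i))) -
      avg (fun i => g i * k (σ i)) * (avg (fun i => g i ^ 2) + avg (fun i => k i ^ 2)) -
      2 * (avg (fun i => g i * k (σ i)) * avg (fun i => g i ^ 2 * k (σ i))) -
      2 * (avg (fun i => g i * k (σ i)) * avg (fun i => g i * k (σ i) ^ 2))) =
      24 * (avg (fun i => g i ^ 2) + avg (fun i => k i ^ 2)) -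
        16 * (avg (fun i => g i ^ 3) * avg (fun i => k i ^ 2) +
          avg (fun i => g i ^ 2) * avg (fun i => k i ^ 3)) := by
    simp only [Finset.sum_add_distrib, Finset.sum_sub_distrib, ← Finset.mul_sum, ← Finset.sum_mul,
      h1, h2, h3, h4, h5, h6, h7, Finset.sum_const, nsmul_eq_mul, card_perm4]
    ring
  rw [hP] at key
  exact key

/-- averaged `y3` expansion -/
theorem y3_orb {g k : Fin 4 → ℝ} (hg : Cen g) (hk : Cen k) :
    |∑ σ : Equiv.Perm (Fin 4), y3 (FF g (fun i => k (σ i))) -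
      24 * (avg (fun i => g i ^ 3) + avg (fun i => k i ^ 3))| ≤
    24 * (60000 * (avg (fun i => g i ^ 2) * avg (fun i => k i ^ 2))) := by
  have hc2 : ∀ σ : Equiv.Perm (Fin 4), avg (fun i => k (σ i) ^ 2) = avg (fun i => k i ^ 2) :=
    fun σ => avg_comp (fun i => k i ^ 2) σ
  have hc3 : ∀ σ : Equiv.Perm (Fin 4), avg (fun i => k (σ i) ^ 3) = avg (fun i => k i ^ 3) :=
    fun σ => avg_comp (fun i => k i ^ 3) σ
  have key := sum_bound (Finset.univ : Finset (Equiv.Perm (Fin 4)))
    (fun σ => y3 (FF g (fun i => k (σ i)))) _ (fun σ _ => by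
      have := y3_core hg (hk.comp σ)
      rw [hc2 σ, hc3 σ] at this
      exact this)
  rw [card_perm4] at key
  have h1 : ∑ σ : Equiv.Perm (Fin 4), avg (fun i => g i * k (σ i)) = 0 := by
    rw [E1 g k, hg.mean, zero_mul, mul_zero]
  have h2 : ∑ σ : Equiv.Perm (Fin 4), avg (fun i => g i ^ 2 * k (σ i)) = 0 := by
    rw [E1 (fun i => g i ^ 2) k, hk.mean, mul_zero, mul_zero]
  have h3 : ∑ σ : Equiv.Perm (Fin 4), avg (fun i => g i * k (σ i) ^ 2) = 0 := by
    rw [E1 g (fun i => k i ^ 2), hg.mean, zero_mul, mul_zero]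
  have h4 : ∑ σ : Equiv.Perm (Fin 4), avg (fun i => g i ^ 3 * k (σ i)) = 0 := by
    rw [E1 (fun i => g i ^ 3) k, hk.mean, mul_zero, mul_zero]
  have h5 : ∑ σ : Equiv.Perm (Fin 4), avg (fun i => g i * k (σ i) ^ 3) = 0 := by
    rw [E1 g (fun i => k i ^ 3), hg.mean, zero_mul, mul_zero]
  have hP : ∑ σ : Equiv.Perm (Fin 4), (avg (fun i => g i ^ 3) + avg (fun i => k i ^ 3) +
      3 * avg (fun i => g i ^ 2 * k (σ i)) + 3 * avg (fun i => g i * k (σ i) ^ 2) +
      3 * avg (fun i => g i ^ 3 * k (σ i)) + 3 * avg (fun i => g i * k (σ i) ^ 3) -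
      3 * (avg (fun i => g i * k (σ i)) * (avg (fun i => g i ^ 2) + avg (fun i => k i ^ 2))) -
      2 * (avg (fun i => g i * k (σ i)) * (avg (fun i => g i ^ 3) + avg (fun i => k i ^ 3)))) =
      24 * (avg (fun i => g i ^ 3) + avg (fun i => k i ^ 3)) := by
    simp only [Finset.sum_add_distrib, Finset.sum_sub_distrib, ← Finset.mul_sum, ← Finset.sum_mul,
      h1, h2, h3, h4, h5, Finset.sum_const, nsmul_eq_mul, card_perm4]
    ring
  rw [hP] at key
  exact key

/-- averaged `x2` expansion -/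
theorem x2_orb {g k : Fin 4 → ℝ} (hg : Cen g) (hk : Cen k) :
    |∑ σ : Equiv.Perm (Fin 4), x2 (FF g (fun i => k (σ i))) -
      24 * (avg (fun i => g i ^ 2) + avg (fun i => k i ^ 2)) ^ 2| ≤
    24 * (2000000 * (avg (fun i => g i ^ 2) * avg (fun i => k i ^ 2))) := by
  have hc2 : ∀ σ : Equiv.Perm (Fin 4), avg (fun i => k (σ i) ^ 2) = avg (fun i => k i ^ 2) :=
    fun σ => avg_comp (fun i => k i ^ 2) σ
  have key := sum_bound (Finset.univ : Finset (Equiv.Perm (Fin 4)))
    (fun σ => x2 (FF g (fun i => k (σ i)))) _ (fun σ _ => by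
      have := x2_core hg (hk.comp σ)
      rw [hc2 σ] at this
      exact this)
  rw [card_perm4] at key
  have h1 : ∑ σ : Equiv.Perm (Fin 4), avg (fun i => g i * k (σ i)) = 0 := by
    rw [E1 g k, hg.mean, zero_mul, mul_zero]
  have h2 : ∑ σ : Equiv.Perm (Fin 4), avg (fun i => g i ^ 2 * k (σ i)) = 0 := by
    rw [E1 (fun i => g i ^ 2) k, hk.mean, mul_zero, mul_zero]
  have h3 : ∑ σ : Equiv.Perm (Fin 4), avg (fun i => g i * k (σ i) ^ 2) = 0 := by
    rw [E1 g (fun i => k i ^ 2), hg.mean, zero_mul, mul_zero]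
  have hP : ∑ σ : Equiv.Perm (Fin 4), ((avg (fun i => g i ^ 2) + avg (fun i => k i ^ 2)) ^ 2 +
      4 * ((avg (fun i => g i ^ 2) + avg (fun i => k i ^ 2)) * (avg (fun i => g i * k (σ i)) +
        avg (fun i => g i ^ 2 * k (σ i)) + avg (fun i => g i * k (σ i) ^ 2))) -
      3 * (avg (fun i => g i * k (σ i)) *
        (avg (fun i => g i ^ 2) + avg (fun i => k i ^ 2)) ^ 2)) =
      24 * (avg (fun i => g i ^ 2) + avg (fun i => k i ^ 2)) ^ 2 := by
    simp only [Finset.sum_add_distrib, Finset.sum_sub_distrib, ← Finset.mul_sum, ← Finset.sum_mul,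
      h1, h2, h3, Finset.sum_const, nsmul_eq_mul, card_perm4]
    ring
  rw [hP] at key
  exact key

/-! ### scaling -/

lemma avg_smul (c : ℝ) (F : Fin 4 → ℝ) : avg (fun i => c * F i) = c * avg F := by
  rw [avg4, avg4]; ring

lemma dev_smul {c : ℝ} (hc : c ≠ 0) (F : Fin 4 → ℝ) : dev (fun i => c * F i) = dev F := by
  funext i
  unfold dev
  rw [avg_smul, mul_div_mul_left _ _ hc]

lemma chi_smul {c : ℝ} (hc : c ≠ 0) (F : Fin 4 → ℝ) : chi (fun i => c * F i) = c * chi F := by
  rw [chi_dev, chi_dev, avg_smul, dev_smul hc]; ring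

lemma y3_smul {c : ℝ} (hc : c ≠ 0) (F : Fin 4 → ℝ) : y3 (fun i => c * F i) = c * y3 F := by
  rw [y3, y3, avg_smul, dev_smul hc]; ring

lemma x2_smul {c : ℝ} (hc : c ≠ 0) (F : Fin 4 → ℝ) : x2 (fun i => c * F i) = c * x2 F := by
  rw [x2, x2, avg_smul, dev_smul hc]; ring

lemma eq_dev {u : Fin 4 → ℝ} (h : avg u ≠ 0) (i : Fin 4) : u i = avg u * (1 + dev u i) := by
  unfold dev; field_simp; ring

lemma mul_eq_FF {u v : Fin 4 → ℝ} (hu : avg u ≠ 0) (hv : avg v ≠ 0) (σ : Equiv.Perm (Fin 4)) :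
    (fun i => u i * v (σ i)) =
      fun i => (avg u * avg v) * FF (dev u) (fun i => dev v (σ i)) i := by
  funext i
  unfold FF
  conv_lhs => rw [eq_dev hu i, eq_dev hv (σ i)]
  ring

lemma fac4 : ((Nat.factorial 4 : ℕ) : ℝ) = 24 := by norm_num [Nat.factorial]

/-- the three orbit inequalities -/
theorem orb_ineq {u v : Fin 4 → ℝ} (hu : ∀ i, 0 ≤ u i) (hv : ∀ i, 0 ≤ v i) :
    |orb chi u v - (chi u * avg v + avg u * chi v - (2 / 3) * (y3 u * chi v + chi u * y3 v))| ≤
        1000 * (x2 u * chi v + chi u * x2 v) ∧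
    |orb y3 u v - (y3 u * avg v + avg u * y3 v)| ≤ 60000 * (chi u * chi v) ∧
    orb x2 u v ≤ x2 u * avg v + avg u * x2 v + 2000002 * (chi u * chi v) := by
  have zero_chi : chi (fun _ : Fin 4 => (0 : ℝ)) = 0 := by simp [chi, avg]
  have zero_y3 : y3 (fun _ : Fin 4 => (0 : ℝ)) = 0 := by simp [y3, avg]
  have zero_x2 : x2 (fun _ : Fin 4 => (0 : ℝ)) = 0 := by simp [x2, avg]
  have zero_avg : avg (fun _ : Fin 4 => (0 : ℝ)) = 0 := by simp [avg]
  by_cases h1 : avg u = 0
  · have := eq_zero_of_avg hu h1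
    subst this
    simp only [orb, zero_mul, zero_chi, zero_y3, zero_x2, zero_avg, Finset.sum_const_zero,
      zero_div, mul_zero, add_zero, sub_zero, abs_zero, le_refl, and_self]
  by_cases h2 : avg v = 0
  · have := eq_zero_of_avg hv h2
    subst this
    simp only [orb, zero_mul, zero_chi, zero_y3, zero_x2, zero_avg, Finset.sum_const_zero,
      zero_div, mul_zero, add_zero, sub_zero, abs_zero, le_refl, and_self]
  have cu := dev_cen hu h1
  have cv := dev_cen hv h2
  have ha : 0 < avg u := lt_of_le_of_ne (avg_nonneg hu) (Ne.symm h1)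
  have hb : 0 < avg v := lt_of_le_of_ne (avg_nonneg hv) (Ne.symm h2)
  have hab : avg u * avg v ≠ 0 := mul_ne_zero h1 h2
  have e1 := chi_orb cu cv
  have e2 := y3_orb cu cv
  have e3 := x2_orb cu cv
  have o1 : orb chi u v = (avg u * avg v) *
      (∑ σ : Equiv.Perm (Fin 4), chi (FF (dev u) (fun i => dev v (σ i)))) / 24 := by
    unfold orb
    rw [fac4, Finset.mul_sum]
    congr 1
    refine Finset.sum_congr rfl fun σ _ => ?_
    rw [mul_eq_FF h1 h2, chi_smul hab]
  have o2 : orb y3 u v = (avg u * avg v) *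
      (∑ σ : Equiv.Perm (Fin 4), y3 (FF (dev u) (fun i => dev v (σ i)))) / 24 := by
    unfold orb
    rw [fac4, Finset.mul_sum]
    congr 1
    refine Finset.sum_congr rfl fun σ _ => ?_
    rw [mul_eq_FF h1 h2, y3_smul hab]
  have o3 : orb x2 u v = (avg u * avg v) *
      (∑ σ : Equiv.Perm (Fin 4), x2 (FF (dev u) (fun i => dev v (σ i)))) / 24 := by
    unfold orb
    rw [fac4, Finset.mul_sum]
    congr 1
    refine Finset.sum_congr rfl fun σ _ => ?_
    rw [mul_eq_FF h1 h2, x2_smul hab]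
  have c1 := chi_dev u
  have c2 := chi_dev v
  have c3 : y3 u = avg u * avg (fun i => dev u i ^ 3) := rfl
  have c4 : y3 v = avg v * avg (fun i => dev v i ^ 3) := rfl
  have c5 : x2 u = avg u * avg (fun i => dev u i ^ 2) ^ 2 := rfl
  have c6 : x2 v = avg v * avg (fun i => dev v i ^ 2) ^ 2 := rfl
  rw [o1, o2, o3, c1, c2, c3, c4, c5, c6]
  generalize ∑ σ : Equiv.Perm (Fin 4), chi (FF (dev u) (fun i => dev v (σ i))) = Z1 at *
  generalize ∑ σ : Equiv.Perm (Fin 4), y3 (FF (dev u) (fun i => dev v (σ i))) = Z2 at *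
  generalize ∑ σ : Equiv.Perm (Fin 4), x2 (FF (dev u) (fun i => dev v (σ i))) = Z3 at *
  generalize avg (fun i => dev u i ^ 2) = x at *
  generalize avg (fun i => dev v i ^ 2) = x' at *
  generalize avg (fun i => dev u i ^ 3) = y at *
  generalize avg (fun i => dev v i ^ 3) = y' at *
  generalize avg u = a at *
  generalize avg v = b at *
  have hab' : 0 < a * b := mul_pos ha hb
  clear o1 o2 o3 c1 c2 c3 c4 c5 c6 cu cv h1 h2 hab
  rw [abs_le] at e1 e2 e3
  refine ⟨?_, ?_, ?_⟩
  · rw [abs_le]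
    constructor
    · have := mul_le_mul_of_nonneg_left e1.1 hab'.le
      nlinarith [this]
    · have := mul_le_mul_of_nonneg_left e1.2 hab'.le
      nlinarith [this]
  · rw [abs_le]
    constructor
    · have := mul_le_mul_of_nonneg_left e2.1 hab'.le
      nlinarith [this]
    · have := mul_le_mul_of_nonneg_left e2.2 hab'.le
      nlinarith [this]
  · have := mul_le_mul_of_nonneg_left e3.2 hab'.le
    nlinarith [this]

end Crest.Agent.R163.Bk
end

-- ▼ part R163/Back6
section

/-!
Row 163 (S0246, backward direction): two-fold merge inequalities on the level of channels, edges,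
and the comparison of chi-square with total variation.
-/

set_option autoImplicit false

namespace Crest.Agent.R163.Bk

open Finset

variable {Ω Ω₁ Ω₂ : Type*}

/-- the error functional -/
noncomputable def ev (L : Ω → Fin 4 → ℝ) : ℝ := |J y3 L| + J x2 L

lemma ev_nonneg {L : Ω → Fin 4 → ℝ} (h : IsChan L) : 0 ≤ ev L :=
  add_nonneg (abs_nonneg _) (h.J_nonneg fun _ hv => x2_nonneg hv)

lemma J_chi_nonneg {L : Ω → Fin 4 → ℝ} (h : IsChan L) : 0 ≤ J chi L :=
  h.J_nonneg fun _ hv => chi_nonneg hv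

lemma J_x2_nonneg {L : Ω → Fin 4 → ℝ} (h : IsChan L) : 0 ≤ J x2 L :=
  h.J_nonneg fun _ hv => x2_nonneg hv

lemma J_chi_le {L : Ω → Fin 4 → ℝ} (h : IsChan L) : J chi L ≤ 3 := by
  have := h.J_mono bdd_chi (bdd_avg.const_mul 3) fun v hv => chi_le3 hv
  rwa [J_const_mul, h.J_avg, mul_one] at this

lemma ev_le {L : Ω → Fin 4 → ℝ} (h : IsChan L) : ev L ≤ 12 * J chi L := by
  have h1 : J x2 L ≤ 9 * J chi L := by
    have := h.J_mono bdd_x2 (bdd_chi.const_mul 9) fun v hv => x2_le_chi hv
    rwa [J_const_mul] at this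
  have h2 : |J y3 L| ≤ 3 * J chi L := by
    rw [abs_le]
    constructor
    · have := h.J_mono (bdd_chi.const_mul (-3)) bdd_y3 fun v hv => by
        have := (abs_le.1 (abs_y3_le_chi hv)).1
        linarith
      rw [J_const_mul] at this
      linarith
    · have := h.J_mono bdd_y3 (bdd_chi.const_mul 3) fun v hv => (abs_le.1 (abs_y3_le_chi hv)).2
      rwa [J_const_mul] at this
  unfold ev
  linarith

theorem J_chi_mrg {L₁ : Ω₁ → Fin 4 → ℝ} {L₂ : Ω₂ → Fin 4 → ℝ} (h₁ : IsChan L₁)
    (h₂ : IsChan L₂) :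
    |J chi (mrg L₁ L₂) - J chi L₁ - J chi L₂| ≤
      1000 * (J chi L₁ * ev L₂ + ev L₁ * J chi L₂) := by
  have hup := J_mrg_le h₁ h₂ (bdd_chi (q := 4)) (Finset.univ : Finset (Fin 6))
    (α := ![chi, avg, fun v => (-(2 / 3)) * y3 v, fun v => (-(2 / 3)) * chi v,
      fun v => 1000 * x2 v, fun v => 1000 * chi v])
    (β := ![avg, chi, chi, y3, chi, x2])
    (by
      intro k _
      fin_cases k
      · exact bdd_chi
      · exact bdd_avg
      · exact bdd_y3.const_mul _
      · exact bdd_chi.const_mul _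
      · exact bdd_x2.const_mul _
      · exact bdd_chi.const_mul _)
    (by
      intro k _
      fin_cases k
      · exact bdd_avg
      · exact bdd_chi
      · exact bdd_chi
      · exact bdd_y3
      · exact bdd_chi
      · exact bdd_x2)
    (by
      intro u v hu hv
      have := (abs_le.1 (orb_ineq hu hv).1).2
      simp [Fin.sum_univ_succ]
      linarith)
  have hlo := le_J_mrg h₁ h₂ (bdd_chi (q := 4)) (Finset.univ : Finset (Fin 6))
    (α := ![chi, avg, fun v => (-(2 / 3)) * y3 v, fun v => (-(2 / 3)) * chi v,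
      fun v => (-1000) * x2 v, fun v => (-1000) * chi v])
    (β := ![avg, chi, chi, y3, chi, x2])
    (by
      intro k _
      fin_cases k
      · exact bdd_chi
      · exact bdd_avg
      · exact bdd_y3.const_mul _
      · exact bdd_chi.const_mul _
      · exact bdd_x2.const_mul _
      · exact bdd_chi.const_mul _)
    (by
      intro k _
      fin_cases k
      · exact bdd_avg
      · exact bdd_chi
      · exact bdd_chi
      · exact bdd_y3
      · exact bdd_chi
      · exact bdd_x2)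
    (by
      intro u v hu hv
      have := (abs_le.1 (orb_ineq hu hv).1).1
      simp [Fin.sum_univ_succ]
      linarith)
  simp only [Fin.sum_univ_succ, Matrix.cons_val_zero, Matrix.cons_val_succ, Finset.univ_unique,
    Fin.default_eq_zero, Finset.sum_singleton, J_const_mul, h₁.J_avg, h₂.J_avg] at hup hlo
  have p1 := J_chi_nonneg h₁
  have p2 := J_chi_nonneg h₂
  have p3 := J_x2_nonneg h₁
  have p4 := J_x2_nonneg h₂
  unfold ev
  generalize J chi L₁ = s₁ at *
  generalize J chi L₂ = s₂ at *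
  generalize J x2 L₁ = z₁ at *
  generalize J x2 L₂ = z₂ at *
  have a1 : |J y3 L₁ * s₂| = |J y3 L₁| * s₂ := by rw [abs_mul, abs_of_nonneg p2]
  have a2 : |s₁ * J y3 L₂| = s₁ * |J y3 L₂| := by rw [abs_mul, abs_of_nonneg p1]
  have b1 := abs_le.1 a1.le
  have b2 := abs_le.1 a2.le
  have c1 : 0 ≤ |J y3 L₁| * s₂ := mul_nonneg (abs_nonneg _) p2
  have c2 : 0 ≤ s₁ * |J y3 L₂| := mul_nonneg p1 (abs_nonneg _)
  generalize |J y3 L₁| = w₁ at *
  generalize |J y3 L₂| = w₂ at *
  generalize J y3 L₁ = y₁ at *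
  generalize J y3 L₂ = y₂ at *
  rw [abs_le]
  constructor
  · nlinarith [b1.1, b1.2, b2.1, b2.2]
  · nlinarith [b1.1, b1.2, b2.1, b2.2]

theorem J_y3_mrg {L₁ : Ω₁ → Fin 4 → ℝ} {L₂ : Ω₂ → Fin 4 → ℝ} (h₁ : IsChan L₁)
    (h₂ : IsChan L₂) :
    |J y3 (mrg L₁ L₂) - J y3 L₁ - J y3 L₂| ≤ 60000 * (J chi L₁ * J chi L₂) := by
  have hup := J_mrg_le h₁ h₂ (bdd_y3) (Finset.univ : Finset (Fin 3))
    (α := ![y3, avg, fun v => 60000 * chi v])
    (β := ![avg, y3, chi])
    (by
      intro k _
      fin_cases k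
      · exact bdd_y3
      · exact bdd_avg
      · exact bdd_chi.const_mul _)
    (by
      intro k _
      fin_cases k
      · exact bdd_avg
      · exact bdd_y3
      · exact bdd_chi)
    (by
      intro u v hu hv
      have := (abs_le.1 (orb_ineq hu hv).2.1).2
      simp [Fin.sum_univ_succ]
      linarith)
  have hlo := le_J_mrg h₁ h₂ (bdd_y3) (Finset.univ : Finset (Fin 3))
    (α := ![y3, avg, fun v => (-60000) * chi v])
    (β := ![avg, y3, chi])
    (by
      intro k _
      fin_cases k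
      · exact bdd_y3
      · exact bdd_avg
      · exact bdd_chi.const_mul _)
    (by
      intro k _
      fin_cases k
      · exact bdd_avg
      · exact bdd_y3
      · exact bdd_chi)
    (by
      intro u v hu hv
      have := (abs_le.1 (orb_ineq hu hv).2.1).1
      simp [Fin.sum_univ_succ]
      linarith)
  simp only [Fin.sum_univ_succ, Matrix.cons_val_zero, Matrix.cons_val_succ, Finset.univ_unique,
    Fin.default_eq_zero, Finset.sum_singleton, J_const_mul, h₁.J_avg, h₂.J_avg] at hup hlo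
  rw [abs_le]
  constructor <;> linarith

theorem J_x2_mrg {L₁ : Ω₁ → Fin 4 → ℝ} {L₂ : Ω₂ → Fin 4 → ℝ} (h₁ : IsChan L₁)
    (h₂ : IsChan L₂) :
    J x2 (mrg L₁ L₂) ≤ J x2 L₁ + J x2 L₂ + 2000002 * (J chi L₁ * J chi L₂) := by
  have hup := J_mrg_le h₁ h₂ (bdd_x2) (Finset.univ : Finset (Fin 3))
    (α := ![x2, avg, fun v => 2000002 * chi v])
    (β := ![avg, x2, chi])
    (by
      intro k _
      fin_cases k
      · exact bdd_x2
      · exact bdd_avg
      · exact bdd_chi.const_mul _)
    (by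
      intro k _
      fin_cases k
      · exact bdd_avg
      · exact bdd_x2
      · exact bdd_chi)
    (by
      intro u v hu hv
      have := (orb_ineq hu hv).2.2
      simp [Fin.sum_univ_succ]
      linarith)
  simp only [Fin.sum_univ_succ, Matrix.cons_val_zero, Matrix.cons_val_succ, Finset.univ_unique,
    Fin.default_eq_zero, Finset.sum_singleton, J_const_mul, h₁.J_avg, h₂.J_avg] at hup
  linarith

/-- the two-fold inequality for the error functional -/
theorem ev_mrg {L₁ : Ω₁ → Fin 4 → ℝ} {L₂ : Ω₂ → Fin 4 → ℝ} (h₁ : IsChan L₁)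
    (h₂ : IsChan L₂) :
    ev (mrg L₁ L₂) ≤ ev L₁ + ev L₂ + 3000000 * (J chi L₁ * J chi L₂) := by
  have a1 := J_y3_mrg h₁ h₂
  have a2 := J_x2_mrg h₁ h₂
  have a3 := mul_nonneg (J_chi_nonneg h₁) (J_chi_nonneg h₂)
  have a4 : |J y3 (mrg L₁ L₂)| ≤ |J y3 L₁| + |J y3 L₂| +
      |J y3 (mrg L₁ L₂) - J y3 L₁ - J y3 L₂| := by
    have e : J y3 (mrg L₁ L₂) = J y3 L₁ + J y3 L₂ + (J y3 (mrg L₁ L₂) - J y3 L₁ - J y3 L₂) := by
      ring
    calc |J y3 (mrg L₁ L₂)| = |J y3 L₁ + J y3 L₂ + (J y3 (mrg L₁ L₂) - J y3 L₁ - J y3 L₂)| := by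
          rw [← e]
      _ ≤ _ := (abs_add_le _ _).trans (add_le_add (abs_add_le _ _) le_rfl)
  unfold ev
  linarith

/-! ### edges -/

lemma dev_W (lam : ℝ) {v : Fin 4 → ℝ} (h : avg v ≠ 0) (i : Fin 4) :
    dev (W lam v) i = lam * dev v i := by
  unfold dev
  rw [avg_W]
  unfold W
  field_simp
  ring

lemma y3_W (lam : ℝ) (v : Fin 4 → ℝ) : y3 (W lam v) = lam ^ 3 * y3 v := by
  unfold y3
  rw [avg_W]
  by_cases h : avg v = 0
  · rw [h]; ring
  · simp only [dev_W lam h, mul_pow]
    rw [avg_smul (lam ^ 3) (fun i => dev v i ^ 3)]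
    ring

lemma x2_W (lam : ℝ) (v : Fin 4 → ℝ) : x2 (W lam v) = lam ^ 4 * x2 v := by
  unfold x2
  rw [avg_W]
  by_cases h : avg v = 0
  · rw [h]; ring
  · simp only [dev_W lam h, mul_pow]
    rw [avg_smul (lam ^ 2) (fun i => dev v i ^ 2)]
    ring

lemma J_y3_edge (lam : ℝ) (L : Ω → Fin 4 → ℝ) :
    J y3 (fun o => W lam (L o)) = lam ^ 3 * J y3 L := by
  unfold J
  rw [← tsum_mul_left]
  exact tsum_congr fun o => y3_W lam _

lemma J_x2_edge (lam : ℝ) (L : Ω → Fin 4 → ℝ) :
    J x2 (fun o => W lam (L o)) = lam ^ 4 * J x2 L := by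
  unfold J
  rw [← tsum_mul_left]
  exact tsum_congr fun o => x2_W lam _

lemma ev_edge {L : Ω → Fin 4 → ℝ} (h : IsChan L) {lam : ℝ} (h0 : 0 ≤ lam) (h1 : lam ≤ 1) :
    ev (fun o => W lam (L o)) ≤ lam ^ 3 * ev L := by
  unfold ev
  rw [J_y3_edge, J_x2_edge, abs_mul, abs_of_nonneg (pow_nonneg h0 3)]
  have h2 : lam ^ 4 ≤ lam ^ 3 := pow_le_pow_of_le_one h0 h1 (by norm_num)
  have h3 := mul_le_mul_of_nonneg_right h2 (J_x2_nonneg h)
  linarith

/-! ### chi-square against total variation -/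

lemma chi_le_tv {v : Fin 4 → ℝ} (hv : ∀ i, 0 ≤ v i) : chi v ≤ 6 * tv v := by
  by_cases h : avg v = 0
  · have h4 : chi v = 0 := by simp [chi, h]
    rw [h4]
    exact mul_nonneg (by norm_num) (tv_nonneg v)
  · have ha : 0 < avg v := lt_of_le_of_ne (avg_nonneg hv) (Ne.symm h)
    have e1 : ∀ i, |v i - avg v| = avg v * |dev v i| := fun i => by
      have : v i - avg v = avg v * dev v i := by unfold dev; field_simp
      rw [this, abs_mul, abs_of_pos ha]
    have e2 : tv v = (1 / 2) * (avg v * avg (fun i => |dev v i|)) := by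
      unfold tv
      simp only [e1]
      rw [avg_smul (avg v) (fun i => |dev v i|)]
    have e3 : avg (fun i => dev v i ^ 2) ≤ 3 * avg (fun i => |dev v i|) := by
      rw [← avg_smul]
      refine avg_mono4 fun i => ?_
      have := abs_dev_le hv i
      calc dev v i ^ 2 = |dev v i| * |dev v i| := by rw [← sq_abs, pow_two]
        _ ≤ 3 * |dev v i| := mul_le_mul_of_nonneg_right this (abs_nonneg _)
    rw [chi_dev, e2]
    have := mul_le_mul_of_nonneg_left e3 ha.le
    linarith

lemma J_chi_le_tv {L : Ω → Fin 4 → ℝ} (h : IsChan L) : J chi L ≤ 6 * J tv L := by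
  have := h.J_mono bdd_chi (bdd_tv.const_mul 6) fun v hv => chi_le_tv hv
  rwa [J_const_mul] at this

end Crest.Agent.R163.Bk
end

-- ▼ part R163/Back7
section

/-!
Row 163 (S0246, backward direction): subtree channels with noisy leaves.
-/

set_option autoImplicit false

namespace Crest.Agent.R163.Bk

open Crest.ProbabilityR.TreeBroadcast Crest.ProbabilityR.Broadcast

variable {V : Type*} [DecidableEq V] {q : ℕ}

/-- likelihoods with noise `κ v` at the leaves -/
noncomputable def NF (q : ℕ) (T : LocFinTree V) (lam : ℝ) (κ : V → ℝ) :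
    ℕ → V → (V → Fin q) → Fin q → ℝ
  | 0, v, τ => W (κ v) (fun i => if τ v = i then 1 else 0)
  | k + 1, v, τ => fun i => ∏ w ∈ T.children v, W lam (NF q T lam κ k w τ) i

lemma NF_congr (T : LocFinTree V) (lam : ℝ) (κ : V → ℝ) (k : ℕ) (v : V) {τ τ' : V → Fin q}
    (h : ∀ w ∈ D T k v, τ w = τ' w) : NF q T lam κ k v τ = NF q T lam κ k v τ' := by
  induction k generalizing v with
  | zero => simp [NF, h v (by simp [D])]
  | succ k ih =>
    funext i
    simp only [NF]
    refine Finset.prod_congr rfl fun w hw => ?_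
    rw [ih w fun u hu => h u ?_]
    simp only [D, Finset.mem_biUnion]
    exact ⟨w, hw, hu⟩

/-- noisy subtree channel -/
noncomputable def ntc (q : ℕ) [NeZero q] (T : LocFinTree V) (lam : ℝ) (κ : V → ℝ) (k : ℕ)
    (v : V) : (↥(D T k v) → Fin q) → Fin q → ℝ :=
  res (D T k v) (NF q T lam κ k v)

/-- product over a set of children -/
noncomputable def NGS (q : ℕ) (T : LocFinTree V) (lam : ℝ) (κ : V → ℝ) (k : ℕ) (S : Finset V) :
    (V → Fin q) → Fin q → ℝ :=
  fun τ i => ∏ w ∈ S, W lam (NF q T lam κ k w τ) i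

/-- the merged noisy channel of a set of children -/
noncomputable def nsc (q : ℕ) [NeZero q] (T : LocFinTree V) (lam : ℝ) (κ : V → ℝ) (k : ℕ)
    (S : Finset V) : (↥(S.biUnion (D T k)) → Fin q) → Fin q → ℝ :=
  res (S.biUnion (D T k)) (NGS q T lam κ k S)

lemma WNF_depOn (T : LocFinTree V) (lam : ℝ) (κ : V → ℝ) (k : ℕ) (v : V) :
    DepOn (D T k v) (fun τ => W lam (NF q T lam κ k v τ)) := fun _ _ h => by
  simp only [NF_congr T lam κ k v h]

lemma NGS_depOn (T : LocFinTree V) (lam : ℝ) (κ : V → ℝ) (k : ℕ) (S : Finset V) :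
    DepOn (S.biUnion (D T k)) (NGS q T lam κ k S) := fun τ τ' h => by
  funext i
  unfold NGS
  refine Finset.prod_congr rfl fun w hw => ?_
  rw [NF_congr T lam κ k w fun v hv => h v (Finset.mem_biUnion.2 ⟨w, hw, hv⟩)]

lemma ntc_succ [NeZero q] (T : LocFinTree V) (lam : ℝ) (κ : V → ℝ) (k : ℕ) (v : V) :
    ntc q T lam κ (k + 1) v = nsc q T lam κ k (T.children v) := rfl

lemma nsc_empty [NeZero q] (T : LocFinTree V) (lam : ℝ) (κ : V → ℝ) (k : ℕ) :
    nsc q T lam κ k ∅ = fun _ _ => 1 := by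
  funext τ i
  simp [nsc, res, NGS]

lemma nsc_insert_eq (T : LocFinTree V) (lam : ℝ) (κ : V → ℝ) (k : ℕ) {a : V}
    {S : Finset V} (h : a ∉ S) :
    NGS q T lam κ k (insert a S) =
      fun τ i => W lam (NF q T lam κ k a τ) i * NGS q T lam κ k S τ i := by
  funext τ i
  unfold NGS
  rw [Finset.prod_insert h]

/-- merging one more child -/
lemma J_nsc_insert [NeZero q] (T : LocFinTree V) (lam : ℝ) (κ : V → ℝ) (k : ℕ) {a : V}
    {S : Finset V} (h : a ∉ S) (φ : (Fin q → ℝ) → ℝ) :
    J φ (nsc q T lam κ k (insert a S)) =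
      J φ (mrg (fun o => W lam (ntc q T lam κ k a o)) (nsc q T lam κ k S)) := by
  have e : (insert a S).biUnion (D T k) = D T k a ∪ S.biUnion (D T k) := Finset.biUnion_insert
  unfold nsc
  rw [J_res_cast e, nsc_insert_eq T lam κ k h]
  exact J_res_union (D_disjoint_biUnion T k h) (WNF_depOn T lam κ k a) (NGS_depOn T lam κ k S) φ

lemma nsc_isChan_of [NeZero q] (T : LocFinTree V) {lam : ℝ} (hl : Adm q lam) (κ : V → ℝ) (k : ℕ)
    (S : Finset V) (h : ∀ w ∈ S, IsChan (ntc q T lam κ k w)) :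
    IsChan (nsc q T lam κ k S) := by
  induction S using Finset.induction_on with
  | empty =>
    rw [nsc_empty]
    have : IsEmpty ↥((∅ : Finset V).biUnion (D T k)) := by
      rw [Finset.biUnion_empty]
      infer_instance
    exact isChan_unit
  | insert a S ha ih =>
    have e : (insert a S).biUnion (D T k) = D T k a ∪ S.biUnion (D T k) := Finset.biUnion_insert
    have ih' := ih fun w hw => h w (Finset.mem_insert_of_mem hw)
    unfold nsc
    rw [nsc_insert_eq T lam κ k ha]
    refine res_cast_isChan e.symm ?_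
    exact res_union_isChan (D_disjoint_biUnion T k ha) (WNF_depOn T lam κ k a)
      (NGS_depOn T lam κ k S) ((h a (Finset.mem_insert_self a S)).edge hl) ih'

lemma ntc_zero [NeZero q] (T : LocFinTree V) (lam : ℝ) (κ : V → ℝ) (v : V) :
    ntc q T lam κ 0 v = fun o => W (κ v) (tc q T lam 0 v o) := rfl

theorem ntc_isChan [NeZero q] (T : LocFinTree V) {lam : ℝ} (hl : Adm q lam) {κ : V → ℝ}
    (hκ : ∀ v, Adm q (κ v)) (k : ℕ) (v : V) : IsChan (ntc q T lam κ k v) := by
  induction k generalizing v with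
  | zero => rw [ntc_zero]; exact (tc_zero_isChan T lam v).edge (hκ v)
  | succ k ih => rw [ntc_succ]; exact nsc_isChan_of T hl κ k _ fun w _ => ih w

theorem nsc_isChan [NeZero q] (T : LocFinTree V) {lam : ℝ} (hl : Adm q lam) {κ : V → ℝ}
    (hκ : ∀ v, Adm q (κ v)) (k : ℕ) (S : Finset V) : IsChan (nsc q T lam κ k S) :=
  nsc_isChan_of T hl κ k S fun w _ => ntc_isChan T hl hκ k w

/-! ### noise decreases in the convex order -/

lemma nsc_le_of [NeZero q] (T : LocFinTree V) {lam : ℝ} (hl : Adm q lam) {κ : V → ℝ}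
    (hκ : ∀ v, Adm q (κ v)) (k : ℕ) (S : Finset V)
    (h : ∀ w ∈ S, CxLe (ntc q T lam κ k w) (tc q T lam k w)) :
    CxLe (nsc q T lam κ k S) (sc q T lam k S) := by
  induction S using Finset.induction_on with
  | empty =>
    rw [nsc_empty, sc_empty]
    exact CxLe.refl _
  | insert a S ha ih =>
    intro φ hφ
    rw [J_nsc_insert T lam κ k ha, J_sc_insert T lam k ha]
    have ih' := ih fun w hw => h w (Finset.mem_insert_of_mem hw)
    exact ((h a (Finset.mem_insert_self a S)).edge hl).mrg ih'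
      ((ntc_isChan T hl hκ k a).edge hl) ((tc_isChan T hl k a).edge hl)
      (nsc_isChan T hl hκ k S) (sc_isChan T hl k S) φ hφ

theorem ntc_le [NeZero q] (T : LocFinTree V) {lam : ℝ} (hl : Adm q lam) {κ : V → ℝ}
    (h0 : ∀ v, 0 ≤ κ v) (h1 : ∀ v, κ v ≤ 1) (hκ : ∀ v, Adm q (κ v)) (k : ℕ) (v : V) :
    CxLe (ntc q T lam κ k v) (tc q T lam k v) := by
  induction k generalizing v with
  | zero => rw [ntc_zero]; exact cxLe_W (tc_zero_isChan T lam v) (h0 v) (h1 v)
  | succ k ih => rw [ntc_succ, tc_succ]; exact nsc_le_of T hl hκ k _ fun w _ => ih w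

/-! ### values at the leaves -/

lemma J_tc_zero [NeZero q] (T : LocFinTree V) (lam : ℝ) (v : V) (φ : (Fin q → ℝ) → ℝ) :
    J φ (tc q T lam 0 v) = ∑ j : Fin q, φ (fun i => if j = i then 1 else 0) := by
  have hu : Unique ↥(D T 0 v) := by
    have : D T 0 v = {v} := rfl
    rw [this]
    exact { default := ⟨v, Finset.mem_singleton_self v⟩
            uniq := fun x => Subtype.ext (Finset.mem_singleton.1 x.2) }
  have hv : v ∈ D T 0 v := Finset.mem_singleton_self v
  have hd : ∀ x : ↥(D T 0 v), x = ⟨v, hv⟩ := fun x => Subtype.ext (Finset.mem_singleton.1 x.2)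
  have key : ∀ (τ : ↥(D T 0 v) → Fin q),
      tc q T lam 0 v τ = fun i => if τ ⟨v, hv⟩ = i then 1 else 0 := fun τ => by
    funext i
    simp only [tc, res, F, ext_mem τ hv]
  unfold J
  rw [← (Equiv.funUnique ↥(D T 0 v) (Fin q)).symm.tsum_eq, tsum_fintype]
  refine Finset.sum_congr rfl fun j _ => ?_
  rw [key]
  rfl

lemma ntc_zero_chi (T : LocFinTree V) (lam : ℝ) (κ : V → ℝ) (v : V) :
    J chi (ntc 4 T lam κ 0 v) = κ v ^ 2 * 3 := by
  rw [ntc_zero, (tc_zero_isChan T lam v).J_chi_edge, J_tc_zero]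
  congr 1
  rw [Fin.sum_univ_four]
  simp only [chi, avg4]
  norm_num [Fin.ext_iff]

lemma ntc_zero_ev (T : LocFinTree V) (lam : ℝ) (κ : V → ℝ) (v : V) (h0 : 0 ≤ κ v)
    (h1 : κ v ≤ 1) : ev (ntc 4 T lam κ 0 v) ≤ κ v ^ 3 * 36 := by
  rw [ntc_zero]
  refine (ev_edge (tc_zero_isChan T lam v) h0 h1).trans ?_
  refine mul_le_mul_of_nonneg_left ?_ (pow_nonneg h0 3)
  have h2 := ev_le (tc_zero_isChan (q := 4) T lam v)
  have h3 := J_chi_le (tc_zero_isChan (q := 4) T lam v)
  linarith

end Crest.Agent.R163.Bk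
private theorem rz_540bd0cc6f : type_of% @_root_.Crest.Agent.R163.Bk.NF.eq_def := @_root_.Crest.Agent.R163.Bk.NF.eq_def -- L18
private theorem rz_50df66652c : type_of% @_root_.Crest.Agent.R163.Bk.NF.eq_1 := @_root_.Crest.Agent.R163.Bk.NF.eq_1 -- L18
end

-- ▼ part R163/Cap/Basic
section

/-!
# Row 163 (S0246): deterministic facts about locally finite rooted trees
-/

set_option autoImplicit false
open Crest.ProbabilityR.TreeBroadcast

namespace Crest.Agent.R163.Cap

variable {V : Type*} [DecidableEq V] (T : LocFinTree V)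

lemma mem_children {v w : V} :
    w ∈ T.children v ↔ T.depth w = T.depth v + 1 ∧ T.parent w = v := by
  unfold LocFinTree.children
  rw [Finset.mem_filter, T.mem_level_iff]

lemma depth_root : T.depth T.root = 0 := (T.depth_eq_zero_iff _).2 rfl

lemma ne_root_of_mem_children {v w : V} (h : w ∈ T.children v) : w ≠ T.root := by
  intro h'
  have := (mem_children T).1 h
  rw [h', depth_root] at this
  omega

lemma mem_children_parent {w : V} (h : w ≠ T.root) : w ∈ T.children (T.parent w) := by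
  rw [mem_children]
  exact ⟨(T.depth_parent w h).symm, rfl⟩




/-- A function on vertices defined recursively from the root. -/
def down {α : Type*} (base : V → α) (step : V → α → α) : ℕ → V → α
  | 0, v => base v
  | k + 1, v => step v (down base step k (T.parent v))

/-- The value at a vertex of a recursion from the root. -/
def dn {α : Type*} (base : V → α) (step : V → α → α) (v : V) : α :=
  down T base step (T.depth v) v

lemma dn_root {α : Type*} (base : V → α) (step : V → α → α) :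
    dn T base step T.root = base T.root := by
  unfold dn
  rw [depth_root]
  rfl

lemma dn_child {α : Type*} (base : V → α) (step : V → α → α) {v w : V}
    (h : w ∈ T.children v) :
    dn T base step w = step w (dn T base step v) := by
  unfold dn
  have h1 := (mem_children T).1 h
  rw [h1.1]
  show step w (down T base step (T.depth v) (T.parent w)) = _
  rw [h1.2]

/-- Induction from the root. -/
lemma tree_induction {P : V → Prop} (h0 : P T.root)
    (hs : ∀ v, P v → ∀ w ∈ T.children v, P w) : ∀ v, P v := by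
  have key : ∀ n : ℕ, ∀ v, T.depth v = n → P v := by
    intro n
    induction n with
    | zero =>
      intro v hv
      rw [(T.depth_eq_zero_iff v).1 hv]
      exact h0
    | succ n ih =>
      intro v hv
      have hne : v ≠ T.root := by
        intro h
        rw [h, depth_root] at hv
        omega
      have hp := T.depth_parent v hne
      exact hs (T.parent v) (ih _ (by omega)) v (mem_children_parent T hne)
  intro v
  exact key _ v rfl


lemma IsRay.depth {ξ : ℕ → V} (h : T.IsRay ξ) (n : ℕ) : T.depth (ξ n) = n := by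
  induction n with
  | zero => rw [h.1, depth_root]
  | succ n ih =>
    have := (mem_children T).1 (h.2 n)
    omega

end Crest.Agent.R163.Cap
end

-- ▼ part R163/Cap/Rays
section

/-!
# Row 163 (S0246): rays through vertices of positive flow, ray potentials
-/

set_option autoImplicit false
open Crest.ProbabilityR.TreeBroadcast

namespace Crest.Agent.R163.Cap

variable {V : Type*} [DecidableEq V] (T : LocFinTree V)

lemma depth_iterate_parent (v : V) (k : ℕ) (hk : k ≤ T.depth v) :
    T.depth (T.parent^[k] v) = T.depth v - k := by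
  induction k with
  | zero => simp
  | succ k ih =>
    rw [Function.iterate_succ_apply']
    have h1 := ih (by omega)
    have hne : T.parent^[k] v ≠ T.root := by
      intro h
      rw [h, depth_root] at h1
      omega
    have h2 := T.depth_parent _ hne
    omega

/-- Through every vertex of positive flow (other than the root) there is a ray. -/
lemma exists_ray {θ : V → ℝ} (hθ : IsFlow T θ) {v : V} (hv : v ≠ T.root) (hpos : 0 < θ v) :
    ∃ ξ : ℕ → V, T.IsRay ξ ∧ ξ (T.depth v) = v := by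
  classical
  have hnext : ∀ w : V, w ≠ T.root → 0 < θ w → ∃ w' ∈ T.children w, 0 < θ w' := by
    intro w hw hwp
    by_contra hcon
    push Not at hcon
    have := hθ.2 w hw
    have h2 : ∑ w' ∈ T.children w, θ w' ≤ 0 := Finset.sum_nonpos fun w' hw' => hcon w' hw'
    linarith
  choose! nx hnx1 hnx2 using hnext
  -- iterates of `nx` from `v`
  have hit : ∀ k : ℕ, nx^[k] v ≠ T.root ∧ 0 < θ (nx^[k] v) := by
    intro k
    induction k with
    | zero => exact ⟨hv, hpos⟩
    | succ k ih =>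
      rw [Function.iterate_succ_apply']
      exact ⟨ne_root_of_mem_children T (hnx1 _ ih.1 ih.2), hnx2 _ ih.1 ih.2⟩
  refine ⟨fun n => if n ≤ T.depth v then T.parent^[T.depth v - n] v else nx^[n - T.depth v] v,
    ⟨?_, ?_⟩, ?_⟩
  · simp only [Nat.zero_le, if_true, Nat.sub_zero]
    have := depth_iterate_parent T v (T.depth v) le_rfl
    rw [Nat.sub_self] at this
    exact (T.depth_eq_zero_iff _).1 this
  · intro n
    rcases lt_trichotomy n (T.depth v) with h | h | h
    · have e1 : n + 1 ≤ T.depth v := h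
      have e2 : n ≤ T.depth v := h.le
      simp only [e1, e2, if_true]
      have e3 : T.depth v - n = (T.depth v - (n + 1)) + 1 := by omega
      rw [e3, Function.iterate_succ_apply']
      apply mem_children_parent
      intro hcon
      have h1 := depth_iterate_parent T v (T.depth v - (n + 1)) (by omega)
      rw [hcon, depth_root] at h1
      omega
    · subst h
      have e1 : ¬ (T.depth v + 1 ≤ T.depth v) := by omega
      simp only [e1, le_refl, if_true, if_false, Nat.sub_self, Function.iterate_zero, id]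
      have e2 : T.depth v + 1 - T.depth v = 1 := by omega
      rw [e2, Function.iterate_one]
      exact hnx1 v hv hpos
    · have e1 : ¬ (n + 1 ≤ T.depth v) := by omega
      have e2 : ¬ (n ≤ T.depth v) := by omega
      simp only [e1, e2, if_false]
      have e3 : n + 1 - T.depth v = (n - T.depth v) + 1 := by omega
      rw [e3, Function.iterate_succ_apply']
      exact hnx1 _ (hit _).1 (hit _).2
  · simp

/-- Partial sums of a ray potential bounded by one. -/
lemma partial_potential_le {lam : ℝ} {θ : V → ℝ} {ξ : ℕ → V}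
    (h : rayPotential lam θ ξ ≤ 1) (m : ℕ) :
    ∑ n ∈ Finset.range m, (θ (ξ (n + 1)) / lam ^ (2 * (n + 1))) ^ 2 ≤ 1 := by
  have h1 : ∑ n ∈ Finset.range m,
      ENNReal.ofReal ((θ (ξ (n + 1)) / lam ^ (2 * (n + 1))) ^ 2) ≤ 1 :=
    (ENNReal.sum_le_tsum _).trans h
  rw [← ENNReal.ofReal_sum_of_nonneg (fun _ _ => sq_nonneg _)] at h1
  have := (ENNReal.ofReal_le_one).1 h1
  exact this


/-- `u v = θ v / lam ^ (2 |v|)` for `v` not the root. -/
noncomputable def uu (lam : ℝ) (θ : V → ℝ) (v : V) : ℝ := θ v / lam ^ (2 * T.depth v)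

/-- Sum of `u²` over the vertices of the path from the root (root excluded) to `v`. -/
noncomputable def QQ (lam : ℝ) (θ : V → ℝ) : V → ℝ :=
  dn T (fun _ => 0) (fun w q => q + uu T lam θ w ^ 2)

lemma QQ_ray {lam : ℝ} {θ : V → ℝ} {ξ : ℕ → V} (hξ : T.IsRay ξ) (m : ℕ) :
    QQ T lam θ (ξ m) = ∑ n ∈ Finset.range m, (θ (ξ (n + 1)) / lam ^ (2 * (n + 1))) ^ 2 := by
  induction m with
  | zero =>
    rw [hξ.1]
    simp [QQ, dn_root]
  | succ m ih =>
    unfold QQ at ih ⊢
    rw [dn_child T _ _ (hξ.2 m), ih, Finset.sum_range_succ]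
    congr 2
    unfold uu
    rw [IsRay.depth T hξ]

lemma QQ_le_one {lam : ℝ} {θ : V → ℝ} (hθ : IsFlow T θ)
    (hray : ∀ ξ : ℕ → V, T.IsRay ξ → rayPotential lam θ ξ ≤ 1) {v : V} (hv : v ≠ T.root)
    (hpos : 0 < θ v) : QQ T lam θ v ≤ 1 := by
  obtain ⟨ξ, hξ, hv'⟩ := exists_ray T hθ hv hpos
  rw [← hv', QQ_ray T hξ]
  exact partial_potential_le (hray ξ hξ) _

end Crest.Agent.R163.Cap
end

-- ▼ part R163/Cap/Backward
section

/-!
# Row 163 (S0246): from a flow with bounded ray potentials to a lower bound (deterministic part)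
-/

set_option autoImplicit false
open Crest.ProbabilityR.TreeBroadcast

namespace Crest.Agent.R163.Cap

variable {V : Type*} [DecidableEq V] (T : LocFinTree V)

/-- The flow value, with the mass at the root. -/
noncomputable def th (θ : V → ℝ) (v : V) : ℝ := if v = T.root then flowMass T θ else θ v

lemma th_sum {θ : V → ℝ} (hθ : IsFlow T θ) (v : V) :
    ∑ w ∈ T.children v, th T θ w = th T θ v := by
  have h1 : ∑ w ∈ T.children v, th T θ w = ∑ w ∈ T.children v, θ w := by
    refine Finset.sum_congr rfl fun w hw => ?_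
    unfold th
    rw [if_neg (ne_root_of_mem_children T hw)]
  rw [h1]
  unfold th
  split_ifs with h
  · rw [h]; rfl
  · exact (hθ.2 v h).symm

lemma th_nonneg {θ : V → ℝ} (hθ : IsFlow T θ) (v : V) : 0 ≤ th T θ v := by
  unfold th
  split_ifs with h
  · exact Finset.sum_nonneg fun w _ => hθ.1 w
  · exact hθ.1 v


/-- `u v = θ v / lam^(2 |v|)`, with the mass at the root. -/
noncomputable def u (lam : ℝ) (θ : V → ℝ) (v : V) : ℝ := th T θ v / lam ^ (2 * T.depth v)

/-- The weighted history `a w = lam * a (parent w) + u w`. -/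
noncomputable def a (lam : ℝ) (θ : V → ℝ) : V → ℝ :=
  dn T (u T lam θ) (fun w x => lam * x + u T lam θ w)

/-- Path sums of `u * a`. -/
noncomputable def W (lam : ℝ) (θ : V → ℝ) : V → ℝ :=
  dn T (fun v => u T lam θ v * a T lam θ v) (fun w x => x + u T lam θ w * a T lam θ w)

section facts

variable {lam : ℝ} {θ : V → ℝ}

lemma u_root : u T lam θ T.root = flowMass T θ := by
  simp [u, th, depth_root]

lemma u_nonneg (hθ : IsFlow T θ) (h0 : 0 < lam) (v : V) : 0 ≤ u T lam θ v :=
  div_nonneg (th_nonneg T hθ v) (pow_nonneg h0.le _)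

lemma a_root : a T lam θ T.root = flowMass T θ := by
  rw [a, dn_root, u_root]

lemma a_child {v w : V} (h : w ∈ T.children v) :
    a T lam θ w = lam * a T lam θ v + u T lam θ w := by
  rw [a, dn_child T _ _ h]

lemma a_nonneg (hθ : IsFlow T θ) (h0 : 0 < lam) (v : V) : 0 ≤ a T lam θ v := by
  revert v
  refine tree_induction T ?_ ?_
  · rw [a_root, ← u_root T (lam := lam)]
    exact u_nonneg T hθ h0 _
  · intro v hv w hw
    rw [a_child T hw]
    exact add_nonneg (mul_nonneg h0.le hv) (u_nonneg T hθ h0 _)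

lemma W_root : W T lam θ T.root = flowMass T θ * flowMass T θ := by
  rw [W, dn_root, u_root, a_root]

lemma W_child {v w : V} (h : w ∈ T.children v) :
    W T lam θ w = W T lam θ v + u T lam θ w * a T lam θ w := by
  rw [W, dn_child T _ _ h]

lemma W_nonneg (hθ : IsFlow T θ) (h0 : 0 < lam) (v : V) : 0 ≤ W T lam θ v := by
  revert v
  refine tree_induction T ?_ ?_
  · rw [W_root]
    exact mul_self_nonneg _
  · intro v hv w hw
    rw [W_child T hw]
    exact add_nonneg hv (mul_nonneg (u_nonneg T hθ h0 _) (a_nonneg T hθ h0 _))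

lemma WQ_bound (h0 : 0 < lam) (h1 : lam < 1) (v : V) :
    W T lam θ v + lam * a T lam θ v ^ 2 ≤
      2 * flowMass T θ ^ 2 + 2 / (1 - lam) * QQ T lam θ v := by
  have hl : 0 < 1 - lam := by linarith
  revert v
  refine tree_induction T ?_ ?_
  · rw [W_root, a_root, QQ, dn_root]
    nlinarith [sq_nonneg (flowMass T θ)]
  · intro v hv w hw
    have hne := ne_root_of_mem_children T hw
    have hu : uu T lam θ w = u T lam θ w := by simp [uu, u, th, hne]
    rw [W_child T hw, QQ, dn_child T _ _ hw]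
    change _ ≤ 2 * flowMass T θ ^ 2 + 2 / (1 - lam) * (QQ T lam θ v + uu T lam θ w ^ 2)
    rw [hu]
    have hac := a_child T (lam := lam) (θ := θ) hw
    set x := u T lam θ w
    set y := a T lam θ w
    set z := a T lam θ v
    -- `y^2 ≤ lam z^2 + x^2/(1-lam)`
    have k1 : (1 - lam) * y ^ 2 ≤ (1 - lam) * lam * z ^ 2 + x ^ 2 := by
      rw [hac]
      nlinarith [mul_nonneg h0.le (sq_nonneg ((1 - lam) * z - x))]
    have k1' : y ^ 2 ≤ lam * z ^ 2 + 1 / (1 - lam) * x ^ 2 := by
      have : y ^ 2 = (1 / (1 - lam)) * ((1 - lam) * y ^ 2) := by field_simp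
      rw [this]
      calc (1 / (1 - lam)) * ((1 - lam) * y ^ 2)
          ≤ (1 / (1 - lam)) * ((1 - lam) * lam * z ^ 2 + x ^ 2) :=
            mul_le_mul_of_nonneg_left k1 (by positivity)
        _ = _ := by field_simp
    -- `x y ≤ (1-lam) y^2 + x^2/(4(1-lam))`
    have k2 : x * y ≤ (1 - lam) * y ^ 2 + 1 / (1 - lam) * x ^ 2 := by
      have h3 : 0 ≤ (1 / (1 - lam)) * ((1 - lam) * y - x) ^ 2 := by positivity
      have h4 : (1 / (1 - lam)) * ((1 - lam) * y - x) ^ 2
          = (1 - lam) * y ^ 2 - 2 * (x * y) + 1 / (1 - lam) * x ^ 2 := by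
        field_simp
        ring
      have h5 : 0 ≤ (1 - lam) * y ^ 2 + 1 / (1 - lam) * x ^ 2 := by positivity
      nlinarith
    have e1 : 2 / (1 - lam) * (QQ T lam θ v + x ^ 2)
        = 2 / (1 - lam) * QQ T lam θ v + 2 * (1 / (1 - lam) * x ^ 2) := by ring
    rw [e1]
    nlinarith

/-- On vertices of positive flow the path sums are bounded. -/
lemma W_le (hθ : IsFlow T θ) (h0 : 0 < lam) (h1 : lam < 1)
    (hray : ∀ ξ : ℕ → V, T.IsRay ξ → rayPotential lam θ ξ ≤ 1) {v : V} (hv : v ≠ T.root)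
    (hpos : 0 < θ v) :
    W T lam θ v ≤ 2 * flowMass T θ ^ 2 + 2 / (1 - lam) ∧
    lam * a T lam θ v ^ 2 ≤ 2 * flowMass T θ ^ 2 + 2 / (1 - lam) := by
  have h := WQ_bound T (lam := lam) (θ := θ) h0 h1 v
  have hQ := QQ_le_one T hθ hray hv hpos
  have hl : 0 < 1 - lam := by linarith
  have h2 : 2 / (1 - lam) * QQ T lam θ v ≤ 2 / (1 - lam) := by
    have : 0 ≤ 2 / (1 - lam) := by positivity
    nlinarith
  have h3 := W_nonneg T hθ h0 v
  have h4 : 0 ≤ lam * a T lam θ v ^ 2 := by positivity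
  constructor <;> linarith


/-- `u ≤ 1` away from the root. -/
lemma u_le_one (hθ : IsFlow T θ) (h0 : 0 < lam)
    (hray : ∀ ξ : ℕ → V, T.IsRay ξ → rayPotential lam θ ξ ≤ 1) {v : V} (hv : v ≠ T.root) :
    θ v / lam ^ (2 * T.depth v) ≤ 1 := by
  rcases eq_or_lt_of_le (hθ.1 v) with h | h
  · rw [← h]; simp
  · have hQ := QQ_le_one T hθ hray hv h
    have h2 := mem_children_parent T hv
    rw [QQ, dn_child T _ _ h2] at hQ
    have h3 : 0 ≤ dn T (fun _ => (0 : ℝ)) (fun w q => q + uu T lam θ w ^ 2) (T.parent v) := by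
      have : ∀ w, 0 ≤ dn T (fun _ => (0 : ℝ)) (fun w q => q + uu T lam θ w ^ 2) w := by
        refine tree_induction T ?_ ?_
        · rw [dn_root]
        · intro v hv w hw
          rw [dn_child T _ _ hw]
          positivity
      exact this _
    have h4 : uu T lam θ v ^ 2 ≤ 1 := by linarith
    have h5 : 0 ≤ uu T lam θ v := div_nonneg (hθ.1 v) (pow_nonneg h0.le _)
    change uu T lam θ v ≤ 1
    nlinarith

/-- The history before `v`. -/
noncomputable def am (lam : ℝ) (θ : V → ℝ) (v : V) : ℝ := a T lam θ v - u T lam θ v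

/-- The path sum before `v`. -/
noncomputable def Wm (lam : ℝ) (θ : V → ℝ) (v : V) : ℝ :=
  W T lam θ v - u T lam θ v * a T lam θ v

lemma am_root : am T lam θ T.root = 0 := by
  rw [am, a_root, u_root, sub_self]

lemma am_child {v w : V} (h : w ∈ T.children v) : am T lam θ w = lam * a T lam θ v := by
  rw [am, a_child T h]; ring

lemma Wm_root : Wm T lam θ T.root = 0 := by
  rw [Wm, W_root, a_root, u_root, sub_self]

lemma Wm_child {v w : V} (h : w ∈ T.children v) : Wm T lam θ w = W T lam θ v := by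
  rw [Wm, W_child T h]; ring

lemma am_nonneg (hθ : IsFlow T θ) (h0 : 0 < lam) (v : V) : 0 ≤ am T lam θ v := by
  by_cases h : v = T.root
  · rw [h, am_root]
  · rw [am_child T (mem_children_parent T h)]
    exact mul_nonneg h0.le (a_nonneg T hθ h0 _)

lemma am_le (hθ : IsFlow T θ) (h0 : 0 < lam) (v : V) : am T lam θ v ≤ a T lam θ v := by
  have := u_nonneg T hθ h0 v
  unfold am
  linarith

lemma Wm_le (hθ : IsFlow T θ) (h0 : 0 < lam) (v : V) : Wm T lam θ v ≤ W T lam θ v := by
  have := mul_nonneg (u_nonneg T hθ h0 v) (a_nonneg T hθ h0 v)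
  unfold Wm
  linarith

lemma pow_mul_u (h0 : 0 < lam) (v : V) : lam ^ (2 * T.depth v) * u T lam θ v = th T θ v := by
  unfold u
  field_simp

lemma sum_u (hθ : IsFlow T θ) (h0 : 0 < lam) (v : V) :
    ∑ w ∈ T.children v, lam ^ 2 * u T lam θ w = u T lam θ v := by
  have h1 : ∀ w ∈ T.children v, lam ^ 2 * u T lam θ w
      = th T θ w * (1 / lam ^ (2 * T.depth v)) := by
    intro w hw
    have := ((mem_children T).1 hw).1
    unfold u
    rw [this]
    have : lam ^ (2 * (T.depth v + 1)) = lam ^ 2 * lam ^ (2 * T.depth v) := by ring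
    rw [this]
    field_simp
  rw [Finset.sum_congr rfl h1, ← Finset.sum_mul, th_sum T hθ]
  unfold u
  ring

set_option maxHeartbeats 1000000 in
/-- **Backward capacity lemma** (deterministic part of the implication "positive cubic capacity
implies reconstruction"). -/
theorem backward_capacity (hθ : IsFlow T θ) (hM : 0 < flowMass T θ) (h0 : 0 < lam)
    (h1 : lam < 1) (hray : ∀ ξ : ℕ → V, T.IsRay ξ → rayPotential lam θ ξ ≤ 1) {C : ℝ}
    (hC : 0 < C) {κ₀ : ℝ} (hκ₀ : 0 < κ₀) :
    ∃ κ ε : ℝ, 0 < κ ∧ κ ≤ κ₀ ∧ 0 < ε ∧ ∀ (n : ℕ) (s e : V → ℝ),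
      (∀ v, T.depth v ≤ n + 1 → 0 ≤ s v) → (∀ v, T.depth v ≤ n + 1 → 0 ≤ e v) →
      (∀ v, T.depth v = n + 1 → s v = κ ^ 2 * (θ v / lam ^ (2 * (n + 1)))) →
      (∀ v, T.depth v = n + 1 → e v ≤ C * κ ^ 3 * (θ v / lam ^ (2 * (n + 1)))) →
      (∀ v, T.depth v ≤ n →
        |s v - ∑ w ∈ T.children v, lam ^ 2 * s w| ≤
          C * (∑ w ∈ T.children v, lam ^ 2 * s w) *
            (∑ w ∈ T.children v, lam ^ 3 * e w
              + C * (∑ w ∈ T.children v, lam ^ 2 * s w) ^ 2)) →
      (∀ v, T.depth v ≤ n →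
        e v ≤ ∑ w ∈ T.children v, lam ^ 3 * e w
              + C * (∑ w ∈ T.children v, lam ^ 2 * s w) ^ 2) →
      ε ≤ s T.root := by
  set M := flowMass T θ with hMdef
  have hl : 0 < 1 - lam := by linarith
  set K : ℝ := 2 * M ^ 2 + 2 / (1 - lam) with hK
  have hK0 : 0 < K := by positivity
  -- bound for the histories
  set A : ℝ := K / lam + 1 with hA
  have hA0 : 0 < A := by positivity
  obtain ⟨κ, hκ0, hκle, hκ1, hκ⟩ : ∃ κ : ℝ, 0 < κ ∧ κ ≤ κ₀ ∧ κ ≤ 1 ∧
      κ * (4 * C * (C * (A + 4 * K))) ≤ 1 := by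
    refine ⟨min κ₀ (min 1 (1 / (4 * C * (C * (A + 4 * K))))), ?_, min_le_left _ _, ?_, ?_⟩
    · refine lt_min hκ₀ (lt_min one_pos (by positivity))
    · exact (min_le_right _ _).trans (min_le_left _ _)
    · have hp : 0 < 4 * C * (C * (A + 4 * K)) := by positivity
      calc _ ≤ (1 / (4 * C * (C * (A + 4 * K)))) * (4 * C * (C * (A + 4 * K))) :=
            mul_le_mul_of_nonneg_right ((min_le_right _ _).trans (min_le_right _ _)) hp.le
        _ = 1 := by field_simp
  set δ : ℝ := κ ^ 2 with hδ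
  have hδ0 : 0 < δ := by positivity
  set γ : ℝ := 4 * C * δ ^ 2 with hγ
  have hγ0 : 0 < γ := by positivity
  set B0 : ℝ := C * κ ^ 3 * A + γ * K with hB0
  have hB0' : 4 * C * B0 ≤ 1 := by
    have e1 : B0 ≤ κ * (C * (A + 4 * K)) := by
      have k3 : κ ^ 3 ≤ κ := by
        have : κ ^ 2 ≤ 1 := by nlinarith
        nlinarith
      have k4 : δ ^ 2 ≤ κ := by
        have h2 : δ ^ 2 = κ ^ 3 * κ := by rw [hδ]; ring
        rw [h2]
        have : κ ^ 3 ≤ 1 := by linarith
        nlinarith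
      have e2 : C * κ ^ 3 * A ≤ C * κ * A := by
        have : 0 ≤ C * A := by positivity
        nlinarith
      have e3 : γ * K ≤ 4 * C * κ * K := by
        rw [hγ]
        have : 0 ≤ 4 * C * K := by positivity
        nlinarith
      rw [hB0]
      linarith
    calc 4 * C * B0 ≤ 4 * C * (κ * (C * (A + 4 * K))) :=
          mul_le_mul_of_nonneg_left e1 (by positivity)
      _ = κ * (4 * C * (C * (A + 4 * K))) := by ring
      _ ≤ 1 := hκ
  -- bounds on vertices of positive flow
  have hWK : ∀ v, th T θ v * Wm T lam θ v ≤ th T θ v * K := by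
    intro v
    rcases eq_or_lt_of_le (th_nonneg T hθ v) with h | h
    · rw [← h]; simp
    · refine mul_le_mul_of_nonneg_left ?_ h.le
      by_cases hr : v = T.root
      · rw [hr, Wm_root]; exact hK0.le
      · have hp : 0 < θ v := by
          unfold th at h
          rwa [if_neg hr] at h
        exact (Wm_le T hθ h0 v).trans (W_le T hθ h0 h1 hray hr hp).1
  have hAK : ∀ v, th T θ v * am T lam θ v ≤ th T θ v * A := by
    intro v
    rcases eq_or_lt_of_le (th_nonneg T hθ v) with h | h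
    · rw [← h]; simp
    · refine mul_le_mul_of_nonneg_left ?_ h.le
      by_cases hr : v = T.root
      · rw [hr, am_root]; exact hA0.le
      · have hp : 0 < θ v := by
          unfold th at h
          rwa [if_neg hr] at h
        have h2 := (W_le T hθ h0 h1 hray hr hp).2
        have h3 := am_le T hθ h0 (lam := lam) v
        have h4 : a T lam θ v ^ 2 ≤ K / lam := by
          rw [le_div_iff₀ h0]
          linarith
        rw [hA]
        nlinarith [sq_nonneg (a T lam θ v - 1)]
  refine ⟨κ, δ * M / 2, hκ0, hκle, by positivity, ?_⟩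
  intro n s e hs he hsl hel hsv hev
  -- the induction from the leaves
  have key : ∀ m : ℕ, m ≤ n + 1 → ∀ v, T.depth v = n + 1 - m →
      lam ^ (2 * T.depth v) * (am T lam θ v * e v)
        + 1 / (2 * C * δ) * (lam ^ (2 * T.depth v) * |s v - δ * u T lam θ v|)
        + γ * (th T θ v * Wm T lam θ v) ≤ th T θ v * B0 := by
    intro m
    induction m with
    | zero =>
      intro _ v hv
      rw [Nat.sub_zero] at hv
      have hne : v ≠ T.root := by
        intro h
        rw [h, depth_root] at hv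
        omega
      have hthv : th T θ v = θ v := by simp [th, hne]
      have huv : θ v / lam ^ (2 * (n + 1)) = u T lam θ v := by
        rw [u, hthv, hv]
      have h2 : s v - δ * u T lam θ v = 0 := by
        rw [hsl v hv, huv, sub_self]
      rw [h2, abs_zero, mul_zero, mul_zero, add_zero]
      have h3 := hel v hv
      rw [huv] at h3
      have h4 : lam ^ (2 * T.depth v) * (am T lam θ v * e v)
          ≤ C * κ ^ 3 * (th T θ v * am T lam θ v) := by
        rw [← pow_mul_u T h0 v]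
        have : 0 ≤ lam ^ (2 * T.depth v) * am T lam θ v :=
          mul_nonneg (by positivity) (am_nonneg T hθ h0 v)
        calc lam ^ (2 * T.depth v) * (am T lam θ v * e v)
            = (lam ^ (2 * T.depth v) * am T lam θ v) * e v := by ring
          _ ≤ (lam ^ (2 * T.depth v) * am T lam θ v) * (C * κ ^ 3 * u T lam θ v) :=
              mul_le_mul_of_nonneg_left h3 this
          _ = _ := by ring
      have h5 : C * κ ^ 3 * (th T θ v * am T lam θ v) ≤ C * κ ^ 3 * (th T θ v * A) :=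
        mul_le_mul_of_nonneg_left (hAK v) (by positivity)
      have h6 : γ * (th T θ v * Wm T lam θ v) ≤ γ * (th T θ v * K) :=
        mul_le_mul_of_nonneg_left (hWK v) hγ0.le
      calc _ ≤ C * κ ^ 3 * (th T θ v * A) + γ * (th T θ v * K) := by linarith
        _ = th T θ v * B0 := by rw [hB0]; ring
    | succ m ih =>
      intro hm v hv
      have hdn : T.depth v ≤ n := by omega
      have hchild : ∀ w ∈ T.children v, T.depth w = n + 1 - m := by
        intro w hw
        have := ((mem_children T).1 hw).1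
        omega
      -- bounds on the children
      have ihw := fun w hw => ih (by omega) w (hchild w hw)
      have hsw : ∀ w ∈ T.children v, |s w - δ * u T lam θ w| ≤ δ * u T lam θ w := by
        intro w hw
        have h2 := ihw w hw
        have h3 : 0 ≤ lam ^ (2 * T.depth w) * (am T lam θ w * e w) := by
          have := am_nonneg T hθ h0 w
          have := he w (by have := hchild w hw; omega)
          positivity
        have h4 : 0 ≤ γ * (th T θ w * Wm T lam θ w) := by
          rw [Wm_child T hw]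
          have := W_nonneg T hθ h0 v
          have := th_nonneg T hθ w
          positivity
        have h5 : 1 / (2 * C * δ) * (lam ^ (2 * T.depth w) * |s w - δ * u T lam θ w|)
            ≤ th T θ w * B0 := by linarith
        have hpw : 0 < lam ^ (2 * T.depth w) := by positivity
        have h6 : lam ^ (2 * T.depth w) * |s w - δ * u T lam θ w|
            ≤ (2 * C * δ) * (th T θ w * B0) := by
          have := mul_le_mul_of_nonneg_left h5 (show (0 : ℝ) ≤ 2 * C * δ by positivity)
          calc _ = (2 * C * δ) * (1 / (2 * C * δ) *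
              (lam ^ (2 * T.depth w) * |s w - δ * u T lam θ w|)) := by
                have hne : 2 * C * δ ≠ 0 := by positivity
                rw [← mul_assoc (2 * C * δ), mul_one_div_cancel hne, one_mul]
            _ ≤ _ := this
        rw [← pow_mul_u T h0 w] at h6
        have h7 : lam ^ (2 * T.depth w) * |s w - δ * u T lam θ w|
            ≤ lam ^ (2 * T.depth w) * (δ * u T lam θ w) := by
          refine h6.trans ?_
          have hu := u_nonneg T hθ h0 (lam := lam) w
          have : (2 * C * δ) * (lam ^ (2 * T.depth w) * u T lam θ w * B0)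
              = (lam ^ (2 * T.depth w) * (δ * u T lam θ w)) * (2 * C * B0) := by ring
          rw [this]
          have h8 : 2 * C * B0 ≤ 1 := by
            have : 0 ≤ C * B0 := by positivity
            linarith
          have h9 : 0 ≤ lam ^ (2 * T.depth w) * (δ * u T lam θ w) := by positivity
          nlinarith
        exact le_of_mul_le_mul_left h7 hpw
      set S := ∑ w ∈ T.children v, lam ^ 2 * s w with hS
      set E := ∑ w ∈ T.children v, lam ^ 3 * e w + C * S ^ 2 with hE
      have hS0 : 0 ≤ S := Finset.sum_nonneg fun w hw => by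
        have := hs w (by have := hchild w hw; omega)
        positivity
      have hE0 : 0 ≤ E := by
        have : 0 ≤ ∑ w ∈ T.children v, lam ^ 3 * e w := Finset.sum_nonneg fun w hw => by
          have := he w (by have := hchild w hw; omega)
          positivity
        positivity
      have huv0 := u_nonneg T hθ h0 (lam := lam) v
      have hSle : S ≤ 2 * δ * u T lam θ v := by
        rw [← sum_u T hθ h0 v, Finset.mul_sum]
        refine Finset.sum_le_sum fun w hw => ?_
        have h2 := (abs_le.1 (hsw w hw)).2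
        have h3 : (0 : ℝ) ≤ lam ^ 2 := by positivity
        calc lam ^ 2 * s w ≤ lam ^ 2 * (2 * δ * u T lam θ w) :=
              mul_le_mul_of_nonneg_left (by linarith) h3
          _ = _ := by ring
      have hEle : E ≤ ∑ w ∈ T.children v, lam ^ 3 * e w + γ * u T lam θ v ^ 2 := by
        have h2 : S ^ 2 ≤ (2 * δ * u T lam θ v) ^ 2 := pow_le_pow_left₀ hS0 hSle 2
        have h3 : C * S ^ 2 ≤ C * (2 * δ * u T lam θ v) ^ 2 :=
          mul_le_mul_of_nonneg_left h2 hC.le
        rw [hE, hγ]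
        nlinarith
      have hsvv := hsv v hdn
      have hevv := hev v hdn
      -- first term
      have hpv : 0 < lam ^ (2 * T.depth v) := by positivity
      have ham := am_nonneg T hθ h0 (lam := lam) v
      have t1 : am T lam θ v * e v ≤ am T lam θ v * E := mul_le_mul_of_nonneg_left hevv ham
      -- second term
      have t2 : |s v - δ * u T lam θ v| ≤ 2 * C * δ * (u T lam θ v * E)
          + ∑ w ∈ T.children v, lam ^ 2 * |s w - δ * u T lam θ w| := by
        have h2 : |s v - δ * u T lam θ v| ≤ |s v - S| + |S - δ * u T lam θ v| := by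
          have := abs_add_le (s v - S) (S - δ * u T lam θ v)
          rwa [sub_add_sub_cancel] at this
        have h3 : |s v - S| ≤ 2 * C * δ * (u T lam θ v * E) := by
          refine hsvv.trans ?_
          have : C * S ≤ C * (2 * δ * u T lam θ v) := mul_le_mul_of_nonneg_left hSle hC.le
          calc C * S * E ≤ C * (2 * δ * u T lam θ v) * E :=
                mul_le_mul_of_nonneg_right this hE0
            _ = _ := by ring
        have h4 : |S - δ * u T lam θ v|
            ≤ ∑ w ∈ T.children v, lam ^ 2 * |s w - δ * u T lam θ w| := by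
          rw [hS, ← sum_u T hθ h0 v, Finset.mul_sum, ← Finset.sum_sub_distrib]
          refine (Finset.abs_sum_le_sum_abs _ _).trans (le_of_eq ?_)
          refine Finset.sum_congr rfl fun w _ => ?_
          have : lam ^ 2 * s w - δ * (lam ^ 2 * u T lam θ w)
              = lam ^ 2 * (s w - δ * u T lam θ w) := by ring
          rw [this, abs_mul, abs_of_nonneg (by positivity : (0 : ℝ) ≤ lam ^ 2)]
        linarith
      have hsum : ∑ w ∈ T.children v, (lam ^ (2 * T.depth w) * (am T lam θ w * e w)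
          + 1 / (2 * C * δ) * (lam ^ (2 * T.depth w) * |s w - δ * u T lam θ w|)
          + γ * (th T θ w * Wm T lam θ w)) ≤ th T θ v * B0 := by
        rw [← th_sum T hθ v, Finset.sum_mul]
        exact Finset.sum_le_sum ihw
      refine le_trans ?_ hsum
      -- expand the sum over the children
      have hx : ∀ w ∈ T.children v, lam ^ (2 * T.depth w) * (am T lam θ w * e w)
          + 1 / (2 * C * δ) * (lam ^ (2 * T.depth w) * |s w - δ * u T lam θ w|)
          + γ * (th T θ w * Wm T lam θ w)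
          = (lam ^ (2 * T.depth v) * a T lam θ v) * (lam ^ 3 * e w)
          + (1 / (2 * C * δ) * lam ^ (2 * T.depth v)) * (lam ^ 2 * |s w - δ * u T lam θ w|)
          + (γ * W T lam θ v) * th T θ w := by
        intro w hw
        have hd := ((mem_children T).1 hw).1
        rw [am_child T hw, Wm_child T hw, hd]
        ring
      have hx2 : ∑ w ∈ T.children v, (lam ^ (2 * T.depth w) * (am T lam θ w * e w)
          + 1 / (2 * C * δ) * (lam ^ (2 * T.depth w) * |s w - δ * u T lam θ w|)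
          + γ * (th T θ w * Wm T lam θ w))
          = (lam ^ (2 * T.depth v) * a T lam θ v) * (∑ w ∈ T.children v, lam ^ 3 * e w)
          + (1 / (2 * C * δ) * lam ^ (2 * T.depth v)) *
            (∑ w ∈ T.children v, lam ^ 2 * |s w - δ * u T lam θ w|)
          + (γ * W T lam θ v) * th T θ v := by
        rw [Finset.sum_congr rfl hx, Finset.sum_add_distrib, Finset.sum_add_distrib,
          Finset.mul_sum (f := fun w => lam ^ 3 * e w),
          Finset.mul_sum (f := fun w => lam ^ 2 * |s w - δ * u T lam θ w|),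
          ← Finset.mul_sum (f := fun w => th T θ w), th_sum T hθ v]
      rw [hx2]
      clear hx2 hx hsum ihw hsw
      set X := ∑ w ∈ T.children v, lam ^ 3 * e w
      set Y := ∑ w ∈ T.children v, lam ^ 2 * |s w - δ * u T lam θ w|
      -- combine
      have c1 : lam ^ (2 * T.depth v) * (am T lam θ v * e v)
          ≤ lam ^ (2 * T.depth v) * (am T lam θ v * E) := mul_le_mul_of_nonneg_left t1 hpv.le
      have c2 : 1 / (2 * C * δ) * (lam ^ (2 * T.depth v) * |s v - δ * u T lam θ v|)
          ≤ lam ^ (2 * T.depth v) * (u T lam θ v * E)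
            + 1 / (2 * C * δ) * lam ^ (2 * T.depth v) * Y := by
        have h2 := mul_le_mul_of_nonneg_left t2 hpv.le
        have h3 := mul_le_mul_of_nonneg_left h2 (show (0 : ℝ) ≤ 1 / (2 * C * δ) by positivity)
        refine h3.trans (le_of_eq ?_)
        have hne : 2 * C * δ ≠ 0 := by positivity
        have h4 : 1 / (2 * C * δ) * (2 * C * δ) = 1 := one_div_mul_cancel hne
        calc 1 / (2 * C * δ) * (lam ^ (2 * T.depth v) * (2 * C * δ * (u T lam θ v * E) + Y))
            = (1 / (2 * C * δ) * (2 * C * δ)) * (lam ^ (2 * T.depth v) * (u T lam θ v * E))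
              + 1 / (2 * C * δ) * lam ^ (2 * T.depth v) * Y := by ring
          _ = _ := by rw [h4, one_mul]
      have c3 : lam ^ (2 * T.depth v) * (am T lam θ v * E) + lam ^ (2 * T.depth v)
          * (u T lam θ v * E) = lam ^ (2 * T.depth v) * a T lam θ v * E := by
        unfold am; ring
      have ha := a_nonneg T hθ h0 (lam := lam) v
      have c4 : lam ^ (2 * T.depth v) * a T lam θ v * E
          ≤ lam ^ (2 * T.depth v) * a T lam θ v * (X + γ * u T lam θ v ^ 2) :=
        mul_le_mul_of_nonneg_left hEle (by positivity)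
      have c5 : lam ^ (2 * T.depth v) * a T lam θ v * (γ * u T lam θ v ^ 2)
          + γ * (th T θ v * Wm T lam θ v) = γ * W T lam θ v * th T θ v := by
        rw [← pow_mul_u T h0 v]
        unfold Wm
        ring
      have c6 : lam ^ (2 * T.depth v) * a T lam θ v * (X + γ * u T lam θ v ^ 2)
          = lam ^ (2 * T.depth v) * a T lam θ v * X
            + lam ^ (2 * T.depth v) * a T lam θ v * (γ * u T lam θ v ^ 2) := by ring
      linarith
  -- conclusion at the root
  have hroot := key (n + 1) le_rfl T.root (by rw [depth_root, Nat.sub_self])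
  rw [am_root, Wm_root, depth_root, u_root] at hroot
  have hthr : th T θ T.root = M := by simp [th, hMdef]
  rw [hthr] at hroot
  simp only [zero_mul, mul_zero, pow_zero, one_mul, zero_add, add_zero] at hroot
  have h2 : |s T.root - δ * M| ≤ δ * M / 2 := by
    have h3 := mul_le_mul_of_nonneg_left hroot (show (0 : ℝ) ≤ 2 * C * δ by positivity)
    have h4 : 2 * C * δ * (1 / (2 * C * δ) * |s T.root - δ * M|) = |s T.root - δ * M| := by
      have hne : 2 * C * δ ≠ 0 := by positivity
      rw [← mul_assoc, mul_one_div_cancel hne, one_mul]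
    rw [h4] at h3
    refine h3.trans ?_
    have : 2 * C * δ * (M * B0) = (δ * M / 2) * (4 * C * B0) := by ring
    rw [this]
    have : 0 ≤ δ * M / 2 := by positivity
    nlinarith
  have h5 := (abs_le.1 h2).1
  linarith

end facts

end Crest.Agent.R163.Cap
end

-- ▼ part R163/Back8
section

/-!
Row 163 (S0246, backward direction): vertices with boundedly many children, and the conclusion.
-/

set_option autoImplicit false

namespace Crest.Agent.R163.Bk

open Crest.ProbabilityR.TreeBroadcast Crest.ProbabilityR.Broadcast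

variable {V : Type*} [DecidableEq V]

lemma adm_of {lam : ℝ} (h0 : 0 ≤ lam) (h1 : lam ≤ 1) : Adm 4 lam :=
  ⟨h1, by
    have : 0 ≤ 1 - lam := by linarith
    push_cast
    positivity⟩

lemma chi_one : chi (fun _ : Fin 4 => (1 : ℝ)) = 0 := by
  simp only [chi, avg4]; norm_num

lemma J_unit_zero {Ω : Type*} {φ : (Fin 4 → ℝ) → ℝ} (h : φ (fun _ => 1) = 0) :
    J φ (fun (_ : Ω) (_ : Fin 4) => (1 : ℝ)) = 0 := by
  unfold J
  simp [h]

lemma y3_one : y3 (fun _ : Fin 4 => (1 : ℝ)) = 0 := by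
  simp only [y3, dev, avg4]; norm_num

lemma x2_one : x2 (fun _ : Fin 4 => (1 : ℝ)) = 0 := by
  simp only [x2, dev, avg4]; norm_num

/-- arithmetic of the inductive step -/
lemma step_arith {C c K σ ε S E s e s' e' : ℝ} (hC : 0 < C) (hc : 0 < c) (hK : 1 ≤ K)
    (hσ : 0 ≤ σ) (hε : 0 ≤ ε) (hS : 0 ≤ S) (hE : 0 ≤ E) (hs : 0 ≤ s) (he : 0 ≤ e)
    (h1 : |s - S| ≤ C * S * (E + C * S ^ 2)) (h2 : e ≤ E + C * S ^ 2) (hsK : s ≤ K * S)
    (h3 : |s' - σ - s| ≤ c * (σ * e + ε * s)) (h4 : e' ≤ ε + e + c * (σ * s)) :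
    |s' - (σ + S)| ≤ (C + c + c * K) * (σ + S) * ((ε + E) + (C + c + c * K) * (σ + S) ^ 2) ∧
    e' ≤ (ε + E) + (C + c + c * K) * (σ + S) ^ 2 := by
  have hcK : 0 < c * K := mul_pos hc (by linarith)
  have hC' : C ≤ C + c + c * K := by linarith
  have hsq : S ^ 2 ≤ (σ + S) ^ 2 := pow_le_pow_left₀ hS (by linarith) 2
  have hσS : 0 ≤ σ * S := mul_nonneg hσ hS
  have hE1 : E + C * S ^ 2 ≤ E + (C + c + c * K) * (σ + S) ^ 2 := by
    have : C * S ^ 2 ≤ (C + c + c * K) * (σ + S) ^ 2 :=
      mul_le_mul hC' hsq (sq_nonneg _) (by linarith)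
    linarith
  have hE0 : 0 ≤ E + C * S ^ 2 := by positivity
  constructor
  · have t1 : |s' - (σ + S)| ≤ |s' - σ - s| + |s - S| := by
      have : s' - (σ + S) = (s' - σ - s) + (s - S) := by ring
      rw [this]; exact abs_add_le _ _
    -- bound everything
    have t2 : c * (σ * e + ε * s) ≤ c * σ * (E + C * S ^ 2) + c * K * S * ε := by
      have a1 : σ * e ≤ σ * (E + C * S ^ 2) := mul_le_mul_of_nonneg_left h2 hσ
      have a2 : ε * s ≤ ε * (K * S) := mul_le_mul_of_nonneg_left hsK hε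
      have a3 := mul_le_mul_of_nonneg_left (add_le_add a1 a2) hc.le
      linarith
    have t3 : C * S * (E + C * S ^ 2) + c * σ * (E + C * S ^ 2) ≤
        (C + c + c * K) * (σ + S) * (E + (C + c + c * K) * (σ + S) ^ 2) := by
      have b1 : C * S + c * σ ≤ (C + c + c * K) * (σ + S) := by
        nlinarith [mul_nonneg hc.le hS, mul_nonneg hC.le hσ, mul_nonneg hcK.le hS,
          mul_nonneg hcK.le hσ]
      have b2 := mul_le_mul b1 hE1 hE0 (by positivity)
      linarith
    have t4 : c * K * S * ε ≤ (C + c + c * K) * (σ + S) * ε := by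
      refine mul_le_mul_of_nonneg_right ?_ hε
      nlinarith [mul_nonneg hc.le hS, mul_nonneg hc.le hσ,
        mul_nonneg hC.le hσ, mul_nonneg hC.le hS, mul_nonneg hcK.le hS, mul_nonneg hcK.le hσ]
    calc |s' - (σ + S)| ≤ c * (σ * e + ε * s) + C * S * (E + C * S ^ 2) := by linarith
      _ ≤ (C + c + c * K) * (σ + S) * (E + (C + c + c * K) * (σ + S) ^ 2) +
          (C + c + c * K) * (σ + S) * ε := by linarith
      _ = _ := by ring
  · have a1 : c * (σ * s) ≤ c * K * (σ * S) := by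
      have := mul_le_mul_of_nonneg_left (mul_le_mul_of_nonneg_left hsK hσ) hc.le
      linarith
    have a2 : σ * S ≤ (σ + S) ^ 2 := by nlinarith [sq_nonneg σ, sq_nonneg S]
    have a3 : c * K * (σ * S) ≤ c * K * (σ + S) ^ 2 := mul_le_mul_of_nonneg_left a2 hcK.le
    have a4 : C * S ^ 2 ≤ C * (σ + S) ^ 2 := mul_le_mul_of_nonneg_left hsq hC.le
    have a5 : 0 ≤ c * (σ + S) ^ 2 := by positivity
    have a6 : (C + c + c * K) * (σ + S) ^ 2 =
        C * (σ + S) ^ 2 + c * (σ + S) ^ 2 + c * K * (σ + S) ^ 2 := by ring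
    rw [a6]
    linarith

theorem merge_children (T : LocFinTree V) {lam : ℝ} (h0 : 0 ≤ lam) (h1 : lam ≤ 1) (m : ℕ) :
    ∃ C : ℝ, 0 < C ∧ ∀ (κ : V → ℝ), (∀ v, Adm 4 (κ v)) → ∀ (k : ℕ) (A : Finset V), A.card ≤ m →
      |J chi (nsc 4 T lam κ k A) - ∑ w ∈ A, lam ^ 2 * J chi (ntc 4 T lam κ k w)| ≤
        C * (∑ w ∈ A, lam ^ 2 * J chi (ntc 4 T lam κ k w)) *
          (∑ w ∈ A, lam ^ 3 * ev (ntc 4 T lam κ k w) +
            C * (∑ w ∈ A, lam ^ 2 * J chi (ntc 4 T lam κ k w)) ^ 2) ∧
      ev (nsc 4 T lam κ k A) ≤ ∑ w ∈ A, lam ^ 3 * ev (ntc 4 T lam κ k w) +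
            C * (∑ w ∈ A, lam ^ 2 * J chi (ntc 4 T lam κ k w)) ^ 2 := by
  have hl : Adm 4 lam := adm_of h0 h1
  induction m with
  | zero =>
    refine ⟨1, one_pos, fun κ hκ k A hA => ?_⟩
    have : A = ∅ := Finset.card_eq_zero.1 (Nat.le_zero.1 hA)
    subst this
    have e1 : J chi (nsc 4 T lam κ k ∅) = 0 := by rw [nsc_empty]; exact J_unit_zero chi_one
    have e2 : ev (nsc 4 T lam κ k ∅) = 0 := by
      rw [nsc_empty, ev, J_unit_zero y3_one, J_unit_zero x2_one]; simp
    rw [e1, e2]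
    simp
  | succ m ih =>
    obtain ⟨C, hC, ih⟩ := ih
    -- constants
    obtain ⟨K, hK⟩ : ∃ K : ℝ, K = 1 + C * (36 * m + C * (3 * m) ^ 2) := ⟨_, rfl⟩
    have hK1 : 1 ≤ K := by rw [hK]; have : 0 ≤ C * (36 * (m : ℝ) + C * (3 * m) ^ 2) := by positivity
                           linarith
    obtain ⟨c, hc⟩ : ∃ c : ℝ, c = 3000000 := ⟨_, rfl⟩
    have hc0 : 0 < c := by rw [hc]; norm_num
    refine ⟨C + c + c * K, by positivity, fun κ hκ k A hA => ?_⟩
    rcases Nat.lt_or_ge A.card (m + 1) with hlt | hge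
    · -- monotonicity in the constant
      have hA' : A.card ≤ m := by omega
      obtain ⟨a1, a2⟩ := ih κ hκ k A hA'
      have hS : 0 ≤ ∑ w ∈ A, lam ^ 2 * J chi (ntc 4 T lam κ k w) :=
        Finset.sum_nonneg fun w _ => mul_nonneg (sq_nonneg _) (J_chi_nonneg (ntc_isChan T hl hκ k w))
      have hE : 0 ≤ ∑ w ∈ A, lam ^ 3 * ev (ntc 4 T lam κ k w) :=
        Finset.sum_nonneg fun w _ => mul_nonneg (pow_nonneg h0 3) (ev_nonneg (ntc_isChan T hl hκ k w))
      generalize ∑ w ∈ A, lam ^ 2 * J chi (ntc 4 T lam κ k w) = S at *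
      generalize ∑ w ∈ A, lam ^ 3 * ev (ntc 4 T lam κ k w) = E at *
      have hCC : C ≤ C + c + c * K := by nlinarith
      have b1 : E + C * S ^ 2 ≤ E + (C + c + c * K) * S ^ 2 := by
        have := mul_le_mul_of_nonneg_right hCC (sq_nonneg S)
        linarith
      refine ⟨a1.trans ?_, a2.trans b1⟩
      exact mul_le_mul (mul_le_mul_of_nonneg_right hCC hS) b1 (by positivity) (by positivity)
    · -- remove one element
      have hne : A.Nonempty := Finset.card_pos.1 (by omega)
      obtain ⟨a, ha⟩ := hne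
      obtain ⟨B, hB⟩ : ∃ B : Finset V, B = A.erase a := ⟨_, rfl⟩
      have haB : a ∉ B := by rw [hB]; exact Finset.notMem_erase a A
      have hAB : A = insert a B := by rw [hB, Finset.insert_erase ha]
      have hBc : B.card ≤ m := by rw [hB, Finset.card_erase_of_mem ha]; omega
      obtain ⟨a1, a2⟩ := ih κ hκ k B hBc
      have cB := nsc_isChan T hl hκ k B
      have ca := ntc_isChan T hl hκ k a
      have cW := ca.edge hl
      have hS : 0 ≤ ∑ w ∈ B, lam ^ 2 * J chi (ntc 4 T lam κ k w) :=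
        Finset.sum_nonneg fun w _ => mul_nonneg (sq_nonneg _) (J_chi_nonneg (ntc_isChan T hl hκ k w))
      have hE : 0 ≤ ∑ w ∈ B, lam ^ 3 * ev (ntc 4 T lam κ k w) :=
        Finset.sum_nonneg fun w _ => mul_nonneg (pow_nonneg h0 3) (ev_nonneg (ntc_isChan T hl hκ k w))
      have hl2 : lam ^ 2 ≤ 1 := pow_le_one₀ h0 h1
      have hl3 : lam ^ 3 ≤ 1 := pow_le_one₀ h0 h1
      have hSm : ∑ w ∈ B, lam ^ 2 * J chi (ntc 4 T lam κ k w) ≤ 3 * m := by
        have : ∀ w ∈ B, lam ^ 2 * J chi (ntc 4 T lam κ k w) ≤ 3 := fun w _ => by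
          have h5 := J_chi_le (ntc_isChan T hl hκ k w)
          have h6 := J_chi_nonneg (ntc_isChan T hl hκ k w)
          nlinarith
        refine (Finset.sum_le_sum this).trans ?_
        rw [Finset.sum_const, nsmul_eq_mul]
        have : (B.card : ℝ) ≤ m := by exact_mod_cast hBc
        linarith
      have hEm : ∑ w ∈ B, lam ^ 3 * ev (ntc 4 T lam κ k w) ≤ 36 * m := by
        have : ∀ w ∈ B, lam ^ 3 * ev (ntc 4 T lam κ k w) ≤ 36 := fun w _ => by
          have h5 := J_chi_le (ntc_isChan T hl hκ k w)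
          have h6 := ev_le (ntc_isChan T hl hκ k w)
          have h7 := ev_nonneg (ntc_isChan T hl hκ k w)
          nlinarith
        refine (Finset.sum_le_sum this).trans ?_
        rw [Finset.sum_const, nsmul_eq_mul]
        have : (B.card : ℝ) ≤ m := by exact_mod_cast hBc
        linarith
      have hs := J_chi_nonneg cB
      have he := ev_nonneg cB
      -- two-fold inequalities
      have m1 := J_chi_mrg cW cB
      have m2 := ev_mrg cW cB
      have e1 : J chi (fun o => W lam (ntc 4 T lam κ k a o)) =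
          lam ^ 2 * J chi (ntc 4 T lam κ k a) := ca.J_chi_edge lam
      have e2 := ev_edge ca h0 h1
      rw [e1] at m1 m2
      have e3 : J chi (nsc 4 T lam κ k A) =
          J chi (mrg (fun o => W lam (ntc 4 T lam κ k a o)) (nsc 4 T lam κ k B)) := by
        rw [hAB]; exact J_nsc_insert T lam κ k haB chi
      have e4 : ev (nsc 4 T lam κ k A) =
          ev (mrg (fun o => W lam (ntc 4 T lam κ k a o)) (nsc 4 T lam κ k B)) := by
        unfold ev
        rw [hAB, J_nsc_insert T lam κ k haB y3, J_nsc_insert T lam κ k haB x2]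
      rw [← e3] at m1
      rw [← e4] at m2
      have hσ : 0 ≤ lam ^ 2 * J chi (ntc 4 T lam κ k a) :=
        mul_nonneg (sq_nonneg _) (J_chi_nonneg ca)
      have hε : 0 ≤ lam ^ 3 * ev (ntc 4 T lam κ k a) :=
        mul_nonneg (pow_nonneg h0 3) (ev_nonneg ca)
      have sumS : ∑ w ∈ A, lam ^ 2 * J chi (ntc 4 T lam κ k w) =
          lam ^ 2 * J chi (ntc 4 T lam κ k a) + ∑ w ∈ B, lam ^ 2 * J chi (ntc 4 T lam κ k w) := by
        rw [hAB, Finset.sum_insert haB]
      have sumE : ∑ w ∈ A, lam ^ 3 * ev (ntc 4 T lam κ k w) =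
          lam ^ 3 * ev (ntc 4 T lam κ k a) + ∑ w ∈ B, lam ^ 3 * ev (ntc 4 T lam κ k w) := by
        rw [hAB, Finset.sum_insert haB]
      rw [sumS, sumE]
      clear sumS sumE e1 e3 e4 ih
      generalize ∑ w ∈ B, lam ^ 2 * J chi (ntc 4 T lam κ k w) = S at *
      generalize ∑ w ∈ B, lam ^ 3 * ev (ntc 4 T lam κ k w) = E at *
      generalize J chi (nsc 4 T lam κ k B) = s at *
      generalize ev (nsc 4 T lam κ k B) = e at *
      generalize lam ^ 2 * J chi (ntc 4 T lam κ k a) = σ at *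
      generalize lam ^ 3 * ev (ntc 4 T lam κ k a) = ε at *
      generalize J chi (nsc 4 T lam κ k A) = s' at *
      generalize ev (nsc 4 T lam κ k A) = e' at *
      generalize ev (fun o => W lam (ntc 4 T lam κ k a o)) = ε' at *
      refine step_arith hC hc0 hK1 hσ hε hS hE hs he a1 a2 ?_ ?_ ?_
      · -- s ≤ K S
        have t1 : s ≤ S + C * S * (E + C * S ^ 2) := by linarith [(abs_le.1 a1).2]
        have t2 : E + C * S ^ 2 ≤ 36 * m + C * (3 * m) ^ 2 := by
          have : S ^ 2 ≤ (3 * (m : ℝ)) ^ 2 := pow_le_pow_left₀ hS hSm 2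
          have := mul_le_mul_of_nonneg_left this hC.le
          linarith
        have t3 := mul_le_mul_of_nonneg_left t2 (mul_nonneg hC.le hS)
        rw [hK]
        linarith
      · refine m1.trans ?_
        have h8 : 0 ≤ σ * e := mul_nonneg hσ he
        have h9 : ε' * s ≤ ε * s := mul_le_mul_of_nonneg_right e2 hs
        have h10 : 0 ≤ ε * s := mul_nonneg hε hs
        rw [hc]
        linarith
      · rw [hc]; linarith

end Crest.Agent.R163.Bk
end

-- ▼ part R163/Back9
section

/-!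
Row 163 (S0246, backward direction): a flow with bounded ray potentials gives reconstruction.
-/

set_option autoImplicit false

namespace Crest.Agent.R163.Bk

open Crest.ProbabilityR.TreeBroadcast Crest.ProbabilityR.Broadcast

variable {V : Type*} [DecidableEq V]

lemma treeAdvantage_zero (T : LocFinTree V) (lam : ℝ) : treeAdvantage 4 T lam 0 = 3 / 4 := by
  rw [treeAdvantage_eq, J_tc_zero, Fin.sum_univ_four]
  simp only [tv, avg4]
  norm_num [Fin.ext_iff, abs_of_pos, abs_of_neg]

/-- S0246, from the flow to reconstruction -/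
theorem backward (T : LocFinTree V) {B : ℕ} (hB : ∀ v, (T.children v).card ≤ B) {lam : ℝ}
    (h0 : 0 < lam) (h1 : lam < 1) {θ : V → ℝ} (hθ : IsFlow T θ) (hM : 0 < flowMass T θ)
    (hray : ∀ ξ : ℕ → V, T.IsRay ξ → rayPotential lam θ ξ ≤ 1) :
    ∃ ε : ℝ, 0 < ε ∧ ∀ n, ε ≤ treeAdvantage 4 T lam n := by
  obtain ⟨C₁, hC₁, hm⟩ := merge_children T h0.le h1.le B
  have hl : Adm 4 lam := adm_of h0.le h1.le
  obtain ⟨κ, ε, hκ0, hκ1, hε, H⟩ := Cap.backward_capacity T hθ hM h0 h1 hray
    (C := C₁ + 12) (by linarith) (κ₀ := 1) one_pos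
  refine ⟨min (ε / 6) (3 / 4), lt_min (by linarith) (by norm_num), fun n => ?_⟩
  rcases n with _ | n
  · rw [treeAdvantage_zero]; exact min_le_right _ _
  refine (min_le_left _ _).trans ?_
  -- the noise at the leaves
  obtain ⟨κf, hκf⟩ : ∃ κf : V → ℝ, κf = fun v =>
      if T.depth v = n + 1 then κ * Real.sqrt (θ v / lam ^ (2 * (n + 1)) / 3) else 0 := ⟨_, rfl⟩
  have hu0 : ∀ v, 0 ≤ θ v / lam ^ (2 * (n + 1)) := fun v => div_nonneg (hθ.1 v) (pow_nonneg h0.le _)
  have hu1 : ∀ v, T.depth v = n + 1 → θ v / lam ^ (2 * (n + 1)) ≤ 1 := fun v hv => by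
    have hne : v ≠ T.root := fun h => by
      have := (T.depth_eq_zero_iff v).2 h
      omega
    have := Cap.u_le_one T hθ h0 hray hne
    rwa [hv] at this
  have hr1 : ∀ v, T.depth v = n + 1 → Real.sqrt (θ v / lam ^ (2 * (n + 1)) / 3) ≤ 1 :=
    fun v hv => by
      refine Real.sqrt_le_one.2 ?_
      have := hu1 v hv
      linarith
  have hκf0 : ∀ v, 0 ≤ κf v := fun v => by
    rw [hκf]; dsimp only
    split_ifs
    · exact mul_nonneg hκ0.le (Real.sqrt_nonneg _)
    · exact le_rfl
  have hκf1 : ∀ v, κf v ≤ 1 := fun v => by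
    rw [hκf]; dsimp only
    split_ifs with hv
    · exact mul_le_one₀ hκ1 (Real.sqrt_nonneg _) (hr1 v hv)
    · norm_num
  have hκA : ∀ v, Adm 4 (κf v) := fun v => adm_of (hκf0 v) (hκf1 v)
  have key : ε ≤ J chi (ntc 4 T lam κf (n + 1 - T.depth T.root) T.root) := by
    refine H n (fun v => J chi (ntc 4 T lam κf (n + 1 - T.depth v) v))
      (fun v => ev (ntc 4 T lam κf (n + 1 - T.depth v) v))
      (fun v _ => J_chi_nonneg (ntc_isChan T hl hκA _ v))
      (fun v _ => ev_nonneg (ntc_isChan T hl hκA _ v)) ?_ ?_ ?_ ?_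
    · -- leaf chi-square
      intro v hv
      try dsimp only
      rw [hv, Nat.sub_self, ntc_zero_chi, hκf]
      dsimp only
      rw [if_pos hv, mul_pow, Real.sq_sqrt (by have := hu0 v; positivity)]
      ring
    · -- leaf error
      intro v hv
      try dsimp only
      rw [hv, Nat.sub_self]
      refine (ntc_zero_ev T lam κf v (hκf0 v) (hκf1 v)).trans ?_
      rw [hκf]
      dsimp only
      rw [if_pos hv]
      have h3 := hr1 v hv
      have h4 := Real.sqrt_nonneg (θ v / lam ^ (2 * (n + 1)) / 3)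
      have h5 := Real.sq_sqrt (show 0 ≤ θ v / lam ^ (2 * (n + 1)) / 3 by have := hu0 v; positivity)
      have h6 := hu0 v
      generalize Real.sqrt (θ v / lam ^ (2 * (n + 1)) / 3) = r at *
      generalize θ v / lam ^ (2 * (n + 1)) = u at *
      have h7 : r ^ 3 ≤ u / 3 := by
        rw [← h5]
        nlinarith [mul_nonneg h4 h4]
      have h8 : 0 < κ ^ 3 := pow_pos hκ0 3
      calc (κ * r) ^ 3 * 36 = 36 * κ ^ 3 * r ^ 3 := by ring
        _ ≤ 36 * κ ^ 3 * (u / 3) := mul_le_mul_of_nonneg_left h7 (by positivity)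
        _ = 12 * (κ ^ 3 * u) := by ring
        _ ≤ (C₁ + 12) * (κ ^ 3 * u) :=
            mul_le_mul_of_nonneg_right (by linarith) (mul_nonneg h8.le h6)
        _ = _ := by ring
    all_goals
      intro v hv
      try dsimp only
      have hk : n + 1 - T.depth v = (n - T.depth v) + 1 := by omega
      have hw : ∀ w ∈ T.children v, n + 1 - T.depth w = n - T.depth v := fun w hw => by
        have := (mem_children.1 hw).1
        omega
      have hS : ∑ w ∈ T.children v, lam ^ 2 * J chi (ntc 4 T lam κf (n + 1 - T.depth w) w) =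
          ∑ w ∈ T.children v, lam ^ 2 * J chi (ntc 4 T lam κf (n - T.depth v) w) :=
        Finset.sum_congr rfl fun w hw' => by rw [hw w hw']
      have hE : ∑ w ∈ T.children v, lam ^ 3 * ev (ntc 4 T lam κf (n + 1 - T.depth w) w) =
          ∑ w ∈ T.children v, lam ^ 3 * ev (ntc 4 T lam κf (n - T.depth v) w) :=
        Finset.sum_congr rfl fun w hw' => by rw [hw w hw']
      rw [hS, hE, hk, ntc_succ]
      obtain ⟨a1, a2⟩ := hm κf hκA (n - T.depth v) (T.children v) (hB v)
      have hS0 : 0 ≤ ∑ w ∈ T.children v, lam ^ 2 * J chi (ntc 4 T lam κf (n - T.depth v) w) :=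
        Finset.sum_nonneg fun w _ => mul_nonneg (sq_nonneg _)
          (J_chi_nonneg (ntc_isChan T hl hκA _ w))
      have hE0 : 0 ≤ ∑ w ∈ T.children v, lam ^ 3 * ev (ntc 4 T lam κf (n - T.depth v) w) :=
        Finset.sum_nonneg fun w _ => mul_nonneg (pow_nonneg h0.le 3)
          (ev_nonneg (ntc_isChan T hl hκA _ w))
      generalize ∑ w ∈ T.children v, lam ^ 2 * J chi (ntc 4 T lam κf (n - T.depth v) w) = S at *
      generalize ∑ w ∈ T.children v, lam ^ 3 * ev (ntc 4 T lam κf (n - T.depth v) w) = E at *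
      have b1 : E + C₁ * S ^ 2 ≤ E + (C₁ + 12) * S ^ 2 := by
        have := mul_le_mul_of_nonneg_right (show C₁ ≤ C₁ + 12 by linarith) (sq_nonneg S)
        linarith
      first
        | exact a2.trans b1
        | exact a1.trans (mul_le_mul (mul_le_mul_of_nonneg_right (by linarith) hS0) b1
            (by positivity) (by positivity))
  -- conclusion
  have hd : T.depth T.root = 0 := (T.depth_eq_zero_iff _).2 rfl
  rw [hd, Nat.sub_zero] at key
  have c1 := J_chi_le_tv (ntc_isChan T hl hκA (n + 1) T.root)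
  have c2 := ntc_le T hl hκf0 hκf1 hκA (n + 1) T.root tv ch_tv
  rw [treeAdvantage_eq]
  linarith

end Crest.Agent.R163.Bk
end

-- ▼ part R163/Main

/-!
Row 163: assembly of the statements from the pointwise hypotheses.
-/

set_option autoImplicit false

universe u

namespace Crest.Agent.R163

open Crest.ProbabilityR.Broadcast Crest.ProbabilityR.TreeBroadcast

/-- S0245 from `PairHyp 4` -/
theorem main245 {ψ θ B : (Fin 4 → ℝ) → ℝ} {δ C β : ℝ} (H : PairHyp 4 ψ θ B δ C β) :
    (∀ b : ℕ, 2 ≤ b → ∀ lam : ℝ, 0 ≤ lam → lam ≤ 1 → (b : ℝ) * lam ^ 2 ≤ 1 →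
      Filter.Tendsto (advantage 4 b lam) Filter.atTop (nhds 0)) ∧
    (∀ d : ℝ, 0 < d → ∀ lam : ℝ, 0 ≤ lam → lam ≤ 1 → d * lam ^ 2 ≤ 1 →
      Filter.Tendsto (gwAdvantage 4 lam d) Filter.atTop (nhds 0)) :=
  H.nonreconstruction

/-- S0246 from `PairHyp 4` -/
theorem main246 {ψ θ B : (Fin 4 → ℝ) → ℝ} {δ C β : ℝ} (H : PairHyp 4 ψ θ B δ C β)
    {V : Type u} [DecidableEq V] (T : LocFinTree V) (b : ℕ)
    (hb : ∀ v, (T.children v).card ≤ b) (lam : ℝ) (h0 : 0 < lam) (h1 : lam < 1) :
    (∃ ε : ℝ, 0 < ε ∧ ∀ n, ε ≤ treeAdvantage 4 T lam n) ↔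
    (∃ θ : V → ℝ, IsFlow T θ ∧ 0 < flowMass T θ ∧
      ∀ ξ : ℕ → V, T.IsRay ξ → rayPotential lam θ ξ ≤ 1) := by
  constructor
  · rintro ⟨ε, hε, h⟩
    obtain ⟨c, κ, hL⟩ := PairHyp.law.{u} H
    exact hL.forward T b hb (Set.mem_Icc.2 ⟨h0.le, h1.le⟩) h0 h1 hε h
  · rintro ⟨θ, hθ, hM, hray⟩
    exact Bk.backward T hb h0 h1 hθ hM hray

/-- S0244 from `PairHyp 3` and the critical antiferromagnetic cases -/
theorem main244 {ψ θ B : (Fin 3 → ℝ) → ℝ} {δ C β : ℝ} (H : PairHyp 3 ψ θ B δ C β)
    (h4 : Filter.Tendsto (advantage 3 4 (-(1 / 2))) Filter.atTop (nhds 0))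
    (h5 : ∀ b : ℕ, 5 ≤ b →
      Filter.Tendsto (advantage 3 b (-(1 / Real.sqrt b))) Filter.atTop (nhds 0))
    (hP : ∀ d : ℝ, 4 ≤ d →
      Filter.Tendsto (gwAdvantage 3 (-(1 / Real.sqrt d)) d) Filter.atTop (nhds 0)) :
    (∀ b : ℕ, 2 ≤ b → ∀ lam : ℝ, -(1 / 2 : ℝ) ≤ lam → lam ≤ 1 → (b : ℝ) * lam ^ 2 ≤ 1 →
      Filter.Tendsto (advantage 3 b lam) Filter.atTop (nhds 0)) ∧
    (∀ d : ℝ, 1 < d → ∀ lam : ℝ, -(1 / 2 : ℝ) ≤ lam → lam ≤ 1 → d * lam ^ 2 ≤ 1 →
      Filter.Tendsto (gwAdvantage 3 lam d) Filter.atTop (nhds 0)) := by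
  refine ⟨fun b hb lam hl hl1 hks => ?_, fun d hd lam hl hl1 hks => ?_⟩
  · rcases le_total 0 lam with h | h
    · exact H.nonreconstruction.1 b hb lam h hl1 hks
    · exact anti_regular h4 h5 b hl h hks
  · rcases le_total 0 lam with h | h
    · exact H.nonreconstruction.2 d (by linarith) lam h hl1 hks
    · exact anti_poisson hP (by linarith) hl h hks

end Crest.Agent.R163
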