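import Crest.Agent.R163.Q4Psi

/-!
Row 163, `q = 4`: symmetric function calculus. For vectors of mean one on `Fin 4` the orbit averages
of `(avg w - 1)^k` and `EE w * (avg w - 1)^k` are bilinear forms in the invariants `s, t, e`;
pair averages of polynomials are polynomials in `s, t, e`.
(Generated file.)
-/

set_option autoImplicit false
set_option linter.unusedVariables false
set_option linter.unusedSimpArgs false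

namespace Crest.Agent.R163

/-- first coordinate -/
noncomputable def mA (v : Fin 4 → ℝ) : ℝ := (v 0 + v 1 - v 2 - v 3) / 4
/-- second coordinate -/
noncomputable def mB (v : Fin 4 → ℝ) : ℝ := (v 0 - v 1 + v 2 - v 3) / 4
/-- third coordinate -/
noncomputable def mC (v : Fin 4 → ℝ) : ℝ := (v 0 - v 1 - v 2 + v 3) / 4

/-- quadratic invariant -/
noncomputable def sI (v : Fin 4 → ℝ) : ℝ := mA v ^ 2 + mB v ^ 2 + mC v ^ 2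
/-- cubic invariant -/
noncomputable def tI (v : Fin 4 → ℝ) : ℝ := mA v * mB v * mC v
/-- quartic invariant -/
noncomputable def eI (v : Fin 4 → ℝ) : ℝ :=
  mA v ^ 2 * mB v ^ 2 + mA v ^ 2 * mC v ^ 2 + mB v ^ 2 * mC v ^ 2

lemma v0_eq {v : Fin 4 → ℝ} (h : avg v = 1) : v 0 = 1 + mA v + mB v + mC v := by
  rw [avg_four] at h; unfold mA mB mC; linarith
lemma v1_eq {v : Fin 4 → ℝ} (h : avg v = 1) : v 1 = 1 + mA v - mB v - mC v := by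
  rw [avg_four] at h; unfold mA mB mC; linarith
lemma v2_eq {v : Fin 4 → ℝ} (h : avg v = 1) : v 2 = 1 - mA v + mB v - mC v := by
  rw [avg_four] at h; unfold mA mB mC; linarith
lemma v3_eq {v : Fin 4 → ℝ} (h : avg v = 1) : v 3 = 1 - mA v - mB v + mC v := by
  rw [avg_four] at h; unfold mA mB mC; linarith

/-- sum over the group of a function of two bilinear pairings -/
def S24 (F : ℝ → ℝ → ℝ) (a0 a1 a2 b0 b1 b2 p0 p1 p2 q0 q1 q2 : ℝ) : ℝ :=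
  F (a0 * b0 + a1 * b1 + a2 * b2) (p0 * q0 + p1 * q1 + p2 * q2) +
  F (a0 * b0 + a1 * b2 + a2 * b1) (p0 * q0 + p1 * q2 + p2 * q1) +
  F (a0 * b1 + a1 * b0 + a2 * b2) (p0 * q1 + p1 * q0 + p2 * q2) +
  F (a0 * b1 + a1 * b2 + a2 * b0) (p0 * q1 + p1 * q2 + p2 * q0) +
  F (a0 * b2 + a1 * b0 + a2 * b1) (p0 * q2 + p1 * q0 + p2 * q1) +
  F (a0 * b2 + a1 * b1 + a2 * b0) (p0 * q2 + p1 * q1 + p2 * q0) +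
  F (a0 * b0 + -(a1 * b2) + -(a2 * b1)) (p0 * q0 + -(p1 * q2) + -(p2 * q1)) +
  F (a0 * b0 + -(a1 * b1) + -(a2 * b2)) (p0 * q0 + -(p1 * q1) + -(p2 * q2)) +
  F (-(a0 * b2) + a1 * b0 + -(a2 * b1)) (-(p0 * q2) + p1 * q0 + -(p2 * q1)) +
  F (-(a0 * b2) + -(a1 * b1) + a2 * b0) (-(p0 * q2) + -(p1 * q1) + p2 * q0) +
  F (-(a0 * b1) + a1 * b0 + -(a2 * b2)) (-(p0 * q1) + p1 * q0 + -(p2 * q2)) +
  F (-(a0 * b1) + -(a1 * b2) + a2 * b0) (-(p0 * q1) + -(p1 * q2) + p2 * q0) +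
  F (a0 * b1 + -(a1 * b2) + -(a2 * b0)) (p0 * q1 + -(p1 * q2) + -(p2 * q0)) +
  F (a0 * b1 + -(a1 * b0) + -(a2 * b2)) (p0 * q1 + -(p1 * q0) + -(p2 * q2)) +
  F (-(a0 * b2) + a1 * b1 + -(a2 * b0)) (-(p0 * q2) + p1 * q1 + -(p2 * q0)) +
  F (-(a0 * b2) + -(a1 * b0) + a2 * b1) (-(p0 * q2) + -(p1 * q0) + p2 * q1) +
  F (-(a0 * b0) + a1 * b1 + -(a2 * b2)) (-(p0 * q0) + p1 * q1 + -(p2 * q2)) +
  F (-(a0 * b0) + -(a1 * b2) + a2 * b1) (-(p0 * q0) + -(p1 * q2) + p2 * q1) +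
  F (a0 * b2 + -(a1 * b1) + -(a2 * b0)) (p0 * q2 + -(p1 * q1) + -(p2 * q0)) +
  F (a0 * b2 + -(a1 * b0) + -(a2 * b1)) (p0 * q2 + -(p1 * q0) + -(p2 * q1)) +
  F (-(a0 * b1) + a1 * b2 + -(a2 * b0)) (-(p0 * q1) + p1 * q2 + -(p2 * q0)) +
  F (-(a0 * b1) + -(a1 * b0) + a2 * b2) (-(p0 * q1) + -(p1 * q0) + p2 * q2) +
  F (-(a0 * b0) + a1 * b2 + -(a2 * b1)) (-(p0 * q0) + p1 * q2 + -(p2 * q1)) +
  F (-(a0 * b0) + -(a1 * b1) + a2 * b2) (-(p0 * q0) + -(p1 * q1) + p2 * q2)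

lemma orb_eval (F : ℝ → ℝ → ℝ) {u v : Fin 4 → ℝ} (hu : avg u = 1) (hv : avg v = 1) :
    orb (fun w => F (avg w - 1) ((avg (fun i => w i ^ 2) - (1 + sI u) * (1 + sI v)) / 4)) u v =
      S24 F (mA u) (mB u) (mC u) (mA v) (mB v) (mC v)
        (mA u + mB u * mC u) (mB u + mA u * mC u) (mC u + mA u * mB u)
        (mA v + mB v * mC v) (mB v + mA v * mC v) (mC v + mA v * mB v) / 24 := by
  have hu0 := v0_eq hu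
  have hu1 := v1_eq hu
  have hu2 := v2_eq hu
  have hu3 := v3_eq hu
  have hv0 := v0_eq hv
  have hv1 := v1_eq hv
  have hv2 := v2_eq hv
  have hv3 := v3_eq hv
  unfold orb sI
  simp only [avg_four]
  generalize mA u = a0 at *
  generalize mB u = a1 at *
  generalize mC u = a2 at *
  generalize mA v = b0 at *
  generalize mB v = b1 at *
  generalize mC v = b2 at *
  rw [sum_perm4 (fun a b c d => F ((u 0 * v a + u 1 * v b + u 2 * v c + u 3 * v d) / 4 - 1)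
    ((((u 0 * v a) ^ 2 + (u 1 * v b) ^ 2 + (u 2 * v c) ^ 2 + (u 3 * v d) ^ 2) / 4 -
      (1 + (a0 ^ 2 + a1 ^ 2 + a2 ^ 2)) * (1 + (b0 ^ 2 + b1 ^ 2 + b2 ^ 2))) / 4))]
  have hf : ((Nat.factorial 4 : ℕ) : ℝ) = 24 := by norm_num [Nat.factorial]
  rw [hf, hu0, hu1, hu2, hu3, hv0, hv1, hv2, hv3]
  unfold S24
  congr 1
  iterate 23 refine congrArg₂ (· + ·) ?_ (congrArg₂ F (by ring) (by ring))
  exact congrArg₂ F (by ring) (by ring)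

/-! #### power sums over the group -/

/-- orbit average of the `0`-th power -/
noncomputable def gE0 (s t e s' t' e' : ℝ) : ℝ := (1) * ((1)) * ((1))

/-- orbit average of the `1`-th power -/
noncomputable def gE1 (s t e s' t' e' : ℝ) : ℝ := 0

/-- orbit average of the `2`-th power -/
noncomputable def gE2 (s t e s' t' e' : ℝ) : ℝ := (1/3) * ((1) * s) * ((1) * s')

/-- orbit average of the `3`-th power -/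
noncomputable def gE3 (s t e s' t' e' : ℝ) : ℝ := (6) * ((1) * t) * ((1) * t')

/-- orbit average of the `4`-th power -/
noncomputable def gE4 (s t e s' t' e' : ℝ) : ℝ := (1/3) * ((-2) * e + (1) * s ^ 2) * ((-2) * e' + (1) * s' ^ 2) + (2) * ((1) * e) * ((1) * e')

/-- orbit average of the `5`-th power -/
noncomputable def gE5 (s t e s' t' e' : ℝ) : ℝ := (20/3) * ((1) * s * t) * ((1) * s' * t')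

/-- orbit average of the `6`-th power -/
noncomputable def gE6 (s t e s' t' e' : ℝ) : ℝ := (1/3) * ((3) * t ^ 2 + (-3) * s * e + (1) * s ^ 3) * ((3) * t' ^ 2 + (-3) * s' * e' + (1) * s' ^ 3) + (5/2) * ((-3) * t ^ 2 + (1) * s * e) * ((-3) * t' ^ 2 + (1) * s' * e') + (90) * ((1) * t ^ 2) * ((1) * t' ^ 2)

/-- orbit average of the `7`-th power -/
noncomputable def gE7 (s t e s' t' e' : ℝ) : ℝ := (14) * ((-2) * t * e + (1) * s ^ 2 * t) * ((-2) * t' * e' + (1) * s' ^ 2 * t') + (140/3) * ((1) * t * e) * ((1) * t' * e')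

/-- orbit average, second family -/
noncomputable def gF0 (s t e s' t' e' : ℝ) : ℝ := 0

/-- orbit average, second family -/
noncomputable def gF1 (s t e s' t' e' : ℝ) : ℝ := (1/3) * ((3) * t + (1) * s) * ((3) * t' + (1) * s')

/-- orbit average, second family -/
noncomputable def gF2 (s t e s' t' e' : ℝ) : ℝ := (2/3) * ((1) * e + (3) * t) * ((1) * e' + (3) * t')

/-- orbit average, second family -/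
noncomputable def gF3 (s t e s' t' e' : ℝ) : ℝ := (1/2) * ((2) * e + (2) * s * t) * ((2) * e' + (2) * s' * t') + (1/3) * ((-2) * e + (1) * s * t + (1) * s ^ 2) * ((-2) * e' + (1) * s' * t' + (1) * s' ^ 2)

/-- orbit average, second family -/
noncomputable def gF4 (s t e s' t' e' : ℝ) : ℝ := (2/3) * ((-3) * t ^ 2 + (1) * s * e + (2) * s * t) * ((-3) * t' ^ 2 + (1) * s' * e' + (2) * s' * t') + (4) * ((3) * t ^ 2 + (1) * s * t) * ((3) * t' ^ 2 + (1) * s' * t')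

/-- orbit average, second family -/
noncomputable def gF5 (s t e s' t' e' : ℝ) : ℝ := (5/6) * ((-4) * t * e + (-3) * t ^ 2 + (1) * s * e + (2) * s ^ 2 * t) * ((-4) * t' * e' + (-3) * t' ^ 2 + (1) * s' * e' + (2) * s' ^ 2 * t') + (10) * ((1) * t * e + (3) * t ^ 2) * ((1) * t' * e' + (3) * t' ^ 2) + (5/3) * ((2) * t * e + (-3) * t ^ 2 + (1) * s * e) * ((2) * t' * e' + (-3) * t' ^ 2 + (1) * s' * e') + (1/3) * ((-2) * t * e + (3) * t ^ 2 + (-3) * s * e + (1) * s ^ 2 * t + (1) * s ^ 3) * ((-2) * t' * e' + (3) * t' ^ 2 + (-3) * s' * e' + (1) * s' ^ 2 * t' + (1) * s' ^ 3)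

lemma S24_E0 (a0 a1 a2 b0 b1 b2 p0 p1 p2 q0 q1 q2 : ℝ) :
    S24 (fun x _ => x ^ 0) a0 a1 a2 b0 b1 b2 p0 p1 p2 q0 q1 q2 / 24 =
      gE0 (a0 ^ 2 + a1 ^ 2 + a2 ^ 2) (a0 * a1 * a2) (a0 ^ 2 * a1 ^ 2 + a0 ^ 2 * a2 ^ 2 + a1 ^ 2 * a2 ^ 2)
        (b0 ^ 2 + b1 ^ 2 + b2 ^ 2) (b0 * b1 * b2) (b0 ^ 2 * b1 ^ 2 + b0 ^ 2 * b2 ^ 2 + b1 ^ 2 * b2 ^ 2) := by
  unfold S24 gE0
  ring

lemma S24_E1 (a0 a1 a2 b0 b1 b2 p0 p1 p2 q0 q1 q2 : ℝ) :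
    S24 (fun x _ => x ^ 1) a0 a1 a2 b0 b1 b2 p0 p1 p2 q0 q1 q2 / 24 =
      gE1 (a0 ^ 2 + a1 ^ 2 + a2 ^ 2) (a0 * a1 * a2) (a0 ^ 2 * a1 ^ 2 + a0 ^ 2 * a2 ^ 2 + a1 ^ 2 * a2 ^ 2)
        (b0 ^ 2 + b1 ^ 2 + b2 ^ 2) (b0 * b1 * b2) (b0 ^ 2 * b1 ^ 2 + b0 ^ 2 * b2 ^ 2 + b1 ^ 2 * b2 ^ 2) := by
  unfold S24 gE1
  ring

lemma S24_E2 (a0 a1 a2 b0 b1 b2 p0 p1 p2 q0 q1 q2 : ℝ) :
    S24 (fun x _ => x ^ 2) a0 a1 a2 b0 b1 b2 p0 p1 p2 q0 q1 q2 / 24 =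
      gE2 (a0 ^ 2 + a1 ^ 2 + a2 ^ 2) (a0 * a1 * a2) (a0 ^ 2 * a1 ^ 2 + a0 ^ 2 * a2 ^ 2 + a1 ^ 2 * a2 ^ 2)
        (b0 ^ 2 + b1 ^ 2 + b2 ^ 2) (b0 * b1 * b2) (b0 ^ 2 * b1 ^ 2 + b0 ^ 2 * b2 ^ 2 + b1 ^ 2 * b2 ^ 2) := by
  unfold S24 gE2
  ring

lemma S24_E3 (a0 a1 a2 b0 b1 b2 p0 p1 p2 q0 q1 q2 : ℝ) :
    S24 (fun x _ => x ^ 3) a0 a1 a2 b0 b1 b2 p0 p1 p2 q0 q1 q2 / 24 =
      gE3 (a0 ^ 2 + a1 ^ 2 + a2 ^ 2) (a0 * a1 * a2) (a0 ^ 2 * a1 ^ 2 + a0 ^ 2 * a2 ^ 2 + a1 ^ 2 * a2 ^ 2)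
        (b0 ^ 2 + b1 ^ 2 + b2 ^ 2) (b0 * b1 * b2) (b0 ^ 2 * b1 ^ 2 + b0 ^ 2 * b2 ^ 2 + b1 ^ 2 * b2 ^ 2) := by
  unfold S24 gE3
  ring

lemma S24_E4 (a0 a1 a2 b0 b1 b2 p0 p1 p2 q0 q1 q2 : ℝ) :
    S24 (fun x _ => x ^ 4) a0 a1 a2 b0 b1 b2 p0 p1 p2 q0 q1 q2 / 24 =
      gE4 (a0 ^ 2 + a1 ^ 2 + a2 ^ 2) (a0 * a1 * a2) (a0 ^ 2 * a1 ^ 2 + a0 ^ 2 * a2 ^ 2 + a1 ^ 2 * a2 ^ 2)
        (b0 ^ 2 + b1 ^ 2 + b2 ^ 2) (b0 * b1 * b2) (b0 ^ 2 * b1 ^ 2 + b0 ^ 2 * b2 ^ 2 + b1 ^ 2 * b2 ^ 2) := by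
  unfold S24 gE4
  ring

lemma S24_E5 (a0 a1 a2 b0 b1 b2 p0 p1 p2 q0 q1 q2 : ℝ) :
    S24 (fun x _ => x ^ 5) a0 a1 a2 b0 b1 b2 p0 p1 p2 q0 q1 q2 / 24 =
      gE5 (a0 ^ 2 + a1 ^ 2 + a2 ^ 2) (a0 * a1 * a2) (a0 ^ 2 * a1 ^ 2 + a0 ^ 2 * a2 ^ 2 + a1 ^ 2 * a2 ^ 2)
        (b0 ^ 2 + b1 ^ 2 + b2 ^ 2) (b0 * b1 * b2) (b0 ^ 2 * b1 ^ 2 + b0 ^ 2 * b2 ^ 2 + b1 ^ 2 * b2 ^ 2) := by
  unfold S24 gE5
  ring

lemma S24_E6 (a0 a1 a2 b0 b1 b2 p0 p1 p2 q0 q1 q2 : ℝ) :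
    S24 (fun x _ => x ^ 6) a0 a1 a2 b0 b1 b2 p0 p1 p2 q0 q1 q2 / 24 =
      gE6 (a0 ^ 2 + a1 ^ 2 + a2 ^ 2) (a0 * a1 * a2) (a0 ^ 2 * a1 ^ 2 + a0 ^ 2 * a2 ^ 2 + a1 ^ 2 * a2 ^ 2)
        (b0 ^ 2 + b1 ^ 2 + b2 ^ 2) (b0 * b1 * b2) (b0 ^ 2 * b1 ^ 2 + b0 ^ 2 * b2 ^ 2 + b1 ^ 2 * b2 ^ 2) := by
  unfold S24 gE6
  ring

lemma S24_E7 (a0 a1 a2 b0 b1 b2 p0 p1 p2 q0 q1 q2 : ℝ) :
    S24 (fun x _ => x ^ 7) a0 a1 a2 b0 b1 b2 p0 p1 p2 q0 q1 q2 / 24 =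
      gE7 (a0 ^ 2 + a1 ^ 2 + a2 ^ 2) (a0 * a1 * a2) (a0 ^ 2 * a1 ^ 2 + a0 ^ 2 * a2 ^ 2 + a1 ^ 2 * a2 ^ 2)
        (b0 ^ 2 + b1 ^ 2 + b2 ^ 2) (b0 * b1 * b2) (b0 ^ 2 * b1 ^ 2 + b0 ^ 2 * b2 ^ 2 + b1 ^ 2 * b2 ^ 2) := by
  unfold S24 gE7
  ring

lemma S24_G0 (a0 a1 a2 b0 b1 b2 p0 p1 p2 q0 q1 q2 : ℝ) :
    S24 (fun x y => y * x ^ 0) a0 a1 a2 b0 b1 b2 p0 p1 p2 q0 q1 q2 / 24 =
      0 := by
  unfold S24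
  ring

lemma S24_F0 (a0 a1 a2 b0 b1 b2 : ℝ) :
    S24 (fun x y => y * x ^ 0) a0 a1 a2 b0 b1 b2 (a0 + a1 * a2) (a1 + a0 * a2) (a2 + a0 * a1)
        (b0 + b1 * b2) (b1 + b0 * b2) (b2 + b0 * b1) / 24 =
      gF0 (a0 ^ 2 + a1 ^ 2 + a2 ^ 2) (a0 * a1 * a2) (a0 ^ 2 * a1 ^ 2 + a0 ^ 2 * a2 ^ 2 + a1 ^ 2 * a2 ^ 2)
        (b0 ^ 2 + b1 ^ 2 + b2 ^ 2) (b0 * b1 * b2) (b0 ^ 2 * b1 ^ 2 + b0 ^ 2 * b2 ^ 2 + b1 ^ 2 * b2 ^ 2) := by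
  rw [S24_G0]
  unfold gF0
  rfl

lemma S24_G1 (a0 a1 a2 b0 b1 b2 p0 p1 p2 q0 q1 q2 : ℝ) :
    S24 (fun x y => y * x ^ 1) a0 a1 a2 b0 b1 b2 p0 p1 p2 q0 q1 q2 / 24 =
      (1/3) * (p0 * a0 + p1 * a1 + p2 * a2) * (q0 * b0 + q1 * b1 + q2 * b2) := by
  unfold S24
  ring

lemma S24_F1 (a0 a1 a2 b0 b1 b2 : ℝ) :
    S24 (fun x y => y * x ^ 1) a0 a1 a2 b0 b1 b2 (a0 + a1 * a2) (a1 + a0 * a2) (a2 + a0 * a1)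
        (b0 + b1 * b2) (b1 + b0 * b2) (b2 + b0 * b1) / 24 =
      gF1 (a0 ^ 2 + a1 ^ 2 + a2 ^ 2) (a0 * a1 * a2) (a0 ^ 2 * a1 ^ 2 + a0 ^ 2 * a2 ^ 2 + a1 ^ 2 * a2 ^ 2)
        (b0 ^ 2 + b1 ^ 2 + b2 ^ 2) (b0 * b1 * b2) (b0 ^ 2 * b1 ^ 2 + b0 ^ 2 * b2 ^ 2 + b1 ^ 2 * b2 ^ 2) := by
  rw [S24_G1]
  unfold gF1
  rw [show (a0 + a1 * a2) * a0 + (a1 + a0 * a2) * a1 + (a2 + a0 * a1) * a2 = (3) * (a0 * a1 * a2) + (1) * (a0 ^ 2 + a1 ^ 2 + a2 ^ 2) by ring]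
  rw [show (b0 + b1 * b2) * b0 + (b1 + b0 * b2) * b1 + (b2 + b0 * b1) * b2 = (3) * (b0 * b1 * b2) + (1) * (b0 ^ 2 + b1 ^ 2 + b2 ^ 2) by ring]

lemma S24_G2 (a0 a1 a2 b0 b1 b2 p0 p1 p2 q0 q1 q2 : ℝ) :
    S24 (fun x y => y * x ^ 2) a0 a1 a2 b0 b1 b2 p0 p1 p2 q0 q1 q2 / 24 =
      (2/3) * (p0 * a1 * a2 + p1 * a0 * a2 + p2 * a0 * a1) * (q0 * b1 * b2 + q1 * b0 * b2 + q2 * b0 * b1) := by
  unfold S24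
  ring

lemma S24_F2 (a0 a1 a2 b0 b1 b2 : ℝ) :
    S24 (fun x y => y * x ^ 2) a0 a1 a2 b0 b1 b2 (a0 + a1 * a2) (a1 + a0 * a2) (a2 + a0 * a1)
        (b0 + b1 * b2) (b1 + b0 * b2) (b2 + b0 * b1) / 24 =
      gF2 (a0 ^ 2 + a1 ^ 2 + a2 ^ 2) (a0 * a1 * a2) (a0 ^ 2 * a1 ^ 2 + a0 ^ 2 * a2 ^ 2 + a1 ^ 2 * a2 ^ 2)
        (b0 ^ 2 + b1 ^ 2 + b2 ^ 2) (b0 * b1 * b2) (b0 ^ 2 * b1 ^ 2 + b0 ^ 2 * b2 ^ 2 + b1 ^ 2 * b2 ^ 2) := by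
  rw [S24_G2]
  unfold gF2
  rw [show (a0 + a1 * a2) * a1 * a2 + (a1 + a0 * a2) * a0 * a2 + (a2 + a0 * a1) * a0 * a1 = (1) * (a0 ^ 2 * a1 ^ 2 + a0 ^ 2 * a2 ^ 2 + a1 ^ 2 * a2 ^ 2) + (3) * (a0 * a1 * a2) by ring]
  rw [show (b0 + b1 * b2) * b1 * b2 + (b1 + b0 * b2) * b0 * b2 + (b2 + b0 * b1) * b0 * b1 = (1) * (b0 ^ 2 * b1 ^ 2 + b0 ^ 2 * b2 ^ 2 + b1 ^ 2 * b2 ^ 2) + (3) * (b0 * b1 * b2) by ring]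

lemma S24_G3 (a0 a1 a2 b0 b1 b2 p0 p1 p2 q0 q1 q2 : ℝ) :
    S24 (fun x y => y * x ^ 3) a0 a1 a2 b0 b1 b2 p0 p1 p2 q0 q1 q2 / 24 =
      (1/2) * (p0 * a0 * a2 ^ 2 + p0 * a0 * a1 ^ 2 + p1 * a1 * a2 ^ 2 + p1 * a0 ^ 2 * a1 + p2 * a1 ^ 2 * a2 + p2 * a0 ^ 2 * a2) * (q0 * b0 * b2 ^ 2 + q0 * b0 * b1 ^ 2 + q1 * b1 * b2 ^ 2 + q1 * b0 ^ 2 * b1 + q2 * b1 ^ 2 * b2 + q2 * b0 ^ 2 * b2) + (1/3) * (p0 * a0 ^ 3 + p1 * a1 ^ 3 + p2 * a2 ^ 3) * (q0 * b0 ^ 3 + q1 * b1 ^ 3 + q2 * b2 ^ 3) := by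
  unfold S24
  ring

lemma S24_F3 (a0 a1 a2 b0 b1 b2 : ℝ) :
    S24 (fun x y => y * x ^ 3) a0 a1 a2 b0 b1 b2 (a0 + a1 * a2) (a1 + a0 * a2) (a2 + a0 * a1)
        (b0 + b1 * b2) (b1 + b0 * b2) (b2 + b0 * b1) / 24 =
      gF3 (a0 ^ 2 + a1 ^ 2 + a2 ^ 2) (a0 * a1 * a2) (a0 ^ 2 * a1 ^ 2 + a0 ^ 2 * a2 ^ 2 + a1 ^ 2 * a2 ^ 2)
        (b0 ^ 2 + b1 ^ 2 + b2 ^ 2) (b0 * b1 * b2) (b0 ^ 2 * b1 ^ 2 + b0 ^ 2 * b2 ^ 2 + b1 ^ 2 * b2 ^ 2) := by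
  rw [S24_G3]
  unfold gF3
  rw [show (a0 + a1 * a2) * a0 * a2 ^ 2 + (a0 + a1 * a2) * a0 * a1 ^ 2 + (a1 + a0 * a2) * a1 * a2 ^ 2 + (a1 + a0 * a2) * a0 ^ 2 * a1 + (a2 + a0 * a1) * a1 ^ 2 * a2 + (a2 + a0 * a1) * a0 ^ 2 * a2 = (2) * (a0 ^ 2 * a1 ^ 2 + a0 ^ 2 * a2 ^ 2 + a1 ^ 2 * a2 ^ 2) + (2) * (a0 ^ 2 + a1 ^ 2 + a2 ^ 2) * (a0 * a1 * a2) by ring]
  rw [show (b0 + b1 * b2) * b0 * b2 ^ 2 + (b0 + b1 * b2) * b0 * b1 ^ 2 + (b1 + b0 * b2) * b1 * b2 ^ 2 + (b1 + b0 * b2) * b0 ^ 2 * b1 + (b2 + b0 * b1) * b1 ^ 2 * b2 + (b2 + b0 * b1) * b0 ^ 2 * b2 = (2) * (b0 ^ 2 * b1 ^ 2 + b0 ^ 2 * b2 ^ 2 + b1 ^ 2 * b2 ^ 2) + (2) * (b0 ^ 2 + b1 ^ 2 + b2 ^ 2) * (b0 * b1 * b2) by ring]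
  rw [show (a0 + a1 * a2) * a0 ^ 3 + (a1 + a0 * a2) * a1 ^ 3 + (a2 + a0 * a1) * a2 ^ 3 = (-2) * (a0 ^ 2 * a1 ^ 2 + a0 ^ 2 * a2 ^ 2 + a1 ^ 2 * a2 ^ 2) + (1) * (a0 ^ 2 + a1 ^ 2 + a2 ^ 2) * (a0 * a1 * a2) + (1) * (a0 ^ 2 + a1 ^ 2 + a2 ^ 2) ^ 2 by ring]
  rw [show (b0 + b1 * b2) * b0 ^ 3 + (b1 + b0 * b2) * b1 ^ 3 + (b2 + b0 * b1) * b2 ^ 3 = (-2) * (b0 ^ 2 * b1 ^ 2 + b0 ^ 2 * b2 ^ 2 + b1 ^ 2 * b2 ^ 2) + (1) * (b0 ^ 2 + b1 ^ 2 + b2 ^ 2) * (b0 * b1 * b2) + (1) * (b0 ^ 2 + b1 ^ 2 + b2 ^ 2) ^ 2 by ring]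

lemma S24_G4 (a0 a1 a2 b0 b1 b2 p0 p1 p2 q0 q1 q2 : ℝ) :
    S24 (fun x y => y * x ^ 4) a0 a1 a2 b0 b1 b2 p0 p1 p2 q0 q1 q2 / 24 =
      (2/3) * (p0 * a1 * a2 ^ 3 + p0 * a1 ^ 3 * a2 + p1 * a0 * a2 ^ 3 + p1 * a0 ^ 3 * a2 + p2 * a0 * a1 ^ 3 + p2 * a0 ^ 3 * a1) * (q0 * b1 * b2 ^ 3 + q0 * b1 ^ 3 * b2 + q1 * b0 * b2 ^ 3 + q1 * b0 ^ 3 * b2 + q2 * b0 * b1 ^ 3 + q2 * b0 ^ 3 * b1) + (4) * (p0 * a0 ^ 2 * a1 * a2 + p1 * a0 * a1 ^ 2 * a2 + p2 * a0 * a1 * a2 ^ 2) * (q0 * b0 ^ 2 * b1 * b2 + q1 * b0 * b1 ^ 2 * b2 + q2 * b0 * b1 * b2 ^ 2) := by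
  unfold S24
  ring

lemma S24_F4 (a0 a1 a2 b0 b1 b2 : ℝ) :
    S24 (fun x y => y * x ^ 4) a0 a1 a2 b0 b1 b2 (a0 + a1 * a2) (a1 + a0 * a2) (a2 + a0 * a1)
        (b0 + b1 * b2) (b1 + b0 * b2) (b2 + b0 * b1) / 24 =
      gF4 (a0 ^ 2 + a1 ^ 2 + a2 ^ 2) (a0 * a1 * a2) (a0 ^ 2 * a1 ^ 2 + a0 ^ 2 * a2 ^ 2 + a1 ^ 2 * a2 ^ 2)
        (b0 ^ 2 + b1 ^ 2 + b2 ^ 2) (b0 * b1 * b2) (b0 ^ 2 * b1 ^ 2 + b0 ^ 2 * b2 ^ 2 + b1 ^ 2 * b2 ^ 2) := by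
  rw [S24_G4]
  unfold gF4
  rw [show (a0 + a1 * a2) * a1 * a2 ^ 3 + (a0 + a1 * a2) * a1 ^ 3 * a2 + (a1 + a0 * a2) * a0 * a2 ^ 3 + (a1 + a0 * a2) * a0 ^ 3 * a2 + (a2 + a0 * a1) * a0 * a1 ^ 3 + (a2 + a0 * a1) * a0 ^ 3 * a1 = (-3) * (a0 * a1 * a2) ^ 2 + (1) * (a0 ^ 2 + a1 ^ 2 + a2 ^ 2) * (a0 ^ 2 * a1 ^ 2 + a0 ^ 2 * a2 ^ 2 + a1 ^ 2 * a2 ^ 2) + (2) * (a0 ^ 2 + a1 ^ 2 + a2 ^ 2) * (a0 * a1 * a2) by ring]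
  rw [show (b0 + b1 * b2) * b1 * b2 ^ 3 + (b0 + b1 * b2) * b1 ^ 3 * b2 + (b1 + b0 * b2) * b0 * b2 ^ 3 + (b1 + b0 * b2) * b0 ^ 3 * b2 + (b2 + b0 * b1) * b0 * b1 ^ 3 + (b2 + b0 * b1) * b0 ^ 3 * b1 = (-3) * (b0 * b1 * b2) ^ 2 + (1) * (b0 ^ 2 + b1 ^ 2 + b2 ^ 2) * (b0 ^ 2 * b1 ^ 2 + b0 ^ 2 * b2 ^ 2 + b1 ^ 2 * b2 ^ 2) + (2) * (b0 ^ 2 + b1 ^ 2 + b2 ^ 2) * (b0 * b1 * b2) by ring]
  rw [show (a0 + a1 * a2) * a0 ^ 2 * a1 * a2 + (a1 + a0 * a2) * a0 * a1 ^ 2 * a2 + (a2 + a0 * a1) * a0 * a1 * a2 ^ 2 = (3) * (a0 * a1 * a2) ^ 2 + (1) * (a0 ^ 2 + a1 ^ 2 + a2 ^ 2) * (a0 * a1 * a2) by ring]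
  rw [show (b0 + b1 * b2) * b0 ^ 2 * b1 * b2 + (b1 + b0 * b2) * b0 * b1 ^ 2 * b2 + (b2 + b0 * b1) * b0 * b1 * b2 ^ 2 = (3) * (b0 * b1 * b2) ^ 2 + (1) * (b0 ^ 2 + b1 ^ 2 + b2 ^ 2) * (b0 * b1 * b2) by ring]

lemma S24_G5 (a0 a1 a2 b0 b1 b2 p0 p1 p2 q0 q1 q2 : ℝ) :
    S24 (fun x y => y * x ^ 5) a0 a1 a2 b0 b1 b2 p0 p1 p2 q0 q1 q2 / 24 =
      (5/6) * (p0 * a0 * a2 ^ 4 + p0 * a0 * a1 ^ 4 + p1 * a1 * a2 ^ 4 + p1 * a0 ^ 4 * a1 + p2 * a1 ^ 4 * a2 + p2 * a0 ^ 4 * a2) * (q0 * b0 * b2 ^ 4 + q0 * b0 * b1 ^ 4 + q1 * b1 * b2 ^ 4 + q1 * b0 ^ 4 * b1 + q2 * b1 ^ 4 * b2 + q2 * b0 ^ 4 * b2) + (10) * (p0 * a0 * a1 ^ 2 * a2 ^ 2 + p1 * a0 ^ 2 * a1 * a2 ^ 2 + p2 * a0 ^ 2 * a1 ^ 2 * a2) * (q0 * b0 * b1 ^ 2 * b2 ^ 2 + q1 * b0 ^ 2 * b1 * b2 ^ 2 + q2 * b0 ^ 2 * b1 ^ 2 * b2) + (5/3) * (p0 * a0 ^ 3 * a2 ^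 2 + p0 * a0 ^ 3 * a1 ^ 2 + p1 * a1 ^ 3 * a2 ^ 2 + p1 * a0 ^ 2 * a1 ^ 3 + p2 * a1 ^ 2 * a2 ^ 3 + p2 * a0 ^ 2 * a2 ^ 3) * (q0 * b0 ^ 3 * b2 ^ 2 + q0 * b0 ^ 3 * b1 ^ 2 + q1 * b1 ^ 3 * b2 ^ 2 + q1 * b0 ^ 2 * b1 ^ 3 + q2 * b1 ^ 2 * b2 ^ 3 + q2 * b0 ^ 2 * b2 ^ 3) + (1/3) * (p0 * a0 ^ 5 + p1 * a1 ^ 5 + p2 * a2 ^ 5) * (q0 * b0 ^ 5 + q1 * b1 ^ 5 + q2 * b2 ^ 5) := by
  unfold S24
  ring

lemma S24_F5 (a0 a1 a2 b0 b1 b2 : ℝ) :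
    S24 (fun x y => y * x ^ 5) a0 a1 a2 b0 b1 b2 (a0 + a1 * a2) (a1 + a0 * a2) (a2 + a0 * a1)
        (b0 + b1 * b2) (b1 + b0 * b2) (b2 + b0 * b1) / 24 =
      gF5 (a0 ^ 2 + a1 ^ 2 + a2 ^ 2) (a0 * a1 * a2) (a0 ^ 2 * a1 ^ 2 + a0 ^ 2 * a2 ^ 2 + a1 ^ 2 * a2 ^ 2)
        (b0 ^ 2 + b1 ^ 2 + b2 ^ 2) (b0 * b1 * b2) (b0 ^ 2 * b1 ^ 2 + b0 ^ 2 * b2 ^ 2 + b1 ^ 2 * b2 ^ 2) := by
  rw [S24_G5]
  unfold gF5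
  rw [show (a0 + a1 * a2) * a0 * a2 ^ 4 + (a0 + a1 * a2) * a0 * a1 ^ 4 + (a1 + a0 * a2) * a1 * a2 ^ 4 + (a1 + a0 * a2) * a0 ^ 4 * a1 + (a2 + a0 * a1) * a1 ^ 4 * a2 + (a2 + a0 * a1) * a0 ^ 4 * a2 = (-4) * (a0 * a1 * a2) * (a0 ^ 2 * a1 ^ 2 + a0 ^ 2 * a2 ^ 2 + a1 ^ 2 * a2 ^ 2) + (-3) * (a0 * a1 * a2) ^ 2 + (1) * (a0 ^ 2 + a1 ^ 2 + a2 ^ 2) * (a0 ^ 2 * a1 ^ 2 + a0 ^ 2 * a2 ^ 2 + a1 ^ 2 * a2 ^ 2) + (2) * (a0 ^ 2 + a1 ^ 2 + a2 ^ 2) ^ 2 * (a0 * a1 * a2) by ring]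
  rw [show (b0 + b1 * b2) * b0 * b2 ^ 4 + (b0 + b1 * b2) * b0 * b1 ^ 4 + (b1 + b0 * b2) * b1 * b2 ^ 4 + (b1 + b0 * b2) * b0 ^ 4 * b1 + (b2 + b0 * b1) * b1 ^ 4 * b2 + (b2 + b0 * b1) * b0 ^ 4 * b2 = (-4) * (b0 * b1 * b2) * (b0 ^ 2 * b1 ^ 2 + b0 ^ 2 * b2 ^ 2 + b1 ^ 2 * b2 ^ 2) + (-3) * (b0 * b1 * b2) ^ 2 + (1) * (b0 ^ 2 + b1 ^ 2 + b2 ^ 2) * (b0 ^ 2 * b1 ^ 2 + b0 ^ 2 * b2 ^ 2 + b1 ^ 2 * b2 ^ 2) + (2) * (b0 ^ 2 + b1 ^ 2 + b2 ^ 2) ^ 2 * (b0 * b1 * b2) by ring]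
  rw [show (a0 + a1 * a2) * a0 * a1 ^ 2 * a2 ^ 2 + (a1 + a0 * a2) * a0 ^ 2 * a1 * a2 ^ 2 + (a2 + a0 * a1) * a0 ^ 2 * a1 ^ 2 * a2 = (1) * (a0 * a1 * a2) * (a0 ^ 2 * a1 ^ 2 + a0 ^ 2 * a2 ^ 2 + a1 ^ 2 * a2 ^ 2) + (3) * (a0 * a1 * a2) ^ 2 by ring]
  rw [show (b0 + b1 * b2) * b0 * b1 ^ 2 * b2 ^ 2 + (b1 + b0 * b2) * b0 ^ 2 * b1 * b2 ^ 2 + (b2 + b0 * b1) * b0 ^ 2 * b1 ^ 2 * b2 = (1) * (b0 * b1 * b2) * (b0 ^ 2 * b1 ^ 2 + b0 ^ 2 * b2 ^ 2 + b1 ^ 2 * b2 ^ 2) + (3) * (b0 * b1 * b2) ^ 2 by ring]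
  rw [show (a0 + a1 * a2) * a0 ^ 3 * a2 ^ 2 + (a0 + a1 * a2) * a0 ^ 3 * a1 ^ 2 + (a1 + a0 * a2) * a1 ^ 3 * a2 ^ 2 + (a1 + a0 * a2) * a0 ^ 2 * a1 ^ 3 + (a2 + a0 * a1) * a1 ^ 2 * a2 ^ 3 + (a2 + a0 * a1) * a0 ^ 2 * a2 ^ 3 = (2) * (a0 * a1 * a2) * (a0 ^ 2 * a1 ^ 2 + a0 ^ 2 * a2 ^ 2 + a1 ^ 2 * a2 ^ 2) + (-3) * (a0 * a1 * a2) ^ 2 + (1) * (a0 ^ 2 + a1 ^ 2 + a2 ^ 2) * (a0 ^ 2 * a1 ^ 2 + a0 ^ 2 * a2 ^ 2 + a1 ^ 2 * a2 ^ 2) by ring]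
  rw [show (b0 + b1 * b2) * b0 ^ 3 * b2 ^ 2 + (b0 + b1 * b2) * b0 ^ 3 * b1 ^ 2 + (b1 + b0 * b2) * b1 ^ 3 * b2 ^ 2 + (b1 + b0 * b2) * b0 ^ 2 * b1 ^ 3 + (b2 + b0 * b1) * b1 ^ 2 * b2 ^ 3 + (b2 + b0 * b1) * b0 ^ 2 * b2 ^ 3 = (2) * (b0 * b1 * b2) * (b0 ^ 2 * b1 ^ 2 + b0 ^ 2 * b2 ^ 2 + b1 ^ 2 * b2 ^ 2) + (-3) * (b0 * b1 * b2) ^ 2 + (1) * (b0 ^ 2 + b1 ^ 2 + b2 ^ 2) * (b0 ^ 2 * b1 ^ 2 + b0 ^ 2 * b2 ^ 2 + b1 ^ 2 * b2 ^ 2) by ring]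
  rw [show (a0 + a1 * a2) * a0 ^ 5 + (a1 + a0 * a2) * a1 ^ 5 + (a2 + a0 * a1) * a2 ^ 5 = (-2) * (a0 * a1 * a2) * (a0 ^ 2 * a1 ^ 2 + a0 ^ 2 * a2 ^ 2 + a1 ^ 2 * a2 ^ 2) + (3) * (a0 * a1 * a2) ^ 2 + (-3) * (a0 ^ 2 + a1 ^ 2 + a2 ^ 2) * (a0 ^ 2 * a1 ^ 2 + a0 ^ 2 * a2 ^ 2 + a1 ^ 2 * a2 ^ 2) + (1) * (a0 ^ 2 + a1 ^ 2 + a2 ^ 2) ^ 2 * (a0 * a1 * a2) + (1) * (a0 ^ 2 + a1 ^ 2 + a2 ^ 2) ^ 3 by ring]
  rw [show (b0 + b1 * b2) * b0 ^ 5 + (b1 + b0 * b2) * b1 ^ 5 + (b2 + b0 * b1) * b2 ^ 5 = (-2) * (b0 * b1 * b2) * (b0 ^ 2 * b1 ^ 2 + b0 ^ 2 * b2 ^ 2 + b1 ^ 2 * b2 ^ 2) + (3) * (b0 * b1 * b2) ^ 2 + (-3) * (b0 ^ 2 + b1 ^ 2 + b2 ^ 2) * (b0 ^ 2 * b1 ^ 2 + b0 ^ 2 * b2 ^ 2 + b1 ^ 2 * b2 ^ 2) + (1) * (b0 ^ 2 + b1 ^ 2 + b2 ^ 2) ^ 2 * (b0 * b1 * b2) + (1) * (b0 ^ 2 + b1 ^ 2 + b2 ^ 2) ^ 3 by ring]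

lemma orb_pow0 {u v : Fin 4 → ℝ} (hu : avg u = 1) (hv : avg v = 1) :
    orb (fun w => (avg w - 1) ^ 0) u v = gE0 (sI u) (tI u) (eI u) (sI v) (tI v) (eI v) := by
  rw [orb_eval (fun x _ => x ^ 0) hu hv, S24_E0]
  rfl

lemma orb_pow1 {u v : Fin 4 → ℝ} (hu : avg u = 1) (hv : avg v = 1) :
    orb (fun w => (avg w - 1) ^ 1) u v = gE1 (sI u) (tI u) (eI u) (sI v) (tI v) (eI v) := by
  rw [orb_eval (fun x _ => x ^ 1) hu hv, S24_E1]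
  rfl

lemma orb_pow2 {u v : Fin 4 → ℝ} (hu : avg u = 1) (hv : avg v = 1) :
    orb (fun w => (avg w - 1) ^ 2) u v = gE2 (sI u) (tI u) (eI u) (sI v) (tI v) (eI v) := by
  rw [orb_eval (fun x _ => x ^ 2) hu hv, S24_E2]
  rfl

lemma orb_pow3 {u v : Fin 4 → ℝ} (hu : avg u = 1) (hv : avg v = 1) :
    orb (fun w => (avg w - 1) ^ 3) u v = gE3 (sI u) (tI u) (eI u) (sI v) (tI v) (eI v) := by
  rw [orb_eval (fun x _ => x ^ 3) hu hv, S24_E3]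
  rfl

lemma orb_pow4 {u v : Fin 4 → ℝ} (hu : avg u = 1) (hv : avg v = 1) :
    orb (fun w => (avg w - 1) ^ 4) u v = gE4 (sI u) (tI u) (eI u) (sI v) (tI v) (eI v) := by
  rw [orb_eval (fun x _ => x ^ 4) hu hv, S24_E4]
  rfl

lemma orb_pow5 {u v : Fin 4 → ℝ} (hu : avg u = 1) (hv : avg v = 1) :
    orb (fun w => (avg w - 1) ^ 5) u v = gE5 (sI u) (tI u) (eI u) (sI v) (tI v) (eI v) := by
  rw [orb_eval (fun x _ => x ^ 5) hu hv, S24_E5]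
  rfl

lemma orb_pow6 {u v : Fin 4 → ℝ} (hu : avg u = 1) (hv : avg v = 1) :
    orb (fun w => (avg w - 1) ^ 6) u v = gE6 (sI u) (tI u) (eI u) (sI v) (tI v) (eI v) := by
  rw [orb_eval (fun x _ => x ^ 6) hu hv, S24_E6]
  rfl

lemma orb_pow7 {u v : Fin 4 → ℝ} (hu : avg u = 1) (hv : avg v = 1) :
    orb (fun w => (avg w - 1) ^ 7) u v = gE7 (sI u) (tI u) (eI u) (sI v) (tI v) (eI v) := by
  rw [orb_eval (fun x _ => x ^ 7) hu hv, S24_E7]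
  rfl

/-- the second moment functional, centred -/
noncomputable def yf (u v w : Fin 4 → ℝ) : ℝ :=
  (avg (fun i => w i ^ 2) - (1 + sI u) * (1 + sI v)) / 4

lemma orb_yf0 {u v : Fin 4 → ℝ} (hu : avg u = 1) (hv : avg v = 1) :
    orb (fun w => yf u v w * (avg w - 1) ^ 0) u v = gF0 (sI u) (tI u) (eI u) (sI v) (tI v) (eI v) := by
  have h := orb_eval (fun x y => y * x ^ 0) hu hv
  rw [S24_F0] at h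
  exact h

lemma orb_yf1 {u v : Fin 4 → ℝ} (hu : avg u = 1) (hv : avg v = 1) :
    orb (fun w => yf u v w * (avg w - 1) ^ 1) u v = gF1 (sI u) (tI u) (eI u) (sI v) (tI v) (eI v) := by
  have h := orb_eval (fun x y => y * x ^ 1) hu hv
  rw [S24_F1] at h
  exact h

lemma orb_yf2 {u v : Fin 4 → ℝ} (hu : avg u = 1) (hv : avg v = 1) :
    orb (fun w => yf u v w * (avg w - 1) ^ 2) u v = gF2 (sI u) (tI u) (eI u) (sI v) (tI v) (eI v) := by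
  have h := orb_eval (fun x y => y * x ^ 2) hu hv
  rw [S24_F2] at h
  exact h

lemma orb_yf3 {u v : Fin 4 → ℝ} (hu : avg u = 1) (hv : avg v = 1) :
    orb (fun w => yf u v w * (avg w - 1) ^ 3) u v = gF3 (sI u) (tI u) (eI u) (sI v) (tI v) (eI v) := by
  have h := orb_eval (fun x y => y * x ^ 3) hu hv
  rw [S24_F3] at h
  exact h

lemma orb_yf4 {u v : Fin 4 → ℝ} (hu : avg u = 1) (hv : avg v = 1) :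
    orb (fun w => yf u v w * (avg w - 1) ^ 4) u v = gF4 (sI u) (tI u) (eI u) (sI v) (tI v) (eI v) := by
  have h := orb_eval (fun x y => y * x ^ 4) hu hv
  rw [S24_F4] at h
  exact h

lemma orb_yf5 {u v : Fin 4 → ℝ} (hu : avg u = 1) (hv : avg v = 1) :
    orb (fun w => yf u v w * (avg w - 1) ^ 5) u v = gF5 (sI u) (tI u) (eI u) (sI v) (tI v) (eI v) := by
  have h := orb_eval (fun x y => y * x ^ 5) hu hv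
  rw [S24_F5] at h
  exact h

lemma EE_eq_yf (u v w : Fin 4 → ℝ) : EE w = 4 * (1 + (avg w - 1)) ^ 2 -
    (4 * yf u v w + (1 + sI u) * (1 + sI v)) := by
  have := avg_sq_four w
  unfold yf
  rw [this]; ring

/-- orbit average of `EE w * (avg w - 1)^0` -/
noncomputable def gG0 (s t e s' t' e' : ℝ) : ℝ :=
  4 * gE0 s t e s' t' e' + 8 * gE1 s t e s' t' e' + 4 * gE2 s t e s' t' e' -
    (1 + s) * (1 + s') * gE0 s t e s' t' e' - 4 * gF0 s t e s' t' e'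

lemma orb_EE0 {u v : Fin 4 → ℝ} (hu : avg u = 1) (hv : avg v = 1) :
    orb (fun w => EE w * (avg w - 1) ^ 0) u v = gG0 (sI u) (tI u) (eI u) (sI v) (tI v) (eI v) := by
  have e : (fun w : Fin 4 → ℝ => EE w * (avg w - 1) ^ 0) = fun w =>
      ((4 * (avg w - 1) ^ 0 + 8 * (avg w - 1) ^ 1 + 4 * (avg w - 1) ^ 2) +
        (-((1 + sI u) * (1 + sI v))) * (avg w - 1) ^ 0) + (-4) * (yf u v w * (avg w - 1) ^ 0) := by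
    funext w
    rw [EE_eq_yf u v w]
    ring
  rw [e, orb_add, orb_add, orb_add, orb_add, orb_const_mul, orb_const_mul, orb_const_mul,
    orb_const_mul, orb_const_mul, orb_pow0 hu hv, orb_pow1 hu hv, orb_pow2 hu hv, orb_yf0 hu hv]
  unfold gG0
  ring

/-- orbit average of `EE w * (avg w - 1)^1` -/
noncomputable def gG1 (s t e s' t' e' : ℝ) : ℝ :=
  4 * gE1 s t e s' t' e' + 8 * gE2 s t e s' t' e' + 4 * gE3 s t e s' t' e' -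
    (1 + s) * (1 + s') * gE1 s t e s' t' e' - 4 * gF1 s t e s' t' e'

lemma orb_EE1 {u v : Fin 4 → ℝ} (hu : avg u = 1) (hv : avg v = 1) :
    orb (fun w => EE w * (avg w - 1) ^ 1) u v = gG1 (sI u) (tI u) (eI u) (sI v) (tI v) (eI v) := by
  have e : (fun w : Fin 4 → ℝ => EE w * (avg w - 1) ^ 1) = fun w =>
      ((4 * (avg w - 1) ^ 1 + 8 * (avg w - 1) ^ 2 + 4 * (avg w - 1) ^ 3) +
        (-((1 + sI u) * (1 + sI v))) * (avg w - 1) ^ 1) + (-4) * (yf u v w * (avg w - 1) ^ 1) := by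
    funext w
    rw [EE_eq_yf u v w]
    ring
  rw [e, orb_add, orb_add, orb_add, orb_add, orb_const_mul, orb_const_mul, orb_const_mul,
    orb_const_mul, orb_const_mul, orb_pow1 hu hv, orb_pow2 hu hv, orb_pow3 hu hv, orb_yf1 hu hv]
  unfold gG1
  ring

/-- orbit average of `EE w * (avg w - 1)^2` -/
noncomputable def gG2 (s t e s' t' e' : ℝ) : ℝ :=
  4 * gE2 s t e s' t' e' + 8 * gE3 s t e s' t' e' + 4 * gE4 s t e s' t' e' -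
    (1 + s) * (1 + s') * gE2 s t e s' t' e' - 4 * gF2 s t e s' t' e'

lemma orb_EE2 {u v : Fin 4 → ℝ} (hu : avg u = 1) (hv : avg v = 1) :
    orb (fun w => EE w * (avg w - 1) ^ 2) u v = gG2 (sI u) (tI u) (eI u) (sI v) (tI v) (eI v) := by
  have e : (fun w : Fin 4 → ℝ => EE w * (avg w - 1) ^ 2) = fun w =>
      ((4 * (avg w - 1) ^ 2 + 8 * (avg w - 1) ^ 3 + 4 * (avg w - 1) ^ 4) +
        (-((1 + sI u) * (1 + sI v))) * (avg w - 1) ^ 2) + (-4) * (yf u v w * (avg w - 1) ^ 2) := by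
    funext w
    rw [EE_eq_yf u v w]
    ring
  rw [e, orb_add, orb_add, orb_add, orb_add, orb_const_mul, orb_const_mul, orb_const_mul,
    orb_const_mul, orb_const_mul, orb_pow2 hu hv, orb_pow3 hu hv, orb_pow4 hu hv, orb_yf2 hu hv]
  unfold gG2
  ring

/-- orbit average of `EE w * (avg w - 1)^3` -/
noncomputable def gG3 (s t e s' t' e' : ℝ) : ℝ :=
  4 * gE3 s t e s' t' e' + 8 * gE4 s t e s' t' e' + 4 * gE5 s t e s' t' e' -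
    (1 + s) * (1 + s') * gE3 s t e s' t' e' - 4 * gF3 s t e s' t' e'

lemma orb_EE3 {u v : Fin 4 → ℝ} (hu : avg u = 1) (hv : avg v = 1) :
    orb (fun w => EE w * (avg w - 1) ^ 3) u v = gG3 (sI u) (tI u) (eI u) (sI v) (tI v) (eI v) := by
  have e : (fun w : Fin 4 → ℝ => EE w * (avg w - 1) ^ 3) = fun w =>
      ((4 * (avg w - 1) ^ 3 + 8 * (avg w - 1) ^ 4 + 4 * (avg w - 1) ^ 5) +
        (-((1 + sI u) * (1 + sI v))) * (avg w - 1) ^ 3) + (-4) * (yf u v w * (avg w - 1) ^ 3) := by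
    funext w
    rw [EE_eq_yf u v w]
    ring
  rw [e, orb_add, orb_add, orb_add, orb_add, orb_const_mul, orb_const_mul, orb_const_mul,
    orb_const_mul, orb_const_mul, orb_pow3 hu hv, orb_pow4 hu hv, orb_pow5 hu hv, orb_yf3 hu hv]
  unfold gG3
  ring

/-- orbit average of `EE w * (avg w - 1)^4` -/
noncomputable def gG4 (s t e s' t' e' : ℝ) : ℝ :=
  4 * gE4 s t e s' t' e' + 8 * gE5 s t e s' t' e' + 4 * gE6 s t e s' t' e' -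
    (1 + s) * (1 + s') * gE4 s t e s' t' e' - 4 * gF4 s t e s' t' e'

lemma orb_EE4 {u v : Fin 4 → ℝ} (hu : avg u = 1) (hv : avg v = 1) :
    orb (fun w => EE w * (avg w - 1) ^ 4) u v = gG4 (sI u) (tI u) (eI u) (sI v) (tI v) (eI v) := by
  have e : (fun w : Fin 4 → ℝ => EE w * (avg w - 1) ^ 4) = fun w =>
      ((4 * (avg w - 1) ^ 4 + 8 * (avg w - 1) ^ 5 + 4 * (avg w - 1) ^ 6) +
        (-((1 + sI u) * (1 + sI v))) * (avg w - 1) ^ 4) + (-4) * (yf u v w * (avg w - 1) ^ 4) := by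
    funext w
    rw [EE_eq_yf u v w]
    ring
  rw [e, orb_add, orb_add, orb_add, orb_add, orb_const_mul, orb_const_mul, orb_const_mul,
    orb_const_mul, orb_const_mul, orb_pow4 hu hv, orb_pow5 hu hv, orb_pow6 hu hv, orb_yf4 hu hv]
  unfold gG4
  ring

/-- orbit average of `EE w * (avg w - 1)^5` -/
noncomputable def gG5 (s t e s' t' e' : ℝ) : ℝ :=
  4 * gE5 s t e s' t' e' + 8 * gE6 s t e s' t' e' + 4 * gE7 s t e s' t' e' -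
    (1 + s) * (1 + s') * gE5 s t e s' t' e' - 4 * gF5 s t e s' t' e'

lemma orb_EE5 {u v : Fin 4 → ℝ} (hu : avg u = 1) (hv : avg v = 1) :
    orb (fun w => EE w * (avg w - 1) ^ 5) u v = gG5 (sI u) (tI u) (eI u) (sI v) (tI v) (eI v) := by
  have e : (fun w : Fin 4 → ℝ => EE w * (avg w - 1) ^ 5) = fun w =>
      ((4 * (avg w - 1) ^ 5 + 8 * (avg w - 1) ^ 6 + 4 * (avg w - 1) ^ 7) +
        (-((1 + sI u) * (1 + sI v))) * (avg w - 1) ^ 5) + (-4) * (yf u v w * (avg w - 1) ^ 5) := by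
    funext w
    rw [EE_eq_yf u v w]
    ring
  rw [e, orb_add, orb_add, orb_add, orb_add, orb_const_mul, orb_const_mul, orb_const_mul,
    orb_const_mul, orb_const_mul, orb_pow5 hu hv, orb_pow6 hu hv, orb_pow7 hu hv, orb_yf5 hu hv]
  unfold gG5
  ring

theorem orb_poly (c0 c1 c2 c3 c4 c5 c6 c7 d0 d1 d2 d3 d4 d5 : ℝ) {u v : Fin 4 → ℝ}
    (hu : avg u = 1) (hv : avg v = 1) :
    orb (fun w => c0 * (avg w - 1) ^ 0 + c1 * (avg w - 1) ^ 1 + c2 * (avg w - 1) ^ 2 + c3 * (avg w - 1) ^ 3 + c4 * (avg w - 1) ^ 4 + c5 * (avg w - 1) ^ 5 + c6 * (avg w - 1) ^ 6 + c7 * (avg w - 1) ^ 7 +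
      EE w * (d0 * (avg w - 1) ^ 0 + d1 * (avg w - 1) ^ 1 + d2 * (avg w - 1) ^ 2 + d3 * (avg w - 1) ^ 3 + d4 * (avg w - 1) ^ 4 + d5 * (avg w - 1) ^ 5)) u v =
      c0 * gE0 (sI u) (tI u) (eI u) (sI v) (tI v) (eI v) +
      c1 * gE1 (sI u) (tI u) (eI u) (sI v) (tI v) (eI v) +
      c2 * gE2 (sI u) (tI u) (eI u) (sI v) (tI v) (eI v) +
      c3 * gE3 (sI u) (tI u) (eI u) (sI v) (tI v) (eI v) +
      c4 * gE4 (sI u) (tI u) (eI u) (sI v) (tI v) (eI v) +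
      c5 * gE5 (sI u) (tI u) (eI u) (sI v) (tI v) (eI v) +
      c6 * gE6 (sI u) (tI u) (eI u) (sI v) (tI v) (eI v) +
      c7 * gE7 (sI u) (tI u) (eI u) (sI v) (tI v) (eI v) +
      d0 * gG0 (sI u) (tI u) (eI u) (sI v) (tI v) (eI v) +
      d1 * gG1 (sI u) (tI u) (eI u) (sI v) (tI v) (eI v) +
      d2 * gG2 (sI u) (tI u) (eI u) (sI v) (tI v) (eI v) +
      d3 * gG3 (sI u) (tI u) (eI u) (sI v) (tI v) (eI v) +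
      d4 * gG4 (sI u) (tI u) (eI u) (sI v) (tI v) (eI v) +
      d5 * gG5 (sI u) (tI u) (eI u) (sI v) (tI v) (eI v) := by
  have e : (fun w : Fin 4 → ℝ => c0 * (avg w - 1) ^ 0 + c1 * (avg w - 1) ^ 1 + c2 * (avg w - 1) ^ 2 + c3 * (avg w - 1) ^ 3 + c4 * (avg w - 1) ^ 4 + c5 * (avg w - 1) ^ 5 + c6 * (avg w - 1) ^ 6 + c7 * (avg w - 1) ^ 7 +
      EE w * (d0 * (avg w - 1) ^ 0 + d1 * (avg w - 1) ^ 1 + d2 * (avg w - 1) ^ 2 + d3 * (avg w - 1) ^ 3 + d4 * (avg w - 1) ^ 4 + d5 * (avg w - 1) ^ 5)) = fun w =>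
      c0 * (avg w - 1) ^ 0 + c1 * (avg w - 1) ^ 1 + c2 * (avg w - 1) ^ 2 + c3 * (avg w - 1) ^ 3 + c4 * (avg w - 1) ^ 4 + c5 * (avg w - 1) ^ 5 + c6 * (avg w - 1) ^ 6 + c7 * (avg w - 1) ^ 7 +
      d0 * (EE w * (avg w - 1) ^ 0) + d1 * (EE w * (avg w - 1) ^ 1) + d2 * (EE w * (avg w - 1) ^ 2) + d3 * (EE w * (avg w - 1) ^ 3) + d4 * (EE w * (avg w - 1) ^ 4) + d5 * (EE w * (avg w - 1) ^ 5) := by
    funext w; ring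
  rw [e]
  simp only [orb_add, orb_const_mul]
  rw [orb_pow0 hu hv, orb_pow1 hu hv, orb_pow2 hu hv, orb_pow3 hu hv, orb_pow4 hu hv, orb_pow5 hu hv, orb_pow6 hu hv, orb_pow7 hu hv,
    orb_EE0 hu hv, orb_EE1 hu hv, orb_EE2 hu hv, orb_EE3 hu hv, orb_EE4 hu hv, orb_EE5 hu hv]

lemma chi_eq_sI {v : Fin 4 → ℝ} (h1 : avg v = 1) : chi v = sI v := by
  unfold chi
  rw [h1, div_one, avg_four, v0_eq h1, v1_eq h1, v2_eq h1, v3_eq h1]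
  unfold sI
  ring

/-! #### pair averages -/

lemma pr_U {v : Fin 4 → ℝ} (hv : ∀ i, 0 ≤ v i) (i j : ℕ) :
    pr (fun a b => (rr a b - 1) ^ i * (rr a b ^ 2 * (1 - yy a b ^ 2)) ^ j) v =
      pr (fun a b => ((a + b) / 2 - 1) ^ i * ((a - b) ^ 2 / 4) ^ j) v := by
  refine pr_congr fun x y _ => ?_
  rw [rr_u2 (hv x) (hv y)]
  rfl


lemma pr_w0_U1 {v : Fin 4 → ℝ} (hv : ∀ i, 0 ≤ v i) (h1 : avg v = 1) :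
    pr (fun a b => (rr a b - 1) ^ 0 * (rr a b ^ 2 * (1 - yy a b ^ 2)) ^ 1) v =
      (2/3) * sI v := by
  rw [pr_U hv, pr_four, v0_eq h1, v1_eq h1, v2_eq h1, v3_eq h1]
  try simp only [sI, tI, eI]
  generalize mA v = a0
  generalize mB v = a1
  generalize mC v = a2
  ring

lemma pr_w0_U2 {v : Fin 4 → ℝ} (hv : ∀ i, 0 ≤ v i) (h1 : avg v = 1) :
    pr (fun a b => (rr a b - 1) ^ 0 * (rr a b ^ 2 * (1 - yy a b ^ 2)) ^ 2) v =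
      (2/3) * eI v + (2/3) * sI v ^ 2 := by
  rw [pr_U hv, pr_four, v0_eq h1, v1_eq h1, v2_eq h1, v3_eq h1]
  try simp only [sI, tI, eI]
  generalize mA v = a0
  generalize mB v = a1
  generalize mC v = a2
  ring

lemma pr_w0_U3 {v : Fin 4 → ℝ} (hv : ∀ i, 0 ≤ v i) (h1 : avg v = 1) :
    pr (fun a b => (rr a b - 1) ^ 0 * (rr a b ^ 2 * (1 - yy a b ^ 2)) ^ 3) v =
      (-13) * tI v ^ 2 + (3) * sI v * eI v + (2/3) * sI v ^ 3 := by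
  rw [pr_U hv, pr_four, v0_eq h1, v1_eq h1, v2_eq h1, v3_eq h1]
  try simp only [sI, tI, eI]
  generalize mA v = a0
  generalize mB v = a1
  generalize mC v = a2
  ring


lemma pr_w1_U1 {v : Fin 4 → ℝ} (hv : ∀ i, 0 ≤ v i) (h1 : avg v = 1) :
    pr (fun a b => (rr a b - 1) ^ 1 * (rr a b ^ 2 * (1 - yy a b ^ 2)) ^ 1) v =
      (2) * tI v := by
  rw [pr_U hv, pr_four, v0_eq h1, v1_eq h1, v2_eq h1, v3_eq h1]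
  try simp only [sI, tI, eI]
  generalize mA v = a0
  generalize mB v = a1
  generalize mC v = a2
  ring

lemma pr_w1_U2 {v : Fin 4 → ℝ} (hv : ∀ i, 0 ≤ v i) (h1 : avg v = 1) :
    pr (fun a b => (rr a b - 1) ^ 1 * (rr a b ^ 2 * (1 - yy a b ^ 2)) ^ 2) v =
      (8/3) * sI v * tI v := by
  rw [pr_U hv, pr_four, v0_eq h1, v1_eq h1, v2_eq h1, v3_eq h1]
  try simp only [sI, tI, eI]
  generalize mA v = a0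
  generalize mB v = a1
  generalize mC v = a2
  ring

lemma pr_w1_U3 {v : Fin 4 → ℝ} (hv : ∀ i, 0 ≤ v i) (h1 : avg v = 1) :
    pr (fun a b => (rr a b - 1) ^ 1 * (rr a b ^ 2 * (1 - yy a b ^ 2)) ^ 3) v =
      (-4/3) * tI v * eI v + (4) * sI v ^ 2 * tI v := by
  rw [pr_U hv, pr_four, v0_eq h1, v1_eq h1, v2_eq h1, v3_eq h1]
  try simp only [sI, tI, eI]
  generalize mA v = a0
  generalize mB v = a1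
  generalize mC v = a2
  ring

lemma pr_w2_U0 {v : Fin 4 → ℝ} (hv : ∀ i, 0 ≤ v i) (h1 : avg v = 1) :
    pr (fun a b => (rr a b - 1) ^ 2 * (rr a b ^ 2 * (1 - yy a b ^ 2)) ^ 0) v =
      (1/3) * sI v := by
  rw [pr_U hv, pr_four, v0_eq h1, v1_eq h1, v2_eq h1, v3_eq h1]
  try simp only [sI, tI, eI]
  generalize mA v = a0
  generalize mB v = a1
  generalize mC v = a2
  ring

lemma pr_w2_U1 {v : Fin 4 → ℝ} (hv : ∀ i, 0 ≤ v i) (h1 : avg v = 1) :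
    pr (fun a b => (rr a b - 1) ^ 2 * (rr a b ^ 2 * (1 - yy a b ^ 2)) ^ 1) v =
      (2/3) * eI v := by
  rw [pr_U hv, pr_four, v0_eq h1, v1_eq h1, v2_eq h1, v3_eq h1]
  try simp only [sI, tI, eI]
  generalize mA v = a0
  generalize mB v = a1
  generalize mC v = a2
  ring

lemma pr_w2_U2 {v : Fin 4 → ℝ} (hv : ∀ i, 0 ≤ v i) (h1 : avg v = 1) :
    pr (fun a b => (rr a b - 1) ^ 2 * (rr a b ^ 2 * (1 - yy a b ^ 2)) ^ 2) v =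
      (5) * tI v ^ 2 + (1/3) * sI v * eI v := by
  rw [pr_U hv, pr_four, v0_eq h1, v1_eq h1, v2_eq h1, v3_eq h1]
  try simp only [sI, tI, eI]
  generalize mA v = a0
  generalize mB v = a1
  generalize mC v = a2
  ring

lemma pr_w3_U0 {v : Fin 4 → ℝ} (hv : ∀ i, 0 ≤ v i) (h1 : avg v = 1) :
    pr (fun a b => (rr a b - 1) ^ 3 * (rr a b ^ 2 * (1 - yy a b ^ 2)) ^ 0) v =
      0 := by
  rw [pr_U hv, pr_four, v0_eq h1, v1_eq h1, v2_eq h1, v3_eq h1]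
  try simp only [sI, tI, eI]
  generalize mA v = a0
  generalize mB v = a1
  generalize mC v = a2
  ring

lemma pr_w3_U1 {v : Fin 4 → ℝ} (hv : ∀ i, 0 ≤ v i) (h1 : avg v = 1) :
    pr (fun a b => (rr a b - 1) ^ 3 * (rr a b ^ 2 * (1 - yy a b ^ 2)) ^ 1) v =
      (2/3) * sI v * tI v := by
  rw [pr_U hv, pr_four, v0_eq h1, v1_eq h1, v2_eq h1, v3_eq h1]
  try simp only [sI, tI, eI]
  generalize mA v = a0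
  generalize mB v = a1
  generalize mC v = a2
  ring

lemma pr_w3_U2 {v : Fin 4 → ℝ} (hv : ∀ i, 0 ≤ v i) (h1 : avg v = 1) :
    pr (fun a b => (rr a b - 1) ^ 3 * (rr a b ^ 2 * (1 - yy a b ^ 2)) ^ 2) v =
      (8/3) * tI v * eI v := by
  rw [pr_U hv, pr_four, v0_eq h1, v1_eq h1, v2_eq h1, v3_eq h1]
  try simp only [sI, tI, eI]
  generalize mA v = a0
  generalize mB v = a1
  generalize mC v = a2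
  ring

lemma pr_w4_U0 {v : Fin 4 → ℝ} (hv : ∀ i, 0 ≤ v i) (h1 : avg v = 1) :
    pr (fun a b => (rr a b - 1) ^ 4 * (rr a b ^ 2 * (1 - yy a b ^ 2)) ^ 0) v =
      (-2/3) * eI v + (1/3) * sI v ^ 2 := by
  rw [pr_U hv, pr_four, v0_eq h1, v1_eq h1, v2_eq h1, v3_eq h1]
  try simp only [sI, tI, eI]
  generalize mA v = a0
  generalize mB v = a1
  generalize mC v = a2
  ring

lemma pr_w4_U1 {v : Fin 4 → ℝ} (hv : ∀ i, 0 ≤ v i) (h1 : avg v = 1) :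
    pr (fun a b => (rr a b - 1) ^ 4 * (rr a b ^ 2 * (1 - yy a b ^ 2)) ^ 1) v =
      (-1) * tI v ^ 2 + (1/3) * sI v * eI v := by
  rw [pr_U hv, pr_four, v0_eq h1, v1_eq h1, v2_eq h1, v3_eq h1]
  try simp only [sI, tI, eI]
  generalize mA v = a0
  generalize mB v = a1
  generalize mC v = a2
  ring

lemma pr_w5_U0 {v : Fin 4 → ℝ} (hv : ∀ i, 0 ≤ v i) (h1 : avg v = 1) :
    pr (fun a b => (rr a b - 1) ^ 5 * (rr a b ^ 2 * (1 - yy a b ^ 2)) ^ 0) v =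
      0 := by
  rw [pr_U hv, pr_four, v0_eq h1, v1_eq h1, v2_eq h1, v3_eq h1]
  try simp only [sI, tI, eI]
  generalize mA v = a0
  generalize mB v = a1
  generalize mC v = a2
  ring

lemma pr_w5_U1 {v : Fin 4 → ℝ} (hv : ∀ i, 0 ≤ v i) (h1 : avg v = 1) :
    pr (fun a b => (rr a b - 1) ^ 5 * (rr a b ^ 2 * (1 - yy a b ^ 2)) ^ 1) v =
      (-4/3) * tI v * eI v + (2/3) * sI v ^ 2 * tI v := by
  rw [pr_U hv, pr_four, v0_eq h1, v1_eq h1, v2_eq h1, v3_eq h1]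
  try simp only [sI, tI, eI]
  generalize mA v = a0
  generalize mB v = a1
  generalize mC v = a2
  ring

lemma pr_w6_U0 {v : Fin 4 → ℝ} (hv : ∀ i, 0 ≤ v i) (h1 : avg v = 1) :
    pr (fun a b => (rr a b - 1) ^ 6 * (rr a b ^ 2 * (1 - yy a b ^ 2)) ^ 0) v =
      (1) * tI v ^ 2 + (-1) * sI v * eI v + (1/3) * sI v ^ 3 := by
  rw [pr_U hv, pr_four, v0_eq h1, v1_eq h1, v2_eq h1, v3_eq h1]
  try simp only [sI, tI, eI]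
  generalize mA v = a0
  generalize mB v = a1
  generalize mC v = a2
  ring

lemma pr_w7_U0 {v : Fin 4 → ℝ} (hv : ∀ i, 0 ≤ v i) (h1 : avg v = 1) :
    pr (fun a b => (rr a b - 1) ^ 7 * (rr a b ^ 2 * (1 - yy a b ^ 2)) ^ 0) v =
      0 := by
  rw [pr_U hv, pr_four, v0_eq h1, v1_eq h1, v2_eq h1, v3_eq h1]
  try simp only [sI, tI, eI]
  generalize mA v = a0
  generalize mB v = a1
  generalize mC v = a2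
  ring

end Crest.Agent.R163
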