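import Mathlib
import Crest.Agent.R163.Bern5
import Crest.Agent.R163.Q4Sub0
import Crest.Agent.R163.Q4Sym

-- ▼ part R163/Q4SubData
section

/-! Row 163, q = 4: exact data of the pointwise inequality (ii) (chi^2 subadditivity), found by helper857; kernel check of the nonnegativity by Bernstein coefficients. -/

set_option autoImplicit false
set_option maxRecDepth 1000000

namespace Crest.Agent.R163.Q4Sub

open Crest.Agent.R163.Bern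

/-- the functions (`fs[a][i][j]` = coefficient of `r^i y^j`) -/
def fs : List (List (List Int)) :=
  [[[1, 0, 0, 0, 0, 0, 0], [-2, 0, 0, 0, 0, 0, 0], [1, 0, 0, 0, 0, 0, 0], [0, 0, 0, 0, 0, 0, 0], [0, 0, 0, 0, 0, 0, 0], [0, 0, 0, 0, 0, 0, 0], [0, 0, 0, 0, 0, 0, 0], [0, 0, 0, 0, 0, 0, 0]], [[0, 0, 0, 0, 0, 0, 0], [0, 0, 0, 0, 0, 0, 0], [1, 0, -1, 0, 0, 0, 0], [0, 0, 0, 0, 0, 0, 0], [0, 0, 0, 0, 0, 0, 0], [0, 0, 0, 0, 0, 0, 0], [0, 0, 0, 0, 0, 0, 0], [0, 0, 0, 0, 0, 0, 0]], [[-1, 0, 0, 0, 0, 0, 0], [3, 0, 0, 0, 0, 0, 0], [-3, 0, 0, 0, 0, 0, 0], [1, 0, 0, 0, 0, 0, 0], [0, 0, 0, 0, 0, 0, 0], [0, 0, 0, 0, 0, 0, 0], [0, 0, 0, 0, 0, 0, 0], [0, 0, 0, 0, 0, 0, 0]], [[0, 0, 0, 0, 0, 0, 0], [0, 0, 0, 0, 0, 0, 0], [-1, 0, 1, 0, 0, 0, 0], [1, 0, -1, 0, 0, 0, 0], [0, 0, 0, 0, 0, 0, 0], [0, 0, 0, 0, 0, 0, 0], [0, 0, 0, 0, 0, 0, 0], [0, 0, 0, 0, 0, 0, 0]],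 [[1, 0, 0, 0, 0, 0, 0], [-4, 0, 0, 0, 0, 0, 0], [6, 0, 0, 0, 0, 0, 0], [-4, 0, 0, 0, 0, 0, 0], [1, 0, 0, 0, 0, 0, 0], [0, 0, 0, 0, 0, 0, 0], [0, 0, 0, 0, 0, 0, 0], [0, 0, 0, 0, 0, 0, 0]], [[0, 0, 0, 0, 0, 0, 0], [0, 0, 0, 0, 0, 0, 0], [1, 0, -1, 0, 0, 0, 0], [-2, 0, 2, 0, 0, 0, 0], [1, 0, -1, 0, 0, 0, 0], [0, 0, 0, 0, 0, 0, 0], [0, 0, 0, 0, 0, 0, 0], [0, 0, 0, 0, 0, 0, 0]], [[0, 0, 0, 0, 0, 0, 0], [0, 0, 0, 0, 0, 0, 0], [0, 0, 0, 0, 0, 0, 0], [0, 0, 0, 0, 0, 0, 0], [1, 0, -2, 0, 1, 0, 0], [0, 0, 0, 0, 0, 0, 0], [0, 0, 0, 0, 0, 0, 0], [0, 0, 0, 0, 0, 0, 0]], [[-1, 0, 0, 0, 0, 0, 0], [5, 0, 0, 0, 0, 0, 0], [-10, 0, 0, 0, 0, 0, 0], [10, 0, 0, 0, 0, 0, 0], [-5, 0, 0, 0, 0, 0, 0], [1, 0, 0, 0, 0, 0, 0], [0, 0, 0, 0, 0, 0, 0], [0, 0, 0, 0, 0, 0, 0]], [[0, 0, 0, 0, 0, 0, 0], [0, 0, 0, 0, 0, 0, 0], [-1, 0, 1, 0, 0, 0, 0], [3, 0, -3, 0, 0, 0, 0], [-3,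 0, 3, 0, 0, 0, 0], [1, 0, -1, 0, 0, 0, 0], [0, 0, 0, 0, 0, 0, 0], [0, 0, 0, 0, 0, 0, 0]], [[0, 0, 0, 0, 0, 0, 0], [0, 0, 0, 0, 0, 0, 0], [0, 0, 0, 0, 0, 0, 0], [0, 0, 0, 0, 0, 0, 0], [-1, 0, 2, 0, -1, 0, 0], [1, 0, -2, 0, 1, 0, 0], [0, 0, 0, 0, 0, 0, 0], [0, 0, 0, 0, 0, 0, 0]], [[1, 0, 0, 0, 0, 0, 0], [-6, 0, 0, 0, 0, 0, 0], [15, 0, 0, 0, 0, 0, 0], [-20, 0, 0, 0, 0, 0, 0], [15, 0, 0, 0, 0, 0, 0], [-6, 0, 0, 0, 0, 0, 0], [1, 0, 0, 0, 0, 0, 0], [0, 0, 0, 0, 0, 0, 0]], [[0, 0, 0, 0, 0, 0, 0], [0, 0, 0, 0, 0, 0, 0], [1, 0, -1, 0, 0, 0, 0], [-4, 0, 4, 0, 0, 0, 0], [6, 0, -6, 0, 0, 0, 0], [-4, 0, 4, 0, 0, 0, 0], [1, 0, -1, 0, 0, 0, 0], [0, 0, 0, 0, 0, 0, 0]], [[0, 0, 0, 0, 0, 0, 0], [0, 0, 0, 0, 0, 0, 0], [0, 0, 0, 0, 0, 0, 0], [0, 0, 0, 0, 0, 0, 0], [1, 0, -2, 0, 1, 0, 0], [-2, 0, 4, 0, -2, 0, 0], [1, 0, -2, 0, 1, 0, 0], [0, 0, 0, 0, 0, 0, 0]],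 [[0, 0, 0, 0, 0, 0, 0], [0, 0, 0, 0, 0, 0, 0], [0, 0, 0, 0, 0, 0, 0], [0, 0, 0, 0, 0, 0, 0], [0, 0, 0, 0, 0, 0, 0], [0, 0, 0, 0, 0, 0, 0], [1, 0, -3, 0, 3, 0, -1], [0, 0, 0, 0, 0, 0, 0]], [[-1, 0, 0, 0, 0, 0, 0], [7, 0, 0, 0, 0, 0, 0], [-21, 0, 0, 0, 0, 0, 0], [35, 0, 0, 0, 0, 0, 0], [-35, 0, 0, 0, 0, 0, 0], [21, 0, 0, 0, 0, 0, 0], [-7, 0, 0, 0, 0, 0, 0], [1, 0, 0, 0, 0, 0, 0]], [[0, 0, 0, 0, 0, 0, 0], [0, 0, 0, 0, 0, 0, 0], [-1, 0, 1, 0, 0, 0, 0], [5, 0, -5, 0, 0, 0, 0], [-10, 0, 10, 0, 0, 0, 0], [10, 0, -10, 0, 0, 0, 0], [-5, 0, 5, 0, 0, 0, 0], [1, 0, -1, 0, 0, 0, 0]], [[0, 0, 0, 0, 0, 0, 0], [0, 0, 0, 0, 0, 0, 0], [0, 0, 0, 0, 0, 0, 0], [0, 0, 0, 0, 0, 0, 0], [-1, 0, 2, 0, -1, 0, 0], [3, 0, -6, 0, 3, 0, 0], [-3, 0, 6, 0, -3, 0, 0], [1, 0, -2, 0, 1, 0, 0]], [[0, 0, 0, 0, 0, 0, 0], [0, 0, 0, 0, 0, 0, 0], [0, 0, 0, 0, 0, 0, 0], [0, 0, 0, 0,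 0, 0, 0], [0, 0, 0, 0, 0, 0, 0], [0, 0, 0, 0, 0, 0, 0], [-1, 0, 3, 0, -3, 0, 1], [1, 0, -3, 0, 3, 0, -1]], [[0, 0, 0, 0, 0, 0, 0], [1, -1, 0, 0, 0, 0, 0], [0, 0, 0, 0, 0, 0, 0], [0, 0, 0, 0, 0, 0, 0], [0, 0, 0, 0, 0, 0, 0], [0, 0, 0, 0, 0, 0, 0], [0, 0, 0, 0, 0, 0, 0], [0, 0, 0, 0, 0, 0, 0]], [[0, 0, 0, 0, 0, 0, 0], [1, 0, -1, 0, 0, 0, 0], [0, 0, 0, 0, 0, 0, 0], [0, 0, 0, 0, 0, 0, 0], [0, 0, 0, 0, 0, 0, 0], [0, 0, 0, 0, 0, 0, 0], [0, 0, 0, 0, 0, 0, 0], [0, 0, 0, 0, 0, 0, 0]], [[0, 0, 0, 0, 0, 0, 0], [1, 0, -2, 0, 1, 0, 0], [0, 0, 0, 0, 0, 0, 0], [0, 0, 0, 0, 0, 0, 0], [0, 0, 0, 0, 0, 0, 0], [0, 0, 0, 0, 0, 0, 0], [0, 0, 0, 0, 0, 0, 0], [0, 0, 0, 0, 0, 0, 0]]]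

/-- the symmetric matrix -/
def C : List (List Int) :=
  [[0, -687888, 0, 687888, 576, 849024, 139032, 0, -1185048, -528624, 72000, -1203056, 730808, -14328, 69768, 1018152, -210378, -8736, 391104, 492336, -173760], [-687888, -2192112, 771984, 1456056, 899280, 3781800, -784260, -2334240, -3010068, 684360, -442512, -2447312, -365404, 210420, 1700244, 1201644, 817989, -280752, 956448, 617832, 374880], [0, 771984, 0, -771984, 0, 1966608, 555552, 0, -2200752, -2057904, 254496, -104592, 2814384, -32208, 254496, 88560, -956754, -15552, 868464, -1206216, -615216], [687888, 1456056, -771984, -720000, -898944, -4228416, 449472, 2334480, 2514240, -88560, 475392, 3565440, 0, -237696, -1668792, -1824624, -760260, 304104, -288000, -216000, -72000], [576, 899280, 0, -898944, 1338240, -1523232, -482352, 1469472, -471504, 1302528, -670848, 2160032, -471056,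 -67920, -827040, -1039824, -59532, 38976, 351168, -1074336, 560832], [849024, 3781800, 1966608, -4228416, -1523232, 1329264, -1028232, -3934584, 5999688, 1357056, 72864, -1896432, -1246584, 168552, 1395144, -1429272, -34938, 36720, -1470816, -3109680, 341856], [139032, -784260, 555552, 449472, -482352, -1028232, 597792, -1085664, 1788648, -679488, 231024, 1646984, 235528, -183840, 390048, -1158840, -669714, 260304, -251616, 480144, -299424], [0, -2334240, 0, 2334480, 1469472, -3934584, -1085664, 2515968, 1766736, 3486384, -324864, -2809184, -3159184, 23184, -1394304, 1443672, 1389966, -101328, -300960, 2484768, 1112832], [-1185048, -3010068, -2200752, 2514240, -471504, 5999688, 1788648, 1766736, -8552064, -7621656, 885792, -6854032, 11585152, 802416, -57624, 8589744, -4529220, -1089624, -1200000, 2159328, 234720], [-528624, 684360, -2057904,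 -88560, 1302528, 1357056, -679488, 3486384, -7621656, 4592832, -193728, 841408, -3976288, -214464, -919776, 1032264, 2494680, -182544, 684480, -251472, 37440], [72000, -442512, 254496, 475392, -670848, 72864, 231024, -324864, 885792, -193728, 1560768, -1112656, -478832, -42528, 1043712, -625824, 333180, 82080, 371616, 306336, -451776], [-1203056, -2447312, -104592, 3565440, 2160032, -1896432, 1646984, -2809184, -6854032, 841408, -1112656, 21306960, -5451240, -1199752, 1330320, -11608128, 1267830, 1468008, 2787120, 2297520, -3388320], [730808, -365404, 2814384, 0, -471056, -1246584, 235528, -3159184, 11585152, -3976288, -478832, -5451240, 780000, 239416, 537072, -1433808, 302580, 238968, 0, 0, 0], [-14328, 210420, -32208, -237696, -67920, 168552, -183840, 23184, 802416, -214464, -42528, -1199752, 239416, 102336, -33840, 686736, -160830, -43344,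 -185808, -153168, 225888], [69768, 1700244, 254496, -1668792, -827040, 1395144, 390048, -1394304, -57624, -919776, 1043712, 1330320, 537072, -33840, 1456896, -2129544, 76218, 34032, 372384, -1838304, -569424], [1018152, 1201644, 88560, -1824624, -1039824, -1429272, -1158840, 1443672, 8589744, 1032264, -625824, -11608128, -1433808, 686736, -2129544, 3648384, 3105540, -949824, -1061568, -1070784, 1637856], [-210378, 817989, -956754, -760260, -59532, -34938, -669714, 1389966, -4529220, 2494680, 333180, 1267830, 302580, -160830, 76218, 3105540, -1995450, 140010, -442320, -446160, 682440], [-8736, -280752, -15552, 304104, 38976, 36720, 260304, -101328, -1089624, -182544, 82080, 1468008, 238968, -43344, 34032, -949824, 140010, -44736, 176928, 178464, -272976], [391104, 956448, 868464, -288000, 351168, -1470816, -251616, -300960, -1200000, 684480,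 371616, 2787120, 0, -185808, 372384, -1061568, -442320, 176928, 0, 0, 0], [492336, 617832, -1206216, -216000, -1074336, -3109680, 480144, 2484768, 2159328, -251472, 306336, 2297520, 0, -153168, -1838304, -1070784, -446160, 178464, 0, 0, 0], [-173760, 374880, -615216, -72000, 560832, 341856, -299424, 1112832, 234720, 37440, -451776, -3388320, 0, 225888, -569424, 1637856, 682440, -272976, 0, 0, 0]]

/-- data of the check -/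
def D : Data where
  k := 106
  n := 8
  m := 7
  n' := 8
  m' := 7
  XM := 3
  YM := 10
  XM' := 3
  YM' := 10
  S := 128
  S' := 128
  SC := 538839232
  cr := 1
  cy := 5
  cr' := 1
  cy' := 5
  C := C
  fs := fs
  gs := fs

/-- the cells -/
def cells : List ((Int × Int) × List (Int × Int)) :=
  [((0, 1), [(0, 2), (2, 5)]), ((1, 2), [(0, 2), (2, 5)])]

theorem D_ok : D.ok = true := by decide +kernel

theorem D_sym : symOK D.fs.length D.C = true := by decide +kernel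

theorem cov : covOK 0 2 0 5 cells = true := by decide +kernel

theorem row_0_0 : D.row 0 2 0 5 (0, 1) (0, 2)
    [((0, 1), [(0, 2), (2, 5)]), ((1, 2), [(0, 2), (2, 5)])] = true := by decide +kernel

theorem row_0_1 : D.row 0 2 0 5 (0, 1) (2, 5)
    [((0, 1), [(0, 2), (2, 5)]), ((1, 2), [(0, 2), (2, 5)])] = true := by decide +kernel

theorem row_1_0 : D.row 1 2 0 5 (1, 2) (0, 2)
    [((1, 2), [(0, 2), (2, 5)])] = true := by decide +kernel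

theorem row_1_1 : D.row 1 2 0 5 (1, 2) (2, 5)
    [((1, 2), [(0, 2), (2, 5)])] = true := by decide +kernel

theorem rows : ∀ I' ∈ cells, ∀ J' ∈ I'.2, ∃ left,
    D.row I'.1.1 2 0 5 I'.1 J' left = true := by
  simp only [cells, List.forall_mem_cons, List.not_mem_nil, false_imp_iff, implies_true, and_true]
  exact ⟨⟨⟨_, row_0_0⟩, ⟨_, row_0_1⟩⟩, ⟨⟨_, row_1_0⟩, ⟨_, row_1_1⟩⟩⟩

/-- **the inequality** -/
theorem nonneg {r y r2 y2 : ℝ} (hr0 : 0 ≤ r) (hr1 : r ≤ 2) (hy0 : 0 ≤ y) (hy1 : y ≤ 1)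
    (hr0' : 0 ≤ r2) (hr1' : r2 ≤ 2) (hy0' : 0 ≤ y2) (hy1' : y2 ≤ 1) :
    0 ≤ bil C (fs.map (ev2 r y)) (fs.map (ev2 r2 y2)) := by
  have e1 : (((0 : Int) : ℝ) / ((D.cr : Int) : ℝ)) = 0 := by
    show (((0 : Int) : ℝ) / (((1 : Int)) : ℝ)) = 0
    norm_num
  have e2 : (((2 : Int) : ℝ) / ((D.cr : Int) : ℝ)) = 2 := by
    show (((2 : Int) : ℝ) / (((1 : Int)) : ℝ)) = 2
    norm_num
  have e3 : (((0 : Int) : ℝ) / ((D.cy : Int) : ℝ)) = 0 := by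
    show (((0 : Int) : ℝ) / (((5 : Int)) : ℝ)) = 0
    norm_num
  have e4 : (((5 : Int) : ℝ) / ((D.cy : Int) : ℝ)) = 1 := by
    show (((5 : Int) : ℝ) / (((5 : Int)) : ℝ)) = 1
    norm_num
  exact Data.sym_sound D_ok rfl rfl rfl D_sym cov rows (e1.trans_le hr0) (hr1.trans_eq e2.symm)
    (e3.trans_le hy0) (hy1.trans_eq e4.symm) (e1.trans_le hr0') (hr1'.trans_eq e2.symm)
    (e3.trans_le hy0') (hy1'.trans_eq e4.symm)

end Crest.Agent.R163.Q4Sub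
end

-- ▼ part R163/Q4Sub
section

/-!
Row 163, `q = 4`: subadditivity of `χ²` on the class `ψ₄` (field `chisub` of `PairHyp`).
-/

set_option autoImplicit false

namespace Crest.Agent.R163.Q4Sub

open Bern

/-- the pair functions of the certificate -/
noncomputable def F : List (ℝ → ℝ → ℝ) :=
  [fun r y => (r - 1) ^ 2 * (r ^ 2 * (1 - y ^ 2)) ^ 0, fun r y => (r - 1) ^ 0 * (r ^ 2 * (1 - y ^ 2)) ^ 1, fun r y => (r - 1) ^ 3 * (r ^ 2 * (1 - y ^ 2)) ^ 0, fun r y => (r - 1) ^ 1 * (r ^ 2 * (1 - y ^ 2)) ^ 1, fun r y => (r - 1) ^ 4 * (r ^ 2 * (1 - y ^ 2)) ^ 0, fun r y => (r - 1) ^ 2 * (r ^ 2 * (1 - y ^ 2)) ^ 1, fun r y => (r - 1) ^ 0 * (r ^ 2 * (1 - y ^ 2)) ^ 2, fun r y => (r - 1) ^ 5 * (r ^ 2 * (1 - y ^ 2)) ^ 0, fun r y => (r - 1) ^ 3 * (r ^ 2 * (1 - y ^ 2)) ^ 1, fun r y => (r - 1) ^ 1 * (r ^ 2 * (1 - y ^ 2)) ^ 2, fun r y => (r - 1) ^ 6 * (r ^ 2 *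 (1 - y ^ 2)) ^ 0, fun r y => (r - 1) ^ 4 * (r ^ 2 * (1 - y ^ 2)) ^ 1, fun r y => (r - 1) ^ 2 * (r ^ 2 * (1 - y ^ 2)) ^ 2, fun r y => (r - 1) ^ 0 * (r ^ 2 * (1 - y ^ 2)) ^ 3, fun r y => (r - 1) ^ 7 * (r ^ 2 * (1 - y ^ 2)) ^ 0, fun r y => (r - 1) ^ 5 * (r ^ 2 * (1 - y ^ 2)) ^ 1, fun r y => (r - 1) ^ 3 * (r ^ 2 * (1 - y ^ 2)) ^ 2, fun r y => (r - 1) ^ 1 * (r ^ 2 * (1 - y ^ 2)) ^ 3, fun r y => r * (1 - y), fun r y => r * (1 - y ^ 2), fun r y => r * (1 - y ^ 2) ^ 2]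

lemma fs_map (r y : ℝ) : fs.map (ev2 r y) = F.map fun f => f r y := by
  simp only [fs, F, List.map_cons, List.map_nil, ev2, evRows, ev]
  push_cast
  refine congrArg₂ List.cons (by ring) ?_
  iterate 19 refine congrArg₂ List.cons (by ring) ?_
  exact congrArg₂ List.cons (by ring) rfl

lemma F_pav {v : Fin 4 → ℝ} (hv : ∀ i, 0 ≤ v i) (h1 : avg v = 1) :
    (F.map fun f => pav f v) =
      [(1/3) * sI v, (2/3) * sI v, 0, (2) * tI v, (-2/3) * eI v + (1/3) * sI v ^ 2, (2/3) * eI v, (2/3) * eI v + (2/3) * sI v ^ 2, 0, (2/3) * sI v * tI v, (8/3) * sI v * tI v, (1) * tI v ^ 2 + (-1) * sI v * eI v + (1/3) * sI v ^ 3, (-1) * tI v ^ 2 + (1/3) * sI v * eI v, (5) * tI v ^ 2 + (1/3) * sI v * eI v, (-13) * tI v ^ 2 + (3) * sI v * eI v + (2/3) * sI v ^ 3, 0, (-4/3) * tI v * eI v + (2/3) * sI v ^ 2 * tI v, (8/3) * tI v * eI v, (-4/3) * tI v * eI v + (4) *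 sI v ^ 2 * tI v, eta4 v, L2f v, L4f v] := by
  simp only [F, List.map_cons, List.map_nil, pav]
  rw [pr_w2_U0 hv h1, pr_w0_U1 hv h1, pr_w3_U0 hv h1, pr_w1_U1 hv h1, pr_w4_U0 hv h1, pr_w2_U1 hv h1, pr_w0_U2 hv h1, pr_w5_U0 hv h1, pr_w3_U1 hv h1, pr_w1_U2 hv h1, pr_w6_U0 hv h1, pr_w4_U1 hv h1, pr_w2_U2 hv h1, pr_w0_U3 hv h1, pr_w7_U0 hv h1, pr_w5_U1 hv h1, pr_w3_U2 hv h1, pr_w1_U3 hv h1]
  rfl

/-- the multiplier of the subadditivity inequality, on vectors of mean one -/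
noncomputable def B0 (v : Fin 4 → ℝ) : ℝ :=
  4 / 3 * sI v - tI v - 11 / 125 * sI v ^ 2 - 12 / 5 * eI v + 89 / 50 * sI v * tI v

lemma key_identity {u v : Fin 4 → ℝ} (hu : ∀ i, 0 ≤ u i) (hv : ∀ i, 0 ≤ v i) (hu1 : avg u = 1)
    (hv1 : avg v = 1) :
    bil C (F.map fun f => pav f u) (F.map fun f => pav f v) =
      480000 * (sI u + sI v - 3 +
        (1 * gG0 (sI u) (tI u) (eI u) (sI v) (tI v) (eI v) +
        (-1) * gG1 (sI u) (tI u) (eI u) (sI v) (tI v) (eI v) +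
        1 * gG2 (sI u) (tI u) (eI u) (sI v) (tI v) (eI v) +
        (-1) * gG3 (sI u) (tI u) (eI u) (sI v) (tI v) (eI v) +
        (3 / 4) * gG4 (sI u) (tI u) (eI u) (sI v) (tI v) (eI v) +
        (-1 / 4) * gG5 (sI u) (tI u) (eI u) (sI v) (tI v) (eI v)) -
        B0 v * (sI u - 6 / 5 * eta4 u - 9 / 10 * L2f u - 3 / 10 * L4f u) -
        B0 u * (sI v - 6 / 5 * eta4 v - 9 / 10 * L2f v - 3 / 10 * L4f v)) := by
  rw [F_pav hu hu1, F_pav hv hv1]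
  unfold B0 gG0 gG1 gG2 gG3 gG4 gG5 gE0 gE1 gE2 gE3 gE4 gE5 gE6 gE7 gF0 gF1 gF2 gF3 gF4 gF5
  generalize sI u = s
  generalize tI u = t
  generalize eI u = e
  generalize sI v = s'
  generalize tI v = t'
  generalize eI v = e'
  generalize eta4 u = n
  generalize L2f u = l2
  generalize L4f u = l4
  generalize eta4 v = n'
  generalize L2f v = l2'
  generalize L4f v = l4'
  simp only [C, bil, dotR]
  push_cast
  ring

/-- polynomial minorant of `1 / (1 + z)` -/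
lemma chi_le_trunc (w : Fin 4 → ℝ) (hw : ∀ i, 0 ≤ w i) :
    chi w ≤ 3 * (avg w - 1) ^ 0 + 3 * (avg w - 1) ^ 1 + 0 * (avg w - 1) ^ 2 +
      0 * (avg w - 1) ^ 3 + 0 * (avg w - 1) ^ 4 + 0 * (avg w - 1) ^ 5 + 0 * (avg w - 1) ^ 6 +
      0 * (avg w - 1) ^ 7 + EE w * ((-1) * (avg w - 1) ^ 0 + 1 * (avg w - 1) ^ 1 +
      (-1) * (avg w - 1) ^ 2 + 1 * (avg w - 1) ^ 3 + (-3 / 4) * (avg w - 1) ^ 4 +
      (1 / 4) * (avg w - 1) ^ 5) := by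
  have h := chi_le_poly hw
    (p := 1 - (avg w - 1) + (avg w - 1) ^ 2 - (avg w - 1) ^ 3 + 3 / 4 * (avg w - 1) ^ 4 -
      1 / 4 * (avg w - 1) ^ 5)
    (ρ := ((avg w - 1) ^ 2 * (1 - (avg w - 1)) / 2) ^ 2) (sq_nonneg _) (by ring)
  refine h.trans (le_of_eq ?_)
  ring

/-- **subadditivity of `χ²`** (field `chisub`) for vectors of mean one -/
theorem chisub {u v : Fin 4 → ℝ} (hu : ∀ i, 0 ≤ u i) (hv : ∀ i, 0 ≤ v i) (hu1 : avg u = 1)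
    (hv1 : avg v = 1) :
    orb chi u v ≤ chi u + chi v - B0 v * psi4 u - B0 u * psi4 v := by
  have h1 := orb_le chi_le_trunc hu hv
  rw [orb_poly 3 3 0 0 0 0 0 0 (-1) 1 (-1) 1 (-3 / 4) (1 / 4) hu1 hv1] at h1
  have h2 := bil_pav_nonneg C F (fun r y r2 y2 a1 a2 a3 a4 a5 a6 a7 a8 => by
    rw [← fs_map, ← fs_map]
    exact nonneg a1 a2 a3 a4 a5 a6 a7 a8) hu hv hu1 hv1
  rw [key_identity hu hv hu1 hv1] at h2
  have e0 : gE0 (sI u) (tI u) (eI u) (sI v) (tI v) (eI v) = 1 := by unfold gE0; ring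
  have e1 : gE1 (sI u) (tI u) (eI u) (sI v) (tI v) (eI v) = 0 := rfl
  rw [e0, e1] at h1
  unfold psi4
  rw [chi_eq_sI hu1, chi_eq_sI hv1]
  linarith

/-! #### the multiplier `B` is bounded below by a multiple of `χ²` -/

/-- pair polynomial of `B0 - chi / 50` -/
noncomputable def Tp (r x : ℝ) : ℝ :=
  1 / 2 * ((r - 1) ^ 2 * (r ^ 2 * x) ^ 0) + 43 / 25 * ((r - 1) ^ 0 * (r ^ 2 * x) ^ 1) +
    (-1 / 2) * ((r - 1) ^ 1 * (r ^ 2 * x) ^ 1) + 167 / 125 * ((r - 1) ^ 4 * (r ^ 2 * x) ^ 0) +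
    (-183 / 125) * ((r - 1) ^ 2 * (r ^ 2 * x) ^ 1) +
    (-133 / 100) * ((r - 1) ^ 3 * (r ^ 2 * x) ^ 1) +
    1 / 2 * ((r - 1) ^ 3 * (r ^ 2 * x) ^ 0) + (-4 / 5) * ((r - 1) ^ 0 * (r ^ 2 * x) ^ 2) +
    9 / 8 * ((r - 1) ^ 5 * (r ^ 2 * x) ^ 0) + 1 * ((r - 1) ^ 1 * (r ^ 2 * x) ^ 2)

lemma Tp_nonneg {r x : ℝ} (hr0 : 0 ≤ r) (hr2 : r ≤ 2) (hx0 : 0 ≤ x) (hx1 : x ≤ 1) :
    0 ≤ Tp r x := by
  have hx : 0 ≤ 1 - x := by linarith
  rcases le_total r 1 with h | h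
  · have h1 : 0 ≤ 1 - r := by linarith
    have e : Tp r x = (211/1000) * (r ^ 0 * (1 - r) ^ 5 * (x ^ 0 * (1 - x) ^ 2)) +
      (211/500) * (r ^ 0 * (1 - r) ^ 5 * (x ^ 1 * (1 - x) ^ 1)) +
      (211/1000) * (r ^ 0 * (1 - r) ^ 5 * (x ^ 2 * (1 - x) ^ 0)) +
      (459/250) * (r ^ 1 * (1 - r) ^ 4 * (x ^ 0 * (1 - x) ^ 2)) +
      (459/125) * (r ^ 1 * (1 - r) ^ 4 * (x ^ 1 * (1 - x) ^ 1)) +
      (459/250) * (r ^ 1 * (1 - r) ^ 4 * (x ^ 2 * (1 - x) ^ 0)) +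
      1 * (r ^ 2 * (1 - r) ^ 3 * (x ^ 0 * (1 - x) ^ 2)) +
      (2043/500) * (r ^ 2 * (1 - r) ^ 3 * (x ^ 1 * (1 - x) ^ 1)) +
      (1543/500) * (r ^ 2 * (1 - r) ^ 3 * (x ^ 2 * (1 - x) ^ 0)) +
      (1/2) * (r ^ 3 * (1 - r) ^ 2 * (x ^ 0 * (1 - x) ^ 2)) +
      (712/125) * (r ^ 3 * (1 - r) ^ 2 * (x ^ 1 * (1 - x) ^ 1)) +
      (1299/250) * (r ^ 3 * (1 - r) ^ 2 * (x ^ 2 * (1 - x) ^ 0)) +
      (283/50) * (r ^ 4 * (1 - r) ^ 1 * (x ^ 1 * (1 - x) ^ 1)) +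
      (193/50) * (r ^ 4 * (1 - r) ^ 1 * (x ^ 2 * (1 - x) ^ 0)) +
      (43/25) * (r ^ 5 * (1 - r) ^ 0 * (x ^ 1 * (1 - x) ^ 1)) +
      (23/25) * (r ^ 5 * (1 - r) ^ 0 * (x ^ 2 * (1 - x) ^ 0)) := by
      unfold Tp; ring
    rw [e]
    positivity
  · have h1 : 0 ≤ r - 1 := by linarith
    have h2 : 0 ≤ 2 - r := by linarith
    have e : Tp r x = (43/25) * ((r - 1) ^ 0 * (2 - r) ^ 5 * (x ^ 1 * (1 - x) ^ 1)) +
      (23/25) * ((r - 1) ^ 0 * (2 - r) ^ 5 * (x ^ 2 * (1 - x) ^ 0)) +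
      (577/50) * ((r - 1) ^ 1 * (2 - r) ^ 4 * (x ^ 1 * (1 - x) ^ 1)) +
      (267/50) * ((r - 1) ^ 1 * (2 - r) ^ 4 * (x ^ 2 * (1 - x) ^ 0)) +
      (1/2) * ((r - 1) ^ 2 * (2 - r) ^ 3 * (x ^ 0 * (1 - x) ^ 2)) +
      (3652/125) * ((r - 1) ^ 2 * (2 - r) ^ 3 * (x ^ 1 * (1 - x) ^ 1)) +
      (2779/250) * ((r - 1) ^ 2 * (2 - r) ^ 3 * (x ^ 2 * (1 - x) ^ 0)) +
      2 * ((r - 1) ^ 3 * (2 - r) ^ 2 * (x ^ 0 * (1 - x) ^ 2)) +
      (637/20) * ((r - 1) ^ 3 * (2 - r) ^ 2 * (x ^ 1 * (1 - x) ^ 1)) +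
      (181/20) * ((r - 1) ^ 3 * (2 - r) ^ 2 * (x ^ 2 * (1 - x) ^ 0)) +
      (959/250) * ((r - 1) ^ 4 * (2 - r) ^ 1 * (x ^ 0 * (1 - x) ^ 2)) +
      (304/25) * ((r - 1) ^ 4 * (2 - r) ^ 1 * (x ^ 1 * (1 - x) ^ 1)) +
      (481/250) * ((r - 1) ^ 4 * (2 - r) ^ 1 * (x ^ 2 * (1 - x) ^ 0)) +
      (3461/1000) * ((r - 1) ^ 5 * (2 - r) ^ 0 * (x ^ 0 * (1 - x) ^ 2)) +
      (313/500) * ((r - 1) ^ 5 * (2 - r) ^ 0 * (x ^ 1 * (1 - x) ^ 1)) +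
      (73/200) * ((r - 1) ^ 5 * (2 - r) ^ 0 * (x ^ 2 * (1 - x) ^ 0)) := by
      unfold Tp; ring
    rw [e]
    positivity

lemma B0_ge {v : Fin 4 → ℝ} (hv : ∀ i, 0 ≤ v i) (h1 : avg v = 1) :
    1 / 50 * chi v ≤ B0 v := by
  have h : 0 ≤ pr (fun a b => Tp (rr a b) (1 - yy a b ^ 2)) v := by
    refine pr_nonneg (by norm_num) fun x y hxy => ?_
    have hy0 := yy_nonneg (hv x) (hv y)
    have hy1 := yy_le_one (hv x) (hv y)
    exact Tp_nonneg (rr_nonneg (hv _) (hv _)) (rr_le_two hv h1 hxy) (by nlinarith) (by nlinarith)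
  unfold Tp at h
  simp only [pr_add, pr_const_mul] at h
  rw [pr_w2_U0 hv h1, pr_w0_U1 hv h1, pr_w1_U1 hv h1, pr_w4_U0 hv h1, pr_w2_U1 hv h1,
    pr_w3_U1 hv h1, pr_w3_U0 hv h1, pr_w0_U2 hv h1, pr_w5_U0 hv h1, pr_w1_U2 hv h1] at h
  rw [chi_eq_sI h1]
  unfold B0
  linarith

lemma abs_m_le {v : Fin 4 → ℝ} (hv : ∀ i, 0 ≤ v i) (h1 : avg v = 1) :
    |mA v| ≤ 1 ∧ |mB v| ≤ 1 ∧ |mC v| ≤ 1 := by
  rw [avg_four] at h1
  have h0 := hv 0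
  have h2 := hv 1
  have h3 := hv 2
  have h4 := hv 3
  unfold mA mB mC
  refine ⟨abs_le.2 ⟨by linarith, by linarith⟩, abs_le.2 ⟨by linarith, by linarith⟩,
    abs_le.2 ⟨by linarith, by linarith⟩⟩

lemma B0_bdd {v : Fin 4 → ℝ} (hv : ∀ i, 0 ≤ v i) (h1 : avg v = 1) : |B0 v| ≤ 20 := by
  obtain ⟨ha, hb, hc⟩ := abs_m_le hv h1
  have ha2 : mA v ^ 2 ≤ 1 := by rw [← sq_abs]; exact pow_le_one₀ (abs_nonneg _) ha
  have hb2 : mB v ^ 2 ≤ 1 := by rw [← sq_abs]; exact pow_le_one₀ (abs_nonneg _) hb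
  have hc2 : mC v ^ 2 ≤ 1 := by rw [← sq_abs]; exact pow_le_one₀ (abs_nonneg _) hc
  have pa := sq_nonneg (mA v)
  have pb := sq_nonneg (mB v)
  have pc := sq_nonneg (mC v)
  have hs0 : 0 ≤ sI v := by unfold sI; linarith
  have hs : sI v ≤ 3 := by unfold sI; linarith
  have he0 : 0 ≤ eI v := by unfold eI; positivity
  have he : eI v ≤ 3 := by
    unfold eI
    have e1 := mul_le_one₀ ha2 pb hb2
    have e2 := mul_le_one₀ ha2 pc hc2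
    have e3 := mul_le_one₀ hb2 pc hc2
    linarith
  have ht : |tI v| ≤ 1 := by
    unfold tI
    rw [abs_mul, abs_mul]
    exact mul_le_one₀ (mul_le_one₀ ha (abs_nonneg _) hb) (abs_nonneg _) hc
  obtain ⟨ht1, ht2⟩ := abs_le.1 ht
  have hst1 : -3 ≤ sI v * tI v := by nlinarith
  have hst2 : sI v * tI v ≤ 3 := by nlinarith
  have hss : sI v ^ 2 ≤ 9 := by nlinarith
  have hss0 := sq_nonneg (sI v)
  have e : B0 v = 4 / 3 * sI v - tI v - 11 / 125 * sI v ^ 2 - 12 / 5 * eI v +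
      89 / 50 * (sI v * tI v) := by unfold B0; ring
  rw [e, abs_le]
  constructor <;> linarith

/-- the multiplier `B` -/
noncomputable def BB : (Fin 4 → ℝ) → ℝ := hm B0

lemma hom_BB : Hom BB := hom_hm B0

lemma bdd_BB : Bdd BB := by
  refine bdd_of_norm hom_BB (K := 20) (by norm_num) fun v hv h1 => ?_
  unfold BB
  rw [hm_of_norm h1]
  exact B0_bdd hv h1

lemma BB_ge {v : Fin 4 → ℝ} (hv : ∀ i, 0 ≤ v i) (h1 : avg v = 1) :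
    1 / 50 * chi v ≤ BB v := by
  unfold BB
  rw [hm_of_norm h1]
  exact B0_ge hv h1

/-- **field `chisub` of `PairHyp 4 psi4 _ BB`** on vectors of mean one -/
theorem chisub_BB {u v : Fin 4 → ℝ} (hu : ∀ i, 0 ≤ u i) (hv : ∀ i, 0 ≤ v i) (hu1 : avg u = 1)
    (hv1 : avg v = 1) :
    orb chi u v ≤ chi u + chi v - BB v * psi4 u - BB u * psi4 v := by
  unfold BB
  rw [hm_of_norm hu1, hm_of_norm hv1]
  exact chisub hu hv hu1 hv1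

end Crest.Agent.R163.Q4Sub
end

-- ▼ part R163/Q4CertA

/-! Row 163, q = 4: positivity of the multiplier `theta` in (i) and of `B - s/300` in (ii)
(helper163's data), two-variable polynomials. -/

set_option autoImplicit false
set_option maxRecDepth 1000000

namespace Crest.Agent.R163.Q4CertI

open Crest.Agent.R163.Bern

/-- `65536 * (r + sum mu_j null_j - al_p)` of (i) -/
def pa : List (List Int) :=
  [[262, 0, 0, 0, 0, 0, 0], [3, 0, 0, 0, 0, 0, 0], [-8, 0, 120025, 0, 0, 0, 0], [19399, 0, -22561, 0, 0, 0, 0], [-59403, 0, -60477, 0, 863, 0, 0], [66119, 0, 29736, 0, 3078, 0, 0], [-31603, 0, -4380, 0, -1305, 0, 400], [5493, 0, -112, 0, -7, 0, 14]]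

/-- data of the check of `pa` -/
def pa_D : Data where
  k := 51
  n := 8
  m := 7
  n' := 1
  m' := 1
  XM := 7
  YM := 4
  XM' := 2
  YM' := 2
  S := 425248
  S' := 1
  SC := 1
  cr := 2
  cy := 2
  cr' := 1
  cy' := 1
  C := [[1]]
  fs := [pa]
  gs := [[[1]]]

theorem pa_ok : pa_D.ok = true := by decide +kernel

theorem pa_row : pa_D.row 0 4 0 2 (0, 1) (0, 1)
    [((0, 2), [(0, 1), (1, 2)]), ((2, 3), [(0, 1), (1, 2)]), ((3, 4), [(0, 1), (1, 2)])] = true := by decide +kernel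

theorem pa_nonneg {r y : ℝ} (hr0 : 0 ≤ r) (hr1 : r ≤ 2) (hy0 : 0 ≤ y) (hy1 : y ≤ 1) :
    0 ≤ ev2 r y pa := by
  have e1 : (((0 : Int) : ℝ) / ((pa_D.cr : Int) : ℝ)) = 0 := by
    show (((0 : Int) : ℝ) / (((2 : Int)) : ℝ)) = 0
    norm_num
  have e2 : (((4 : Int) : ℝ) / ((pa_D.cr : Int) : ℝ)) = 2 := by
    show (((4 : Int) : ℝ) / (((2 : Int)) : ℝ)) = 2
    norm_num
  have e3 : (((0 : Int) : ℝ) / ((pa_D.cy : Int) : ℝ)) = 0 := by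
    show (((0 : Int) : ℝ) / (((2 : Int)) : ℝ)) = 0
    norm_num
  have e4 : (((2 : Int) : ℝ) / ((pa_D.cy : Int) : ℝ)) = 1 := by
    show (((2 : Int) : ℝ) / (((2 : Int)) : ℝ)) = 1
    norm_num
  have h := Data.row_sound pa_ok pa_row (e1.trans_le hr0) (hr1.trans_eq e2.symm)
    (e3.trans_le hy0) (hy1.trans_eq e4.symm) (r' := 0) (y' := 0)
    (by show (((0 : Int)) : ℝ) / (((1 : Int)) : ℝ) ≤ 0; norm_num)
    (by show (0 : ℝ) ≤ (((1 : Int)) : ℝ) / (((1 : Int)) : ℝ); norm_num)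
    (by show (((0 : Int)) : ℝ) / (((1 : Int)) : ℝ) ≤ 0; norm_num)
    (by show (0 : ℝ) ≤ (((1 : Int)) : ℝ) / (((1 : Int)) : ℝ); norm_num)
  have e : pa_D.val r y 0 0 = ev2 r y pa := by
    show bil [[1]] [ev2 r y pa] [ev2 0 0 [[1]]] = _
    simp [bil, dotR, ev2, evRows, ev]
  rw [e] at h
  exact h

/-- `9830400 * (B_p + sum mu_j null_j - (1/100)(eta_p + w^2))` of (ii) -/
def pb : List (List Int) :=
  [[2589496, 0, 0, 0, 0, 0, 0], [15610954, 98304, 0, 0, 0, 0, 0], [76707146, 0, -92454850, 0, 0, 0, 0], [-472755000, 0, 371484000, 0, 0, 0, 0], [879248775, 0, -664555050, 0, 3741825, 0, 0], [-724681125, 0, 576922950, 0, -23586225, 0, 0], [275319075, 0, -231723900, 0, 6686775, 0, 8540700], [-39502725, 0, 34462800, 0, 2153925, 0, -4307850]]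





end Crest.Agent.R163.Q4CertI
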