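import Crest.Agent.R163.Window
import Crest.Agent.R163.SKLC

/-!
Row 163 (S0244 antiferro): helper418's decoupled window data (M), (B), (K) for the functionals
`C(x,t)` produce certificates `Cert` for all critical Poisson parameters `d ≥ 4 / ρ0 ^ 2` at once and
for the regular trees; covering theorems.
-/

set_option autoImplicit false

universe u

namespace Crest.Agent.R163

/-! ### the functionals `C(x,t)` -/

/-- exponents `(1 - 2x, x + it, x - it)` -/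
noncomputable def cexpxt (x t : ℝ) : Fin 3 → ℂ :=
  ![1 - 2 * x, x + t * Complex.I, x - t * Complex.I]

lemma cexpxt_swap (x t : ℝ) (i : Fin 3) :
    cexpxt x t (Equiv.swap (1 : Fin 3) 2 i) = (starRingEnd ℂ) (cexpxt x t i) := by
  fin_cases i
  · have : Equiv.swap (1 : Fin 3) 2 0 = 0 := by decide
    simp [cexpxt, this]
    left
    exact (Complex.conj_eq_iff_im.2 (by simp)).symm
  · have : Equiv.swap (1 : Fin 3) 2 1 = 2 := by decide
    simp [cexpxt, this]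
    ring
  · have : Equiv.swap (1 : Fin 3) 2 2 = 1 := by decide
    simp [cexpxt, this]

lemma lmul_cexpxt {x : ℝ} (hx : 0 ≤ x) (hx' : x ≤ 1 / 2) (t : ℝ) :
    LMul.{u} (rmon (cexpxt x t)) := by
  refine lmul_rmon (fun i => ?_) ?_ (cexpxt_swap x t)
  · fin_cases i
    · simp [cexpxt]; linarith
    · simp [cexpxt]; linarith
    · simp [cexpxt]; linarith
  · simp [cexpxt, Fin.sum_univ_three]; ring

/-- the symmetrised functional `C(x,t)` -/
noncomputable def cxt (x t : ℝ) (v : Fin 3 → ℝ) : ℝ :=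
  (∑ k : Fin 3, rmon (cexpxt x t) (fun i => v (rot3 k i))) / (3 : ℕ)

lemma lmul_cxt {x : ℝ} (hx : 0 ≤ x) (hx' : x ≤ 1 / 2) (t : ℝ) : LMul.{u} (cxt x t) :=
  (lmul_cexpxt hx hx' t).sym rot3

lemma continuous_cxt {x : ℝ} (hx : 0 < x) (hx' : x ≤ 1 / 2) (t : ℝ) : Continuous (cxt x t) := by
  have h : Continuous (rmon (cexpxt x t)) := by
    refine continuous_rmon fun i => ?_
    fin_cases i
    · rcases hx'.eq_or_lt with h | h
      · right
        subst h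
        simp [cexpxt]
      · left
        simp [cexpxt]; linarith
    · left; simpa [cexpxt] using hx
    · left; simpa [cexpxt] using hx
  unfold cxt
  refine Continuous.div_const (continuous_finsetSum _ fun k _ => ?_) _
  exact h.comp (continuous_pi fun i => continuous_apply _)

/-- the explicit form -/
noncomputable def fxt (x t a b c : ℝ) : ℝ :=
  (a ^ (1 - 2 * x) * (b * c) ^ x * Real.cos (t * (Real.log b - Real.log c)) +
    b ^ (1 - 2 * x) * (c * a) ^ x * Real.cos (t * (Real.log c - Real.log a)) +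
    c ^ (1 - 2 * x) * (a * b) ^ x * Real.cos (t * (Real.log a - Real.log b))) / 3

lemma rmon_cexpxt (x t : ℝ) {v : Fin 3 → ℝ} (hv : ∀ i, 0 < v i) :
    rmon (cexpxt x t) v = v 0 ^ (1 - 2 * x) * (v 1 * v 2) ^ x *
      Real.cos (t * (Real.log (v 1) - Real.log (v 2))) := by
  unfold rmon cmon
  rw [Fin.prod_univ_three]
  have h1 : (v 1 : ℂ) ≠ 0 := by exact_mod_cast (hv 1).ne'
  have h2 : (v 2 : ℂ) ≠ 0 := by exact_mod_cast (hv 2).ne'
  simp only [cexpxt, Matrix.cons_val_zero, Matrix.cons_val_one, Matrix.cons_val]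
  have e0 : (v 0 : ℂ) ^ ((1 : ℂ) - 2 * x) = ((v 0 ^ (1 - 2 * x) : ℝ) : ℂ) := by
    rw [Complex.ofReal_cpow (hv 0).le]
    push_cast
    rfl
  have e1 : (v 1 : ℂ) ^ ((x : ℂ) + t * Complex.I) * (v 2 : ℂ) ^ ((x : ℂ) - t * Complex.I) =
      (((v 1 * v 2) ^ x : ℝ) : ℂ) *
        Complex.exp (((t * (Real.log (v 1) - Real.log (v 2)) : ℝ) : ℂ) * Complex.I) := by
    rw [Complex.cpow_def_of_ne_zero h1, Complex.cpow_def_of_ne_zero h2, ← Complex.exp_add,
      ← Complex.ofReal_log (hv 1).le, ← Complex.ofReal_log (hv 2).le,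
      Real.rpow_def_of_pos (mul_pos (hv 1) (hv 2)), Real.log_mul (hv 1).ne' (hv 2).ne',
      Complex.ofReal_exp, ← Complex.exp_add]
    congr 1
    push_cast
    ring
  rw [mul_assoc, e0, e1, ← mul_assoc, ← Complex.ofReal_mul, Complex.re_ofReal_mul,
    Complex.exp_ofReal_mul_I_re]

lemma cxt_eq (x t : ℝ) {v : Fin 3 → ℝ} (hv : ∀ i, 0 < v i) :
    cxt x t v = fxt x t (v 0) (v 1) (v 2) := by
  unfold cxt fxt
  rw [Fin.sum_univ_three]
  rw [rmon_cexpxt x t fun i => hv _, rmon_cexpxt x t fun i => hv _, rmon_cexpxt x t fun i => hv _]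
  have e00 : rot3 0 0 = 0 := by decide
  have e01 : rot3 0 1 = 1 := by decide
  have e02 : rot3 0 2 = 2 := by decide
  have e10 : rot3 1 0 = 1 := by decide
  have e11 : rot3 1 1 = 2 := by decide
  have e12 : rot3 1 2 = 0 := by decide
  have e20 : rot3 2 0 = 2 := by decide
  have e21 : rot3 2 1 = 0 := by decide
  have e22 : rot3 2 2 = 1 := by decide
  rw [e00, e01, e02, e10, e11, e12, e20, e21, e22]
  norm_num

/-! ### from the open simplex to the closed simplex -/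

/-- an inequality between continuous functions on the open simplex extends to the closed simplex -/
lemma le_of_pos_simplex {q : ℕ} [NeZero q] {F G : (Fin q → ℝ) → ℝ}
    (hF : ContinuousOn F {v | ∀ i, 0 ≤ v i}) (hG : ContinuousOn G {v | ∀ i, 0 ≤ v i})
    (h : ∀ f : Fin q → ℝ, (∀ i, 0 < f i) → avg f = 1 → F f ≤ G f)
    (f : Fin q → ℝ) (hf : ∀ i, 0 ≤ f i) (hf1 : avg f = 1) : F f ≤ G f := by
  set p : ℕ → Fin q → ℝ := fun n i => (1 - 1 / ((n : ℝ) + 1)) * f i + 1 / ((n : ℝ) + 1) with hp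
  have hq : (q : ℝ) ≠ 0 := Nat.cast_ne_zero.mpr (NeZero.ne q)
  have hn1 : ∀ n : ℕ, 1 / ((n : ℝ) + 1) ≤ 1 := fun n => by
    rw [div_le_one (by positivity)]; linarith [(Nat.cast_nonneg n : (0 : ℝ) ≤ n)]
  have hn0 : ∀ n : ℕ, 0 < 1 / ((n : ℝ) + 1) := fun n => by positivity
  have hpos : ∀ n i, 0 < p n i := fun n i => by
    have h1 := mul_nonneg (sub_nonneg.2 (hn1 n)) (hf i)
    have h2 := hn0 n
    simp only [hp]
    linarith
  have hav : ∀ n, avg (p n) = 1 := fun n => by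
    have h1 : avg f = (∑ i, f i) / q := rfl
    have h2 : ∑ i, f i = q := by
      rw [hf1] at h1
      field_simp at h1
      linarith
    unfold avg
    simp only [hp, Finset.sum_add_distrib, ← Finset.mul_sum, h2, Finset.sum_const,
      Finset.card_univ, Fintype.card_fin, nsmul_eq_mul]
    field_simp
    ring
  have hlim : Filter.Tendsto p Filter.atTop (nhds f) := by
    rw [tendsto_pi_nhds]
    intro i
    have h1 := tendsto_one_div_add_atTop_nhds_zero_nat (𝕜 := ℝ)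
    have h2 : Filter.Tendsto (fun n : ℕ => (1 - 1 / ((n : ℝ) + 1)) * f i + 1 / ((n : ℝ) + 1))
        Filter.atTop (nhds ((1 - 0) * f i + 0)) :=
      ((tendsto_const_nhds.sub h1).mul_const _).add h1
    simpa [hp] using h2
  have hmem : ∀ n, p n ∈ {v : Fin q → ℝ | ∀ i, 0 ≤ v i} := fun n i => (hpos n i).le
  have hlim' : Filter.Tendsto p Filter.atTop (nhdsWithin f {v | ∀ i, 0 ≤ v i}) :=
    tendsto_nhdsWithin_iff.2 ⟨hlim, Filter.Eventually.of_forall hmem⟩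
  have hF' := (hF f hf).tendsto.comp hlim'
  have hG' := (hG f hf).tendsto.comp hlim'
  exact le_of_tendsto_of_tendsto' hF' hG' fun n => h (p n) (hpos n) (hav n)

/-! ### polynomials in `s = avg z ^ 2`, `c = z₁ z₂ z₃` -/

/-- `∑ a s ^ i c ^ j` -/
noncomputable def pol (P : List (ℕ × ℕ × ℝ)) (s c : ℝ) : ℝ :=
  (P.map fun e => e.2.2 * s ^ e.1 * c ^ e.2.1).sum

/-- nonnegative coefficients, no constant term -/
def PolOK (P : List (ℕ × ℕ × ℝ)) : Prop := ∀ e ∈ P, 0 ≤ e.2.2 ∧ e.1 + e.2.1 ≠ 0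

lemma pol_scale {P : List (ℕ × ℕ × ℝ)} (hP : PolOK P) {s c ρ : ℝ} (hs : 0 ≤ s) (hc : 0 ≤ c)
    (h0 : 0 ≤ ρ) (h1 : ρ ≤ 1) : pol P (ρ ^ 2 * s) (ρ ^ 3 * c) ≤ ρ ^ 2 * pol P s c := by
  induction P with
  | nil => simp [pol]
  | cons e P ih =>
    have h2 := ih fun e he => hP e (List.mem_cons_of_mem _ he)
    have h3 := hP e List.mem_cons_self
    unfold pol at h2 ⊢
    rw [List.map_cons, List.sum_cons, List.map_cons, List.sum_cons, mul_add]
    refine add_le_add ?_ h2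
    have e1 : e.2.2 * (ρ ^ 2 * s) ^ e.1 * (ρ ^ 3 * c) ^ e.2.1 =
        ρ ^ (2 * e.1 + 3 * e.2.1) * (e.2.2 * s ^ e.1 * c ^ e.2.1) := by
      rw [mul_pow, mul_pow, ← pow_mul, ← pow_mul, pow_add]; ring
    rw [e1]
    refine mul_le_mul_of_nonneg_right ?_ ?_
    · exact pow_le_pow_of_le_one h0 h1 (by omega)
    · exact mul_nonneg (mul_nonneg h3.1 (pow_nonneg hs _)) (pow_nonneg hc _)

/-! ### decoupled windows -/

/-- helper418's window data -/
structure DecWin (k : ℕ) where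
  /-- weights of the positive terms -/
  μ : Fin k → ℝ
  /-- slopes of the tangents -/
  τ : Fin k → ℝ
  /-- constants of the tangents -/
  t0 : Fin k → ℝ
  /-- weight of the negative term -/
  m : ℝ
  /-- constant of the chord -/
  a0 : ℝ
  /-- slope of the chord -/
  σ : ℝ
  /-- multiplier of `u0 ≤ u` -/
  l1 : ℝ
  /-- multiplier of `u ≤ u1` -/
  l2 : ℝ
  /-- multiplier of `x0 ≤ X` -/
  ξ : ℝ
  /-- lower end of the window -/
  u0 : ℝ
  /-- upper end of the window -/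
  u1 : ℝ
  /-- slack -/
  lam : ℝ
  /-- polynomial for `0 ≤ c` -/
  P : List (ℕ × ℕ × ℝ)
  /-- polynomial (in `s`, `-c`) for `c < 0` -/
  Q : List (ℕ × ℕ × ℝ)

namespace Win

/-- `avg z ^ 2` -/
noncomputable def s3 (x y z : ℝ) : ℝ := ((x - 1) ^ 2 + (y - 1) ^ 2 + (z - 1) ^ 2) / 3

/-- `z₁ z₂ z₃` -/
noncomputable def c3 (x y z : ℝ) : ℝ := (x - 1) * (y - 1) * (z - 1)

end Win

open Win

/-- the left side of (M), at `v` and with `s = s(w)` -/
noncomputable def DecWin.lhs {k : ℕ} (D : DecWin k) (H : Fin k → ℝ → ℝ → ℝ → ℝ)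
    (R : ℝ → ℝ → ℝ → ℝ) (v1 v2 v3 s : ℝ) : ℝ :=
  ∑ j, D.μ j * D.τ j * (1 - H j v1 v2 v3) - (D.m * D.σ - D.l1 + D.l2) * (1 - R v1 v2 v3) + D.ξ * s

/-- the potential difference in (B) -/
noncomputable def DecWin.rhs {k : ℕ} (D : DecWin k) (H : Fin k → ℝ → ℝ → ℝ → ℝ)
    (R : ℝ → ℝ → ℝ → ℝ) (x y z : ℝ) : ℝ :=
  ∑ j, D.μ j * (1 - H j x y z) - D.m * (1 - R x y z)

/-- scalar conditions on the data -/
structure DecWin.Scal {k : ℕ} (D : DecWin k) (U : ℝ → ℝ) (dom : Set ℝ) (Dmax x0 : ℝ) : Prop where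
  μ_nonneg : ∀ j, 0 ≤ D.μ j
  m_nonneg : 0 ≤ D.m
  l1_nonneg : 0 ≤ D.l1
  l2_nonneg : 0 ≤ D.l2
  ξ_nonneg : 0 ≤ D.ξ
  lam_nonneg : 0 ≤ D.lam
  tangent : ∀ j, ∀ B ∈ dom, U B ≤ D.t0 j + D.τ j * B
  chord : ∀ B, D.u0 ≤ B → B ≤ D.u1 → D.a0 + D.σ * B ≤ U B
  P_ok : PolOK D.P
  Q_ok : PolOK D.Q
  K : (Dmax + 4) * D.lam < D.l1 * D.u0 - D.l2 * D.u1 + 4 * D.ξ * x0 - ∑ j, D.μ j * D.t0 j +
    D.m * D.a0

/-- the pointwise conditions (M), (B) -/
structure DecWin.Pt {k : ℕ} (D : DecWin k) (H : Fin k → ℝ → ℝ → ℝ → ℝ) (R : ℝ → ℝ → ℝ → ℝ)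
    (ρ0 : ℝ) : Prop where
  Mp : ∀ x y z : ℝ, 0 < x → 0 < y → 0 < z → x + y + z = 3 → 0 ≤ c3 x y z →
    D.lhs H R (1 - ρ0 * (x - 1) / 2) (1 - ρ0 * (y - 1) / 2) (1 - ρ0 * (z - 1) / 2)
      (ρ0 ^ 2 * s3 x y z) ≤ pol D.P (ρ0 ^ 2 * s3 x y z) (ρ0 ^ 3 * c3 x y z) + D.lam
  Mm : ∀ x y z : ℝ, 0 < x → 0 < y → 0 < z → x + y + z = 3 → c3 x y z < 0 →
    D.lhs H R (1 - ρ0 * (x - 1) / 2) (1 - ρ0 * (y - 1) / 2) (1 - ρ0 * (z - 1) / 2)
      (ρ0 ^ 2 * s3 x y z) ≤ pol D.Q (ρ0 ^ 2 * s3 x y z) (ρ0 ^ 3 * -c3 x y z) + D.lam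
  Bp : ∀ x y z : ℝ, 0 < x → 0 < y → 0 < z → x + y + z = 3 → 0 ≤ c3 x y z →
    pol D.P (ρ0 ^ 2 * s3 x y z) (ρ0 ^ 3 * c3 x y z) / ρ0 ^ 2 ≤ 1 / 4 * D.rhs H R x y z + D.lam
  Bm : ∀ x y z : ℝ, 0 < x → 0 < y → 0 < z → x + y + z = 3 → c3 x y z < 0 →
    pol D.Q (ρ0 ^ 2 * s3 x y z) (ρ0 ^ 3 * -c3 x y z) / ρ0 ^ 2 ≤ 1 / 4 * D.rhs H R x y z + D.lam

lemma s3_scale (ρ x y z : ℝ) :
    s3 (1 + ρ * (x - 1)) (1 + ρ * (y - 1)) (1 + ρ * (z - 1)) = ρ ^ 2 * s3 x y z := by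
  unfold s3; ring

lemma c3_scale (ρ x y z : ℝ) :
    c3 (1 + ρ * (x - 1)) (1 + ρ * (y - 1)) (1 + ρ * (z - 1)) = ρ ^ 3 * c3 x y z := by
  unfold c3; ring

lemma s3_nonneg (x y z : ℝ) : 0 ≤ s3 x y z := by unfold s3; positivity

/-- the combined pointwise inequality -/
lemma DecWin.Pt.comb {k : ℕ} {D : DecWin k} {H : Fin k → ℝ → ℝ → ℝ → ℝ} {R : ℝ → ℝ → ℝ → ℝ}
    {ρ0 : ℝ} (hD : D.Pt H R ρ0) (hP : PolOK D.P) (hQ : PolOK D.Q) (hlam : 0 ≤ D.lam)
    {θ κ Dmax : ℝ} (hκ : 0 < κ) (hκθ : κ ^ 2 * θ = 1) (h0 : 0 < ρ0) (h1 : 2 * κ ≤ ρ0)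
    (hθD : θ ≤ Dmax) {x y z : ℝ} (hx : 0 < x) (hy : 0 < y) (hz : 0 < z) (hs : x + y + z = 3) :
    θ * (∑ j, D.μ j * D.τ j * (1 - H j (1 - κ * (x - 1)) (1 - κ * (y - 1)) (1 - κ * (z - 1))) -
      (D.m * D.σ - D.l1 + D.l2) *
        (1 - R (1 - κ * (x - 1)) (1 - κ * (y - 1)) (1 - κ * (z - 1)))) +
      4 * D.ξ * s3 x y z ≤ D.rhs H R x y z + (Dmax + 4) * D.lam := by
  have hθ : 0 < θ := by
    by_contra hcon
    push Not at hcon
    have : κ ^ 2 * θ ≤ 0 := mul_nonpos_of_nonneg_of_nonpos (by positivity) hcon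
    linarith
  set r : ℝ := 2 * κ / ρ0 with hr
  have hr0 : 0 < r := by positivity
  have hr1 : r ≤ 1 := by rw [hr, div_le_one h0]; exact h1
  have hrρ : ρ0 * r = 2 * κ := by rw [hr]; field_simp
  have hpos : ∀ a : ℝ, 0 < a → 0 < 1 + r * (a - 1) := by
    intro a ha
    have : 0 < r * a := mul_pos hr0 ha
    nlinarith
  have hsum : (1 + r * (x - 1)) + (1 + r * (y - 1)) + (1 + r * (z - 1)) = 3 := by
    have : x - 1 + (y - 1) + (z - 1) = 0 := by linarith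
    linear_combination r * this
  have hv : ∀ a : ℝ, 1 - ρ0 * ((1 + r * (a - 1)) - 1) / 2 = 1 - κ * (a - 1) := by
    intro a
    linear_combination (-(a - 1) / 2) * hrρ
  have hρ2 : θ * (r ^ 2 * ρ0 ^ 2) = 4 := by
    have : r ^ 2 * ρ0 ^ 2 = 4 * κ ^ 2 := by
      calc r ^ 2 * ρ0 ^ 2 = (ρ0 * r) ^ 2 := by ring
        _ = _ := by rw [hrρ]; ring
    rw [this]; linear_combination 4 * hκθ
  -- main chain
  have main : ∀ S : ℝ, D.lhs H R (1 - κ * (x - 1)) (1 - κ * (y - 1)) (1 - κ * (z - 1))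
      (ρ0 ^ 2 * (r ^ 2 * s3 x y z)) ≤ r ^ 2 * S + D.lam →
      S / ρ0 ^ 2 ≤ 1 / 4 * D.rhs H R x y z + D.lam →
      θ * (∑ j, D.μ j * D.τ j * (1 - H j (1 - κ * (x - 1)) (1 - κ * (y - 1)) (1 - κ * (z - 1))) -
      (D.m * D.σ - D.l1 + D.l2) *
        (1 - R (1 - κ * (x - 1)) (1 - κ * (y - 1)) (1 - κ * (z - 1)))) +
      4 * D.ξ * s3 x y z ≤ D.rhs H R x y z + (Dmax + 4) * D.lam := by
    intro S hM hB
    have hM' := mul_le_mul_of_nonneg_left hM hθ.le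
    have e1 : θ * D.lhs H R (1 - κ * (x - 1)) (1 - κ * (y - 1)) (1 - κ * (z - 1))
        (ρ0 ^ 2 * (r ^ 2 * s3 x y z)) =
        θ * (∑ j, D.μ j * D.τ j *
          (1 - H j (1 - κ * (x - 1)) (1 - κ * (y - 1)) (1 - κ * (z - 1))) -
          (D.m * D.σ - D.l1 + D.l2) *
          (1 - R (1 - κ * (x - 1)) (1 - κ * (y - 1)) (1 - κ * (z - 1)))) +
        4 * D.ξ * s3 x y z := by
      unfold DecWin.lhs
      linear_combination (D.ξ * s3 x y z) * hρ2
    rw [e1] at hM'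
    have e2 : S = ρ0 ^ 2 * (S / ρ0 ^ 2) := by field_simp
    have e3 : θ * (r ^ 2 * S + D.lam) = 4 * (S / ρ0 ^ 2) + θ * D.lam := by
      calc θ * (r ^ 2 * S + D.lam) = θ * (r ^ 2 * (ρ0 ^ 2 * (S / ρ0 ^ 2)) + D.lam) := by
            rw [← e2]
        _ = θ * (r ^ 2 * ρ0 ^ 2) * (S / ρ0 ^ 2) + θ * D.lam := by ring
        _ = _ := by rw [hρ2]
    rw [e3] at hM'
    have h4 := mul_le_mul_of_nonneg_right hθD hlam
    linarith
  rcases le_or_gt 0 (c3 x y z) with hc | hc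
  · have hc' : 0 ≤ c3 (1 + r * (x - 1)) (1 + r * (y - 1)) (1 + r * (z - 1)) := by
      rw [c3_scale]; positivity
    have hM := hD.Mp _ _ _ (hpos x hx) (hpos y hy) (hpos z hz) hsum hc'
    rw [hv, hv, hv, s3_scale, c3_scale] at hM
    refine main (pol D.P (ρ0 ^ 2 * s3 x y z) (ρ0 ^ 3 * c3 x y z)) (hM.trans ?_)
      (hD.Bp x y z hx hy hz hs hc)
    have h5 := pol_scale hP (s := ρ0 ^ 2 * s3 x y z) (c := ρ0 ^ 3 * c3 x y z)
      (mul_nonneg (by positivity) (s3_nonneg x y z)) (by positivity) hr0.le hr1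
    have e4 : r ^ 2 * (ρ0 ^ 2 * s3 x y z) = ρ0 ^ 2 * (r ^ 2 * s3 x y z) := by ring
    have e5 : r ^ 3 * (ρ0 ^ 3 * c3 x y z) = ρ0 ^ 3 * (r ^ 3 * c3 x y z) := by ring
    rw [e4, e5] at h5
    linarith
  · have hc' : c3 (1 + r * (x - 1)) (1 + r * (y - 1)) (1 + r * (z - 1)) < 0 := by
      rw [c3_scale]
      exact mul_neg_of_pos_of_neg (by positivity) hc
    have hM := hD.Mm _ _ _ (hpos x hx) (hpos y hy) (hpos z hz) hsum hc'
    rw [hv, hv, hv, s3_scale, c3_scale] at hM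
    refine main (pol D.Q (ρ0 ^ 2 * s3 x y z) (ρ0 ^ 3 * -c3 x y z)) (hM.trans ?_)
      (hD.Bm x y z hx hy hz hs hc)
    have h5 := pol_scale hQ (s := ρ0 ^ 2 * s3 x y z) (c := ρ0 ^ 3 * -c3 x y z)
      (mul_nonneg (by positivity) (s3_nonneg x y z))
      (mul_nonneg (by positivity) (by linarith)) hr0.le hr1
    have e4 : r ^ 2 * (ρ0 ^ 2 * s3 x y z) = ρ0 ^ 2 * (r ^ 2 * s3 x y z) := by ring
    have e5 : r ^ 3 * (ρ0 ^ 3 * -c3 x y z) = ρ0 ^ 3 * -(r ^ 3 * c3 x y z) := by ring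
    rw [e4, e5] at h5
    linarith

/-! ### certificates -/

lemma W_pos_three {κ : ℝ} (h0 : 0 < κ) (h1 : κ ≤ 1 / 2) {f : Fin 3 → ℝ} (hf : ∀ i, 0 < f i)
    (hf1 : avg f = 1) (i : Fin 3) : W (-κ) f i = 1 - κ * (f i - 1) ∧ 0 < W (-κ) f i := by
  have e : W (-κ) f i = 1 - κ * (f i - 1) := by rw [W_three hf1]; ring
  refine ⟨e, ?_⟩
  have hs : f 0 + f 1 + f 2 = 3 := by
    unfold avg at hf1
    rw [Fin.sum_univ_three] at hf1
    push_cast at hf1
    linarith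
  have h3 : f i < 3 := by
    fin_cases i
    · have := hf 1; have := hf 2; show f 0 < 3; linarith
    · have := hf 0; have := hf 2; show f 1 < 3; linarith
    · have := hf 0; have := hf 1; show f 2 < 3; linarith
  rw [e]
  nlinarith

lemma sum_three {f : Fin 3 → ℝ} (hf1 : avg f = 1) : f 0 + f 1 + f 2 = 3 := by
  unfold avg at hf1
  rw [Fin.sum_univ_three] at hf1
  push_cast at hf1
  linarith

/-- general extension: an inequality between functionals of `W f`, `f` and `s3 f` -/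
lemma ext_simplex {κ : ℝ} (h0 : 0 < κ) (h1 : κ ≤ 1 / 2) {k : ℕ} {xa ta : Fin k → ℝ}
    (hx : ∀ j, 0 < xa j ∧ xa j ≤ 1 / 2) {xr tr : ℝ} (hxr : 0 < xr ∧ xr ≤ 1 / 2)
    {a b : Fin k → ℝ} {ar br cs K : ℝ}
    (H : ∀ x y z : ℝ, 0 < x → 0 < y → 0 < z → x + y + z = 3 →
      ∑ j, a j * (1 - fxt (xa j) (ta j) (1 - κ * (x - 1)) (1 - κ * (y - 1)) (1 - κ * (z - 1))) +
        ar * (1 - fxt xr tr (1 - κ * (x - 1)) (1 - κ * (y - 1)) (1 - κ * (z - 1))) +
        cs * s3 x y z + K ≤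
      ∑ j, b j * (1 - fxt (xa j) (ta j) x y z) + br * (1 - fxt xr tr x y z))
    (f : Fin 3 → ℝ) (hf : ∀ i, 0 ≤ f i) (hf1 : avg f = 1) :
    ∑ j, a j * (1 - cxt (xa j) (ta j) (W (-κ) f)) + ar * (1 - cxt xr tr (W (-κ) f)) +
        cs * chi f + K ≤
      ∑ j, b j * (1 - cxt (xa j) (ta j) f) + br * (1 - cxt xr tr f) := by
  have cW := continuous_W (q := 3) (-κ)
  have cc : ∀ j, Continuous (cxt (xa j) (ta j)) := fun j => continuous_cxt (hx j).1 (hx j).2 _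
  have cr : Continuous (cxt xr tr) := continuous_cxt hxr.1 hxr.2 _
  have key := le_of_pos_simplex (q := 3)
    (F := fun f => ∑ j, a j * (1 - cxt (xa j) (ta j) (W (-κ) f)) +
      ar * (1 - cxt xr tr (W (-κ) f)) + cs * s3 (f 0) (f 1) (f 2) + K)
    (G := fun f => ∑ j, b j * (1 - cxt (xa j) (ta j) f) + br * (1 - cxt xr tr f))
    (by
      refine Continuous.continuousOn ?_
      refine ((Continuous.add (continuous_finsetSum _ fun j _ => ?_) ?_).add ?_).add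
        continuous_const
      · exact continuous_const.mul (continuous_const.sub ((cc j).comp cW))
      · exact continuous_const.mul (continuous_const.sub (cr.comp cW))
      · unfold s3
        fun_prop)
    (by
      refine Continuous.continuousOn ?_
      refine Continuous.add (continuous_finsetSum _ fun j _ => ?_) ?_
      · exact continuous_const.mul (continuous_const.sub (cc j))
      · exact continuous_const.mul (continuous_const.sub cr))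
    (fun f hf hf1 => by
      have hW := fun i => W_pos_three h0 h1 hf hf1 i
      have h2 := H (f 0) (f 1) (f 2) (hf 0) (hf 1) (hf 2) (sum_three hf1)
      simp only [cxt_eq _ _ hf, cxt_eq _ _ fun i => (hW i).2, (hW _).1]
      exact h2) f hf hf1
  have e : s3 (f 0) (f 1) (f 2) = chi f := by rw [chi_three hf1]; rfl
  simp only [e] at key
  exact key

/-- a decoupled window gives a certificate at every `u` in the window -/
theorem DecWin.cert {k : ℕ} {D : DecWin k} {xa ta : Fin k → ℝ}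
    (hx : ∀ j, 0 < xa j ∧ xa j ≤ 1 / 2) {xr tr : ℝ} (hxr : 0 < xr ∧ xr ≤ 1 / 2)
    {U : ℝ → ℝ} {dom : Set ℝ} {θ κ Dmax x0 B0 ρ0 : ℝ} (hS : D.Scal U dom Dmax x0)
    (hdom : Set.Icc 0 B0 ⊆ dom)
    (hPt : D.Pt (fun j => fxt (xa j) (ta j)) (fxt xr tr) ρ0) (hκ : 0 < κ) (hκθ : κ ^ 2 * θ = 1)
    (h0 : 0 < ρ0) (hρ1 : ρ0 ≤ 1) (h1 : 2 * κ ≤ ρ0) (hθD : θ ≤ Dmax) (u : Fin 1 → ℝ)
    (hu0 : D.u0 ≤ u 0) (hu1 : u 0 ≤ D.u1) :
    Cert U θ (-κ) x0 B0 (fun j => cxt (xa j) (ta j)) (fun _ : Fin 1 => cxt xr tr)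
      (fun _ : Fin 0 => cxt xr tr) u := by
  refine ⟨D.μ, D.τ, D.t0, fun _ => -(D.m * D.σ - D.l1 + D.l2), fun _ => -D.m, fun _ => 0,
    4 * D.ξ, -((Dmax + 4) * D.lam), hS.μ_nonneg, fun j B hB => hS.tangent j B (hdom hB),
    fun a => a.elim0, by linarith [hS.ξ_nonneg], fun f hf hf1 => ?_, ?_⟩
  · have hb : κ ≤ 1 / 2 := by linarith
    have key := ext_simplex hκ hb hx hxr (ta := ta) (tr := tr) (a := fun j => D.μ j * D.τ j * θ)
      (b := D.μ) (ar := -(D.m * D.σ - D.l1 + D.l2) * θ) (br := -D.m) (cs := 4 * D.ξ)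
      (K := -((Dmax + 4) * D.lam))
      (fun x y z hx hy hz hs => by
        have h2 := hPt.comb hS.P_ok hS.Q_ok hS.lam_nonneg hκ hκθ h0 h1 hθD hx hy hz hs
        unfold DecWin.rhs at h2
        rw [mul_sub, Finset.mul_sum] at h2
        have e1 : ∑ j, D.μ j * D.τ j * θ * (1 - fxt (xa j) (ta j) (1 - κ * (x - 1))
            (1 - κ * (y - 1)) (1 - κ * (z - 1))) =
            ∑ j, θ * (D.μ j * D.τ j * (1 - fxt (xa j) (ta j) (1 - κ * (x - 1))
            (1 - κ * (y - 1)) (1 - κ * (z - 1)))) :=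
          Finset.sum_congr rfl fun j _ => by ring
        rw [e1]
        linarith) f hf hf1
    simp only [Finset.sum_of_isEmpty, Finset.univ_unique, Finset.sum_singleton, sub_zero]
    have e2 : ∑ j, D.μ j * (D.τ j * (θ * (1 - cxt (xa j) (ta j) (W (-κ) f)))) =
        ∑ j, D.μ j * D.τ j * θ * (1 - cxt (xa j) (ta j) (W (-κ) f)) :=
      Finset.sum_congr rfl fun j _ => by ring
    rw [e2]
    linarith
  · simp only [Finset.univ_unique, Fin.default_eq_zero, Finset.sum_singleton]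
    have h2 := hS.chord (u 0) hu0 hu1
    have h3 := mul_le_mul_of_nonneg_left h2 hS.m_nonneg
    have h4 := mul_le_mul_of_nonneg_left hu0 hS.l1_nonneg
    have h5 := mul_le_mul_of_nonneg_left hu1 hS.l2_nonneg
    have h6 := hS.K
    have e : D.m * (D.a0 + D.σ * u 0) = D.m * D.a0 + D.m * D.σ * u 0 := by ring
    rw [e] at h3
    linarith

/-- the bounds on the pinned functional: `c s ≤ 1 - r ≤ p s` on the message side -/
structure PinBd (R : ℝ → ℝ → ℝ → ℝ) (ρ0 c p : ℝ) : Prop where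
  low : ∀ x y z : ℝ, 0 < x → 0 < y → 0 < z → x + y + z = 3 → c * (ρ0 ^ 2 * s3 x y z) ≤
    1 - R (1 - ρ0 * (x - 1) / 2) (1 - ρ0 * (y - 1) / 2) (1 - ρ0 * (z - 1) / 2)
  up : ∀ x y z : ℝ, 0 < x → 0 < y → 0 < z → x + y + z = 3 →
    1 - R (1 - ρ0 * (x - 1) / 2) (1 - ρ0 * (y - 1) / 2) (1 - ρ0 * (z - 1) / 2) ≤
      p * (ρ0 ^ 2 * s3 x y z)

lemma scale_pt {κ ρ0 : ℝ} (hκ : 0 < κ) (h0 : 0 < ρ0) (h1 : 2 * κ ≤ ρ0) {x y z : ℝ}
    (hx : 0 < x) (hy : 0 < y) (hz : 0 < z) (hs : x + y + z = 3) :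
    ∃ x' y' z' : ℝ, 0 < x' ∧ 0 < y' ∧ 0 < z' ∧ x' + y' + z' = 3 ∧
      1 - ρ0 * (x' - 1) / 2 = 1 - κ * (x - 1) ∧ 1 - ρ0 * (y' - 1) / 2 = 1 - κ * (y - 1) ∧
      1 - ρ0 * (z' - 1) / 2 = 1 - κ * (z - 1) ∧ ρ0 ^ 2 * s3 x' y' z' = 4 * κ ^ 2 * s3 x y z := by
  set r : ℝ := 2 * κ / ρ0 with hr
  have hr0 : 0 < r := by positivity
  have hr1 : r ≤ 1 := by rw [hr, div_le_one h0]; exact h1
  have hrρ : ρ0 * r = 2 * κ := by rw [hr]; field_simp
  have hpos : ∀ a : ℝ, 0 < a → 0 < 1 + r * (a - 1) := by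
    intro a ha
    have : 0 < r * a := mul_pos hr0 ha
    nlinarith
  have hv : ∀ a : ℝ, 1 - ρ0 * ((1 + r * (a - 1)) - 1) / 2 = 1 - κ * (a - 1) := by
    intro a
    linear_combination (-(a - 1) / 2) * hrρ
  refine ⟨1 + r * (x - 1), 1 + r * (y - 1), 1 + r * (z - 1), hpos x hx, hpos y hy, hpos z hz,
    ?_, hv x, hv y, hv z, ?_⟩
  · have : x - 1 + (y - 1) + (z - 1) = 0 := by linarith
    linear_combination r * this
  · rw [s3_scale]
    have : ρ0 ^ 2 * r ^ 2 = 4 * κ ^ 2 := by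
      calc ρ0 ^ 2 * r ^ 2 = (ρ0 * r) ^ 2 := by ring
        _ = _ := by rw [hrρ]; ring
    linear_combination (s3 x y z) * this

/-- certificates for all values of the pinned parameter -/
theorem cert_all {k : ℕ} {xa ta : Fin k → ℝ}
    (hx : ∀ j, 0 < xa j ∧ xa j ≤ 1 / 2) {xr tr : ℝ} (hxr : 0 < xr ∧ xr ≤ 1 / 2)
    {U : ℝ → ℝ} {dom : Set ℝ} {θ κ Dmax x0 B0 ρ0 c p : ℝ} (hU0 : ∀ B ∈ Set.Icc 0 B0, U B ≤ 1)
    (hdom : Set.Icc 0 B0 ⊆ dom)
    (hκ : 0 < κ) (hκθ : κ ^ 2 * θ = 1)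
    (h0 : 0 < ρ0) (hρ1 : ρ0 ≤ 1) (h1 : 2 * κ ≤ ρ0) (hθD : θ ≤ Dmax)
    (hc : 0 ≤ c) (hp : 0 ≤ p) (hR : PinBd (fxt xr tr) ρ0 c p)
    (HW : ∀ v, 4 * c * x0 ≤ v → v ≤ 8 * p → ∃ D : DecWin k, D.Scal U dom Dmax x0 ∧
      D.Pt (fun j => fxt (xa j) (ta j)) (fxt xr tr) ρ0 ∧ D.u0 ≤ v ∧ v ≤ D.u1)
    (u : Fin 1 → ℝ) :
    Cert U θ (-κ) x0 B0 (fun j => cxt (xa j) (ta j)) (fun _ : Fin 1 => cxt xr tr)
      (fun _ : Fin 0 => cxt xr tr) u := by
  have hb : κ ≤ 1 / 2 := by linarith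
  have hθ : 0 < θ := by
    by_contra hcon
    push Not at hcon
    have : κ ^ 2 * θ ≤ 0 := mul_nonpos_of_nonneg_of_nonpos (by positivity) hcon
    linarith
  rcases lt_or_ge (u 0) (4 * c * x0) with hlo | hlo
  · -- below all windows
    refine ⟨fun _ => 0, fun _ => 0, fun _ => 1, fun _ => -1, fun _ => 0, fun _ => 0,
      4 * c, 0, fun _ => le_rfl, fun j B hB => by have := hU0 B hB; linarith,
      fun a => a.elim0, by linarith, fun f hf hf1 => ?_, ?_⟩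
    · have key := ext_simplex hκ hb hx hxr (ta := ta) (tr := tr) (a := fun _ => 0)
        (b := fun _ => 0) (ar := -θ) (br := 0) (cs := 4 * c) (K := 0)
        (fun x y z hx hy hz hs => by
          obtain ⟨x', y', z', hx', hy', hz', hs', e1, e2, e3, e4⟩ :=
            scale_pt hκ h0 h1 hx hy hz hs
          have h2 := hR.low x' y' z' hx' hy' hz' hs'
          rw [e1, e2, e3, e4] at h2
          have h3 := mul_le_mul_of_nonneg_left h2 hθ.le
          have e5 : θ * (c * (4 * κ ^ 2 * s3 x y z)) = 4 * c * s3 x y z := by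
            linear_combination (4 * c * s3 x y z) * hκθ
          rw [e5] at h3
          simp only [zero_mul, Finset.sum_const_zero]
          linarith) f hf hf1
      simp only [zero_mul, Finset.sum_const_zero, Finset.univ_unique, Finset.sum_singleton,
        sub_zero] at key ⊢
      linarith
    · simp only [Finset.univ_unique, Fin.default_eq_zero, Finset.sum_singleton, zero_mul,
        Finset.sum_const_zero]
      linarith
  rcases lt_or_ge (8 * p) (u 0) with hhi | hhi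
  · -- above all windows
    refine ⟨fun _ => 0, fun _ => 0, fun _ => 1, fun _ => 1, fun _ => 0, fun _ => 0,
      0, -(8 * p), fun _ => le_rfl, fun j B hB => by have := hU0 B hB; linarith,
      fun a => a.elim0, le_rfl, fun f hf hf1 => ?_, ?_⟩
    · have key := ext_simplex hκ hb hx hxr (ta := ta) (tr := tr) (a := fun _ => 0)
        (b := fun _ => 0) (ar := θ) (br := 0) (cs := -(4 * p)) (K := 0)
        (fun x y z hx hy hz hs => by
          obtain ⟨x', y', z', hx', hy', hz', hs', e1, e2, e3, e4⟩ :=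
            scale_pt hκ h0 h1 hx hy hz hs
          have h2 := hR.up x' y' z' hx' hy' hz' hs'
          rw [e1, e2, e3, e4] at h2
          have h3 := mul_le_mul_of_nonneg_left h2 hθ.le
          have e5 : θ * (p * (4 * κ ^ 2 * s3 x y z)) = 4 * p * s3 x y z := by
            linear_combination (4 * p * s3 x y z) * hκθ
          rw [e5] at h3
          simp only [zero_mul, Finset.sum_const_zero]
          linarith) f hf hf1
      have hchi : chi f ≤ 2 := by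
        have := chi_le (q := 3) hf
        rw [hf1] at this
        push_cast at this
        linarith
      have h4 := mul_le_mul_of_nonneg_left hchi hp
      simp only [zero_mul, Finset.sum_const_zero, Finset.univ_unique, Finset.sum_singleton,
        sub_zero] at key ⊢
      linarith
    · simp only [Finset.univ_unique, Fin.default_eq_zero, Finset.sum_singleton, zero_mul,
        Finset.sum_const_zero]
      linarith
  obtain ⟨D, hS, hPt, hu0, hu1⟩ := HW (u 0) hlo hhi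
  exact D.cert hx hxr hS hdom hPt hκ hκθ h0 hρ1 h1 hθD u hu0 hu1

/-! ### final theorems -/

/-- Poisson trees at criticality: all real `d` with `4 ≤ d ρ0²`, `d ≤ Dmax`. -/
theorem exists_lt_gw_dec {k : ℕ} {xa ta : Fin k → ℝ}
    (hx : ∀ j, 0 < xa j ∧ xa j ≤ 1 / 2) {xr tr : ℝ} (hxr : 0 < xr ∧ xr ≤ 1 / 2)
    {d Dmax x0 ρ0 c p : ℝ} (h0 : 0 < ρ0) (hρ1 : ρ0 ≤ 1) (hd : 4 ≤ d * ρ0 ^ 2) (hdD : d ≤ Dmax)
    (hc : 0 ≤ c) (hp : 0 ≤ p) (hR : PinBd (fxt xr tr) ρ0 c p)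
    (HW : ∀ v, 4 * c * x0 ≤ v → v ≤ 8 * p → ∃ D : DecWin k, D.Scal Up (Set.Ici 0) Dmax x0 ∧
      D.Pt (fun j => fxt (xa j) (ta j)) (fxt xr tr) ρ0 ∧ D.u0 ≤ v ∧ v ≤ D.u1) :
    ∃ n, J chi (gw 3 (-(1 / Real.sqrt d)) d n) < x0 := by
  have hd0 : 0 < d := by
    by_contra hcon
    push Not at hcon
    have : d * ρ0 ^ 2 ≤ 0 := mul_nonpos_of_nonpos_of_nonneg hcon (by positivity)
    linarith
  have hsq : 0 < Real.sqrt d := Real.sqrt_pos.2 hd0
  have hss : Real.sqrt d ^ 2 = d := Real.sq_sqrt hd0.le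
  have hκ : 0 < 1 / Real.sqrt d := by positivity
  have hκθ : (1 / Real.sqrt d) ^ 2 * d = 1 := by
    rw [div_pow, one_pow, hss]; field_simp
  have h1 : 2 * (1 / Real.sqrt d) ≤ ρ0 := by
    have h2 : (2 * (1 / Real.sqrt d)) ^ 2 ≤ ρ0 ^ 2 := by
      rw [mul_pow, div_pow, one_pow, hss]
      rw [show (2 : ℝ) ^ 2 * (1 / d) = 4 / d by ring, div_le_iff₀ hd0]
      linarith
    exact abs_le_of_sq_le_sq' h2 h0.le |>.2
  refine exists_lt_gw_windows (ι := Fin k) (κ := Fin 1) (γ := Fin 0)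
    (h := fun j => cxt (xa j) (ta j)) (g := fun _ => cxt xr tr) (w := fun _ => cxt xr tr)
    (adm3_neg hκ.le (by linarith)) hd0.le (fun j => lmul_cxt (hx j).1.le (hx j).2 _)
    (fun _ => lmul_cxt hxr.1.le hxr.2 _) (fun _ => lmul_cxt hxr.1.le hxr.2 _)
    (fun j => (continuous_cxt (hx j).1 (hx j).2 _).continuousOn)
    (fun _ => (continuous_cxt hxr.1 hxr.2 _).continuousOn)
    (fun _ => (continuous_cxt hxr.1 hxr.2 _).continuousOn) fun u _ _ => ?_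
  refine cert_all hx hxr (fun B hB => ?_) (fun B hB => hB.1) hκ hκθ h0 hρ1 h1 hdD hc hp hR HW u
  unfold Up
  linarith [Real.exp_pos (-B)]

/-- regular trees at criticality -/
theorem exists_lt_reg_dec {k : ℕ} {xa ta : Fin k → ℝ}
    (hx : ∀ j, 0 < xa j ∧ xa j ≤ 1 / 2) {xr tr : ℝ} (hxr : 0 < xr ∧ xr ≤ 1 / 2)
    {b : ℕ} {Dmax x0 ρ0 c p : ℝ} (h0 : 0 < ρ0) (hρ1 : ρ0 ≤ 1) (hb : 4 ≤ (b : ℝ) * ρ0 ^ 2)
    (hbD : (b : ℝ) ≤ Dmax) (hc : 0 ≤ c) (hp : 0 ≤ p) (hR : PinBd (fxt xr tr) ρ0 c p)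
    (hpos : ∀ j, ∀ x y z : ℝ, 0 < x → 0 < y → 0 < z → x + y + z = 3 →
      0 ≤ fxt (xa j) (ta j) (1 - ρ0 * (x - 1) / 2) (1 - ρ0 * (y - 1) / 2)
        (1 - ρ0 * (z - 1) / 2))
    (HW : ∀ v, 4 * c * x0 ≤ v → v ≤ 8 * p → ∃ D : DecWin k,
      D.Scal (Ub b) (Set.Icc 0 b) Dmax x0 ∧
      D.Pt (fun j => fxt (xa j) (ta j)) (fxt xr tr) ρ0 ∧ D.u0 ≤ v ∧ v ≤ D.u1) :
    ∃ n, J chi (reg 3 b (-(1 / Real.sqrt b)) n) < x0 := by
  have hd0 : (0 : ℝ) < b := by
    by_contra hcon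
    push Not at hcon
    have : (b : ℝ) * ρ0 ^ 2 ≤ 0 := mul_nonpos_of_nonpos_of_nonneg hcon (by positivity)
    linarith
  have hb0 : b ≠ 0 := by
    rintro rfl
    simp at hd0
  have hsq : 0 < Real.sqrt b := Real.sqrt_pos.2 hd0
  have hss : Real.sqrt (b : ℝ) ^ 2 = b := Real.sq_sqrt hd0.le
  have hκ : 0 < 1 / Real.sqrt b := by positivity
  have hκθ : (1 / Real.sqrt b) ^ 2 * (b : ℝ) = 1 := by
    rw [div_pow, one_pow, hss]; field_simp
  have h1 : 2 * (1 / Real.sqrt b) ≤ ρ0 := by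
    have h2 : (2 * (1 / Real.sqrt b)) ^ 2 ≤ ρ0 ^ 2 := by
      rw [mul_pow, div_pow, one_pow, hss]
      rw [show (2 : ℝ) ^ 2 * (1 / b) = 4 / b by ring, div_le_iff₀ hd0]
      linarith
    exact abs_le_of_sq_le_sq' h2 h0.le |>.2
  have hκb : 1 / Real.sqrt b ≤ 1 / 2 := by linarith
  refine exists_lt_reg_windows (ι := Fin k) (κ := Fin 1) (γ := Fin 0)
    (h := fun j => cxt (xa j) (ta j)) (g := fun _ => cxt xr tr) (w := fun _ => cxt xr tr) hb0
    (adm3_neg hκ.le hκb) (fun j => lmul_cxt (hx j).1.le (hx j).2 _)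
    (fun _ => lmul_cxt hxr.1.le hxr.2 _) (fun _ => lmul_cxt hxr.1.le hxr.2 _)
    (fun j => (continuous_cxt (hx j).1 (hx j).2 _).continuousOn)
    (fun _ => (continuous_cxt hxr.1 hxr.2 _).continuousOn)
    (fun _ => (continuous_cxt hxr.1 hxr.2 _).continuousOn) (fun j f hf => ?_)
    (fun a => a.elim0) fun u _ _ => ?_
  · -- positivity
    have hl : Adm 3 (-(1 / Real.sqrt b)) := adm3_neg hκ.le hκb
    obtain ⟨A, w, hA, hw, hw1, rfl⟩ := exists_norm hf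
    rw [W_smul, (lmul_cxt.{0} (hx j).1.le (hx j).2 (ta j)).hom A _ hA (W_nonneg hl hw)]
    refine mul_nonneg hA ?_
    have cW := continuous_W (q := 3) (-(1 / Real.sqrt b))
    refine le_of_pos_simplex (q := 3) (F := fun _ => 0)
      (G := fun f => cxt (xa j) (ta j) (W (-(1 / Real.sqrt b)) f)) continuousOn_const
      ((continuous_cxt (hx j).1 (hx j).2 _).comp cW).continuousOn (fun f hf hf1 => ?_) w hw hw1
    have hW := fun i => W_pos_three hκ hκb hf hf1 i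
    simp only [cxt_eq _ _ fun i => (hW i).2, (hW _).1]
    obtain ⟨x', y', z', hx', hy', hz', hs', e1, e2, e3, e4⟩ :=
      scale_pt hκ h0 h1 (hf 0) (hf 1) (hf 2) (sum_three hf1)
    have h2 := hpos j x' y' z' hx' hy' hz' hs'
    rwa [e1, e2, e3] at h2
  · refine cert_all hx hxr (fun B hB => ?_) subset_rfl hκ hκθ h0 hρ1 h1 hbD hc hp hR HW u
    unfold Ub
    have : 0 ≤ 1 - B / b := by
      rw [sub_nonneg, div_le_one hd0]; exact hB.2
    have := pow_nonneg this b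
    linarith

/-! ### scalar lemmas -/

/-- tangent of `Up` from rational bounds of `exp (-c)` -/
lemma Up_tangent_of {c Elo Ehi : ℝ} (hc : 0 ≤ c) (hlo : Elo ≤ Real.exp (-c))
    (hhi : Real.exp (-c) ≤ Ehi) {B : ℝ} (hB : 0 ≤ B) :
    Up B ≤ (1 - (1 + c) * Elo) + Ehi * B := by
  have h1 := Up_tangent c B
  have h2 := mul_le_mul_of_nonneg_right hhi hB
  have h3 := mul_le_mul_of_nonneg_left hlo (show 0 ≤ 1 + c by linarith)
  unfold Up at h1 ⊢
  linarith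

/-- chord of `Up` -/
lemma Up_chord_of {u0 u1 a0 σ : ℝ} (h0 : a0 + σ * u0 ≤ Up u0) (h1 : a0 + σ * u1 ≤ Up u1)
    {B : ℝ} (hB0 : u0 ≤ B) (hB1 : B ≤ u1) : a0 + σ * B ≤ Up B := by
  have hconv : ConvexOn ℝ Set.univ (fun x : ℝ => Real.exp (-x)) := by
    have := convexOn_exp.comp_linearMap (-LinearMap.id : ℝ →ₗ[ℝ] ℝ)
    simpa [Function.comp_def] using this
  rcases eq_or_lt_of_le (hB0.trans hB1) with h | h
  · have : B = u0 := le_antisymm (by rw [h]; exact hB1) hB0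
    rw [this]; exact h0
  have hd : 0 < u1 - u0 := by linarith
  have hc := hconv.2 (Set.mem_univ u0) (Set.mem_univ u1)
    (show 0 ≤ (u1 - B) / (u1 - u0) from div_nonneg (by linarith) hd.le)
    (show 0 ≤ (B - u0) / (u1 - u0) from div_nonneg (by linarith) hd.le)
    (by field_simp; ring)
  simp only [smul_eq_mul] at hc
  have e : (u1 - B) / (u1 - u0) * u0 + (B - u0) / (u1 - u0) * u1 = B := by
    field_simp; ring
  rw [e] at hc
  unfold Up at h0 h1 ⊢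
  have w0 : 0 ≤ (u1 - B) / (u1 - u0) := div_nonneg (by linarith) hd.le
  have w1 : 0 ≤ (B - u0) / (u1 - u0) := div_nonneg (by linarith) hd.le
  have g0 := mul_le_mul_of_nonneg_left h0 w0
  have g1 := mul_le_mul_of_nonneg_left h1 w1
  have e1 : (u1 - B) / (u1 - u0) + (B - u0) / (u1 - u0) = 1 := by field_simp; ring
  have e2 : (u1 - B) / (u1 - u0) * (a0 + σ * u0) + (B - u0) / (u1 - u0) * (a0 + σ * u1) =
      a0 + σ * B := by
    calc _ = a0 * ((u1 - B) / (u1 - u0) + (B - u0) / (u1 - u0)) +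
        σ * ((u1 - B) / (u1 - u0) * u0 + (B - u0) / (u1 - u0) * u1) := by ring
      _ = _ := by rw [e1, e]; ring
  have e3 : (u1 - B) / (u1 - u0) * (1 - Real.exp (-u0)) +
      (B - u0) / (u1 - u0) * (1 - Real.exp (-u1)) =
      1 - ((u1 - B) / (u1 - u0) * Real.exp (-u0) + (B - u0) / (u1 - u0) * Real.exp (-u1)) := by
    linear_combination e1
  linarith

/-- chord of `Ub` -/
lemma Ub_chord_of {b : ℕ} (hb : b ≠ 0) {u0 u1 a0 σ : ℝ} (h0 : a0 + σ * u0 ≤ Ub b u0)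
    (h1 : a0 + σ * u1 ≤ Ub b u1) (hu1 : u1 ≤ b)
    {B : ℝ} (hB0 : u0 ≤ B) (hB1 : B ≤ u1) : a0 + σ * B ≤ Ub b B := by
  have hb' : (0 : ℝ) < b := by exact_mod_cast Nat.pos_of_ne_zero hb
  rcases eq_or_lt_of_le (hB0.trans hB1) with h | h
  · have : B = u0 := le_antisymm (by rw [h]; exact hB1) hB0
    rw [this]; exact h0
  have hd : 0 < u1 - u0 := by linarith
  have hc := (convexOn_pow (𝕜 := ℝ) b).2
    (show 1 - u0 / b ∈ Set.Ici 0 from by
      rw [Set.mem_Ici, sub_nonneg, div_le_one hb']; linarith)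
    (show 1 - u1 / b ∈ Set.Ici 0 from by
      rw [Set.mem_Ici, sub_nonneg, div_le_one hb']; linarith)
    (show 0 ≤ (u1 - B) / (u1 - u0) from div_nonneg (by linarith) hd.le)
    (show 0 ≤ (B - u0) / (u1 - u0) from div_nonneg (by linarith) hd.le)
    (by field_simp; ring)
  simp only [smul_eq_mul] at hc
  have e : (u1 - B) / (u1 - u0) * u0 + (B - u0) / (u1 - u0) * u1 = B := by
    field_simp; ring
  have e1 : (u1 - B) / (u1 - u0) + (B - u0) / (u1 - u0) = 1 := by field_simp; ring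
  have e' : (u1 - B) / (u1 - u0) * (1 - u0 / b) + (B - u0) / (u1 - u0) * (1 - u1 / b) =
      1 - B / b := by
    calc _ = ((u1 - B) / (u1 - u0) + (B - u0) / (u1 - u0)) -
        ((u1 - B) / (u1 - u0) * u0 + (B - u0) / (u1 - u0) * u1) / b := by ring
      _ = _ := by rw [e1, e]
  rw [e'] at hc
  unfold Ub at h0 h1 ⊢
  have w0 : 0 ≤ (u1 - B) / (u1 - u0) := div_nonneg (by linarith) hd.le
  have w1 : 0 ≤ (B - u0) / (u1 - u0) := div_nonneg (by linarith) hd.le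
  have g0 := mul_le_mul_of_nonneg_left h0 w0
  have g1 := mul_le_mul_of_nonneg_left h1 w1
  have e2 : (u1 - B) / (u1 - u0) * (a0 + σ * u0) + (B - u0) / (u1 - u0) * (a0 + σ * u1) =
      a0 + σ * B := by
    calc _ = a0 * ((u1 - B) / (u1 - u0) + (B - u0) / (u1 - u0)) +
        σ * ((u1 - B) / (u1 - u0) * u0 + (B - u0) / (u1 - u0) * u1) := by ring
      _ = _ := by rw [e1, e]; ring
  have e3 : (u1 - B) / (u1 - u0) * (1 - (1 - u0 / b) ^ b) +
      (B - u0) / (u1 - u0) * (1 - (1 - u1 / b) ^ b) =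
      1 - ((u1 - B) / (u1 - u0) * (1 - u0 / b) ^ b + (B - u0) / (u1 - u0) * (1 - u1 / b) ^ b) := by
    linear_combination e1
  linarith



end Crest.Agent.R163
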