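import Mathlib

/-!
Row 163, window engine, part 1: interpolation error on rectangles from second derivative bounds
(values at the four vertices only), for products of complex powers of affine functions.
-/

set_option autoImplicit false

namespace Crest.Agent.R163.Win

open Set

/-- linear interpolation -/
noncomputable def lin1 (a b s A B : ℝ) : ℝ := ((b - s) * A + (s - a) * B) / (b - a)


lemma lin1_add (a b s A B A' B' : ℝ) :
    lin1 a b s (A + A') (B + B') = lin1 a b s A B + lin1 a b s A' B' := by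
  unfold lin1; ring

lemma lin1_mul (a b s c A B : ℝ) : lin1 a b s (c * A) (c * B) = c * lin1 a b s A B := by
  unfold lin1; ring

lemma lin1_le {a b s A B A' B' : ℝ} (hab : a < b) (hs : s ∈ Icc a b) (hA : A ≤ A') (hB : B ≤ B') :
    lin1 a b s A B ≤ lin1 a b s A' B' := by
  unfold lin1
  have h1 : 0 < b - a := sub_pos.mpr hab
  have h2 : 0 ≤ b - s := by linarith [hs.2]
  have h3 : 0 ≤ s - a := by linarith [hs.1]
  gcongr

lemma lin1_const {a b : ℝ} (hab : a < b) (s c : ℝ) : lin1 a b s c c = c := by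
  have h1 : b - a ≠ 0 := (sub_pos.mpr hab).ne'
  unfold lin1
  field_simp
  ring

/-- convex functions lie below the chord -/
lemma le_lin1_of_convex {φ : ℝ → ℝ} {a b : ℝ} (hab : a < b) (h : ConvexOn ℝ (Icc a b) φ) {s : ℝ}
    (hs : s ∈ Icc a b) : φ s ≤ lin1 a b s (φ a) (φ b) := by
  have h1 : 0 < b - a := sub_pos.mpr hab
  have h2 : 0 ≤ (b - s) / (b - a) := div_nonneg (by linarith [hs.2]) h1.le
  have h3 : 0 ≤ (s - a) / (b - a) := div_nonneg (by linarith [hs.1]) h1.le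
  have h4 : (b - s) / (b - a) + (s - a) / (b - a) = 1 := by
    field_simp; ring
  have h5 := h.2 (left_mem_Icc.mpr hab.le) (right_mem_Icc.mpr hab.le) h2 h3 h4
  have h6 : ((b - s) / (b - a)) • a + ((s - a) / (b - a)) • b = s := by
    simp only [smul_eq_mul]; field_simp; ring
  rw [h6] at h5
  refine h5.trans (le_of_eq ?_)
  unfold lin1
  simp only [smul_eq_mul]
  ring

/-- interpolation error from a second derivative bound -/
theorem interp1 {φ φ' φ'' : ℝ → ℝ} {a b M : ℝ} (hab : a < b)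
    (h1 : ∀ s ∈ Icc a b, HasDerivAt φ (φ' s) s) (h2 : ∀ s ∈ Icc a b, HasDerivAt φ' (φ'' s) s)
    (hM : ∀ s ∈ Icc a b, |φ'' s| ≤ M) {s : ℝ} (hs : s ∈ Icc a b) :
    |φ s - lin1 a b s (φ a) (φ b)| ≤ M * (b - a) ^ 2 / 8 := by
  have hM0 : 0 ≤ M := (abs_nonneg _).trans (hM a (left_mem_Icc.mpr hab.le))
  have hq2 : ∀ s : ℝ, HasDerivAt (fun s : ℝ => M / 2 * s ^ 2) (M * s) s := by
    intro s
    refine ((hasDerivAt_pow 2 s).const_mul (M / 2)).congr_deriv ?_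
    push_cast
    ring
  have hq1 : ∀ s : ℝ, HasDerivAt (fun s : ℝ => M * s) M s := by
    intro s
    simpa using (hasDerivAt_id s).const_mul M
  have hconv : ∀ σ : ℝ, (σ = 1 ∨ σ = -1) →
      ConvexOn ℝ (Icc a b) (fun s => σ * φ s + M / 2 * s ^ 2) := by
    intro σ hσ
    refine convexOn_of_hasDerivWithinAt2_nonneg (convex_Icc a b)
      (f' := fun s => σ * φ' s + M * s) (f'' := fun s => σ * φ'' s + M) ?_ ?_ ?_ ?_
    · intro s hs
      exact (((h1 s hs).const_mul σ).fun_add (hq2 s)).continuousAt.continuousWithinAt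
    · intro s hs
      have hs' := interior_subset hs
      exact (((h1 s hs').const_mul σ).fun_add (hq2 s)).hasDerivWithinAt
    · intro s hs
      have hs' := interior_subset hs
      exact (((h2 s hs').const_mul σ).fun_add (hq1 s)).hasDerivWithinAt
    · intro s hs
      have h3 := abs_le.mp (hM s (interior_subset hs))
      rcases hσ with rfl | rfl
      · simp only [one_mul]; linarith [h3.1]
      · simp only [neg_mul, one_mul]; linarith [h3.2]
  have hq : lin1 a b s (a ^ 2) (b ^ 2) - s ^ 2 ≤ (b - a) ^ 2 / 4 := by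
    have h3 : b - a ≠ 0 := (sub_pos.mpr hab).ne'
    have : lin1 a b s (a ^ 2) (b ^ 2) - s ^ 2 = (s - a) * (b - s) := by
      unfold lin1; field_simp; ring
    rw [this]
    nlinarith [sq_nonneg ((s - a) - (b - s))]
  have e1 := le_lin1_of_convex hab (hconv 1 (Or.inl rfl)) hs
  have e2 := le_lin1_of_convex hab (hconv (-1) (Or.inr rfl)) hs
  simp only [lin1_add, lin1_mul] at e1 e2
  have e3 : M / 2 * (lin1 a b s (a ^ 2) (b ^ 2) - s ^ 2) ≤ M / 2 * ((b - a) ^ 2 / 4) :=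
    mul_le_mul_of_nonneg_left hq (by linarith)
  rw [abs_le]
  constructor <;> nlinarith

/-! ### complex monomials along a line -/

variable {ι : Type*} [Fintype ι]

/-- `∏ (p_i + s e_i) ^ z_i` -/
noncomputable def cm (z : ι → ℂ) (p e : ι → ℝ) (s : ℝ) : ℂ :=
  Complex.exp (∑ i, z i * (Real.log (p i + s * e i) : ℂ))

/-- logarithmic derivative -/
noncomputable def cA (z : ι → ℂ) (p e : ι → ℝ) (s : ℝ) : ℂ :=
  ∑ i, z i * ((e i / (p i + s * e i) : ℝ) : ℂ)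

/-- second part -/
noncomputable def cB (z : ι → ℂ) (p e : ι → ℝ) (s : ℝ) : ℂ :=
  ∑ i, z i * (((e i / (p i + s * e i)) ^ 2 : ℝ) : ℂ)

lemma hasDerivAt_lin (p e s : ℝ) : HasDerivAt (fun s : ℝ => p + s * e) e s := by
  simpa using ((hasDerivAt_id s).mul_const e).const_add p

lemma hasDerivAt_cm {z : ι → ℂ} {p e : ι → ℝ} {s : ℝ} (h : ∀ i, 0 < p i + s * e i) :
    HasDerivAt (cm z p e) (cm z p e s * cA z p e s) s := by
  unfold cm cA
  have h1 : HasDerivAt (fun s : ℝ => ∑ i, z i * (Real.log (p i + s * e i) : ℂ))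
      (∑ i, z i * ((e i / (p i + s * e i) : ℝ) : ℂ)) s := by
    refine HasDerivAt.fun_sum fun i _ => ?_
    refine HasDerivAt.const_mul _ ?_
    exact ((hasDerivAt_lin (p i) (e i) s).log (h i).ne').ofReal_comp
  exact h1.cexp

lemma hasDerivAt_cA {z : ι → ℂ} {p e : ι → ℝ} {s : ℝ} (h : ∀ i, 0 < p i + s * e i) :
    HasDerivAt (cA z p e) (- cB z p e s) s := by
  unfold cA cB
  rw [← Finset.sum_neg_distrib]
  refine HasDerivAt.fun_sum fun i _ => ?_
  rw [← mul_neg]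
  refine HasDerivAt.const_mul _ ?_
  have h2 : HasDerivAt (fun s : ℝ => e i / (p i + s * e i)) (-(e i / (p i + s * e i)) ^ 2) s := by
    have := (hasDerivAt_const s (e i)).fun_div (hasDerivAt_lin (p i) (e i) s) (h i).ne'
    refine this.congr_deriv ?_
    rw [div_pow]
    ring
  have h3 := h2.ofReal_comp
  push_cast at h3 ⊢
  exact h3

lemma norm_cm (z : ι → ℂ) (p e : ι → ℝ) (s : ℝ) :
    ‖cm z p e s‖ = Real.exp (∑ i, (z i).re * Real.log (p i + s * e i)) := by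
  unfold cm
  rw [Complex.norm_exp]
  congr 1
  rw [Complex.re_sum]
  refine Finset.sum_congr rfl fun i _ => ?_
  simp

theorem mono_interp {z : ι → ℂ} {p e : ι → ℝ} {a b P γ : ℝ} {u : ι → ℝ} (hab : a < b)
    (hpos : ∀ s ∈ Icc a b, ∀ i, 0 < p i + s * e i)
    (hu : ∀ s ∈ Icc a b, ∀ i, |e i| * (b - a) ≤ u i * (p i + s * e i))
    (hP : ∀ s ∈ Icc a b, ‖cm z p e s‖ ≤ P) (hγ : ∀ i, ‖z i‖ ≤ γ) {s : ℝ} (hs : s ∈ Icc a b) :
    |(cm z p e s).re - lin1 a b s (cm z p e a).re (cm z p e b).re| ≤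
      P * (γ ^ 2 * (∑ i, u i) ^ 2 + γ * ∑ i, u i ^ 2) / 8 := by
  have hba : 0 < b - a := sub_pos.mpr hab
  have hP0 : 0 ≤ P := (norm_nonneg _).trans (hP a (left_mem_Icc.mpr hab.le))
  rcases isEmpty_or_nonempty ι with hι | ⟨⟨i0⟩⟩
  · have h1 : ∀ s, cm z p e s = 1 := by intro s; simp [cm]
    rw [h1, h1, h1, lin1_const hab]
    simp
  have hγ0 : 0 ≤ γ := (norm_nonneg _).trans (hγ i0)
  have hu' : ∀ s ∈ Icc a b, ∀ i, |e i / (p i + s * e i)| * (b - a) ≤ u i := by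
    intro s hs i
    have h1 := hpos s hs i
    rw [abs_div, abs_of_pos h1, div_mul_eq_mul_div, div_le_iff₀ h1]
    exact hu s hs i
  have key := interp1 (φ := fun s => (cm z p e s).re)
    (φ' := fun s => (cm z p e s * cA z p e s).re)
    (φ'' := fun s => (cm z p e s * cA z p e s * cA z p e s + cm z p e s * (- cB z p e s)).re)
    (M := P * (γ ^ 2 * (∑ i, u i) ^ 2 + γ * ∑ i, u i ^ 2) / (b - a) ^ 2) hab ?_ ?_ ?_ hs
  · refine key.trans (le_of_eq ?_)
    have h2 : (b - a) ^ 2 ≠ 0 := by positivity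
    rw [div_mul_cancel₀ _ h2]
  · intro s hs
    have := (Complex.reCLM.hasFDerivAt.comp_hasDerivAt s (hasDerivAt_cm (z := z) (hpos s hs)))
    exact this
  · intro s hs
    have h1 := (hasDerivAt_cm (z := z) (hpos s hs)).mul (hasDerivAt_cA (z := z) (hpos s hs))
    exact Complex.reCLM.hasFDerivAt.comp_hasDerivAt s h1
  · intro s hs
    refine (Complex.abs_re_le_norm _).trans ?_
    have hA : ‖cA z p e s‖ * (b - a) ≤ γ * ∑ i, u i := by
      unfold cA
      calc ‖∑ i, z i * ((e i / (p i + s * e i) : ℝ) : ℂ)‖ * (b - a) ≤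
          (∑ i, ‖z i * ((e i / (p i + s * e i) : ℝ) : ℂ)‖) * (b - a) :=
            mul_le_mul_of_nonneg_right (norm_sum_le _ _) hba.le
        _ = ∑ i, ‖z i‖ * (|e i / (p i + s * e i)| * (b - a)) := by
            rw [Finset.sum_mul]
            refine Finset.sum_congr rfl fun i _ => ?_
            rw [norm_mul, Complex.norm_real, Real.norm_eq_abs]; ring
        _ ≤ ∑ i, γ * u i := by
            refine Finset.sum_le_sum fun i _ => ?_
            exact mul_le_mul (hγ i) (hu' s hs i) (mul_nonneg (abs_nonneg _) hba.le) hγ0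
        _ = _ := by rw [Finset.mul_sum]
    have hB : ‖cB z p e s‖ * (b - a) ^ 2 ≤ γ * ∑ i, u i ^ 2 := by
      unfold cB
      calc ‖∑ i, z i * (((e i / (p i + s * e i)) ^ 2 : ℝ) : ℂ)‖ * (b - a) ^ 2 ≤
          (∑ i, ‖z i * (((e i / (p i + s * e i)) ^ 2 : ℝ) : ℂ)‖) * (b - a) ^ 2 :=
            mul_le_mul_of_nonneg_right (norm_sum_le _ _) (by positivity)
        _ = ∑ i, ‖z i‖ * (|e i / (p i + s * e i)| * (b - a)) ^ 2 := by
            rw [Finset.sum_mul]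
            refine Finset.sum_congr rfl fun i _ => ?_
            rw [norm_mul, Complex.norm_real, Real.norm_eq_abs, abs_pow]; ring
        _ ≤ ∑ i, γ * u i ^ 2 := by
            refine Finset.sum_le_sum fun i _ => ?_
            refine mul_le_mul (hγ i) ?_ (by positivity) hγ0
            exact pow_le_pow_left₀ (mul_nonneg (abs_nonneg _) hba.le) (hu' s hs i) 2
        _ = _ := by rw [Finset.mul_sum]
    have hsum : 0 ≤ ∑ i, u i := by
      refine Finset.sum_nonneg fun i _ => ?_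
      exact (mul_nonneg (abs_nonneg _) hba.le).trans (hu' s hs i)
    rw [le_div_iff₀ (by positivity)]
    calc ‖cm z p e s * cA z p e s * cA z p e s + cm z p e s * -cB z p e s‖ * (b - a) ^ 2 ≤
        (‖cm z p e s‖ * ‖cA z p e s‖ * ‖cA z p e s‖ + ‖cm z p e s‖ * ‖cB z p e s‖) * (b - a) ^ 2 := by
          refine mul_le_mul_of_nonneg_right ((norm_add_le _ _).trans ?_) (by positivity)
          simp only [norm_mul, norm_neg]
          exact le_rfl
      _ = ‖cm z p e s‖ * ((‖cA z p e s‖ * (b - a)) ^ 2 + ‖cB z p e s‖ * (b - a) ^ 2) := by ring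
      _ ≤ P * ((γ * ∑ i, u i) ^ 2 + γ * ∑ i, u i ^ 2) := by
          refine mul_le_mul (hP s hs) ?_ (by positivity) hP0
          refine add_le_add ?_ hB
          exact pow_le_pow_left₀ (mul_nonneg (norm_nonneg _) hba.le) hA 2
      _ = _ := by ring

/-! ### rectangles -/

/-- bilinear interpolation -/
noncomputable def bl (x0 x1 y0 y1 x y c00 c01 c10 c11 : ℝ) : ℝ :=
  lin1 x0 x1 x (lin1 y0 y1 y c00 c01) (lin1 y0 y1 y c10 c11)

/-- `g` is within `E` of the bilinear interpolation of the corner values `c_{ij}`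
(`i` for `x`, `j` for `y`) at the points of the rectangle with positive coordinates -/
def Mdl (x0 x1 y0 y1 : ℝ) (g : ℝ → ℝ → ℝ) (c00 c01 c10 c11 E : ℝ) : Prop :=
  ∀ x ∈ Icc x0 x1, ∀ y ∈ Icc y0 y1, 0 < x → 0 < y →
    |g x y - bl x0 x1 y0 y1 x y c00 c01 c10 c11| ≤ E

lemma abs_lin1_le {a b s A B ε : ℝ} (hab : a < b) (hs : s ∈ Icc a b) (hA : |A| ≤ ε) (hB : |B| ≤ ε) :
    |lin1 a b s A B| ≤ ε := by
  rw [abs_le] at *
  constructor
  · calc -ε = lin1 a b s (-ε) (-ε) := (lin1_const hab s _).symm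
      _ ≤ _ := lin1_le hab hs hA.1 hB.1
  · calc lin1 a b s A B ≤ lin1 a b s ε ε := lin1_le hab hs hA.2 hB.2
      _ = ε := lin1_const hab s _

lemma lin1_sub (a b s A B A' B' : ℝ) :
    lin1 a b s (A - A') (B - B') = lin1 a b s A B - lin1 a b s A' B' := by
  unfold lin1; ring

lemma Mdl.add {x0 x1 y0 y1 : ℝ} {g g' : ℝ → ℝ → ℝ} {c00 c01 c10 c11 E c00' c01' c10' c11' E' : ℝ}
    (h : Mdl x0 x1 y0 y1 g c00 c01 c10 c11 E) (h' : Mdl x0 x1 y0 y1 g' c00' c01' c10' c11' E') :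
    Mdl x0 x1 y0 y1 (fun x y => g x y + g' x y) (c00 + c00') (c01 + c01') (c10 + c10')
      (c11 + c11') (E + E') := by
  intro x hx y hy hx0 hy0
  have h1 := h x hx y hy hx0 hy0
  have h2 := h' x hx y hy hx0 hy0
  have e : bl x0 x1 y0 y1 x y (c00 + c00') (c01 + c01') (c10 + c10') (c11 + c11') =
      bl x0 x1 y0 y1 x y c00 c01 c10 c11 + bl x0 x1 y0 y1 x y c00' c01' c10' c11' := by
    unfold bl; rw [lin1_add, lin1_add, lin1_add]
  rw [e]
  calc |g x y + g' x y - (bl x0 x1 y0 y1 x y c00 c01 c10 c11 +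
        bl x0 x1 y0 y1 x y c00' c01' c10' c11')| =
      |(g x y - bl x0 x1 y0 y1 x y c00 c01 c10 c11) +
        (g' x y - bl x0 x1 y0 y1 x y c00' c01' c10' c11')| := by congr 1; ring
    _ ≤ _ := (abs_add_le _ _).trans (add_le_add h1 h2)

lemma Mdl.const_mul {x0 x1 y0 y1 : ℝ} {g : ℝ → ℝ → ℝ} {c00 c01 c10 c11 E : ℝ} (k : ℝ)
    (h : Mdl x0 x1 y0 y1 g c00 c01 c10 c11 E) :
    Mdl x0 x1 y0 y1 (fun x y => k * g x y) (k * c00) (k * c01) (k * c10) (k * c11) (|k| * E) := by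
  intro x hx y hy hx0 hy0
  have h1 := h x hx y hy hx0 hy0
  have e : bl x0 x1 y0 y1 x y (k * c00) (k * c01) (k * c10) (k * c11) =
      k * bl x0 x1 y0 y1 x y c00 c01 c10 c11 := by
    unfold bl; rw [lin1_mul, lin1_mul, lin1_mul]
  rw [e, ← mul_sub, abs_mul]
  exact mul_le_mul_of_nonneg_left h1 (abs_nonneg _)

lemma Mdl.congr {x0 x1 y0 y1 : ℝ} {g g' : ℝ → ℝ → ℝ} {c00 c01 c10 c11 E : ℝ}
    (h : Mdl x0 x1 y0 y1 g c00 c01 c10 c11 E)
    (hg : ∀ x ∈ Icc x0 x1, ∀ y ∈ Icc y0 y1, 0 < x → 0 < y → g' x y = g x y) :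
    Mdl x0 x1 y0 y1 g' c00 c01 c10 c11 E := by
  intro x hx y hy hx0 hy0
  rw [hg x hx y hy hx0 hy0]
  exact h x hx y hy hx0 hy0

lemma Mdl.mono {x0 x1 y0 y1 : ℝ} {g : ℝ → ℝ → ℝ} {c00 c01 c10 c11 E E' : ℝ}
    (h : Mdl x0 x1 y0 y1 g c00 c01 c10 c11 E) (hE : E ≤ E') :
    Mdl x0 x1 y0 y1 g c00 c01 c10 c11 E' :=
  fun x hx y hy hx0 hy0 => (h x hx y hy hx0 hy0).trans hE

lemma Mdl.perturb {x0 x1 y0 y1 : ℝ} (hx01 : x0 < x1) (hy01 : y0 < y1) {g : ℝ → ℝ → ℝ}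
    {c00 c01 c10 c11 E c00' c01' c10' c11' ε : ℝ}
    (h : Mdl x0 x1 y0 y1 g c00 c01 c10 c11 E) (h00 : |c00' - c00| ≤ ε) (h01 : |c01' - c01| ≤ ε)
    (h10 : |c10' - c10| ≤ ε) (h11 : |c11' - c11| ≤ ε) :
    Mdl x0 x1 y0 y1 g c00' c01' c10' c11' (E + ε) := by
  intro x hx y hy hx0 hy0
  have h1 := h x hx y hy hx0 hy0
  have e : bl x0 x1 y0 y1 x y c00' c01' c10' c11' - bl x0 x1 y0 y1 x y c00 c01 c10 c11 =
      lin1 x0 x1 x (lin1 y0 y1 y (c00' - c00) (c01' - c01)) (lin1 y0 y1 y (c10' - c10) (c11' - c11)) := by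
    unfold bl; rw [lin1_sub, lin1_sub, lin1_sub]
  have h2 : |bl x0 x1 y0 y1 x y c00' c01' c10' c11' - bl x0 x1 y0 y1 x y c00 c01 c10 c11| ≤ ε := by
    rw [e]
    exact abs_lin1_le hx01 hx (abs_lin1_le hy01 hy h00 h01) (abs_lin1_le hy01 hy h10 h11)
  calc |g x y - bl x0 x1 y0 y1 x y c00' c01' c10' c11'| =
      |(g x y - bl x0 x1 y0 y1 x y c00 c01 c10 c11) -
        (bl x0 x1 y0 y1 x y c00' c01' c10' c11' - bl x0 x1 y0 y1 x y c00 c01 c10 c11)| := by
        congr 1; ring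
    _ ≤ _ := (abs_sub _ _).trans (add_le_add h1 h2)

/-- dropping a small function -/
lemma Mdl.small {x0 x1 y0 y1 : ℝ} {g : ℝ → ℝ → ℝ} {E : ℝ}
    (h : ∀ x ∈ Icc x0 x1, ∀ y ∈ Icc y0 y1, 0 < x → 0 < y → |g x y| ≤ E) :
    Mdl x0 x1 y0 y1 g 0 0 0 0 E := by
  intro x hx y hy hx0 hy0
  have : bl x0 x1 y0 y1 x y 0 0 0 0 = 0 := by unfold bl lin1; simp
  rw [this, sub_zero]
  exact h x hx y hy hx0 hy0

/-- the conclusion: nonnegativity -/
lemma Mdl.nonneg {x0 x1 y0 y1 : ℝ} (hx01 : x0 < x1) (hy01 : y0 < y1) {g : ℝ → ℝ → ℝ}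
    {c00 c01 c10 c11 E : ℝ} (h : Mdl x0 x1 y0 y1 g c00 c01 c10 c11 E)
    (h00 : E ≤ c00) (h01 : E ≤ c01) (h10 : E ≤ c10) (h11 : E ≤ c11) :
    ∀ x ∈ Icc x0 x1, ∀ y ∈ Icc y0 y1, 0 < x → 0 < y → 0 ≤ g x y := by
  intro x hx y hy hx0 hy0
  have h1 := (abs_le.mp (h x hx y hy hx0 hy0)).1
  have h2 : E ≤ bl x0 x1 y0 y1 x y c00 c01 c10 c11 := by
    calc E = lin1 x0 x1 x (lin1 y0 y1 y E E) (lin1 y0 y1 y E E) := by
          rw [lin1_const hy01, lin1_const hx01]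
      _ ≤ _ := lin1_le hx01 hx (lin1_le hy01 hy h00 h01) (lin1_le hy01 hy h10 h11)
  linarith

/-- two-dimensional interpolation from the one-dimensional ones -/
theorem interp2 {g : ℝ → ℝ → ℝ} {x0 x1 y0 y1 Mx My : ℝ} (hx01 : x0 < x1) (_hy01 : y0 < y1)
    (hX : ∀ y ∈ Icc y0 y1, ∀ x ∈ Icc x0 x1, |g x y - lin1 x0 x1 x (g x0 y) (g x1 y)| ≤ Mx)
    (hY : ∀ x ∈ Icc x0 x1, ∀ y ∈ Icc y0 y1, |g x y - lin1 y0 y1 y (g x y0) (g x y1)| ≤ My) :
    Mdl x0 x1 y0 y1 g (g x0 y0) (g x0 y1) (g x1 y0) (g x1 y1) (Mx + My) := by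
  intro x hx y hy _ _
  have h1 := hX y hy x hx
  have h2 := hY x0 (left_mem_Icc.mpr hx01.le) y hy
  have h3 := hY x1 (right_mem_Icc.mpr hx01.le) y hy
  have h4 := abs_lin1_le hx01 hx h2 h3
  rw [lin1_sub] at h4
  calc |g x y - bl x0 x1 y0 y1 x y (g x0 y0) (g x0 y1) (g x1 y0) (g x1 y1)| =
      |(g x y - lin1 x0 x1 x (g x0 y) (g x1 y)) + (lin1 x0 x1 x (g x0 y) (g x1 y) -
        bl x0 x1 y0 y1 x y (g x0 y0) (g x0 y1) (g x1 y0) (g x1 y1))| := by congr 1; ring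
    _ ≤ _ := (abs_add_le _ _).trans (add_le_add h1 h4)

end Crest.Agent.R163.Win
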