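import Crest.Agent.R163.SKLC
import Crest.Agent.R163.WinInterp
import Crest.Agent.R163.WinDec
import Crest.Agent.R163.WinCell
import Crest.Agent.R163.WinSpec
import Crest.Agent.R163.WinPoly
import Crest.Agent.R163.WinEval
import Crest.Agent.R163.WinTree
import Crest.Agent.R163.WinD0

-- ▼ part R163/Cxt
section

/-!
Row 163, `q = 3`: the symmetrised monomials
`C(x,t) = (1/3) ∑_k f_k^(1-2x) (f_i f_j)^x cos (t log (f_i / f_j))`.
-/

set_option autoImplicit false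

universe u

namespace Crest.Agent.R163

/-- exponents `(1 - 2x, x + it, x - it)` -/
noncomputable def exc (x t : ℝ) : Fin 3 → ℂ :=
  ![((1 - 2 * x : ℝ) : ℂ), (x : ℂ) + t * Complex.I, (x : ℂ) - t * Complex.I]


lemma exc_re (x t : ℝ) : ∀ i, (exc x t i).re = ![1 - 2 * x, x, x] i := by
  intro i
  fin_cases i <;> simp [exc]



/-- the symmetrised functional -/
noncomputable def Cxt (x t : ℝ) (v : Fin 3 → ℝ) : ℝ :=
  (∑ k : Fin 3, rmon (exc x t) (fun i => v (rot3 k i))) / (3 : ℕ)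





/-- one term of `C(x,t)` -/
noncomputable def ctm (x t a b c : ℝ) : ℝ :=
  a ^ (1 - 2 * x) * (b ^ x * c ^ x) * Real.cos (t * (Real.log b - Real.log c))







end Crest.Agent.R163
end

-- ▼ part R163/WinTerm
section

/-!
Row 163, window engine, part 2: interpolation models of the terms of `C(x,t)`, bounds near the
edges of the triangle, symmetry reduction and closure.
-/

set_option autoImplicit false

namespace Crest.Agent.R163.Win

open Set

/-- interpolation model of a product of complex powers of affine functions -/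
theorem mono_mdl {ι : Type*} [Fintype ι] {z : ι → ℂ} {c a b : ι → ℝ} {x0 x1 y0 y1 P γ : ℝ}
    {ux uy : ι → ℝ} (hx01 : x0 < x1) (hy01 : y0 < y1)
    (hpos : ∀ x ∈ Icc x0 x1, ∀ y ∈ Icc y0 y1, ∀ i, 0 < c i + a i * x + b i * y)
    (hux : ∀ x ∈ Icc x0 x1, ∀ y ∈ Icc y0 y1, ∀ i,
      |a i| * (x1 - x0) ≤ ux i * (c i + a i * x + b i * y))
    (huy : ∀ x ∈ Icc x0 x1, ∀ y ∈ Icc y0 y1, ∀ i,
      |b i| * (y1 - y0) ≤ uy i * (c i + a i * x + b i * y))
    (hP : ∀ x ∈ Icc x0 x1, ∀ y ∈ Icc y0 y1,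
      Real.exp (∑ i, (z i).re * Real.log (c i + a i * x + b i * y)) ≤ P)
    (hγ : ∀ i, ‖z i‖ ≤ γ) :
    Mdl x0 x1 y0 y1
      (fun x y => (Complex.exp (∑ i, z i * (Real.log (c i + a i * x + b i * y) : ℂ))).re)
      (Complex.exp (∑ i, z i * (Real.log (c i + a i * x0 + b i * y0) : ℂ))).re
      (Complex.exp (∑ i, z i * (Real.log (c i + a i * x0 + b i * y1) : ℂ))).re
      (Complex.exp (∑ i, z i * (Real.log (c i + a i * x1 + b i * y0) : ℂ))).re
      (Complex.exp (∑ i, z i * (Real.log (c i + a i * x1 + b i * y1) : ℂ))).re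
      (P * (γ ^ 2 * ((∑ i, ux i) ^ 2 + (∑ i, uy i) ^ 2) +
        γ * (∑ i, ux i ^ 2 + ∑ i, uy i ^ 2)) / 8) := by
  have ex : ∀ x y : ℝ, Complex.exp (∑ i, z i * (Real.log (c i + a i * x + b i * y) : ℂ)) =
      cm z (fun i => c i + b i * y) a x := by
    intro x y
    unfold cm
    congr 1
    refine Finset.sum_congr rfl fun i _ => ?_
    rw [show c i + a i * x + b i * y = c i + b i * y + x * a i by ring]
  have ey : ∀ x y : ℝ, Complex.exp (∑ i, z i * (Real.log (c i + a i * x + b i * y) : ℂ)) =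
      cm z (fun i => c i + a i * x) b y := by
    intro x y
    unfold cm
    congr 1
    refine Finset.sum_congr rfl fun i _ => ?_
    rw [show c i + a i * x + b i * y = c i + a i * x + y * b i by ring]
  have h1 := interp2 (g := fun x y =>
      (Complex.exp (∑ i, z i * (Real.log (c i + a i * x + b i * y) : ℂ))).re)
    (Mx := P * (γ ^ 2 * (∑ i, ux i) ^ 2 + γ * ∑ i, ux i ^ 2) / 8)
    (My := P * (γ ^ 2 * (∑ i, uy i) ^ 2 + γ * ∑ i, uy i ^ 2) / 8) hx01 hy01 ?_ ?_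
  · refine h1.mono (le_of_eq ?_)
    ring
  · intro y hy x hx
    simp only [ex]
    refine mono_interp hx01 (fun s hs i => ?_) (fun s hs i => ?_) (fun s hs => ?_) hγ hx
    · have := hpos s hs y hy i
      linarith
    · have := hux s hs y hy i
      rwa [show c i + b i * y + s * a i = c i + a i * s + b i * y by ring]
    · rw [norm_cm]
      have := hP s hs y hy
      refine le_trans (le_of_eq ?_) this
      congr 1
      refine Finset.sum_congr rfl fun i _ => ?_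
      rw [show c i + b i * y + s * a i = c i + a i * s + b i * y by ring]
  · intro x hx y hy
    simp only [ey]
    refine mono_interp hy01 (fun s hs i => ?_) (fun s hs i => ?_) (fun s hs => ?_) hγ hy
    · have := hpos x hx s hs i
      linarith
    · have := huy x hx s hs i
      rwa [show c i + a i * x + s * b i = c i + a i * x + b i * s by ring]
    · rw [norm_cm]
      have := hP x hx s hs
      refine le_trans (le_of_eq ?_) this
      congr 1
      refine Finset.sum_congr rfl fun i _ => ?_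
      rw [show c i + a i * x + s * b i = c i + a i * x + b i * s by ring]

/-- the exponential form of one term of `C(x,t)` -/
lemma exp_ctm (xx t : ℝ) {C A B : ℝ} (hC : 0 < C) (hA : 0 < A) (hB : 0 < B) :
    (Complex.exp (∑ i, exc xx t i * (Real.log (![C, A, B] i) : ℂ))).re = ctm xx t C A B := by
  rw [Fin.sum_univ_three]
  simp only [exc, Matrix.cons_val_zero, Matrix.cons_val_one, Matrix.cons_val]
  have e : ((1 - 2 * xx : ℝ) : ℂ) * (Real.log C : ℂ) +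
      ((xx : ℂ) + t * Complex.I) * (Real.log A : ℂ) +
      ((xx : ℂ) - t * Complex.I) * (Real.log B : ℂ) =
      (((1 - 2 * xx) * Real.log C + (xx * Real.log A + xx * Real.log B) : ℝ) : ℂ) +
      ((t * (Real.log A - Real.log B) : ℝ) : ℂ) * Complex.I := by
    push_cast
    ring
  rw [e, Complex.exp_add, ← Complex.ofReal_exp, Complex.re_ofReal_mul,
    Complex.exp_ofReal_mul_I_re, Real.exp_add, Real.exp_add]
  unfold ctm
  rw [Real.rpow_def_of_pos hC, Real.rpow_def_of_pos hA, Real.rpow_def_of_pos hB]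
  rw [mul_comm (1 - 2 * xx) (Real.log C), mul_comm xx (Real.log A), mul_comm xx (Real.log B)]

lemma norm_sq_eq (z : ℂ) : ‖z‖ ^ 2 = z.re ^ 2 + z.im ^ 2 := by
  rw [← Complex.normSq_eq_norm_sq, Complex.normSq_apply]
  ring

lemma norm_exc_le {xx t γ : ℝ} (hγ0 : 0 ≤ γ) (h1 : |1 - 2 * xx| ≤ γ)
    (h2 : xx ^ 2 + t ^ 2 ≤ γ ^ 2) (i : Fin 3) : ‖exc xx t i‖ ≤ γ := by
  fin_cases i
  · simp only [exc, Fin.zero_eta, Matrix.cons_val_zero, Complex.norm_real, Real.norm_eq_abs]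
    exact h1
  · simp only [exc, Fin.mk_one, Matrix.cons_val_one, Matrix.cons_val_zero]
    refine abs_le_of_sq_le_sq' ?_ hγ0 |>.2
    rw [norm_sq_eq]
    simpa using h2
  · simp only [exc, Fin.reduceFinMk, Matrix.cons_val]
    refine abs_le_of_sq_le_sq' ?_ hγ0 |>.2
    rw [norm_sq_eq]
    simpa using h2

/-- model of one term of `C(x,t)` on a cell away from the edges -/
theorem tri_mdl {xx t γ x0 x1 y0 y1 P c0 c1 c2 a0 a1 a2 b0 b1 b2 uCx uCy uAx uAy uBx uBy : ℝ}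
    (hx01 : x0 < x1) (hy01 : y0 < y1)
    (hC : ∀ x ∈ Icc x0 x1, ∀ y ∈ Icc y0 y1, 0 < c0 + c1 * x + c2 * y ∧
      |c1| * (x1 - x0) ≤ uCx * (c0 + c1 * x + c2 * y) ∧
      |c2| * (y1 - y0) ≤ uCy * (c0 + c1 * x + c2 * y))
    (hA : ∀ x ∈ Icc x0 x1, ∀ y ∈ Icc y0 y1, 0 < a0 + a1 * x + a2 * y ∧
      |a1| * (x1 - x0) ≤ uAx * (a0 + a1 * x + a2 * y) ∧
      |a2| * (y1 - y0) ≤ uAy * (a0 + a1 * x + a2 * y))
    (hB : ∀ x ∈ Icc x0 x1, ∀ y ∈ Icc y0 y1, 0 < b0 + b1 * x + b2 * y ∧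
      |b1| * (x1 - x0) ≤ uBx * (b0 + b1 * x + b2 * y) ∧
      |b2| * (y1 - y0) ≤ uBy * (b0 + b1 * x + b2 * y))
    (hP : ∀ x ∈ Icc x0 x1, ∀ y ∈ Icc y0 y1, (c0 + c1 * x + c2 * y) ^ (1 - 2 * xx) *
      ((a0 + a1 * x + a2 * y) ^ xx * (b0 + b1 * x + b2 * y) ^ xx) ≤ P)
    (hγ0 : 0 ≤ γ) (hγ1 : |1 - 2 * xx| ≤ γ) (hγ2 : xx ^ 2 + t ^ 2 ≤ γ ^ 2) :
    Mdl x0 x1 y0 y1
      (fun x y => ctm xx t (c0 + c1 * x + c2 * y) (a0 + a1 * x + a2 * y) (b0 + b1 * x + b2 * y))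
      (ctm xx t (c0 + c1 * x0 + c2 * y0) (a0 + a1 * x0 + a2 * y0) (b0 + b1 * x0 + b2 * y0))
      (ctm xx t (c0 + c1 * x0 + c2 * y1) (a0 + a1 * x0 + a2 * y1) (b0 + b1 * x0 + b2 * y1))
      (ctm xx t (c0 + c1 * x1 + c2 * y0) (a0 + a1 * x1 + a2 * y0) (b0 + b1 * x1 + b2 * y0))
      (ctm xx t (c0 + c1 * x1 + c2 * y1) (a0 + a1 * x1 + a2 * y1) (b0 + b1 * x1 + b2 * y1))
      (P * (γ ^ 2 * ((uCx + uAx + uBx) ^ 2 + (uCy + uAy + uBy) ^ 2) +
        γ * ((uCx ^ 2 + uAx ^ 2 + uBx ^ 2) + (uCy ^ 2 + uAy ^ 2 + uBy ^ 2))) / 8) := by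
  have hlin : ∀ x y : ℝ, ∀ i : Fin 3,
      ![c0, a0, b0] i + ![c1, a1, b1] i * x + ![c2, a2, b2] i * y =
      ![c0 + c1 * x + c2 * y, a0 + a1 * x + a2 * y, b0 + b1 * x + b2 * y] i := by
    intro x y i
    fin_cases i <;> rfl
  have key := mono_mdl (z := exc xx t) (c := ![c0, a0, b0]) (a := ![c1, a1, b1])
    (b := ![c2, a2, b2]) (P := P) (γ := γ) (ux := ![uCx, uAx, uBx]) (uy := ![uCy, uAy, uBy])
    hx01 hy01 (fun x hx y hy i => by
      rw [hlin]
      fin_cases i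
      · exact (hC x hx y hy).1
      · exact (hA x hx y hy).1
      · exact (hB x hx y hy).1)
    (fun x hx y hy i => by
      rw [hlin]
      fin_cases i
      · exact (hC x hx y hy).2.1
      · exact (hA x hx y hy).2.1
      · exact (hB x hx y hy).2.1)
    (fun x hx y hy i => by
      rw [hlin]
      fin_cases i
      · exact (hC x hx y hy).2.2
      · exact (hA x hx y hy).2.2
      · exact (hB x hx y hy).2.2)
    (fun x hx y hy => by
      simp only [hlin]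
      rw [Fin.sum_univ_three, exc_re, exc_re, exc_re]
      simp only [Matrix.cons_val_zero, Matrix.cons_val_one, Matrix.cons_val]
      have h1 := (hC x hx y hy).1
      have h2 := (hA x hx y hy).1
      have h3 := (hB x hx y hy).1
      refine le_trans (le_of_eq ?_) (hP x hx y hy)
      rw [Real.rpow_def_of_pos h1, Real.rpow_def_of_pos h2, Real.rpow_def_of_pos h3,
        ← Real.exp_add, ← Real.exp_add]
      congr 1
      ring)
    (norm_exc_le hγ0 hγ1 hγ2)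
  have hx0m := left_mem_Icc.mpr hx01.le
  have hx1m := right_mem_Icc.mpr hx01.le
  have hy0m := left_mem_Icc.mpr hy01.le
  have hy1m := right_mem_Icc.mpr hy01.le
  simp only [hlin] at key
  rw [exp_ctm xx t (hC _ hx0m _ hy0m).1 (hA _ hx0m _ hy0m).1 (hB _ hx0m _ hy0m).1,
    exp_ctm xx t (hC _ hx0m _ hy1m).1 (hA _ hx0m _ hy1m).1 (hB _ hx0m _ hy1m).1,
    exp_ctm xx t (hC _ hx1m _ hy0m).1 (hA _ hx1m _ hy0m).1 (hB _ hx1m _ hy0m).1,
    exp_ctm xx t (hC _ hx1m _ hy1m).1 (hA _ hx1m _ hy1m).1 (hB _ hx1m _ hy1m).1] at key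
  have key2 : Mdl x0 x1 y0 y1
      (fun x y => ctm xx t (c0 + c1 * x + c2 * y) (a0 + a1 * x + a2 * y) (b0 + b1 * x + b2 * y))
      _ _ _ _ _ := key.congr fun x hx y hy _ _ =>
        (exp_ctm xx t (hC x hx y hy).1 (hA x hx y hy).1 (hB x hx y hy).1).symm
  refine key2.mono (le_of_eq ?_)
  simp only [Fin.sum_univ_three, Matrix.cons_val_zero, Matrix.cons_val_one, Matrix.cons_val]

/-! ### special values of `x` -/

lemma ctm_half (t c a b : ℝ) :
    ctm (1 / 2) t c a b = Real.sqrt a * Real.sqrt b * Real.cos (t * (Real.log a - Real.log b)) := by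
  unfold ctm
  rw [Real.sqrt_eq_rpow, Real.sqrt_eq_rpow]
  have : (1 : ℝ) - 2 * (1 / 2) = 0 := by norm_num
  rw [this, Real.rpow_zero, one_mul]

lemma ctm_sixth (t : ℝ) {c a b : ℝ} (hc : 0 < c) (ha : 0 < a) (hb : 0 < b) :
    ctm (1 / 6) t c a b = Real.exp ((Real.log a + Real.log b + Real.log c) / 6) * Real.sqrt c *
      Real.cos (t * (Real.log a - Real.log b)) := by
  unfold ctm
  rw [Real.sqrt_eq_rpow, Real.rpow_def_of_pos hc, Real.rpow_def_of_pos ha, Real.rpow_def_of_pos hb,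
    Real.rpow_def_of_pos hc, ← Real.exp_add, ← Real.exp_add, ← Real.exp_add]
  congr 2
  ring

lemma ctm_third (t : ℝ) {c a b : ℝ} (hc : 0 < c) (ha : 0 < a) (hb : 0 < b) :
    ctm (1 / 3) t c a b = Real.exp ((Real.log a + Real.log b + Real.log c) / 3) *
      Real.cos (t * (Real.log a - Real.log b)) := by
  unfold ctm
  rw [Real.rpow_def_of_pos hc, Real.rpow_def_of_pos ha, Real.rpow_def_of_pos hb,
    ← Real.exp_add, ← Real.exp_add]
  congr 2
  ring

/-- bound of a term by monotonicity -/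
lemma abs_ctm_le_of_le {xx : ℝ} (h0 : 0 ≤ xx) (h1 : xx ≤ 1 / 2) (t : ℝ) {c a b c' a' b' : ℝ}
    (hc : 0 ≤ c) (ha : 0 ≤ a) (hb : 0 ≤ b) (hc' : c ≤ c') (ha' : a ≤ a') (hb' : b ≤ b') :
    |ctm xx t c a b| ≤ c' ^ (1 - 2 * xx) * (a' ^ xx * b' ^ xx) := by
  unfold ctm
  rw [abs_mul]
  have h2 : 0 ≤ c ^ (1 - 2 * xx) * (a ^ xx * b ^ xx) := by positivity
  rw [abs_of_nonneg h2]
  refine (mul_le_of_le_one_right h2 (Real.abs_cos_le_one _)).trans ?_
  have h3 : c ^ (1 - 2 * xx) ≤ c' ^ (1 - 2 * xx) := Real.rpow_le_rpow hc hc' (by linarith)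
  have h4 : a ^ xx ≤ a' ^ xx := Real.rpow_le_rpow ha ha' h0
  have h5 : b ^ xx ≤ b' ^ xx := Real.rpow_le_rpow hb hb' h0
  have h6 : 0 ≤ c' := hc.trans hc'
  have h7 : 0 ≤ a' := ha.trans ha'
  have h8 : 0 ≤ b' := hb.trans hb'
  gcongr

/-- model of a pair term `√A √B cos (t (log A - log B))` on a cell away from the edges -/
theorem pair_mdl {t γ x0 x1 y0 y1 P a0 a1 a2 b0 b1 b2 uAx uAy uBx uBy : ℝ}
    (hx01 : x0 < x1) (hy01 : y0 < y1)
    (hA : ∀ x ∈ Icc x0 x1, ∀ y ∈ Icc y0 y1, 0 < a0 + a1 * x + a2 * y ∧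
      |a1| * (x1 - x0) ≤ uAx * (a0 + a1 * x + a2 * y) ∧
      |a2| * (y1 - y0) ≤ uAy * (a0 + a1 * x + a2 * y))
    (hB : ∀ x ∈ Icc x0 x1, ∀ y ∈ Icc y0 y1, 0 < b0 + b1 * x + b2 * y ∧
      |b1| * (x1 - x0) ≤ uBx * (b0 + b1 * x + b2 * y) ∧
      |b2| * (y1 - y0) ≤ uBy * (b0 + b1 * x + b2 * y))
    (hP : ∀ x ∈ Icc x0 x1, ∀ y ∈ Icc y0 y1,
      Real.sqrt (a0 + a1 * x + a2 * y) * Real.sqrt (b0 + b1 * x + b2 * y) ≤ P)
    (hγ0 : 0 ≤ γ) (hγ2 : 1 / 4 + t ^ 2 ≤ γ ^ 2) :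
    Mdl x0 x1 y0 y1
      (fun x y => Real.sqrt (a0 + a1 * x + a2 * y) * Real.sqrt (b0 + b1 * x + b2 * y) *
        Real.cos (t * (Real.log (a0 + a1 * x + a2 * y) - Real.log (b0 + b1 * x + b2 * y))))
      (Real.sqrt (a0 + a1 * x0 + a2 * y0) * Real.sqrt (b0 + b1 * x0 + b2 * y0) *
        Real.cos (t * (Real.log (a0 + a1 * x0 + a2 * y0) - Real.log (b0 + b1 * x0 + b2 * y0))))
      (Real.sqrt (a0 + a1 * x0 + a2 * y1) * Real.sqrt (b0 + b1 * x0 + b2 * y1) *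
        Real.cos (t * (Real.log (a0 + a1 * x0 + a2 * y1) - Real.log (b0 + b1 * x0 + b2 * y1))))
      (Real.sqrt (a0 + a1 * x1 + a2 * y0) * Real.sqrt (b0 + b1 * x1 + b2 * y0) *
        Real.cos (t * (Real.log (a0 + a1 * x1 + a2 * y0) - Real.log (b0 + b1 * x1 + b2 * y0))))
      (Real.sqrt (a0 + a1 * x1 + a2 * y1) * Real.sqrt (b0 + b1 * x1 + b2 * y1) *
        Real.cos (t * (Real.log (a0 + a1 * x1 + a2 * y1) - Real.log (b0 + b1 * x1 + b2 * y1))))
      (P * (γ ^ 2 * ((uAx + uBx) ^ 2 + (uAy + uBy) ^ 2) +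
        γ * (uAx ^ 2 + uBx ^ 2 + uAy ^ 2 + uBy ^ 2)) / 8) := by
  have key := tri_mdl (xx := 1 / 2) (t := t) (γ := γ) (P := P) (c0 := 1) (c1 := 0) (c2 := 0)
    (uCx := 0) (uCy := 0) hx01 hy01 (fun x _ y _ => by norm_num) hA hB
    (fun x hx y hy => by
      have h := hP x hx y hy
      rw [Real.sqrt_eq_rpow, Real.sqrt_eq_rpow] at h
      have e : (1 : ℝ) - 2 * (1 / 2) = 0 := by norm_num
      rw [e, Real.rpow_zero, one_mul]
      exact h) hγ0 (by
        have e : (1 : ℝ) - 2 * (1 / 2) = 0 := by norm_num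
        rw [e, abs_zero]; exact hγ0) (by linarith)
  simp only [ctm_half] at key
  refine key.mono (le_of_eq ?_)
  ring

/-! ### symmetry and closure -/







end Crest.Agent.R163.Win
end

-- ▼ part R163/WinForm
section

/-!
Row 163, window engine: the explicit forms of `fxt` used by the kernel evaluation.
-/

set_option autoImplicit false

namespace Crest.Agent.R163.Win

/-- `fxt` as a sum of `ctm` -/
lemma fxt_ctm {x : ℝ} (t : ℝ) {a b c : ℝ} (ha : 0 ≤ a) (hb : 0 ≤ b) (hc : 0 ≤ c) :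
    fxt x t a b c = (ctm x t a b c + ctm x t b c a + ctm x t c a b) / 3 := by
  unfold fxt ctm
  rw [Real.mul_rpow hb hc, Real.mul_rpow hc ha, Real.mul_rpow ha hb]

lemma fxt_half (t : ℝ) {a b c : ℝ} (ha : 0 ≤ a) (hb : 0 ≤ b) (hc : 0 ≤ c) :
    fxt (1 / 2) t a b c =
      (Real.sqrt b * Real.sqrt c * Real.cos (t * (Real.log b - Real.log c)) +
        Real.sqrt c * Real.sqrt a * Real.cos (t * (Real.log c - Real.log a)) +
        Real.sqrt a * Real.sqrt b * Real.cos (t * (Real.log a - Real.log b))) / 3 := by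
  rw [fxt_ctm t ha hb hc, ctm_half, ctm_half, ctm_half]


lemma fxt_sixth (t : ℝ) {a b c : ℝ} (ha : 0 < a) (hb : 0 < b) (hc : 0 < c) :
    fxt (1 / 6) t a b c = Real.exp ((Real.log a + Real.log b + Real.log c) / 6) *
      (Real.sqrt a * Real.cos (t * (Real.log b - Real.log c)) +
        Real.sqrt b * Real.cos (t * (Real.log c - Real.log a)) +
        Real.sqrt c * Real.cos (t * (Real.log a - Real.log b))) / 3 := by
  rw [fxt_ctm t ha.le hb.le hc.le, ctm_sixth t ha hb hc, ctm_sixth t hb hc ha,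
    ctm_sixth t hc ha hb]
  rw [show (Real.log b + Real.log c + Real.log a) / 6 =
      (Real.log a + Real.log b + Real.log c) / 6 by ring,
    show (Real.log c + Real.log a + Real.log b) / 6 =
      (Real.log a + Real.log b + Real.log c) / 6 by ring]
  ring

lemma fxt_third (t : ℝ) {a b c : ℝ} (ha : 0 < a) (hb : 0 < b) (hc : 0 < c) :
    fxt (1 / 3) t a b c = Real.exp ((Real.log a + Real.log b + Real.log c) / 3) *
      (Real.cos (t * (Real.log b - Real.log c)) + Real.cos (t * (Real.log c - Real.log a)) +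
        Real.cos (t * (Real.log a - Real.log b))) / 3 := by
  rw [fxt_ctm t ha.le hb.le hc.le, ctm_third t ha hb hc, ctm_third t hb hc ha,
    ctm_third t hc ha hb]
  rw [show (Real.log b + Real.log c + Real.log a) / 3 =
      (Real.log a + Real.log b + Real.log c) / 3 by ring,
    show (Real.log c + Real.log a + Real.log b) / 3 =
      (Real.log a + Real.log b + Real.log c) / 3 by ring]
  ring


/-- bound of a pair term by monotonicity -/
lemma abs_pair_le (t : ℝ) {a b a' b' : ℝ} (ha' : a ≤ a') (hb' : b ≤ b') :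
    |Real.sqrt a * Real.sqrt b * Real.cos (t * (Real.log a - Real.log b))| ≤
      Real.sqrt a' * Real.sqrt b' := by
  rw [abs_mul, abs_of_nonneg (mul_nonneg (Real.sqrt_nonneg _) (Real.sqrt_nonneg _))]
  refine (mul_le_of_le_one_right (by positivity) (Real.abs_cos_le_one _)).trans ?_
  exact mul_le_mul (Real.sqrt_le_sqrt ha') (Real.sqrt_le_sqrt hb') (Real.sqrt_nonneg _)
    (Real.sqrt_nonneg _)


end Crest.Agent.R163.Win
end

-- ▼ part R163/WinReal
section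

/-!
Row 163, window engine: the real functions approximated by `WinCell`, and lists of models.
-/

set_option autoImplicit false

namespace Crest.Agent.R163.Win

open Set Crest.Agent.R163.Bern

/-- denominator of the numerators -/
def den (side : Bool) : ℝ := if side then 2 ^ 49 else 2 ^ 48

/-- pair term -/
noncomputable def prR (t a b : ℝ) : ℝ :=
  Real.sqrt a * Real.sqrt b * Real.cos (t * (Real.log a - Real.log b))

/-- parameter of a functional -/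
noncomputable def Fn.t (f : Fn) : ℝ := f.tn / 20

/-- the functional with the dropped terms -/
noncomputable def fR (k1 k2 k3 : Bool) (f : Fn) (a b c : ℝ) : ℝ :=
  if f.kind = 0 then
    ((if k1 && k2 then prR f.t a b else 0) + (if k1 && k3 then prR f.t a c else 0) +
      (if k2 && k3 then prR f.t b c else 0)) / 3
  else if k1 && (k2 && k3) then
    (if f.kind = 1 then fxt (1 / 6) f.t a b c else fxt (1 / 3) f.t a b c)
  else 0

/-- the exponent `x` of a functional -/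
noncomputable def Fn.x (f : Fn) : ℝ := if f.kind = 0 then 1 / 2 else if f.kind = 1 then 1 / 6 else 1 / 3

/-- the polynomial -/
noncomputable def Po.R (p : Po) (s c : ℝ) : ℝ := s ^ p.i * c ^ p.j / 2 ^ p.h

/-- `g i` is modelled with corner values `a, b, c, d` and error `e` (scale `2^44`) -/
def MdlL (x0 x1 y0 y1 : ℝ) : List (ℝ → ℝ → ℝ) → List Int → List Int → List Int → List Int →
    List Nat → Prop
  | [], [], [], [], [], [] => True
  | g :: gs, a :: as, b :: bs, c :: cs, d :: ds, e :: es =>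
    Mdl x0 x1 y0 y1 g (a / 2 ^ 44) (b / 2 ^ 44) (c / 2 ^ 44) (d / 2 ^ 44) (e / 2 ^ 44) ∧
      MdlL x0 x1 y0 y1 gs as bs cs ds es
  | _, _, _, _, _, _ => False

end Crest.Agent.R163.Win
end

-- ▼ part R163/WinFunM
section

/-!
Row 163, window engine: the error bounds of the functionals on a cell.
-/

set_option autoImplicit false

namespace Crest.Agent.R163.Win

open Set Crest.Agent.R163.Bern

/-- affine function -/
def aff (p : ℝ × ℝ × ℝ) (x y : ℝ) : ℝ := p.1 + p.2.1 * x + p.2.2 * y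

/-- first argument -/
noncomputable def A1 (side : Bool) : ℝ × ℝ × ℝ := if side then (0, 1 / 2, 1 / 2) else (3, -1, -1)

/-- second argument -/
noncomputable def A2 (side : Bool) : ℝ × ℝ × ℝ := if side then (3 / 2, -(1 / 2), 0) else (0, 1, 0)

/-- third argument -/
noncomputable def A3 (side : Bool) : ℝ × ℝ × ℝ := if side then (3 / 2, 0, -(1 / 2)) else (0, 0, 1)

/-- facts about one argument on a cell: `k`: kept, `U` bounds the square root, `ux, uy` relative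
steps -/
structure CF (p : ℝ × ℝ × ℝ) (x0 x1 y0 y1 : ℝ) (k : Bool) (U ux uy : Nat) : Prop where
  pos : k = true → ∀ x ∈ Icc x0 x1, ∀ y ∈ Icc y0 y1, 0 < aff p x y ∧
    |p.2.1| * (x1 - x0) ≤ (ux / 2 ^ 20 : ℝ) * aff p x y ∧
    |p.2.2| * (y1 - y0) ≤ (uy / 2 ^ 20 : ℝ) * aff p x y
  nn : ∀ x ∈ Icc x0 x1, ∀ y ∈ Icc y0 y1, 0 ≤ aff p x y
  sup : ∀ x ∈ Icc x0 x1, ∀ y ∈ Icc y0 y1, Real.sqrt (aff p x y) ≤ (U : ℝ) / 2 ^ 44

lemma pw_false (g a b c d : Nat) : pw g false a b c d = 2 ^ 63 := rfl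

lemma pw_true (g a b c d : Nat) : pw g true a b c d =
    g * g * ((a + b) * (a + b) + (c + d) * (c + d)) +
      g * 1024 * (a * a + b * b + (c * c + d * d)) := rfl

lemma pw_true_real (g a b c d : Nat) : ((pw g true a b c d : Nat) : ℝ) / 2 ^ 63 =
    ((g / 2 ^ 10 : ℝ) ^ 2 * (((a / 2 ^ 20 : ℝ) + b / 2 ^ 20) ^ 2 + ((c / 2 ^ 20 : ℝ) + d / 2 ^ 20) ^ 2) +
      (g / 2 ^ 10 : ℝ) * ((a / 2 ^ 20 : ℝ) ^ 2 + (b / 2 ^ 20 : ℝ) ^ 2 + (c / 2 ^ 20 : ℝ) ^ 2 +
        (d / 2 ^ 20 : ℝ) ^ 2)) / 8 := by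
  rw [pw_true]
  push_cast
  ring

variable {x0 x1 y0 y1 : ℝ}

/-- a kept or dropped pair term -/
theorem pair_k {p p' : ℝ × ℝ × ℝ} {k k' : Bool} {U U' ux uy ux' uy' g : Nat} {t : ℝ}
    (hx01 : x0 < x1) (hy01 : y0 < y1) (h : CF p x0 x1 y0 y1 k U ux uy)
    (h' : CF p' x0 x1 y0 y1 k' U' ux' uy') (hg : 1 / 4 + t ^ 2 ≤ (g / 2 ^ 10 : ℝ) ^ 2) :
    Mdl x0 x1 y0 y1 (fun x y => prR t (aff p x y) (aff p' x y))
      (if k && k' then prR t (aff p x0 y0) (aff p' x0 y0) else 0)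
      (if k && k' then prR t (aff p x0 y1) (aff p' x0 y1) else 0)
      (if k && k' then prR t (aff p x1 y0) (aff p' x1 y0) else 0)
      (if k && k' then prR t (aff p x1 y1) (aff p' x1 y1) else 0)
      ((U : ℝ) / 2 ^ 44 * (U' / 2 ^ 44) * (((pw g (band k k') ux ux' uy uy' : Nat) : ℝ) / 2 ^ 63)) := by
  have hU : ∀ x ∈ Icc x0 x1, ∀ y ∈ Icc y0 y1,
      Real.sqrt (aff p x y) * Real.sqrt (aff p' x y) ≤ (U : ℝ) / 2 ^ 44 * (U' / 2 ^ 44) := by
    intro x hx y hy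
    exact mul_le_mul (h.sup x hx y hy) (h'.sup x hx y hy) (Real.sqrt_nonneg _)
      ((Real.sqrt_nonneg _).trans (h.sup x hx y hy))
  have small : Mdl x0 x1 y0 y1 (fun x y => prR t (aff p x y) (aff p' x y)) 0 0 0 0
      ((U : ℝ) / 2 ^ 44 * (U' / 2 ^ 44) * (((2 ^ 63 : Nat) : ℝ) / 2 ^ 63)) := by
    refine Mdl.small fun x hx y hy _ _ => ?_
    have e : (((2 ^ 63 : Nat) : ℝ) / 2 ^ 63) = 1 := by norm_num
    rw [e, mul_one]
    refine le_trans ?_ (hU x hx y hy)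
    unfold prR
    exact abs_pair_le t le_rfl le_rfl
  rcases k with _ | _
  · rw [show band false k' = false from rfl, pw_false]
    simp only [Bool.false_and, Bool.false_eq_true, if_false]
    exact small
  · rcases k' with _ | _
    · rw [show band true false = false from rfl, pw_false]
      simp only [Bool.and_false, Bool.false_eq_true, if_false]
      exact small
    · have key := pair_mdl (t := t) (γ := (g / 2 ^ 10 : ℝ)) hx01 hy01
        (fun x hx y hy => h.pos rfl x hx y hy) (fun x hx y hy => h'.pos rfl x hx y hy)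
        hU (by positivity) hg
      have e : band true true = true := rfl
      rw [e, pw_true_real]
      simp only [Bool.and_self, if_true]
      refine key.mono (le_of_eq ?_)
      ring

/-- range of the exponents bound -/
def gOK (f : Fn) : Prop :=
  f.tn ≤ 30 ∧ (f.kind = 0 → (100 + f.tn ^ 2) * 2 ^ 20 ≤ 400 * f.gg ^ 2) ∧
    (f.kind = 1 → 2048 ≤ 3 * f.gg ∧ (100 + 9 * f.tn ^ 2) * 2 ^ 20 ≤ 3600 * f.gg ^ 2) ∧
    (2 ≤ f.kind → 1024 ≤ 3 * f.gg ∧ (400 + 9 * f.tn ^ 2) * 2 ^ 20 ≤ 3600 * f.gg ^ 2)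

instance (f : Fn) : Decidable (gOK f) := by unfold gOK; infer_instance

lemma gOK.half {f : Fn} (h : gOK f) (hk : f.kind = 0) :
    1 / 4 + f.t ^ 2 ≤ (f.gg / 2 ^ 10 : ℝ) ^ 2 := by
  have h1 : ((100 + f.tn ^ 2 : ℝ)) * 2 ^ 20 ≤ 400 * (f.gg : ℝ) ^ 2 := by exact_mod_cast h.2.1 hk
  unfold Fn.t
  rw [div_pow, div_pow, le_div_iff₀ (by positivity)]
  nlinarith

lemma gOK.sixth {f : Fn} (h : gOK f) (hk : f.kind = 1) :
    |1 - 2 * (1 / 6 : ℝ)| ≤ (f.gg / 2 ^ 10 : ℝ) ∧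
      (1 / 6 : ℝ) ^ 2 + f.t ^ 2 ≤ (f.gg / 2 ^ 10 : ℝ) ^ 2 := by
  obtain ⟨h0, h1⟩ := h.2.2.1 hk
  have h0 : (2048 : ℝ) ≤ 3 * f.gg := by exact_mod_cast h0
  have h1 : ((100 + 9 * f.tn ^ 2 : ℝ)) * 2 ^ 20 ≤ 3600 * (f.gg : ℝ) ^ 2 := by exact_mod_cast h1
  refine ⟨?_, ?_⟩
  · rw [abs_of_nonneg (by norm_num), le_div_iff₀ (by positivity)]
    linarith
  · unfold Fn.t
    rw [div_pow (f.tn : ℝ), div_pow (f.gg : ℝ), le_div_iff₀ (by positivity)]
    nlinarith

lemma gOK.third {f : Fn} (h : gOK f) (hk : 2 ≤ f.kind) :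
    |1 - 2 * (1 / 3 : ℝ)| ≤ (f.gg / 2 ^ 10 : ℝ) ∧
      (1 / 3 : ℝ) ^ 2 + f.t ^ 2 ≤ (f.gg / 2 ^ 10 : ℝ) ^ 2 := by
  obtain ⟨h0, h1⟩ := h.2.2.2 hk
  have h0 : (1024 : ℝ) ≤ 3 * f.gg := by exact_mod_cast h0
  have h1 : ((400 + 9 * f.tn ^ 2 : ℝ)) * 2 ^ 20 ≤ 3600 * (f.gg : ℝ) ^ 2 := by exact_mod_cast h1
  refine ⟨?_, ?_⟩
  · rw [abs_of_nonneg (by norm_num), le_div_iff₀ (by positivity)]
    linarith
  · unfold Fn.t
    rw [div_pow (f.tn : ℝ), div_pow (f.gg : ℝ), le_div_iff₀ (by positivity)]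
    nlinarith

/-- one monomial of `C(x,t)`, kept or dropped -/
theorem tri_k {p1 p2 p3 : ℝ × ℝ × ℝ} {k1 k2 k3 : Bool} {U1 U2 U3 ux1 uy1 ux2 uy2 ux3 uy3 g : Nat}
    {xx t P : ℝ} (h0 : 0 ≤ xx) (h2 : xx ≤ 1 / 2)
    (hx01 : x0 < x1) (hy01 : y0 < y1) (c1 : CF p1 x0 x1 y0 y1 k1 U1 ux1 uy1)
    (c2 : CF p2 x0 x1 y0 y1 k2 U2 ux2 uy2) (c3 : CF p3 x0 x1 y0 y1 k3 U3 ux3 uy3)
    (hP : ∀ x ∈ Icc x0 x1, ∀ y ∈ Icc y0 y1, aff p1 x y ^ (1 - 2 * xx) *
      (aff p2 x y ^ xx * aff p3 x y ^ xx) ≤ P)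
    (hg1 : |1 - 2 * xx| ≤ (g / 2 ^ 10 : ℝ)) (hg2 : xx ^ 2 + t ^ 2 ≤ (g / 2 ^ 10 : ℝ) ^ 2)
    {W a b c d : Nat} (hab : (a : ℝ) + b = ux1 + ux2 + ux3) (hcd : (c : ℝ) + d = uy1 + uy2 + uy3)
    (hsq : (a : ℝ) ^ 2 + b ^ 2 + c ^ 2 + d ^ 2 =
      (ux1 ^ 2 + ux2 ^ 2 + ux3 ^ 2) + (uy1 ^ 2 + uy2 ^ 2 + uy3 ^ 2))
    (hW : W = pw g (band k1 (band k2 k3)) a b c d) :
    Mdl x0 x1 y0 y1 (fun x y => ctm xx t (aff p1 x y) (aff p2 x y) (aff p3 x y))
      (if k1 && (k2 && k3) then ctm xx t (aff p1 x0 y0) (aff p2 x0 y0) (aff p3 x0 y0) else 0)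
      (if k1 && (k2 && k3) then ctm xx t (aff p1 x0 y1) (aff p2 x0 y1) (aff p3 x0 y1) else 0)
      (if k1 && (k2 && k3) then ctm xx t (aff p1 x1 y0) (aff p2 x1 y0) (aff p3 x1 y0) else 0)
      (if k1 && (k2 && k3) then ctm xx t (aff p1 x1 y1) (aff p2 x1 y1) (aff p3 x1 y1) else 0)
      (P * ((W : ℝ) / 2 ^ 63)) := by
  have small : Mdl x0 x1 y0 y1 (fun x y => ctm xx t (aff p1 x y) (aff p2 x y) (aff p3 x y)) 0 0 0 0
      (P * (((2 ^ 63 : Nat) : ℝ) / 2 ^ 63)) := by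
    refine Mdl.small fun x hx y hy _ _ => ?_
    have e : (((2 ^ 63 : Nat) : ℝ) / 2 ^ 63) = 1 := by norm_num
    rw [e, mul_one]
    refine le_trans ?_ (hP x hx y hy)
    exact abs_ctm_le_of_le h0 h2 t (c1.nn x hx y hy) (c2.nn x hx y hy) (c3.nn x hx y hy)
      le_rfl le_rfl le_rfl
  subst hW
  by_cases hk : (k1 && (k2 && k3)) = true
  · have e1 : k1 = true := by revert hk; cases k1 <;> simp
    have e2 : k2 = true := by revert hk; cases k1 <;> cases k2 <;> simp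
    have e3 : k3 = true := by revert hk; cases k1 <;> cases k2 <;> cases k3 <;> simp
    subst e1; subst e2; subst e3
    have key := tri_mdl (xx := xx) (t := t) (γ := (g / 2 ^ 10 : ℝ)) (P := P) hx01 hy01
      (fun x hx y hy => c1.pos rfl x hx y hy) (fun x hx y hy => c2.pos rfl x hx y hy)
      (fun x hx y hy => c3.pos rfl x hx y hy) hP (by positivity) hg1 hg2
    have e : band true (band true true) = true := rfl
    rw [e, pw_true_real]
    simp only [Bool.and_self, if_true]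
    refine key.mono (le_of_eq ?_)
    have q1 : ((ux1 : ℝ) / 2 ^ 20 + ux2 / 2 ^ 20 + ux3 / 2 ^ 20) = (a : ℝ) / 2 ^ 20 + b / 2 ^ 20 := by
      rw [← add_div, ← add_div, ← add_div, hab]
    have q2 : ((uy1 : ℝ) / 2 ^ 20 + uy2 / 2 ^ 20 + uy3 / 2 ^ 20) = (c : ℝ) / 2 ^ 20 + d / 2 ^ 20 := by
      rw [← add_div, ← add_div, ← add_div, hcd]
    have q3 : ((ux1 : ℝ) / 2 ^ 20) ^ 2 + (ux2 / 2 ^ 20) ^ 2 + (ux3 / 2 ^ 20) ^ 2 +
        (((uy1 : ℝ) / 2 ^ 20) ^ 2 + (uy2 / 2 ^ 20) ^ 2 + (uy3 / 2 ^ 20) ^ 2) =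
        ((a : ℝ) / 2 ^ 20) ^ 2 + (b / 2 ^ 20) ^ 2 + (c / 2 ^ 20) ^ 2 + (d / 2 ^ 20) ^ 2 := by
      have : (((a : ℝ) / 2 ^ 20) ^ 2 + (b / 2 ^ 20) ^ 2 + (c / 2 ^ 20) ^ 2 + (d / 2 ^ 20) ^ 2) =
        ((a : ℝ) ^ 2 + b ^ 2 + c ^ 2 + d ^ 2) / (2 ^ 20) ^ 2 := by ring
      rw [this, hsq]
      ring
    rw [q1, q2, q3]
    ring
  · have hk' : (k1 && (k2 && k3)) = false := by simpa using hk
    have e : band k1 (band k2 k3) = false := by
      revert hk'; cases k1 <;> cases k2 <;> cases k3 <;> simp [band]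
    rw [e, pw_false]
    simp only [hk', Bool.false_eq_true, if_false]
    exact small

/-! ### the functionals -/

lemma prR_comm (t a b : ℝ) : prR t a b = prR t b a := by
  unfold prR
  have h : Real.cos (t * (Real.log a - Real.log b)) = Real.cos (t * (Real.log b - Real.log a)) := by
    rw [← Real.cos_neg]; congr 1; ring
  rw [h, mul_comm (Real.sqrt a)]

lemma fxt_half' (t : ℝ) {a b c : ℝ} (ha : 0 ≤ a) (hb : 0 ≤ b) (hc : 0 ≤ c) :
    fxt (1 / 2) t a b c = 1 / 3 * (prR t a b + prR t a c + prR t b c) := by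
  rw [fxt_half t ha hb hc]
  change (prR t b c + prR t c a + prR t a b) / 3 = _
  rw [prR_comm t c a]
  ring

lemma fR_half {k1 k2 k3 : Bool} {f : Fn} (hk : f.kind = 0) (a b c : ℝ) :
    fR k1 k2 k3 f a b c = 1 / 3 * ((if k1 && k2 then prR f.t a b else 0) +
      (if k1 && k3 then prR f.t a c else 0) + (if k2 && k3 then prR f.t b c else 0)) := by
  unfold fR
  rw [if_pos hk]
  ring

lemma fxt_tri (x t : ℝ) {a b c : ℝ} (ha : 0 ≤ a) (hb : 0 ≤ b) (hc : 0 ≤ c) :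
    fxt x t a b c = 1 / 3 * (ctm x t a b c + ctm x t b c a + ctm x t c a b) := by
  rw [fxt_ctm t ha hb hc]
  ring

lemma fR_tri {k1 k2 k3 : Bool} {f : Fn} (hk : f.kind ≠ 0) {a b c : ℝ} (ha : 0 ≤ a) (hb : 0 ≤ b)
    (hc : 0 ≤ c) :
    fR k1 k2 k3 f a b c = 1 / 3 * ((if k1 && (k2 && k3) then ctm f.x f.t a b c else 0) +
      (if k2 && (k3 && k1) then ctm f.x f.t b c a else 0) +
      (if k3 && (k1 && k2) then ctm f.x f.t c a b else 0)) := by
  have e2 : (k2 && (k3 && k1)) = (k1 && (k2 && k3)) := by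
    cases k1 <;> cases k2 <;> cases k3 <;> rfl
  have e3 : (k3 && (k1 && k2)) = (k1 && (k2 && k3)) := by
    cases k1 <;> cases k2 <;> cases k3 <;> rfl
  rw [e2, e3]
  unfold fR
  rw [if_neg hk]
  by_cases h : (k1 && (k2 && k3)) = true
  · simp only [h, if_true]
    unfold Fn.x
    rw [if_neg hk]
    by_cases h1 : f.kind = 1
    · rw [if_pos h1, if_pos h1, fxt_tri _ _ ha hb hc]
    · rw [if_neg h1, if_neg h1, fxt_tri _ _ ha hb hc]
  · simp only [h, if_false, Bool.false_eq_true]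
    ring

lemma nat_div_real (n c : Nat) (hc : 0 < c) : (n : ℝ) / c ≤ ((Nat.div n c : Nat) : ℝ) + 1 := by
  rw [div_le_iff₀ (by exact_mod_cast hc)]
  have h1 := Nat.lt_div_mul_add hc (a := n)
  have h2 : (n : ℝ) < ((n / c : ℕ) : ℝ) * c + c := by exact_mod_cast h1
  have h3 : ((Nat.div n c : Nat) : ℝ) = ((n / c : ℕ) : ℝ) := rfl
  rw [h3]
  linarith

lemma c24_eq : c24 = 3 * 2 ^ 107 := by norm_num [c24]

lemma c8_eq : c8 = 2 ^ 107 := by norm_num [c8]

lemma rpow_six {a : ℝ} (ha : 0 ≤ a) : a ^ (1 - 2 * (1 / 6) : ℝ) = a ^ (1 / 6 : ℝ) * Real.sqrt a := by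
  rw [show (1 - 2 * (1 / 6) : ℝ) = 1 / 6 + 1 / 2 by norm_num,
    Real.rpow_add_of_nonneg ha (by norm_num) (by norm_num), Real.sqrt_eq_rpow]

lemma rpow_three {a : ℝ} (ha : 0 ≤ a) : a ^ (1 / 3 : ℝ) = a ^ (1 / 6 : ℝ) * a ^ (1 / 6 : ℝ) := by
  rw [← Real.rpow_add_of_nonneg ha (by norm_num) (by norm_num)]
  norm_num

theorem fun_mdl {p1 p2 p3 : ℝ × ℝ × ℝ} {k1 k2 k3 : Bool} {U1 U2 U3 E u1x u1y u2 u3 : Nat}
    {f : Fn} (hf : gOK f) (hx01 : x0 < x1) (hy01 : y0 < y1)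
    (h1 : CF p1 x0 x1 y0 y1 k1 U1 u1x u1y) (h2 : CF p2 x0 x1 y0 y1 k2 U2 u2 0)
    (h3 : CF p3 x0 x1 y0 y1 k3 U3 0 u3)
    (hE : ∀ x ∈ Icc x0 x1, ∀ y ∈ Icc y0 y1, aff p1 x y ^ (1 / 6 : ℝ) * aff p2 x y ^ (1 / 6 : ℝ) *
      aff p3 x y ^ (1 / 6 : ℝ) ≤ (E : ℝ) / 2 ^ 44) :
    Mdl x0 x1 y0 y1 (fun x y => fxt f.x f.t (aff p1 x y) (aff p2 x y) (aff p3 x y))
      (fR k1 k2 k3 f (aff p1 x0 y0) (aff p2 x0 y0) (aff p3 x0 y0))
      (fR k1 k2 k3 f (aff p1 x0 y1) (aff p2 x0 y1) (aff p3 x0 y1))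
      (fR k1 k2 k3 f (aff p1 x1 y0) (aff p2 x1 y0) (aff p3 x1 y0))
      (fR k1 k2 k3 f (aff p1 x1 y1) (aff p2 x1 y1) (aff p3 x1 y1))
      ((((fer k1 k2 k3 U1 U2 U3 E u1x u1y u2 u3 f : Nat) : ℝ) - 262145) / 2 ^ 44) := by
  have mx0 : x0 ∈ Icc x0 x1 := left_mem_Icc.mpr hx01.le
  have mx1 : x1 ∈ Icc x0 x1 := right_mem_Icc.mpr hx01.le
  have my0 : y0 ∈ Icc y0 y1 := left_mem_Icc.mpr hy01.le
  have my1 : y1 ∈ Icc y0 y1 := right_mem_Icc.mpr hy01.le
  rcases hk : f.kind with _ | k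
  · -- pairs
    have g := hf.half hk
    have m12 := pair_k (t := f.t) (g := f.gg) hx01 hy01 h1 h2 g
    have m13 := pair_k (t := f.t) (g := f.gg) hx01 hy01 h1 h3 g
    have m23 := pair_k (t := f.t) (g := f.gg) hx01 hy01 h2 h3 g
    have m := ((m12.add m13).add m23).const_mul (1 / 3)
    have e : ∀ x y, x ∈ Icc x0 x1 → y ∈ Icc y0 y1 →
        fxt f.x f.t (aff p1 x y) (aff p2 x y) (aff p3 x y) =
        1 / 3 * (prR f.t (aff p1 x y) (aff p2 x y) + prR f.t (aff p1 x y) (aff p3 x y) +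
          prR f.t (aff p2 x y) (aff p3 x y)) := by
      intro x y hx hy
      have : f.x = 1 / 2 := by unfold Fn.x; rw [if_pos hk]
      rw [this]
      exact fxt_half' f.t (h1.nn x hx y hy) (h2.nn x hx y hy) (h3.nn x hx y hy)
    have m' := m.congr (g' := fun x y => fxt f.x f.t (aff p1 x y) (aff p2 x y) (aff p3 x y))
      (fun x hx y hy _ _ => e x y hx hy)
    simp only [← fR_half hk] at m'
    refine m'.mono ?_
    have ef : fer k1 k2 k3 U1 U2 U3 E u1x u1y u2 u3 f =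
        Nat.div (U1 * U2 * pw f.gg (band k1 k2) u1x u2 u1y 0 +
          (U1 * U3 * pw f.gg (band k1 k3) u1x 0 u1y u3 +
            U2 * U3 * pw f.gg (band k2 k3) u2 0 0 u3)) c24 + 262146 := by
      unfold fer
      rw [hk]
      rfl
    rw [ef]
    set n := U1 * U2 * pw f.gg (band k1 k2) u1x u2 u1y 0 +
          (U1 * U3 * pw f.gg (band k1 k3) u1x 0 u1y u3 +
            U2 * U3 * pw f.gg (band k2 k3) u2 0 0 u3) with hn
    have hc : 0 < c24 := by norm_num [c24]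
    have key := nat_div_real n c24 hc
    have hn' : (n : ℝ) = (U1 : ℝ) * U2 * pw f.gg (band k1 k2) u1x u2 u1y 0 +
          ((U1 : ℝ) * U3 * pw f.gg (band k1 k3) u1x 0 u1y u3 +
            (U2 : ℝ) * U3 * pw f.gg (band k2 k3) u2 0 0 u3) := by
      rw [hn]; push_cast; ring
    have hcr : ((c24 : Nat) : ℝ) = 3 * 2 ^ 107 := by rw [c24_eq]; push_cast; ring
    rw [hcr] at key
    have e1 : |(1 / 3 : ℝ)| = 1 / 3 := abs_of_pos (by norm_num)
    rw [e1]
    have lhs : 1 / 3 * ((U1 : ℝ) / 2 ^ 44 * (U2 / 2 ^ 44) *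
        ((pw f.gg (band k1 k2) u1x u2 u1y 0 : ℝ) / 2 ^ 63) +
        (U1 : ℝ) / 2 ^ 44 * (U3 / 2 ^ 44) * ((pw f.gg (band k1 k3) u1x 0 u1y u3 : ℝ) / 2 ^ 63) +
        (U2 : ℝ) / 2 ^ 44 * (U3 / 2 ^ 44) * ((pw f.gg (band k2 k3) u2 0 0 u3 : ℝ) / 2 ^ 63)) =
        (n : ℝ) / (3 * 2 ^ 107) / 2 ^ 44 := by
      rw [hn']; ring
    rw [lhs, div_le_div_iff_of_pos_right (by positivity)]
    push_cast
    linarith
  · -- triples
    have hk0 : f.kind ≠ 0 := by omega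
    have hW : ∀ a b : Nat, True := fun _ _ => trivial
    have xval : f.x = 1 / 6 ∧ k = 0 ∨ f.x = 1 / 3 ∧ k ≠ 0 := by
      unfold Fn.x
      rw [if_neg hk0]
      rcases Nat.eq_zero_or_pos k with h0 | h0
      · left
        rw [if_pos (by omega)]
        exact ⟨rfl, h0⟩
      · right
        rw [if_neg (by omega)]
        exact ⟨rfl, by omega⟩
    have gcond : |1 - 2 * f.x| ≤ (f.gg / 2 ^ 10 : ℝ) ∧ f.x ^ 2 + f.t ^ 2 ≤ (f.gg / 2 ^ 10 : ℝ) ^ 2 := by
      rcases xval with ⟨h, hk'⟩ | ⟨h, hk'⟩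
      · rw [h]; exact hf.sixth (by omega)
      · rw [h]; exact hf.third (by omega)
    have x0' : 0 ≤ f.x := by rcases xval with ⟨h, _⟩ | ⟨h, _⟩ <;> rw [h] <;> norm_num
    have x1' : f.x ≤ 1 / 2 := by rcases xval with ⟨h, _⟩ | ⟨h, _⟩ <;> rw [h] <;> norm_num
    set W := pw f.gg (band k1 (band k2 k3)) u1x u2 u1y u3 with hWd
    -- bounds
    obtain ⟨P1, P2, P3, hP1, hP2, hP3, hsum⟩ : ∃ P1 P2 P3 : ℝ,
        (∀ x ∈ Icc x0 x1, ∀ y ∈ Icc y0 y1, aff p1 x y ^ (1 - 2 * f.x) *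
          (aff p2 x y ^ f.x * aff p3 x y ^ f.x) ≤ P1) ∧
        (∀ x ∈ Icc x0 x1, ∀ y ∈ Icc y0 y1, aff p2 x y ^ (1 - 2 * f.x) *
          (aff p3 x y ^ f.x * aff p1 x y ^ f.x) ≤ P2) ∧
        (∀ x ∈ Icc x0 x1, ∀ y ∈ Icc y0 y1, aff p3 x y ^ (1 - 2 * f.x) *
          (aff p1 x y ^ f.x * aff p2 x y ^ f.x) ≤ P3) ∧
        1 / 3 * (P1 + P2 + P3) * ((W : ℝ) / 2 ^ 63) ≤
          (((fer k1 k2 k3 U1 U2 U3 E u1x u1y u2 u3 f : Nat) : ℝ) - 262145) / 2 ^ 44 := by
      rcases xval with ⟨h, hk'⟩ | ⟨h, hk'⟩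
      · -- 1/6
        have aux : ∀ a b c : ℝ, ∀ U : Nat, 0 ≤ a → 0 ≤ b → 0 ≤ c →
            a ^ (1 / 6 : ℝ) * b ^ (1 / 6 : ℝ) * c ^ (1 / 6 : ℝ) ≤ (E : ℝ) / 2 ^ 44 →
            Real.sqrt a ≤ (U : ℝ) / 2 ^ 44 →
            a ^ (1 - 2 * (1 / 6) : ℝ) * (b ^ (1 / 6 : ℝ) * c ^ (1 / 6 : ℝ)) ≤
              (E : ℝ) / 2 ^ 44 * (U / 2 ^ 44) := by
          intro a b c U ha hb hc hE hU
          rw [rpow_six ha]
          calc a ^ (1 / 6 : ℝ) * Real.sqrt a * (b ^ (1 / 6 : ℝ) * c ^ (1 / 6 : ℝ)) =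
              (a ^ (1 / 6 : ℝ) * b ^ (1 / 6 : ℝ) * c ^ (1 / 6 : ℝ)) * Real.sqrt a := by ring
            _ ≤ _ := mul_le_mul hE hU (Real.sqrt_nonneg _) ((by positivity : (0:ℝ) ≤ _).trans hE)
        refine ⟨(E : ℝ) / 2 ^ 44 * (U1 / 2 ^ 44), (E : ℝ) / 2 ^ 44 * (U2 / 2 ^ 44),
          (E : ℝ) / 2 ^ 44 * (U3 / 2 ^ 44), ?_, ?_, ?_, ?_⟩
        · intro x hx y hy
          rw [h]
          exact aux _ _ _ U1 (h1.nn x hx y hy) (h2.nn x hx y hy) (h3.nn x hx y hy)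
            (hE x hx y hy) (h1.sup x hx y hy)
        · intro x hx y hy
          rw [h]
          refine aux _ _ _ U2 (h2.nn x hx y hy) (h3.nn x hx y hy) (h1.nn x hx y hy)
            (le_of_eq_of_le (by ring) (hE x hx y hy)) (h2.sup x hx y hy)
        · intro x hx y hy
          rw [h]
          refine aux _ _ _ U3 (h3.nn x hx y hy) (h1.nn x hx y hy) (h2.nn x hx y hy)
            (le_of_eq_of_le (by ring) (hE x hx y hy)) (h3.sup x hx y hy)
        · have ef : fer k1 k2 k3 U1 U2 U3 E u1x u1y u2 u3 f =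
              Nat.div (E * (U1 + (U2 + U3)) * W) c24 + 262146 := by
            unfold fer
            rw [hk, hk']
            rfl
          rw [ef]
          have hc : 0 < c24 := by norm_num [c24]
          have key := nat_div_real (E * (U1 + (U2 + U3)) * W) c24 hc
          have hcr : ((c24 : Nat) : ℝ) = 3 * 2 ^ 107 := by rw [c24_eq]; push_cast; ring
          rw [hcr] at key
          have lhs : 1 / 3 * ((E : ℝ) / 2 ^ 44 * (U1 / 2 ^ 44) + (E : ℝ) / 2 ^ 44 * (U2 / 2 ^ 44) +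
              (E : ℝ) / 2 ^ 44 * (U3 / 2 ^ 44)) * ((W : ℝ) / 2 ^ 63) =
              ((E * (U1 + (U2 + U3)) * W : Nat) : ℝ) / (3 * 2 ^ 107) / 2 ^ 44 := by
            push_cast; ring
          rw [lhs, div_le_div_iff_of_pos_right (by positivity)]
          push_cast at key ⊢
          linarith
      · -- 1/3
        have aux : ∀ a b c : ℝ, 0 ≤ a → 0 ≤ b → 0 ≤ c →
            a ^ (1 / 6 : ℝ) * b ^ (1 / 6 : ℝ) * c ^ (1 / 6 : ℝ) ≤ (E : ℝ) / 2 ^ 44 →
            a ^ (1 - 2 * (1 / 3) : ℝ) * (b ^ (1 / 3 : ℝ) * c ^ (1 / 3 : ℝ)) ≤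
              (E : ℝ) / 2 ^ 44 * (E / 2 ^ 44) := by
          intro a b c ha hb hc hE
          rw [show (1 - 2 * (1 / 3) : ℝ) = 1 / 3 by norm_num, rpow_three ha, rpow_three hb,
            rpow_three hc]
          calc a ^ (1 / 6 : ℝ) * a ^ (1 / 6 : ℝ) * (b ^ (1 / 6 : ℝ) * b ^ (1 / 6 : ℝ) *
                (c ^ (1 / 6 : ℝ) * c ^ (1 / 6 : ℝ))) =
              (a ^ (1 / 6 : ℝ) * b ^ (1 / 6 : ℝ) * c ^ (1 / 6 : ℝ)) *
                (a ^ (1 / 6 : ℝ) * b ^ (1 / 6 : ℝ) * c ^ (1 / 6 : ℝ)) := by ring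
            _ ≤ _ := mul_le_mul hE hE (by positivity) ((by positivity : (0:ℝ) ≤ _).trans hE)
        refine ⟨(E : ℝ) / 2 ^ 44 * (E / 2 ^ 44), (E : ℝ) / 2 ^ 44 * (E / 2 ^ 44),
          (E : ℝ) / 2 ^ 44 * (E / 2 ^ 44), ?_, ?_, ?_, ?_⟩
        · intro x hx y hy
          rw [h]
          exact aux _ _ _ (h1.nn x hx y hy) (h2.nn x hx y hy) (h3.nn x hx y hy) (hE x hx y hy)
        · intro x hx y hy
          rw [h]
          exact aux _ _ _ (h2.nn x hx y hy) (h3.nn x hx y hy) (h1.nn x hx y hy)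
            (le_of_eq_of_le (by ring) (hE x hx y hy))
        · intro x hx y hy
          rw [h]
          exact aux _ _ _ (h3.nn x hx y hy) (h1.nn x hx y hy) (h2.nn x hx y hy)
            (le_of_eq_of_le (by ring) (hE x hx y hy))
        · obtain ⟨j, rfl⟩ := Nat.exists_eq_succ_of_ne_zero hk'
          have ef : fer k1 k2 k3 U1 U2 U3 E u1x u1y u2 u3 f =
              Nat.div (E * E * W) c8 + 262146 := by
            unfold fer
            rw [hk]
            rfl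
          rw [ef]
          have hc : 0 < c8 := by norm_num [c8]
          have key := nat_div_real (E * E * W) c8 hc
          have hcr : ((c8 : Nat) : ℝ) = 2 ^ 107 := by rw [c8_eq]; push_cast; ring
          rw [hcr] at key
          have lhs : 1 / 3 * ((E : ℝ) / 2 ^ 44 * (E / 2 ^ 44) + (E : ℝ) / 2 ^ 44 * (E / 2 ^ 44) +
              (E : ℝ) / 2 ^ 44 * (E / 2 ^ 44)) * ((W : ℝ) / 2 ^ 63) =
              ((E * E * W : Nat) : ℝ) / (2 ^ 107) / 2 ^ 44 := by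
            push_cast; ring
          rw [lhs, div_le_div_iff_of_pos_right (by positivity)]
          push_cast at key ⊢
          linarith
    have b2 : band k2 (band k3 k1) = band k1 (band k2 k3) := by
      cases k1 <;> cases k2 <;> cases k3 <;> rfl
    have b3 : band k3 (band k1 k2) = band k1 (band k2 k3) := by
      cases k1 <;> cases k2 <;> cases k3 <;> rfl
    have m1 := tri_k (t := f.t) (g := f.gg) (W := W) (a := u1x) (b := u2) (c := u1y) (d := u3)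
      x0' x1' hx01 hy01 h1 h2 h3 hP1 gcond.1 gcond.2 (by push_cast; ring) (by push_cast; ring)
      (by push_cast; ring) hWd
    have m2 := tri_k (t := f.t) (g := f.gg) (W := W) (a := u1x) (b := u2) (c := u1y) (d := u3)
      x0' x1' hx01 hy01 h2 h3 h1 hP2 gcond.1 gcond.2 (by push_cast; ring) (by push_cast; ring)
      (by push_cast; ring) (by rw [b2])
    have m3 := tri_k (t := f.t) (g := f.gg) (W := W) (a := u1x) (b := u2) (c := u1y) (d := u3)
      x0' x1' hx01 hy01 h3 h1 h2 hP3 gcond.1 gcond.2 (by push_cast; ring) (by push_cast; ring)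
      (by push_cast; ring) (by rw [b3])
    have m := ((m1.add m2).add m3).const_mul (1 / 3)
    have e : ∀ x y, x ∈ Icc x0 x1 → y ∈ Icc y0 y1 →
        fxt f.x f.t (aff p1 x y) (aff p2 x y) (aff p3 x y) =
        1 / 3 * (ctm f.x f.t (aff p1 x y) (aff p2 x y) (aff p3 x y) +
          ctm f.x f.t (aff p2 x y) (aff p3 x y) (aff p1 x y) +
          ctm f.x f.t (aff p3 x y) (aff p1 x y) (aff p2 x y)) := by
      intro x y hx hy
      exact fxt_tri f.x f.t (h1.nn x hx y hy) (h2.nn x hx y hy) (h3.nn x hx y hy)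
    have m' := m.congr (g' := fun x y => fxt f.x f.t (aff p1 x y) (aff p2 x y) (aff p3 x y))
      (fun x hx y hy _ _ => e x y hx hy)
    have cc : ∀ x y, x ∈ Icc x0 x1 → y ∈ Icc y0 y1 →
        1 / 3 * ((if k1 && (k2 && k3) then ctm f.x f.t (aff p1 x y) (aff p2 x y) (aff p3 x y) else 0) +
          (if k2 && (k3 && k1) then ctm f.x f.t (aff p2 x y) (aff p3 x y) (aff p1 x y) else 0) +
          (if k3 && (k1 && k2) then ctm f.x f.t (aff p3 x y) (aff p1 x y) (aff p2 x y) else 0)) =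
        fR k1 k2 k3 f (aff p1 x y) (aff p2 x y) (aff p3 x y) := by
      intro x y hx hy
      exact (fR_tri hk0 (h1.nn x hx y hy) (h2.nn x hx y hy) (h3.nn x hx y hy)).symm
    rw [cc x0 y0 mx0 my0, cc x0 y1 mx0 my1, cc x1 y0 mx1 my0, cc x1 y1 mx1 my1] at m'
    refine m'.mono ?_
    have e1 : |(1 / 3 : ℝ)| = 1 / 3 := abs_of_pos (by norm_num)
    rw [e1]
    refine le_trans (le_of_eq ?_) hsum
    ring

end Crest.Agent.R163.Win
end

-- ▼ part R163/WinEvalB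
section

/-! `lg_spec50` : the specification of `lg` up to `2^50` (helper806). -/

set_option autoImplicit false

namespace Crest.Agent.R163.Win

lemma lgT_spec50 (L c a : ℕ) (hc : c = 2 ^ L) (ha : 1 ≤ a) (ha2 : a ≤ 2 ^ 50) :
    |(lgT L c a : ℝ) / 2 ^ 44 - Real.log ((a : ℝ) / 2 ^ 41)| ≤ 1 / 2 ^ 34 := by
  have hslow : |(lgB (Nat.log2 a) (2 ^ Nat.log2 a) a : ℝ) / 2 ^ 44 - Real.log ((a : ℝ) / 2 ^ 41)| ≤ 1 / 2 ^ 34 := by
    have h3 : 2 ^ Nat.log2 a ≤ a := Nat.log2_self_le (by omega)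
    have h4 : a < 2 ^ (Nat.log2 a + 1) := Nat.lt_log2_self
    apply lgB_spec _ _ _ rfl h3
    · rw [pow_succ] at h4; omega
    · by_contra hcon
      push Not at hcon
      have : 2 ^ 51 ≤ 2 ^ Nat.log2 a := Nat.pow_le_pow_right (by norm_num) (by omega)
      have h5 : (2 : ℕ) ^ 43 < 2 ^ 51 := by norm_num
      omega
  have hT : lgT L c a = Bool.rec (motive := fun _ => Int) (lgB (Nat.log2 a) (2 ^ Nat.log2 a) a) (lgB L c a)
    (Bool.rec (motive := fun _ => Bool) false (Nat.ble a (2 * c)) (Nat.ble c a)) := rfl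
  rw [hT]
  cases h5 : Nat.ble c a with
  | false => exact hslow
  | true =>
    cases h6 : Nat.ble a (2 * c) with
    | false => exact hslow
    | true =>
      have h7 : c ≤ a := Nat.le_of_ble_eq_true h5
      have h8 : a ≤ 2 * c := Nat.le_of_ble_eq_true h6
      show |(lgB L c a : ℝ) / 2 ^ 44 - Real.log ((a : ℝ) / 2 ^ 41)| ≤ 1 / 2 ^ 34
      refine lgB_spec L c a hc h7 h8 ?_
      by_contra hcon
      push Not at hcon
      have : 2 ^ 51 ≤ 2 ^ L := Nat.pow_le_pow_right (by norm_num) (by omega)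
      have h5 : (2 : ℕ) ^ 43 < 2 ^ 51 := by norm_num
      omega

theorem lg_spec50 (a : ℕ) (ha : 1 ≤ a) (ha2 : a ≤ 2 ^ 50) :
    |(lg a : ℝ) / 2 ^ 44 - Real.log ((a : ℝ) / 2 ^ 41)| ≤ 1 / 2 ^ 34 := by
  have hA : ∀ L, |(lgA L a : ℝ) / 2 ^ 44 - Real.log ((a : ℝ) / 2 ^ 41)| ≤ 1 / 2 ^ 34 :=
    fun L => lgT_spec50 L (2 ^ L) a rfl ha ha2
  have h0' : ∀ L b, |(h0 L b a : ℝ) / 2 ^ 44 - Real.log ((a : ℝ) / 2 ^ 41)| ≤ 1 / 2 ^ 34 := by
    intro L b
    unfold h0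
    cases Nat.ble (nat_lit 2) b with
    | false => exact hA _
    | true => exact hA _
  have h1' : ∀ L b, |(h1 L b a : ℝ) / 2 ^ 44 - Real.log ((a : ℝ) / 2 ^ 41)| ≤ 1 / 2 ^ 34 := by
    intro L b
    unfold h1
    cases Nat.ble (nat_lit 4) b with
    | false => exact h0' _ _
    | true => exact h0' _ _
  have h2' : ∀ L b, |(h2 L b a : ℝ) / 2 ^ 44 - Real.log ((a : ℝ) / 2 ^ 41)| ≤ 1 / 2 ^ 34 := by
    intro L b
    unfold h2
    cases Nat.ble (nat_lit 16) b with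
    | false => exact h1' _ _
    | true => exact h1' _ _
  have h3' : ∀ L b, |(h3 L b a : ℝ) / 2 ^ 44 - Real.log ((a : ℝ) / 2 ^ 41)| ≤ 1 / 2 ^ 34 := by
    intro L b
    unfold h3
    cases Nat.ble (nat_lit 256) b with
    | false => exact h2' _ _
    | true => exact h2' _ _
  have h4' : ∀ L b, |(h4 L b a : ℝ) / 2 ^ 44 - Real.log ((a : ℝ) / 2 ^ 41)| ≤ 1 / 2 ^ 34 := by
    intro L b
    unfold h4
    cases Nat.ble (nat_lit 65536) b with
    | false => exact h3' _ _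
    | true => exact h3' _ _
  unfold lg
  cases Nat.ble (nat_lit 4294967296) a with
  | false => exact h4' _ _
  | true => exact h4' _ _


end Crest.Agent.R163.Win
end

-- ▼ part R163/WinVal
section

/-!
Row 163, window engine: soundness of the vertex evaluation of the functionals.
-/

set_option autoImplicit false

namespace Crest.Agent.R163.Win

open Set Crest.Agent.R163.Bern

/-! ### integer helpers -/


lemma ng_eq (x : ℤ) : ng x = -x := by
  cases x with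
  | ofNat m => exact negN_eq m
  | negSucc m => rfl

lemma band_eq (a b : Bool) : band a b = (a && b) := by cases a <;> rfl

lemma idv_bd (x : ℤ) {k : ℕ} (hk : 0 < k) : |((idv x k : ℤ) : ℝ) - (x : ℝ) / k| ≤ 1 := by
  have hk' : (0 : ℝ) < k := by exact_mod_cast hk
  have key : ∀ m : ℕ, |((m / k : ℕ) : ℝ) - (m : ℝ) / k| ≤ 1 := by
    intro m
    have h1 := div_bd m k hk
    rw [abs_le]
    constructor <;> linarith [h1.1, h1.2]
  cases x with
  | ofNat m =>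
    have e : idv (Int.ofNat m) k = ((m / k : ℕ) : ℤ) := rfl
    rw [e, Int.ofNat_eq_natCast, Int.cast_natCast, Int.cast_natCast]
    exact key m
  | negSucc m =>
    have e : idv (Int.negSucc m) k = -(((m + 1) / k : ℕ) : ℤ) := negN_eq ((m + 1) / k)
    rw [e]
    have h1 := key (m + 1)
    have h2 : ((Int.negSucc m : ℤ) : ℝ) = -((m + 1 : ℕ) : ℝ) := by
      rw [Int.negSucc_eq]; push_cast; ring
    rw [h2, Int.cast_neg, Int.cast_natCast, ← abs_neg]
    have h3 : -(-(((m + 1) / k : ℕ) : ℝ) - -((m + 1 : ℕ) : ℝ) / k) =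
        (((m + 1) / k : ℕ) : ℝ) - ((m + 1 : ℕ) : ℝ) / k := by ring
    rw [h3]
    exact h1

/-- product of two approximations -/
lemma mul_err {x X y Y ex ey BX BY : ℝ} (hx : |x - X| ≤ ex) (hy : |y - Y| ≤ ey)
    (hX : |X| ≤ BX) (hY : |Y| ≤ BY) : |x * y - X * Y| ≤ ex * (BY + ey) + BX * ey := by
  have h1 : |y| ≤ BY + ey := by
    have : |y| ≤ |Y| + |y - Y| := by
      have := abs_add_le Y (y - Y)
      rwa [add_sub_cancel] at this
    linarith
  have h2 : x * y - X * Y = (x - X) * y + X * (y - Y) := by ring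
  rw [h2]
  have h3 : 0 ≤ ex := (abs_nonneg _).trans hx
  have h4 : 0 ≤ BX := (abs_nonneg _).trans hX
  calc |(x - X) * y + X * (y - Y)| ≤ |(x - X) * y| + |X * (y - Y)| := abs_add_le _ _
    _ ≤ ex * (BY + ey) + BX * ey := by
      rw [abs_mul, abs_mul]
      gcongr

lemma add_err {x X y Y ex ey : ℝ} (hx : |x - X| ≤ ex) (hy : |y - Y| ≤ ey) :
    |(x + y) - (X + Y)| ≤ ex + ey := by
  have : (x + y) - (X + Y) = (x - X) + (y - Y) := by ring
  rw [this]
  exact (abs_add_le _ _).trans (add_le_add hx hy)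

/-- exponentials of close arguments -/
lemma exp_err {y L η : ℝ} (h : |y - L| ≤ η) (hη : η ≤ 1) (hL : Real.exp L ≤ 2) :
    |Real.exp y - Real.exp L| ≤ 2 * (η + η ^ 2) := by
  have h0 : 0 ≤ η := (abs_nonneg _).trans h
  have h1 : |Real.exp (y - L) - 1 - (y - L)| ≤ (y - L) ^ 2 :=
    Real.abs_exp_sub_one_sub_id_le (h.trans hη)
  have h2 : |Real.exp (y - L) - 1| ≤ η + η ^ 2 := by
    have h3 : (y - L) ^ 2 ≤ η ^ 2 := sq_le_sq' (by linarith [(abs_le.1 h).1]) (abs_le.1 h).2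
    have h4 : Real.exp (y - L) - 1 = (Real.exp (y - L) - 1 - (y - L)) + (y - L) := by ring
    rw [h4]
    refine (abs_add_le _ _).trans ?_
    linarith
  have h5 : Real.exp y - Real.exp L = Real.exp L * (Real.exp (y - L) - 1) := by
    rw [mul_sub, mul_one, ← Real.exp_add]
    congr 2
    ring
  rw [h5, abs_mul, abs_of_pos (Real.exp_pos L)]
  exact mul_le_mul hL h2 (abs_nonneg _) (by norm_num)

lemma abs_sin_sub_le' (a b : ℝ) : |Real.sin a - Real.sin b| ≤ |a - b| := by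
  rw [← Real.cos_sub_pi_div_two, ← Real.cos_sub_pi_div_two]
  have := abs_cos_sub_le (a - Real.pi / 2) (b - Real.pi / 2)
  rwa [show a - Real.pi / 2 - (b - Real.pi / 2) = a - b by ring] at this

/-! ### logarithms -/

/-- the real argument -/
noncomputable def rv (side : Bool) (N : ℕ) : ℝ := (N : ℝ) / den side

lemma den_pos (side : Bool) : 0 < den side := by cases side <;> simp [den]

lemma rv_pos (side : Bool) {N : ℕ} (h : 8192 ≤ N) : 0 < rv side N := by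
  have : (0 : ℝ) < N := by exact_mod_cast (by omega : 0 < N)
  exact div_pos this (den_pos side)

lemma lq_spec (side : Bool) {N : ℕ} (h : 8192 ≤ N) (H : N ≤ 2 ^ 50) :
    |((lq side N : ℤ) : ℝ) / 2 ^ 44 - Real.log (rv side N)| ≤ 1 / 2 ^ 33 := by
  have hN : (0 : ℝ) < N := by exact_mod_cast (by omega : 0 < N)
  have h1 := lg_spec50 N (by omega) H
  have key : ∀ D : ℕ, 1 ≤ D → D ≤ 2 ^ 50 →
      |((ia (lg N) (ng (lg D)) : ℤ) : ℝ) / 2 ^ 44 - Real.log ((N : ℝ) / D)| ≤ 1 / 2 ^ 33 := by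
    intro D hD1 hD2
    have h2 := lg_spec50 D hD1 hD2
    have hD : (0 : ℝ) < D := by exact_mod_cast (by omega : 0 < D)
    rw [ia_eq, ng_eq]
    push_cast
    have e : Real.log ((N : ℝ) / D) = Real.log ((N : ℝ) / 2 ^ 41) - Real.log ((D : ℝ) / 2 ^ 41) := by
      rw [Real.log_div hN.ne' hD.ne', Real.log_div hN.ne' (by positivity),
        Real.log_div hD.ne' (by positivity)]
      ring
    rw [e]
    rw [abs_le] at h1 h2 ⊢
    constructor <;> (rw [add_div, neg_div]; linarith [h1.1, h1.2, h2.1, h2.2])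
  cases side with
  | false =>
    have := key 281474976710656 (by norm_num) (by norm_num)
    have e : rv false N = (N : ℝ) / ((281474976710656 : ℕ) : ℝ) := by
      unfold rv den; norm_num
    rw [e]
    exact this
  | true =>
    have := key 562949953421312 (by norm_num) (by norm_num)
    have e : rv true N = (N : ℝ) / ((562949953421312 : ℕ) : ℝ) := by
      unfold rv den; norm_num
    rw [e]
    exact this

lemma log_rv_bd (side : Bool) {N : ℕ} (h : 8192 ≤ N) (H : N ≤ 2 ^ 50) :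
    -25 ≤ Real.log (rv side N) ∧ Real.log (rv side N) ≤ 2 * Real.log 2 := by
  have hN : (8192 : ℝ) ≤ N := by exact_mod_cast h
  have hN2 : (N : ℝ) ≤ 2 ^ 50 := by exact_mod_cast H
  have hp := rv_pos side h
  have h2 := Real.log_two_lt_d9
  have lo : (1 / 2 ^ 36 : ℝ) ≤ rv side N := by
    unfold rv
    rw [le_div_iff₀ (den_pos side)]
    cases side <;> simp only [den] <;> norm_num <;> linarith
  have hi : rv side N ≤ 4 := by
    unfold rv
    rw [div_le_iff₀ (den_pos side)]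
    cases side <;> simp only [den] <;> norm_num <;> linarith
  constructor
  · have h3 := Real.log_le_log (by positivity) lo
    rw [Real.log_div (by norm_num) (by positivity), Real.log_one, Real.log_pow] at h3
    push_cast at h3
    linarith
  · have h3 := Real.log_le_log hp hi
    have h4 : Real.log 4 = 2 * Real.log 2 := by
      rw [show (4 : ℝ) = 2 ^ 2 by norm_num, Real.log_pow]; norm_num
    rwa [h4] at h3

/-! ### square roots and sixth roots -/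

lemma exp_half_log {a : ℝ} (ha : 0 < a) : Real.exp (Real.log a / 2) = Real.sqrt a := by
  rw [Real.sqrt_eq_rpow, Real.rpow_def_of_pos ha]
  congr 1
  ring

/-- evaluation of the exponential of a quotient -/
lemma ex_idv_spec (x : ℤ) {k : ℕ} (hk : 0 < k) {L : ℝ} {ε : ℝ} (hx : |(x : ℝ) / 2 ^ 44 / k - L| ≤ ε)
    (hε : ε ≤ 1 / 2 ^ 34) (h1 : -26 ≤ L) (h2 : Real.exp L ≤ 2) :
    |((ex (idv x k) : ℤ) : ℝ) / 2 ^ 44 - Real.exp L| ≤ 4 / 2 ^ 34 := by
  have hk' : (0 : ℝ) < k := by exact_mod_cast hk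
  set y := idv x k with hy
  have hb := idv_bd x hk
  rw [← hy] at hb
  have h3 : |(y : ℝ) / 2 ^ 44 - L| ≤ 1 / 2 ^ 34 + 1 / 2 ^ 44 := by
    have e : (y : ℝ) / 2 ^ 44 - L = ((y : ℝ) - (x : ℝ) / k) / 2 ^ 44 + ((x : ℝ) / 2 ^ 44 / k - L) := by
      field_simp
      ring
    rw [e]
    refine (abs_add_le _ _).trans ?_
    have h4 : |((y : ℝ) - (x : ℝ) / k) / 2 ^ 44| ≤ 1 / 2 ^ 44 := by
      rw [abs_div, abs_of_pos (by positivity : (0 : ℝ) < 2 ^ 44)]
      exact div_le_div_of_nonneg_right hb (by positivity)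
    linarith
  have hL2 : L ≤ 1 := by
    by_contra hcon
    push Not at hcon
    have h5 : Real.exp 1 < Real.exp L := Real.exp_lt_exp.2 hcon
    have h6 := Real.exp_one_gt_d9
    linarith
  have h7 := abs_le.1 h3
  have hy1 : -30 * 2 ^ 44 ≤ y := by
    have : (-30 * 2 ^ 44 : ℝ) ≤ y := by
      have h8 : (-30 : ℝ) ≤ (y : ℝ) / 2 ^ 44 := by
        have := h7.1
        norm_num at this ⊢
        linarith
      rw [le_div_iff₀ (by positivity)] at h8
      exact h8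
    exact_mod_cast this
  have hy2 : y ≤ 2 * 2 ^ 44 := by
    have : (y : ℝ) ≤ 2 * 2 ^ 44 := by
      have h8 : (y : ℝ) / 2 ^ 44 ≤ 2 := by
        have := h7.2
        norm_num at this ⊢
        linarith
      rw [div_le_iff₀ (by positivity)] at h8
      exact h8
    exact_mod_cast this
  have h9 := ex_spec y hy1 hy2
  have h10 := exp_err h3 (by norm_num) h2
  have h11 : |((ex y : ℤ) : ℝ) / 2 ^ 44 - Real.exp L| ≤
      |((ex y : ℤ) : ℝ) / 2 ^ 44 - Real.exp ((y : ℝ) / 2 ^ 44)| +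
        |Real.exp ((y : ℝ) / 2 ^ 44) - Real.exp L| := abs_sub_le _ _ _
  refine h11.trans ((add_le_add h9 h10).trans ?_)
  norm_num

lemma sq_spec (side : Bool) {N : ℕ} (h : 8192 ≤ N) (H : N ≤ 2 ^ 50) :
    |((sq side N : ℤ) : ℝ) / 2 ^ 44 - Real.sqrt (rv side N)| ≤ 4 / 2 ^ 34 := by
  have h1 := lq_spec side h H
  have h2 := log_rv_bd side h H
  have hp := rv_pos side h
  rw [← exp_half_log hp]
  unfold sq
  refine ex_idv_spec _ (by norm_num) (ε := 1 / 2 ^ 34) ?_ le_rfl (by linarith [h2.1]) ?_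
  · have e : ((lq side N : ℤ) : ℝ) / 2 ^ 44 / ((2 : ℕ) : ℝ) - Real.log (rv side N) / 2 =
        (((lq side N : ℤ) : ℝ) / 2 ^ 44 - Real.log (rv side N)) / 2 := by
      push_cast; ring
    rw [e, abs_div, abs_of_pos (by norm_num : (0 : ℝ) < 2)]
    have := div_le_div_of_nonneg_right h1 (by norm_num : (0 : ℝ) ≤ 2)
    refine this.trans ?_
    norm_num
  · have h3 : Real.log (rv side N) / 2 ≤ Real.log 2 := by linarith [h2.2]
    calc Real.exp (Real.log (rv side N) / 2) ≤ Real.exp (Real.log 2) := Real.exp_le_exp.2 h3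
      _ = 2 := Real.exp_log (by norm_num)

lemma sqrt_rv_le (side : Bool) {N : ℕ} (h : 8192 ≤ N) (H : N ≤ 2 ^ 50) :
    |Real.sqrt (rv side N)| ≤ 2 := by
  rw [abs_of_nonneg (Real.sqrt_nonneg _)]
  have hp := rv_pos side h
  have h2 := log_rv_bd side h H
  rw [← exp_half_log hp]
  calc Real.exp (Real.log (rv side N) / 2) ≤ Real.exp (Real.log 2) :=
        Real.exp_le_exp.2 (by linarith [h2.2])
    _ = 2 := Real.exp_log (by norm_num)

lemma e6_spec (side : Bool) {N1 N2 N3 : ℕ} (h1 : 8192 ≤ N1) (H1 : N1 ≤ 2 ^ 50)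
    (h2 : 8192 ≤ N2) (H2 : N2 ≤ 2 ^ 50) (h3 : 8192 ≤ N3) (H3 : N3 ≤ 2 ^ 50) :
    |((e6 side N1 N2 N3 : ℤ) : ℝ) / 2 ^ 44 -
      Real.exp ((Real.log (rv side N1) + Real.log (rv side N2) + Real.log (rv side N3)) / 6)| ≤
        4 / 2 ^ 34 := by
  have a1 := lq_spec side h1 H1
  have a2 := lq_spec side h2 H2
  have a3 := lq_spec side h3 H3
  have b1 := log_rv_bd side h1 H1
  have b2 := log_rv_bd side h2 H2
  have b3 := log_rv_bd side h3 H3
  unfold e6
  refine ex_idv_spec _ (by norm_num) (ε := 1 / 2 ^ 34) ?_ le_rfl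
    (by linarith [b1.1, b2.1, b3.1]) ?_
  · rw [ia_eq, ia_eq]
    push_cast
    have e : ((lq side N1 : ℝ) + ((lq side N2 : ℝ) + (lq side N3 : ℝ))) / 2 ^ 44 / 6 -
        (Real.log (rv side N1) + Real.log (rv side N2) + Real.log (rv side N3)) / 6 =
        (((lq side N1 : ℝ) / 2 ^ 44 - Real.log (rv side N1)) +
          ((lq side N2 : ℝ) / 2 ^ 44 - Real.log (rv side N2)) +
          ((lq side N3 : ℝ) / 2 ^ 44 - Real.log (rv side N3))) / 6 := by ring
    rw [e, abs_div, abs_of_pos (by norm_num : (0 : ℝ) < 6)]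
    have h4 := (abs_add_le (((lq side N1 : ℝ) / 2 ^ 44 - Real.log (rv side N1)) +
          ((lq side N2 : ℝ) / 2 ^ 44 - Real.log (rv side N2)))
          ((lq side N3 : ℝ) / 2 ^ 44 - Real.log (rv side N3)))
    have h5 := abs_add_le ((lq side N1 : ℝ) / 2 ^ 44 - Real.log (rv side N1))
          ((lq side N2 : ℝ) / 2 ^ 44 - Real.log (rv side N2))
    rw [div_le_iff₀ (by norm_num : (0 : ℝ) < 6)]
    norm_num at a1 a2 a3 ⊢
    linarith
  · have h4 : (Real.log (rv side N1) + Real.log (rv side N2) + Real.log (rv side N3)) / 6 ≤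
        Real.log 2 := by linarith [b1.2, b2.2, b3.2]
    calc Real.exp ((Real.log (rv side N1) + Real.log (rv side N2) + Real.log (rv side N3)) / 6) ≤
        Real.exp (Real.log 2) := Real.exp_le_exp.2 h4
      _ = 2 := Real.exp_log (by norm_num)

lemma exp6_le (side : Bool) {N1 N2 N3 : ℕ} (h1 : 8192 ≤ N1) (H1 : N1 ≤ 2 ^ 50)
    (h2 : 8192 ≤ N2) (H2 : N2 ≤ 2 ^ 50) (h3 : 8192 ≤ N3) (H3 : N3 ≤ 2 ^ 50) :
    |Real.exp ((Real.log (rv side N1) + Real.log (rv side N2) + Real.log (rv side N3)) / 6)| ≤ 2 := by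
  have b1 := log_rv_bd side h1 H1
  have b2 := log_rv_bd side h2 H2
  have b3 := log_rv_bd side h3 H3
  rw [abs_of_pos (Real.exp_pos _)]
  calc Real.exp ((Real.log (rv side N1) + Real.log (rv side N2) + Real.log (rv side N3)) / 6) ≤
      Real.exp (Real.log 2) := Real.exp_le_exp.2 (by linarith [b1.2, b2.2, b3.2])
    _ = 2 := Real.exp_log (by norm_num)

/-! ### trigonometric part -/

lemma ct_spec (side : Bool) {tn N : ℕ} (ht : tn ≤ 30) (h : 8192 ≤ N) (H : N ≤ 2 ^ 50) :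
    |(((ct side tn N).1 : ℤ) : ℝ) / 2 ^ 44 - Real.cos ((tn : ℝ) / 20 * Real.log (rv side N))| ≤
      5 / 2 ^ 34 ∧
    |(((ct side tn N).2 : ℤ) : ℝ) / 2 ^ 44 - Real.sin ((tn : ℝ) / 20 * Real.log (rv side N))| ≤
      5 / 2 ^ 34 := by
  have h1 := lq_spec side h H
  have h2 := log_rv_bd side h H
  have ht' : (tn : ℝ) ≤ 30 := by exact_mod_cast ht
  have ht0 : (0 : ℝ) ≤ tn := Nat.cast_nonneg _
  set y := idv (im (Int.ofNat tn) (lq side N)) 20 with hy
  have hct : ct side tn N = cs y := rfl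
  have hb := idv_bd (im (Int.ofNat tn) (lq side N)) (k := 20) (by norm_num)
  rw [← hy, im_eq] at hb
  push_cast at hb
  set t : ℝ := (tn : ℝ) / 20 with htdef
  have ht1 : t ≤ 3 / 2 := by rw [htdef]; linarith
  have ht0' : 0 ≤ t := by positivity
  have h3 : |(y : ℝ) / 2 ^ 44 - t * Real.log (rv side N)| ≤ 3 / 2 ^ 34 + 1 / 2 ^ 44 := by
    have e : (y : ℝ) / 2 ^ 44 - t * Real.log (rv side N) =
        ((y : ℝ) - ((Int.ofNat tn : ℤ) : ℝ) * (lq side N : ℝ) / 20) / 2 ^ 44 +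
          t * ((lq side N : ℝ) / 2 ^ 44 - Real.log (rv side N)) := by
      rw [htdef]
      simp only [Int.ofNat_eq_natCast, Int.cast_natCast]
      ring
    rw [e]
    refine (abs_add_le _ _).trans ?_
    have h4 : |((y : ℝ) - ((Int.ofNat tn : ℤ) : ℝ) * (lq side N : ℝ) / 20) / 2 ^ 44| ≤ 1 / 2 ^ 44 := by
      rw [abs_div, abs_of_pos (by positivity : (0 : ℝ) < 2 ^ 44)]
      refine div_le_div_of_nonneg_right ?_ (by positivity)
      simp only [Int.ofNat_eq_natCast, Int.cast_natCast] at hb ⊢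
      exact hb
    have h5 : |t * ((lq side N : ℝ) / 2 ^ 44 - Real.log (rv side N))| ≤ 3 / 2 ^ 34 := by
      rw [abs_mul, abs_of_nonneg ht0']
      have := mul_le_mul ht1 h1 (abs_nonneg _) (by norm_num)
      refine this.trans ?_
      norm_num
    linarith
  have hlogabs : |Real.log (rv side N)| ≤ 25 := by
    rw [abs_le]
    have := Real.log_two_lt_d9
    constructor
    · linarith [h2.1]
    · linarith [h2.2]
  have h6 : |t * Real.log (rv side N)| ≤ 75 / 2 := by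
    rw [abs_mul, abs_of_nonneg ht0']
    have := mul_le_mul ht1 hlogabs (abs_nonneg _) (by norm_num)
    refine this.trans ?_
    norm_num
  have hyabs : |y| ≤ 38 * 2 ^ 44 := by
    have h7 : |(y : ℝ)| ≤ 38 * 2 ^ 44 := by
      have h8 : |(y : ℝ) / 2 ^ 44| ≤ 38 := by
        have h9 : |(y : ℝ) / 2 ^ 44| ≤ |t * Real.log (rv side N)| +
            |(y : ℝ) / 2 ^ 44 - t * Real.log (rv side N)| := by
          have := abs_add_le (t * Real.log (rv side N))
            ((y : ℝ) / 2 ^ 44 - t * Real.log (rv side N))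
          rwa [add_sub_cancel] at this
        refine h9.trans ((add_le_add h6 h3).trans ?_)
        norm_num
      rw [abs_div, abs_of_pos (by positivity : (0 : ℝ) < 2 ^ 44), div_le_iff₀ (by positivity)] at h8
      exact h8
    exact_mod_cast h7
  have h10 := cs_spec y hyabs
  rw [hct]
  constructor
  · have h11 := abs_cos_sub_le ((y : ℝ) / 2 ^ 44) (t * Real.log (rv side N))
    refine (abs_sub_le _ (Real.cos ((y : ℝ) / 2 ^ 44)) _).trans
      ((add_le_add h10.1 (h11.trans h3)).trans ?_)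
    norm_num
  · have h11 := abs_sin_sub_le' ((y : ℝ) / 2 ^ 44) (t * Real.log (rv side N))
    refine (abs_sub_le _ (Real.sin ((y : ℝ) / 2 ^ 44)) _).trans
      ((add_le_add h10.2 (h11.trans h3)).trans ?_)
    norm_num

lemma dd_spec (side : Bool) {tn N M : ℕ} (ht : tn ≤ 30) (h : 8192 ≤ N) (H : N ≤ 2 ^ 50)
    (h' : 8192 ≤ M) (H' : M ≤ 2 ^ 50) :
    |((dd side tn N M : ℤ) : ℝ) / 2 ^ 88 -
      Real.cos ((tn : ℝ) / 20 * (Real.log (rv side N) - Real.log (rv side M)))| ≤ 21 / 2 ^ 34 := by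
  obtain ⟨c1, s1⟩ := ct_spec side ht h H
  obtain ⟨c2, s2⟩ := ct_spec side ht h' H'
  set u := (tn : ℝ) / 20 * Real.log (rv side N) with hu
  set v := (tn : ℝ) / 20 * Real.log (rv side M) with hv
  have e : Real.cos ((tn : ℝ) / 20 * (Real.log (rv side N) - Real.log (rv side M))) =
      Real.cos u * Real.cos v + Real.sin u * Real.sin v := by
    rw [← Real.cos_sub, hu, hv]
    congr 1
    ring
  rw [e]
  have m1 := mul_err c1 c2 (Real.abs_cos_le_one u) (Real.abs_cos_le_one v)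
  have m2 := mul_err s1 s2 (Real.abs_sin_le_one u) (Real.abs_sin_le_one v)
  have m3 := add_err m1 m2
  have e2 : ((dd side tn N M : ℤ) : ℝ) / 2 ^ 88 =
      (((ct side tn N).1 : ℤ) : ℝ) / 2 ^ 44 * ((((ct side tn M).1 : ℤ) : ℝ) / 2 ^ 44) +
      (((ct side tn N).2 : ℤ) : ℝ) / 2 ^ 44 * ((((ct side tn M).2 : ℤ) : ℝ) / 2 ^ 44) := by
    unfold dd
    rw [ia_eq, im_eq, im_eq]
    push_cast
    ring
  rw [e2]
  refine m3.trans ?_
  norm_num

/-- the pair term -/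
lemma pair_spec (side : Bool) {tn N M : ℕ} (ht : tn ≤ 30) (h : 8192 ≤ N) (H : N ≤ 2 ^ 50)
    (h' : 8192 ≤ M) (H' : M ≤ 2 ^ 50) :
    |((im (im (sq side N) (sq side M)) (dd side tn N M) : ℤ) : ℝ) / 2 ^ 176 -
      prR ((tn : ℝ) / 20) (rv side N) (rv side M)| ≤ 102 / 2 ^ 34 := by
  have a1 := sq_spec side h H
  have a2 := sq_spec side h' H'
  have b1 := sqrt_rv_le side h H
  have b2 := sqrt_rv_le side h' H'
  have m1 := mul_err a1 a2 b1 b2
  have hb : |Real.sqrt (rv side N) * Real.sqrt (rv side M)| ≤ 4 := by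
    rw [abs_mul]
    have := mul_le_mul b1 b2 (abs_nonneg _) (by norm_num)
    linarith
  have m2 := mul_err m1 (dd_spec side ht h H h' H') hb (Real.abs_cos_le_one _)
  have e2 : ((im (im (sq side N) (sq side M)) (dd side tn N M) : ℤ) : ℝ) / 2 ^ 176 =
      ((sq side N : ℤ) : ℝ) / 2 ^ 44 * (((sq side M : ℤ) : ℝ) / 2 ^ 44) *
        (((dd side tn N M : ℤ) : ℝ) / 2 ^ 88) := by
    rw [im_eq, im_eq]
    push_cast
    ring
  rw [e2]
  unfold prR
  refine m2.trans ?_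
  norm_num

lemma hp_spec (side k : Bool) {tn N M : ℕ} (ht : tn ≤ 30) (h : k = true → 8192 ≤ N)
    (H : N ≤ 2 ^ 50) (h' : k = true → 8192 ≤ M) (H' : M ≤ 2 ^ 50) :
    |((hp side tn k N M : ℤ) : ℝ) / 2 ^ 176 -
      (if k then prR ((tn : ℝ) / 20) (rv side N) (rv side M) else 0)| ≤ 102 / 2 ^ 34 := by
  cases k with
  | false =>
    have : hp side tn false N M = 0 := rfl
    rw [this]
    norm_num
  | true =>
    have e : hp side tn true N M = im (im (sq side N) (sq side M)) (dd side tn N M) := rfl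
    rw [e, if_pos rfl]
    exact pair_spec side ht (h rfl) H (h' rfl) H'

/-- final division -/
lemma idv_final {x : ℤ} {F ε : ℝ} (hx : |(x : ℝ) / 2 ^ 176 - 3 * F| ≤ ε) (hε : ε ≤ 310 / 2 ^ 34) :
    |((idv x c132 : ℤ) : ℝ) / 2 ^ 44 - F| ≤ 1 / 2 ^ 26 := by
  have hb := idv_bd x (k := c132) (by unfold c132; norm_num)
  have hc : ((c132 : ℕ) : ℝ) = 3 * 2 ^ 132 := by unfold c132; norm_num
  rw [hc] at hb
  have e : ((idv x c132 : ℤ) : ℝ) / 2 ^ 44 - F =
      (((idv x c132 : ℤ) : ℝ) - (x : ℝ) / (3 * 2 ^ 132)) / 2 ^ 44 +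
        ((x : ℝ) / 2 ^ 176 - 3 * F) / 3 := by
    ring
  rw [e]
  refine (abs_add_le _ _).trans ?_
  rw [abs_div, abs_div, abs_of_pos (by positivity : (0 : ℝ) < 2 ^ 44),
    abs_of_pos (by norm_num : (0 : ℝ) < 3)]
  have h1 := div_le_div_of_nonneg_right hb (by positivity : (0 : ℝ) ≤ 2 ^ 44)
  have h2 := div_le_div_of_nonneg_right (hx.trans hε) (by norm_num : (0 : ℝ) ≤ 3)
  refine (add_le_add h1 h2).trans ?_
  norm_num

/-- soundness of the vertex values -/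
theorem fval_spec {side k1 k2 k3 : Bool} {N1 N2 N3 : ℕ} {f : Fn} (ht : f.tn ≤ 30)
    (h1 : k1 = true → 8192 ≤ N1) (h2 : k2 = true → 8192 ≤ N2) (h3 : k3 = true → 8192 ≤ N3)
    (H1 : N1 ≤ 2 ^ 50) (H2 : N2 ≤ 2 ^ 50) (H3 : N3 ≤ 2 ^ 50) :
    |((fval side k1 k2 k3 N1 N2 N3 f : ℤ) : ℝ) / 2 ^ 44 -
      fR k1 k2 k3 f (N1 / den side) (N2 / den side) (N3 / den side)| ≤ 1 / 2 ^ 26 := by
  obtain ⟨kind, tn, gg⟩ := f
  simp only at ht
  change |((fval side k1 k2 k3 N1 N2 N3 ⟨kind, tn, gg⟩ : ℤ) : ℝ) / 2 ^ 44 -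
      fR k1 k2 k3 ⟨kind, tn, gg⟩ (rv side N1) (rv side N2) (rv side N3)| ≤ 1 / 2 ^ 26
  have htt : (⟨kind, tn, gg⟩ : Fn).t = (tn : ℝ) / 20 := rfl
  rcases kind with _ | kind
  · -- pair sums
    have e : fval side k1 k2 k3 N1 N2 N3 ⟨0, tn, gg⟩ =
        idv (ia (hp side tn (band k1 k2) N1 N2)
          (ia (hp side tn (band k1 k3) N1 N3) (hp side tn (band k2 k3) N2 N3))) c132 := rfl
    rw [e]
    have a12 := hp_spec side (k1 && k2) ht (fun h => h1 (by simp at h; exact h.1)) H1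
      (fun h => h2 (by simp at h; exact h.2)) H2 (N := N1) (M := N2)
    have a13 := hp_spec side (k1 && k3) ht (fun h => h1 (by simp at h; exact h.1)) H1
      (fun h => h3 (by simp at h; exact h.2)) H3 (N := N1) (M := N3)
    have a23 := hp_spec side (k2 && k3) ht (fun h => h2 (by simp at h; exact h.1)) H2
      (fun h => h3 (by simp at h; exact h.2)) H3 (N := N2) (M := N3)
    refine idv_final (ε := 306 / 2 ^ 34) ?_ (by norm_num)
    rw [ia_eq, ia_eq, band_eq, band_eq, band_eq]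
    push_cast
    have hF : 3 * fR k1 k2 k3 ⟨0, tn, gg⟩ (rv side N1) (rv side N2) (rv side N3) =
        (if (k1 && k2) = true then prR ((tn : ℝ) / 20) (rv side N1) (rv side N2) else 0) +
        (if (k1 && k3) = true then prR ((tn : ℝ) / 20) (rv side N1) (rv side N3) else 0) +
        (if (k2 && k3) = true then prR ((tn : ℝ) / 20) (rv side N2) (rv side N3) else 0) := by
      unfold fR
      rw [if_pos rfl, htt]
      ring
    rw [hF]
    have m := add_err (add_err a12 a13) a23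
    have e3 : ((hp side tn (k1 && k2) N1 N2 : ℝ) + ((hp side tn (k1 && k3) N1 N3 : ℝ) +
        (hp side tn (k2 && k3) N2 N3 : ℝ))) / 2 ^ 176 =
        (hp side tn (k1 && k2) N1 N2 : ℝ) / 2 ^ 176 + (hp side tn (k1 && k3) N1 N3 : ℝ) / 2 ^ 176 +
          (hp side tn (k2 && k3) N2 N3 : ℝ) / 2 ^ 176 := by ring
    rw [e3]
    refine m.trans ?_
    norm_num
  · -- the other kinds
    cases hk : (k1 && (k2 && k3)) with
    | false =>
      have e : fval side k1 k2 k3 N1 N2 N3 ⟨kind + 1, tn, gg⟩ = idv 0 c132 := by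
        have hb : band k1 (band k2 k3) = false := by rw [band_eq, band_eq]; exact hk
        show idv (Bool.rec (Int.ofNat 0) _ (band k1 (band k2 k3))) c132 = _
        rw [hb]
        rfl
      have e2 : fR k1 k2 k3 ⟨kind + 1, tn, gg⟩ (rv side N1) (rv side N2) (rv side N3) = 0 := by
        unfold fR
        simp [hk]
      rw [e, e2]
      refine idv_final (x := 0) (F := 0) (ε := 0) ?_ (by norm_num)
      norm_num
    | true =>
      have hb : band k1 (band k2 k3) = true := by rw [band_eq, band_eq]; exact hk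
      simp only [Bool.and_eq_true] at hk
      obtain ⟨hk1, hk2, hk3⟩ := hk
      have g1 := h1 hk1
      have g2 := h2 hk2
      have g3 := h3 hk3
      have E := e6_spec side g1 H1 g2 H2 g3 H3
      have EB := exp6_le side g1 H1 g2 H2 g3 H3
      set X := Real.exp ((Real.log (rv side N1) + Real.log (rv side N2) +
        Real.log (rv side N3)) / 6) with hX
      have d12 := dd_spec side ht g1 H1 g2 H2
      have d13 := dd_spec side ht g1 H1 g3 H3
      have d23 := dd_spec side ht g2 H2 g3 H3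
      set C12 := Real.cos ((tn : ℝ) / 20 * (Real.log (rv side N1) - Real.log (rv side N2))) with hC12
      set C13 := Real.cos ((tn : ℝ) / 20 * (Real.log (rv side N1) - Real.log (rv side N3))) with hC13
      set C23 := Real.cos ((tn : ℝ) / 20 * (Real.log (rv side N2) - Real.log (rv side N3))) with hC23
      have p1 := rv_pos side g1
      have p2 := rv_pos side g2
      have p3 := rv_pos side g3
      have c31 : Real.cos ((tn : ℝ) / 20 * (Real.log (rv side N3) - Real.log (rv side N1))) = C13 := by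
        rw [hC13, ← Real.cos_neg]
        congr 1
        ring
      rcases kind with _ | kind
      · -- kind 1
        have e : fval side k1 k2 k3 N1 N2 N3 ⟨0 + 1, tn, gg⟩ =
            idv (im (e6 side N1 N2 N3) (ia (im (sq side N3) (dd side tn N1 N2))
              (ia (im (sq side N2) (dd side tn N1 N3)) (im (sq side N1) (dd side tn N2 N3))))) c132 := by
          show idv (Bool.rec (Int.ofNat 0) _ (band k1 (band k2 k3))) c132 = _
          rw [hb]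
        rw [e]
        have hF : 3 * fR k1 k2 k3 ⟨0 + 1, tn, gg⟩ (rv side N1) (rv side N2) (rv side N3) =
            X * (Real.sqrt (rv side N3) * C12 + Real.sqrt (rv side N2) * C13 +
              Real.sqrt (rv side N1) * C23) := by
          unfold fR
          simp only [hk1, hk2, hk3, Bool.and_self, if_true, zero_add, one_ne_zero, if_false]
          have htt : (⟨1, tn, gg⟩ : Fn).t = (tn : ℝ) / 20 := rfl
          rw [htt, fxt_sixth _ p1 p2 p3, c31]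
          rw [← hX, ← hC12, ← hC23]
          ring
        refine idv_final (ε := 310 / 2 ^ 34) ?_ le_rfl
        rw [hF]
        have s1 := sq_spec side g1 H1
        have s2 := sq_spec side g2 H2
        have s3 := sq_spec side g3 H3
        have t1 := sqrt_rv_le side g1 H1
        have t2 := sqrt_rv_le side g2 H2
        have t3 := sqrt_rv_le side g3 H3
        have m3 := mul_err s3 d12 t3 (Real.abs_cos_le_one _)
        have m2 := mul_err s2 d13 t2 (Real.abs_cos_le_one _)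
        have m1 := mul_err s1 d23 t1 (Real.abs_cos_le_one _)
        have m := add_err (add_err m3 m2) m1
        have hB : |Real.sqrt (rv side N3) * C12 + Real.sqrt (rv side N2) * C13 +
            Real.sqrt (rv side N1) * C23| ≤ 6 := by
          have q1 : |Real.sqrt (rv side N3) * C12| ≤ 2 := by
            rw [abs_mul]
            have := mul_le_mul t3 (Real.abs_cos_le_one ((tn : ℝ) / 20 *
              (Real.log (rv side N1) - Real.log (rv side N2)))) (abs_nonneg _) (by norm_num)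
            linarith
          have q2 : |Real.sqrt (rv side N2) * C13| ≤ 2 := by
            rw [abs_mul]
            have := mul_le_mul t2 (Real.abs_cos_le_one ((tn : ℝ) / 20 *
              (Real.log (rv side N1) - Real.log (rv side N3)))) (abs_nonneg _) (by norm_num)
            linarith
          have q3 : |Real.sqrt (rv side N1) * C23| ≤ 2 := by
            rw [abs_mul]
            have := mul_le_mul t1 (Real.abs_cos_le_one ((tn : ℝ) / 20 *
              (Real.log (rv side N2) - Real.log (rv side N3)))) (abs_nonneg _) (by norm_num)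
            linarith
          refine (abs_add_le _ _).trans ?_
          have := abs_add_le (Real.sqrt (rv side N3) * C12) (Real.sqrt (rv side N2) * C13)
          linarith
        have mm := mul_err E m EB hB
        have e2 : ((im (e6 side N1 N2 N3) (ia (im (sq side N3) (dd side tn N1 N2))
              (ia (im (sq side N2) (dd side tn N1 N3)) (im (sq side N1) (dd side tn N2 N3)))) : ℤ) : ℝ)
              / 2 ^ 176 = (e6 side N1 N2 N3 : ℝ) / 2 ^ 44 *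
              ((sq side N3 : ℝ) / 2 ^ 44 * ((dd side tn N1 N2 : ℝ) / 2 ^ 88) +
              (sq side N2 : ℝ) / 2 ^ 44 * ((dd side tn N1 N3 : ℝ) / 2 ^ 88) +
              (sq side N1 : ℝ) / 2 ^ 44 * ((dd side tn N2 N3 : ℝ) / 2 ^ 88)) := by
          rw [im_eq, ia_eq, ia_eq, im_eq, im_eq, im_eq]
          push_cast
          ring
        rw [e2]
        refine mm.trans ?_
        norm_num
      · -- kind ≥ 2
        have e : fval side k1 k2 k3 N1 N2 N3 ⟨kind + 1 + 1, tn, gg⟩ =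
            idv (im (im (e6 side N1 N2 N3) (e6 side N1 N2 N3))
              (ia (dd side tn N1 N2) (ia (dd side tn N1 N3) (dd side tn N2 N3)))) c132 := by
          show idv (Bool.rec (Int.ofNat 0) _ (band k1 (band k2 k3))) c132 = _
          rw [hb]
        rw [e]
        have hXX : Real.exp ((Real.log (rv side N1) + Real.log (rv side N2) +
            Real.log (rv side N3)) / 3) = X * X := by
          rw [hX, ← Real.exp_add]
          congr 1
          ring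
        have hF : 3 * fR k1 k2 k3 ⟨kind + 1 + 1, tn, gg⟩ (rv side N1) (rv side N2) (rv side N3) =
            X * X * (C12 + C13 + C23) := by
          unfold fR
          have hne0 : kind + 1 + 1 ≠ 0 := by omega
          have hne1 : kind + 1 + 1 ≠ 1 := by omega
          simp only [hk1, hk2, hk3, Bool.and_self, if_true, hne0, hne1, if_false]
          have htt : (⟨kind + 1 + 1, tn, gg⟩ : Fn).t = (tn : ℝ) / 20 := rfl
          rw [htt, fxt_third _ p1 p2 p3, c31, hXX, ← hC12, ← hC23]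
          ring
        refine idv_final (ε := 310 / 2 ^ 34) ?_ le_rfl
        rw [hF]
        have hXXB : |X * X| ≤ 4 := by
          rw [abs_mul]
          have := mul_le_mul EB EB (abs_nonneg _) (by norm_num)
          linarith
        have mE := mul_err E E EB EB
        have m := add_err (add_err d12 d13) d23
        have hB : |C12 + C13 + C23| ≤ 3 := by
          have q1 : |C12| ≤ 1 := Real.abs_cos_le_one _
          have q2 : |C13| ≤ 1 := Real.abs_cos_le_one _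
          have q3 : |C23| ≤ 1 := Real.abs_cos_le_one _
          refine (abs_add_le _ _).trans ?_
          have := abs_add_le C12 C13
          linarith
        have mm := mul_err mE m hXXB hB
        have e2 : ((im (im (e6 side N1 N2 N3) (e6 side N1 N2 N3))
              (ia (dd side tn N1 N2) (ia (dd side tn N1 N3) (dd side tn N2 N3))) : ℤ) : ℝ)
              / 2 ^ 176 = (e6 side N1 N2 N3 : ℝ) / 2 ^ 44 * ((e6 side N1 N2 N3 : ℝ) / 2 ^ 44) *
              ((dd side tn N1 N2 : ℝ) / 2 ^ 88 + (dd side tn N1 N3 : ℝ) / 2 ^ 88 +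
              (dd side tn N2 N3 : ℝ) / 2 ^ 88) := by
          rw [im_eq, im_eq, ia_eq, ia_eq]
          push_cast
          ring
        rw [e2]
        refine mm.trans ?_
        norm_num

/-! ### upper bounds -/

lemma le_ntn (x : ℤ) : (x : ℝ) ≤ (ntn x : ℝ) := by
  cases x with
  | ofNat m => exact le_of_eq (by simp [ntn])
  | negSucc m =>
    have : ntn (Int.negSucc m) = 0 := rfl
    rw [this]
    have : ((Int.negSucc m : ℤ) : ℝ) ≤ 0 := by exact_mod_cast (Int.negSucc_lt_zero m).le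
    simpa using this

theorem sqU_spec {side : Bool} {N : ℕ} (h : 8192 ≤ N) (H : N ≤ 2 ^ 50) :
    Real.sqrt (N / den side) ≤ (sqU side N : ℝ) / 2 ^ 44 := by
  have h1 := (abs_le.1 (sq_spec side h H)).1
  have h2 := le_ntn (sq side N)
  change Real.sqrt (rv side N) ≤ _
  have e : (sqU side N : ℝ) = (ntn (sq side N) : ℝ) + 8192 := by
    unfold sqU
    rw [show Nat.add (ntn (sq side N)) 8192 = ntn (sq side N) + 8192 from rfl]
    push_cast
    rfl
  rw [e, add_div]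
  have h3 := div_le_div_of_nonneg_right h2 (by positivity : (0 : ℝ) ≤ 2 ^ 44)
  have h4 : (4 : ℝ) / 2 ^ 34 ≤ 8192 / 2 ^ 44 := by norm_num
  linarith

theorem e6U_spec {side : Bool} {N1 N2 N3 : ℕ} (h1 : 8192 ≤ N1) (H1 : N1 ≤ 2 ^ 50)
    (h2 : 8192 ≤ N2) (H2 : N2 ≤ 2 ^ 50) (h3 : 8192 ≤ N3) (H3 : N3 ≤ 2 ^ 50) :
    Real.exp ((Real.log (N1 / den side) + Real.log (N2 / den side) +
      Real.log (N3 / den side)) / 6) ≤ (e6U side N1 N2 N3 : ℝ) / 2 ^ 44 := by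
  have a1 := (abs_le.1 (e6_spec side h1 H1 h2 H2 h3 H3)).1
  have a2 := le_ntn (e6 side N1 N2 N3)
  change Real.exp ((Real.log (rv side N1) + Real.log (rv side N2) +
      Real.log (rv side N3)) / 6) ≤ _
  have e : (e6U side N1 N2 N3 : ℝ) = (ntn (e6 side N1 N2 N3) : ℝ) + 8192 := by
    unfold e6U
    rw [show Nat.add (ntn (e6 side N1 N2 N3)) 8192 = ntn (e6 side N1 N2 N3) + 8192 from rfl]
    push_cast
    rfl
  rw [e]
  have a3 := div_le_div_of_nonneg_right a2 (by positivity : (0 : ℝ) ≤ 2 ^ 44)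
  have a4 : (4 : ℝ) / 2 ^ 34 ≤ 8192 / 2 ^ 44 := by norm_num
  have a5 : ((ntn (e6 side N1 N2 N3) : ℝ) + 8192) / 2 ^ 44 =
      (ntn (e6 side N1 N2 N3) : ℝ) / 2 ^ 44 + 8192 / 2 ^ 44 := add_div _ _ _
  linarith

end Crest.Agent.R163.Win
end

-- ▼ part R163/WinPolM
section

/-!
Row 163, window engine: the kernel values and error bounds of the polynomials are models.
-/

set_option autoImplicit false
set_option maxHeartbeats 400000

namespace Crest.Agent.R163.Win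

open Set

namespace PolM

lemma st_eq {α : Type} (f : Nat → α) (n : Nat) : st f n = f n := by cases n <;> rfl

lemma ad_real (a b : ℕ) : ((ad a b : ℕ) : ℝ) = |(a : ℝ) - b| := by
  have h : ad a b = (a - b) + (b - a) := rfl
  rw [h]
  rcases le_total a b with hab | hab
  · rw [Nat.sub_eq_zero_of_le hab, zero_add, Nat.cast_sub hab, abs_sub_comm, abs_of_nonneg]
    exact sub_nonneg.2 (Nat.cast_le.2 hab)
  · rw [Nat.sub_eq_zero_of_le hab, add_zero, Nat.cast_sub hab, abs_of_nonneg]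
    exact sub_nonneg.2 (Nat.cast_le.2 hab)

lemma le_mx_left (a b : ℕ) : a ≤ mx a b := Nat.le_add_right _ _

lemma le_mx_right (a b : ℕ) : b ≤ mx a b := by
  have h : mx a b = a + (b - a) := rfl
  omega

lemma sqr_real (a : ℕ) : ((sqr a : ℕ) : ℝ) = (a : ℝ) ^ 2 := by
  have h : sqr a = a * a := rfl
  rw [h]; push_cast; ring

lemma sn_real (X Y : ℕ) : ((sn X Y : ℕ) : ℝ) =
    s3 (3 - (X : ℝ) / 2 ^ 48 - (Y : ℝ) / 2 ^ 48) ((X : ℝ) / 2 ^ 48) ((Y : ℝ) / 2 ^ 48) *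
      (3 * 2 ^ 96) := by
  have h : sn X Y = sqr (ad 562949953421312 (X + Y)) +
    (sqr (ad X 281474976710656) + sqr (ad Y 281474976710656)) := rfl
  rw [h]
  push_cast
  rw [sqr_real, sqr_real, sqr_real, ad_real, ad_real, ad_real, sq_abs, sq_abs, sq_abs]
  unfold s3
  push_cast
  ring

lemma cn_real {X Y : ℕ} (hX : X ≤ 281474976710656) (hY : Y ≤ 281474976710656) :
    ((cn X Y : ℕ) : ℝ) =
    c3 (3 - (X : ℝ) / 2 ^ 48 - (Y : ℝ) / 2 ^ 48) ((X : ℝ) / 2 ^ 48) ((Y : ℝ) / 2 ^ 48) *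
      2 ^ 144 := by
  have h : cn X Y = (562949953421312 - (X + Y)) *
    ((281474976710656 - X) * (281474976710656 - Y)) := rfl
  rw [h, Nat.cast_mul, Nat.cast_mul, Nat.cast_sub hX, Nat.cast_sub hY,
    Nat.cast_sub (by omega)]
  unfold c3
  push_cast
  ring

lemma c96_real : ((c96 : ℕ) : ℝ) = 3 * 2 ^ 96 := by
  have h : c96 = 237684487542793012780631851008 := rfl
  rw [h]; norm_num

lemma c144_real : ((c144 : ℕ) : ℝ) = 2 ^ 144 := by
  have h : c144 = 22300745198530623141535718272648361505980416 := rfl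
  rw [h]; norm_num

lemma pden_real (p : Po) : ((pden p : ℕ) : ℝ) = (3 * 2 ^ 96) ^ p.i * (2 ^ 144) ^ p.j * 2 ^ p.h := by
  have h : pden p = c96 ^ p.i * c144 ^ p.j * 2 ^ p.h := rfl
  rw [h]
  push_cast
  rw [c96_real, c144_real]

lemma pden_pos (p : Po) : (0 : ℝ) < ((pden p : ℕ) : ℝ) := by
  rw [pden_real]; positivity

lemma div_bounds (a b : ℕ) (hb : (0 : ℝ) < b) :
    ((a / b : ℕ) : ℝ) ≤ (a : ℝ) / b ∧ (a : ℝ) / b ≤ ((a / b : ℕ) : ℝ) + 1 := by
  have hb' : 0 < b := by exact_mod_cast hb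
  constructor
  · rw [le_div_iff₀ hb]
    exact_mod_cast Nat.div_mul_le_self a b
  · rw [div_le_iff₀ hb]
    have h := Nat.lt_div_mul_add hb' (a := a)
    have h2 : (a : ℝ) < (a / b : ℕ) * b + b := by exact_mod_cast h
    linarith

/-- vertex values -/
lemma pval_real (p : Po) {S C : ℕ} {s c : ℝ} (hS : (S : ℝ) = s * (3 * 2 ^ 96))
    (hC : (C : ℝ) ^ p.j = (c * 2 ^ 144) ^ p.j) :
    |((pval S C p : ℕ) : ℝ) / 2 ^ 44 - p.R s c| ≤ 1 / 2 ^ 44 := by
  have h : pval S C p = (S ^ p.i * C ^ p.j) * 17592186044416 / pden p := rfl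
  rw [h]
  obtain ⟨h1, h2⟩ := div_bounds ((S ^ p.i * C ^ p.j) * 17592186044416) (pden p) (pden_pos p)
  have e : (((S ^ p.i * C ^ p.j) * 17592186044416 : ℕ) : ℝ) / ((pden p : ℕ) : ℝ) =
      p.R s c * 2 ^ 44 := by
    rw [pden_real]
    push_cast
    rw [hC, hS, mul_pow s, mul_pow c]
    unfold Po.R
    have p1 : ((3 : ℝ) * 2 ^ 96) ^ p.i ≠ 0 := by positivity
    have p2 : ((2 : ℝ) ^ 144) ^ p.j ≠ 0 := by positivity
    have p3 : (2 : ℝ) ^ p.h ≠ 0 := by positivity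
    generalize ((3 : ℝ) * 2 ^ 96) ^ p.i = K at p1 ⊢
    generalize ((2 : ℝ) ^ 144) ^ p.j = K' at p2 ⊢
    generalize (2 : ℝ) ^ p.h = K'' at p3 ⊢
    have e44 : (17592186044416 : ℝ) = 2 ^ 44 := by norm_num
    rw [e44]
    field_simp
  rw [e] at h1 h2
  have e2 : (((S ^ p.i * C ^ p.j) * 17592186044416 / pden p : ℕ) : ℝ) / 2 ^ 44 - p.R s c =
      ((((S ^ p.i * C ^ p.j) * 17592186044416 / pden p : ℕ) : ℝ) - p.R s c * 2 ^ 44) / 2 ^ 44 := by
    field_simp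
  rw [e2, abs_div, abs_of_pos (by positivity : (0 : ℝ) < 2 ^ 44)]
  refine div_le_div_of_nonneg_right ?_ (by positivity)
  rw [abs_le]
  constructor <;> linarith

lemma PP2_div (i : ℕ) (S0 S1 S2 : ℝ) {k : ℝ} (hk : k ≠ 0) :
    PP2 i (S0 / k) (S1 / k) (S2 / k) = PP2 i S0 S1 S2 / k ^ i := by
  unfold PP2
  rcases i with _ | _ | i
  · simp
  · simp
  · have h1 : i + 1 + 1 - 2 = i := by omega
    have h2 : i + 1 + 1 - 1 = i + 1 := by omega
    rw [h1, h2]
    simp only [div_pow]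
    field_simp
    try ring

lemma PP1_div (i : ℕ) (S0 S1 : ℝ) {k : ℝ} (hk : k ≠ 0) :
    PP1 i (S0 / k) (S1 / k) = PP1 i S0 S1 / k ^ i := by
  unfold PP1
  rcases i with _ | i
  · simp
  · have h2 : i + 1 - 1 = i := by omega
    have e : (S0 / k) ^ i = S0 ^ i / k ^ i := div_pow _ _ _
    rw [h2, e, pow_succ k i]
    have hki : k ^ i ≠ 0 := pow_ne_zero i hk
    generalize k ^ i = K at hki ⊢
    generalize S0 ^ i = L
    field_simp

lemma GG_div (i : ℕ) (S0 S1 S2 C0 C1 C2 : ℝ) {k l : ℝ} (hk : k ≠ 0) (hl : l ≠ 0) :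
    GG i (S0 / k) (S1 / k) (S2 / k) (C0 / l) (C1 / l) (C2 / l) =
      GG i S0 S1 S2 C0 C1 C2 / (k ^ i * l) := by
  unfold GG
  rw [PP2_div i S0 S1 S2 hk, PP1_div i S0 S1 hk, div_pow]
  field_simp

lemma jet_zero (i S0 S1 S2 C0 C1 C2 : ℕ) :
    ((jet i 0 S0 S1 S2 C0 C1 C2 : ℕ) : ℝ) = PP2 i S0 S1 S2 := by
  have h : jet i 0 S0 S1 S2 C0 C1 C2 = st (fun a2 => a2)
    (i * (i - 1) * S0 ^ (i - 2) * sqr S1 + i * (S0 ^ (i - 1) * S2)) := rfl
  rw [h, st_eq]
  unfold PP2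
  push_cast
  rw [sqr_real]
  ring

lemma jet_one (i S0 S1 S2 C0 C1 C2 : ℕ) :
    ((jet i 1 S0 S1 S2 C0 C1 C2 : ℕ) : ℝ) = GG i S0 S1 S2 C0 C1 C2 := by
  have h : jet i 1 S0 S1 S2 C0 C1 C2 = st (fun a2 => a2 * C0 +
      (2 * (i * (S0 ^ (i - 1) * S1)) * C1 + S0 ^ i * C2))
    (i * (i - 1) * S0 ^ (i - 2) * sqr S1 + i * (S0 ^ (i - 1) * S2)) := rfl
  rw [h, st_eq]
  unfold GG PP2 PP1
  push_cast
  rw [sqr_real]
  ring

/-- passage from the exact bound to the kernel bound -/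
lemma per_ge (p : Po) {A B : ℕ} {E : ℝ}
    (hE : E * (((pden p : ℕ) : ℝ) * 8) = (A : ℝ) + B) :
    E + 1 / 2 ^ 44 ≤ (((A + B) * 2199023255552 / pden p + 2 : ℕ) : ℝ) / 2 ^ 44 := by
  have hp := pden_pos p
  obtain ⟨-, h2⟩ := div_bounds ((A + B) * 2199023255552) (pden p) hp
  have e : (((A + B) * 2199023255552 : ℕ) : ℝ) / ((pden p : ℕ) : ℝ) = E * 2 ^ 44 := by
    push_cast
    rw [← hE]
    have e44 : (2199023255552 : ℝ) = 2 ^ 41 := by norm_num
    rw [e44]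
    field_simp
    norm_num
  rw [e] at h2
  rw [le_div_iff₀ (by positivity)]
  push_cast at h2 ⊢
  have e3 : (E + 1 / 2 ^ 44) * 2 ^ 44 = E * 2 ^ 44 + 1 := by ring
  rw [e3]
  linarith

section cell

variable {X0 X1 Y0 Y1 : ℕ}

lemma abs_le_mx {a b : ℝ} {t A B : ℝ} {m : ℕ} (h1 : a ≤ t) (h2 : t ≤ b) (hA : |a| ≤ A)
    (hB : |b| ≤ B) (hAm : A ≤ (m : ℝ)) (hBm : B ≤ (m : ℝ)) : |t| ≤ (m : ℝ) := by
  have h3 := abs_le.1 (hA.trans hAm)
  have h4 := abs_le.1 (hB.trans hBm)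
  exact abs_le.2 ⟨by linarith, by linarith⟩

lemma abs_le_div {A m : ℝ} (h : |A * 2 ^ 48| ≤ m) : |A| ≤ m / 2 ^ 48 := by
  rw [le_div_iff₀ (by positivity)]
  rwa [abs_mul, abs_of_pos (by positivity : (0 : ℝ) < 2 ^ 48)] at h

/-- the numbers of `ePol` -/
structure Dat (X0 X1 Y0 Y1 z1 z2 z3 d12 d13 dx dy : ℕ) : Prop where
  h1 : ∀ x ∈ Icc ((X0 : ℝ) / 2 ^ 48) ((X1 : ℝ) / 2 ^ 48),
    ∀ y ∈ Icc ((Y0 : ℝ) / 2 ^ 48) ((Y1 : ℝ) / 2 ^ 48), |2 - x - y| ≤ (z1 : ℝ) / 2 ^ 48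
  h2 : ∀ x ∈ Icc ((X0 : ℝ) / 2 ^ 48) ((X1 : ℝ) / 2 ^ 48), |x - 1| ≤ (z2 : ℝ) / 2 ^ 48
  h3 : ∀ y ∈ Icc ((Y0 : ℝ) / 2 ^ 48) ((Y1 : ℝ) / 2 ^ 48), |y - 1| ≤ (z3 : ℝ) / 2 ^ 48
  h12 : ∀ x ∈ Icc ((X0 : ℝ) / 2 ^ 48) ((X1 : ℝ) / 2 ^ 48),
    ∀ y ∈ Icc ((Y0 : ℝ) / 2 ^ 48) ((Y1 : ℝ) / 2 ^ 48), |3 - 2 * x - y| ≤ (d12 : ℝ) / 2 ^ 48
  h13 : ∀ x ∈ Icc ((X0 : ℝ) / 2 ^ 48) ((X1 : ℝ) / 2 ^ 48),
    ∀ y ∈ Icc ((Y0 : ℝ) / 2 ^ 48) ((Y1 : ℝ) / 2 ^ 48), |3 - x - 2 * y| ≤ (d13 : ℝ) / 2 ^ 48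
  hdx : (dx : ℝ) = X1 - X0
  hdy : (dy : ℝ) = Y1 - Y0

lemma scale_mem {X : ℝ} {a b : ℕ} (h : X ∈ Icc ((a : ℝ) / 2 ^ 48) ((b : ℝ) / 2 ^ 48)) :
    (a : ℝ) ≤ X * 2 ^ 48 ∧ X * 2 ^ 48 ≤ b := by
  obtain ⟨h1, h2⟩ := h
  rw [div_le_iff₀ (by positivity)] at h1
  rw [le_div_iff₀ (by positivity)] at h2
  exact ⟨h1, h2⟩

lemma dat (hX : X0 < X1) (hY : Y0 < Y1) :
    Dat X0 X1 Y0 Y1
      (mx (ad 562949953421312 (Nat.add X0 Y0)) (ad 562949953421312 (Nat.add X1 Y1)))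
      (mx (ad 281474976710656 X0) (ad 281474976710656 X1))
      (mx (ad 281474976710656 Y0) (ad 281474976710656 Y1))
      (mx (ad 844424930131968 (Nat.add (Nat.add X0 X0) Y0))
        (ad 844424930131968 (Nat.add (Nat.add X1 X1) Y1)))
      (mx (ad 844424930131968 (Nat.add X0 (Nat.add Y0 Y0)))
        (ad 844424930131968 (Nat.add X1 (Nat.add Y1 Y1))))
      (Nat.sub X1 X0) (Nat.sub Y1 Y0) where
  h1 x hx y hy := by
    obtain ⟨a1, a2⟩ := scale_mem hx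
    obtain ⟨b1, b2⟩ := scale_mem hy
    refine abs_le_div ?_
    have g1 : ((ad 562949953421312 (X0 + Y0) : ℕ) : ℝ) ≤
        (mx (ad 562949953421312 (X0 + Y0)) (ad 562949953421312 (X1 + Y1)) : ℕ) :=
      Nat.cast_le.2 (le_mx_left _ _)
    have g2 : ((ad 562949953421312 (X1 + Y1) : ℕ) : ℝ) ≤
        (mx (ad 562949953421312 (X0 + Y0)) (ad 562949953421312 (X1 + Y1)) : ℕ) :=
      Nat.cast_le.2 (le_mx_right _ _)
    rw [ad_real] at g1 g2
    push_cast at g1 g2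
    exact abs_le_mx (by linarith) (by linarith) le_rfl le_rfl g2 g1
  h2 x hx := by
    obtain ⟨a1, a2⟩ := scale_mem hx
    refine abs_le_div ?_
    have g1 : ((ad 281474976710656 X0 : ℕ) : ℝ) ≤
        (mx (ad 281474976710656 X0) (ad 281474976710656 X1) : ℕ) :=
      Nat.cast_le.2 (le_mx_left _ _)
    have g2 : ((ad 281474976710656 X1 : ℕ) : ℝ) ≤
        (mx (ad 281474976710656 X0) (ad 281474976710656 X1) : ℕ) :=
      Nat.cast_le.2 (le_mx_right _ _)
    rw [ad_real] at g1 g2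
    rw [abs_sub_comm] at g1 g2
    push_cast at g1 g2
    exact abs_le_mx (by linarith) (by linarith) le_rfl le_rfl g1 g2
  h3 x hx := by
    obtain ⟨a1, a2⟩ := scale_mem hx
    refine abs_le_div ?_
    have g1 : ((ad 281474976710656 Y0 : ℕ) : ℝ) ≤
        (mx (ad 281474976710656 Y0) (ad 281474976710656 Y1) : ℕ) :=
      Nat.cast_le.2 (le_mx_left _ _)
    have g2 : ((ad 281474976710656 Y1 : ℕ) : ℝ) ≤
        (mx (ad 281474976710656 Y0) (ad 281474976710656 Y1) : ℕ) :=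
      Nat.cast_le.2 (le_mx_right _ _)
    rw [ad_real] at g1 g2
    rw [abs_sub_comm] at g1 g2
    push_cast at g1 g2
    exact abs_le_mx (by linarith) (by linarith) le_rfl le_rfl g1 g2
  h12 x hx y hy := by
    obtain ⟨a1, a2⟩ := scale_mem hx
    obtain ⟨b1, b2⟩ := scale_mem hy
    refine abs_le_div ?_
    have g1 : ((ad 844424930131968 (X0 + X0 + Y0) : ℕ) : ℝ) ≤
        (mx (ad 844424930131968 (X0 + X0 + Y0)) (ad 844424930131968 (X1 + X1 + Y1)) : ℕ) :=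
      Nat.cast_le.2 (le_mx_left _ _)
    have g2 : ((ad 844424930131968 (X1 + X1 + Y1) : ℕ) : ℝ) ≤
        (mx (ad 844424930131968 (X0 + X0 + Y0)) (ad 844424930131968 (X1 + X1 + Y1)) : ℕ) :=
      Nat.cast_le.2 (le_mx_right _ _)
    rw [ad_real] at g1 g2
    push_cast at g1 g2
    exact abs_le_mx (by linarith) (by linarith) le_rfl le_rfl g2 g1
  h13 x hx y hy := by
    obtain ⟨a1, a2⟩ := scale_mem hx
    obtain ⟨b1, b2⟩ := scale_mem hy
    refine abs_le_div ?_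
    have g1 : ((ad 844424930131968 (X0 + (Y0 + Y0)) : ℕ) : ℝ) ≤
        (mx (ad 844424930131968 (X0 + (Y0 + Y0))) (ad 844424930131968 (X1 + (Y1 + Y1))) : ℕ) :=
      Nat.cast_le.2 (le_mx_left _ _)
    have g2 : ((ad 844424930131968 (X1 + (Y1 + Y1)) : ℕ) : ℝ) ≤
        (mx (ad 844424930131968 (X0 + (Y0 + Y0))) (ad 844424930131968 (X1 + (Y1 + Y1))) : ℕ) :=
      Nat.cast_le.2 (le_mx_right _ _)
    rw [ad_real] at g1 g2
    push_cast at g1 g2
    exact abs_le_mx (by linarith) (by linarith) le_rfl le_rfl g2 g1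
  hdx := by
    show ((X1 - X0 : ℕ) : ℝ) = _
    rw [Nat.cast_sub hX.le]
  hdy := by
    show ((Y1 - Y0 : ℕ) : ℝ) = _
    rw [Nat.cast_sub hY.le]

/-- the model of one polynomial -/
theorem pol_one {z1 z2 z3 d12 d13 dx dy : ℕ} (hX : X0 < X1) (hY : Y0 < Y1)
    (D : Dat X0 X1 Y0 Y1 z1 z2 z3 d12 d13 dx dy) (p : Po)
    (hj : p.j = 0 ∨ (p.j = 1 ∧ X1 ≤ 281474976710656 ∧ Y1 ≤ 281474976710656)) :
    Mdl ((X0 : ℝ) / 2 ^ 48) ((X1 : ℝ) / 2 ^ 48) ((Y0 : ℝ) / 2 ^ 48) ((Y1 : ℝ) / 2 ^ 48)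
      (fun x y => p.R (s3 (3 - x - y) x y) (c3 (3 - x - y) x y))
      (((pval (sn X0 Y0) (cn X0 Y0) p : ℕ) : ℝ) / 2 ^ 44)
      (((pval (sn X0 Y1) (cn X0 Y1) p : ℕ) : ℝ) / 2 ^ 44)
      (((pval (sn X1 Y0) (cn X1 Y0) p : ℕ) : ℝ) / 2 ^ 44)
      (((pval (sn X1 Y1) (cn X1 Y1) p : ℕ) : ℝ) / 2 ^ 44)
      (((per (sqr z1 + (sqr z2 + sqr z3)) (2 * (d12 * dx)) (4 * sqr dx) (2 * (d13 * dy))
        (4 * sqr dy) (z1 * (z2 * z3)) (z3 * (d12 * dx)) (2 * (z3 * sqr dx)) (z2 * (d13 * dy))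
        (2 * (z2 * sqr dy)) p : ℕ) : ℝ) / 2 ^ 44) := by
  have hx01 : (X0 : ℝ) / 2 ^ 48 < (X1 : ℝ) / 2 ^ 48 :=
    div_lt_div_of_pos_right (Nat.cast_lt.2 hX) (by positivity)
  have hy01 : (Y0 : ℝ) / 2 ^ 48 < (Y1 : ℝ) / 2 ^ 48 :=
    div_lt_div_of_pos_right (Nat.cast_lt.2 hY) (by positivity)
  have hC : ∀ X Y : ℕ, X ≤ X1 → Y ≤ Y1 → ((cn X Y : ℕ) : ℝ) ^ p.j =
      (c3 (3 - (X : ℝ) / 2 ^ 48 - (Y : ℝ) / 2 ^ 48) ((X : ℝ) / 2 ^ 48) ((Y : ℝ) / 2 ^ 48) *
      2 ^ 144) ^ p.j := by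
    intro X Y hXX hYY
    rcases hj with h | ⟨h, hx, hy⟩
    · rw [h, pow_zero, pow_zero]
    · rw [cn_real (hXX.trans hx) (hYY.trans hy)]
  have v00 := pval_real p (sn_real X0 Y0) (hC X0 Y0 hX.le hY.le)
  have v01 := pval_real p (sn_real X0 Y1) (hC X0 Y1 hX.le le_rfl)
  have v10 := pval_real p (sn_real X1 Y0) (hC X1 Y0 le_rfl hY.le)
  have v11 := pval_real p (sn_real X1 Y1) (hC X1 Y1 le_rfl le_rfl)
  set x0 : ℝ := (X0 : ℝ) / 2 ^ 48 with hx0
  set x1 : ℝ := (X1 : ℝ) / 2 ^ 48 with hx1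
  set y0 : ℝ := (Y0 : ℝ) / 2 ^ 48 with hy0
  set y1 : ℝ := (Y1 : ℝ) / 2 ^ 48 with hy1
  have hdx : x1 - x0 = (dx : ℝ) / 2 ^ 48 := by rw [hx0, hx1, D.hdx]; ring
  have hdy : y1 - y0 = (dy : ℝ) / 2 ^ 48 := by rw [hy0, hy1, D.hdy]; ring
  have k1 : (3 * 2 ^ 96 : ℝ) ≠ 0 := by positivity
  have k2 : (2 ^ 144 : ℝ) ≠ 0 := by positivity
  -- the real bounds as quotients
  have eS0 : (((z1 : ℝ) / 2 ^ 48) ^ 2 + ((z2 : ℝ) / 2 ^ 48) ^ 2 + ((z3 : ℝ) / 2 ^ 48) ^ 2) / 3 =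
      ((sqr z1 + (sqr z2 + sqr z3) : ℕ) : ℝ) / (3 * 2 ^ 96) := by
    push_cast; rw [sqr_real, sqr_real, sqr_real]; ring
  have eS1x : 2 * ((d12 : ℝ) / 2 ^ 48) * (x1 - x0) / 3 =
      ((2 * (d12 * dx) : ℕ) : ℝ) / (3 * 2 ^ 96) := by
    rw [hdx]; push_cast; ring
  have eS2x : 4 * (x1 - x0) ^ 2 / 3 = ((4 * sqr dx : ℕ) : ℝ) / (3 * 2 ^ 96) := by
    rw [hdx]; push_cast; rw [sqr_real]; ring
  have eS1y : 2 * ((d13 : ℝ) / 2 ^ 48) * (y1 - y0) / 3 =
      ((2 * (d13 * dy) : ℕ) : ℝ) / (3 * 2 ^ 96) := by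
    rw [hdy]; push_cast; ring
  have eS2y : 4 * (y1 - y0) ^ 2 / 3 = ((4 * sqr dy : ℕ) : ℝ) / (3 * 2 ^ 96) := by
    rw [hdy]; push_cast; rw [sqr_real]; ring
  have eC0 : ((z1 : ℝ) / 2 ^ 48) * ((z2 : ℝ) / 2 ^ 48) * ((z3 : ℝ) / 2 ^ 48) =
      ((z1 * (z2 * z3) : ℕ) : ℝ) / 2 ^ 144 := by
    push_cast; ring
  have eC1x : ((z3 : ℝ) / 2 ^ 48) * ((d12 : ℝ) / 2 ^ 48) * (x1 - x0) =
      ((z3 * (d12 * dx) : ℕ) : ℝ) / 2 ^ 144 := by
    rw [hdx]; push_cast; ring
  have eC2x : 2 * ((z3 : ℝ) / 2 ^ 48) * (x1 - x0) ^ 2 =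
      ((2 * (z3 * sqr dx) : ℕ) : ℝ) / 2 ^ 144 := by
    rw [hdx]; push_cast; rw [sqr_real]; ring
  have eC1y : ((z2 : ℝ) / 2 ^ 48) * ((d13 : ℝ) / 2 ^ 48) * (y1 - y0) =
      ((z2 * (d13 * dy) : ℕ) : ℝ) / 2 ^ 144 := by
    rw [hdy]; push_cast; ring
  have eC2y : 2 * ((z2 : ℝ) / 2 ^ 48) * (y1 - y0) ^ 2 =
      ((2 * (z2 * sqr dy) : ℕ) : ℝ) / 2 ^ 144 := by
    rw [hdy]; push_cast; rw [sqr_real]; ring
  have hper : per (sqr z1 + (sqr z2 + sqr z3)) (2 * (d12 * dx)) (4 * sqr dx) (2 * (d13 * dy))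
        (4 * sqr dy) (z1 * (z2 * z3)) (z3 * (d12 * dx)) (2 * (z3 * sqr dx)) (z2 * (d13 * dy))
        (2 * (z2 * sqr dy)) p =
      (jet p.i p.j (sqr z1 + (sqr z2 + sqr z3)) (2 * (d12 * dx)) (4 * sqr dx) (z1 * (z2 * z3))
          (z3 * (d12 * dx)) (2 * (z3 * sqr dx)) +
        jet p.i p.j (sqr z1 + (sqr z2 + sqr z3)) (2 * (d13 * dy)) (4 * sqr dy) (z1 * (z2 * z3))
          (z2 * (d13 * dy)) (2 * (z2 * sqr dy))) * 2199023255552 / pden p + 2 := rfl
  rw [hper]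
  have h2h : (0 : ℝ) < 1 / 2 ^ p.h := by positivity
  rcases hj with h | ⟨h, -, -⟩
  · have M := (poly_mdl0 hx01 hy01 D.h1 D.h2 D.h3 D.h12 D.h13 p.i).const_mul (1 / 2 ^ p.h)
    have hR : ∀ s c : ℝ, p.R s c = 1 / 2 ^ p.h * s ^ p.i := by
      intro s c
      unfold Po.R
      rw [h, pow_zero]; ring
    rw [hR] at v00 v01 v10 v11
    simp only [hR]
    refine (M.perturb hx01 hy01 v00 v01 v10 v11).mono ?_
    rw [h]
    refine per_ge p ?_
    rw [jet_zero, jet_zero, eS0, eS1x, eS2x, eS1y, eS2y, PP2_div _ _ _ _ k1, PP2_div _ _ _ _ k1,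
      abs_of_pos h2h, pden_real, h, pow_zero]
    have p1 : ((3 : ℝ) * 2 ^ 96) ^ p.i ≠ 0 := by positivity
    have p3 : (2 : ℝ) ^ p.h ≠ 0 := by positivity
    generalize ((3 : ℝ) * 2 ^ 96) ^ p.i = K at p1 ⊢
    generalize (2 : ℝ) ^ p.h = K' at p3 ⊢
    field_simp
  · have M := (poly_mdl1 hx01 hy01 D.h1 D.h2 D.h3 D.h12 D.h13 p.i).const_mul (1 / 2 ^ p.h)
    have hR : ∀ s c : ℝ, p.R s c = 1 / 2 ^ p.h * (s ^ p.i * c) := by
      intro s c
      unfold Po.R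
      rw [h, pow_one]; ring
    rw [hR] at v00 v01 v10 v11
    simp only [hR]
    refine (M.perturb hx01 hy01 v00 v01 v10 v11).mono ?_
    rw [h]
    refine per_ge p ?_
    rw [jet_one, jet_one, eS0, eS1x, eS2x, eS1y, eS2y, eC0, eC1x, eC2x, eC1y, eC2y,
      GG_div _ _ _ _ _ _ _ k1 k2, GG_div _ _ _ _ _ _ _ k1 k2, abs_of_pos h2h, pden_real, h,
      pow_one]
    have p1 : ((3 : ℝ) * 2 ^ 96) ^ p.i ≠ 0 := by positivity
    have p3 : (2 : ℝ) ^ p.h ≠ 0 := by positivity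
    generalize ((3 : ℝ) * 2 ^ 96) ^ p.i = K at p1 ⊢
    generalize (2 : ℝ) ^ p.h = K' at p3 ⊢
    generalize (2 : ℝ) ^ 144 = K'' at k2 ⊢
    field_simp

end cell

end PolM

open PolM

/-- **the models of the polynomials** -/
theorem pol_mdlL {ps : List Po} {X0 X1 Y0 Y1 : ℕ}
    (hj : ∀ p ∈ ps, p.j = 0 ∨ (p.j = 1 ∧ X1 ≤ 281474976710656 ∧ Y1 ≤ 281474976710656))
    (hX : X0 < X1) (hY : Y0 < Y1) :
    MdlL ((X0 : ℝ) / 2 ^ 48) ((X1 : ℝ) / 2 ^ 48) ((Y0 : ℝ) / 2 ^ 48) ((Y1 : ℝ) / 2 ^ 48)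
      (ps.map fun p => fun x y => p.R (s3 (3 - x - y) x y) (c3 (3 - x - y) x y))
      (pvals (sn X0 Y0) (cn X0 Y0) ps) (pvals (sn X0 Y1) (cn X0 Y1) ps)
      (pvals (sn X1 Y0) (cn X1 Y0) ps) (pvals (sn X1 Y1) (cn X1 Y1) ps)
      (ePol ps X0 X1 Y0 Y1) := by
  have D := dat hX hY
  unfold ePol
  simp only [st_eq]
  unfold ePo
  simp only [st_eq]
  generalize (mx (ad 562949953421312 (Nat.add X0 Y0)) (ad 562949953421312 (Nat.add X1 Y1))) = z1
    at D ⊢
  generalize (mx (ad 281474976710656 X0) (ad 281474976710656 X1)) = z2 at D ⊢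
  generalize (mx (ad 281474976710656 Y0) (ad 281474976710656 Y1)) = z3 at D ⊢
  generalize (mx (ad 844424930131968 (Nat.add (Nat.add X0 X0) Y0))
        (ad 844424930131968 (Nat.add (Nat.add X1 X1) Y1))) = d12 at D ⊢
  generalize (mx (ad 844424930131968 (Nat.add X0 (Nat.add Y0 Y0)))
        (ad 844424930131968 (Nat.add X1 (Nat.add Y1 Y1)))) = d13 at D ⊢
  generalize Nat.sub X1 X0 = dx at D ⊢
  generalize Nat.sub Y1 Y0 = dy at D ⊢
  induction ps with
  | nil => trivial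
  | cons p ps ih =>
    refine ⟨?_, ih fun q hq => hj q (List.mem_cons_of_mem _ hq)⟩
    exact pol_one hX hY D p (hj p List.mem_cons_self)

end Crest.Agent.R163.Win
end

-- ▼ part R163/WinLeaf
section

/-!
Row 163, window engine: soundness of the test of one cell.
-/

set_option autoImplicit false

namespace Crest.Agent.R163.Win

open Set Crest.Agent.R163.Bern

/-! ### small facts -/

lemma bor_eq {a b : Bool} : bor a b = true ↔ a = true ∨ b = true := by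
  cases a <;> cases b <;> simp [bor]

lemma band_iff {a b : Bool} : band a b = true ↔ a = true ∧ b = true := by
  cases a <;> cases b <;> simp [band]

lemma st_eq' {α : Type} (f : Nat → α) (n : Nat) : st f n = f n := by cases n <;> rfl

lemma wb_eq {α : Type} (f : Bool → α) (b : Bool) : wb f b = f b := by cases b <;> rfl



lemma bndI_iff {V : List Int} : bndI V = true ↔ ∀ v ∈ V, v.natAbs ≤ 2 ^ 120 := by
  induction V with
  | nil => simp [bndI]
  | cons v V ih =>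
    have e : bndI (v :: V) = band (Int.rec
      (fun m => Nat.ble m 1329227995784915872903807060280344576)
      (fun m => Nat.ble (Nat.succ m) 1329227995784915872903807060280344576) v) (bndI V) := rfl
    rw [e, band_iff, ih]
    have h : (Int.rec (motive := fun _ => Bool)
      (fun m => Nat.ble m 1329227995784915872903807060280344576)
      (fun m => Nat.ble (Nat.succ m) 1329227995784915872903807060280344576) v = true) ↔
        v.natAbs ≤ 2 ^ 120 := by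
      cases v with
      | ofNat m =>
        show Nat.ble m 1329227995784915872903807060280344576 = true ↔ _
        rw [Nat.ble_eq]
        norm_num
      | negSucc m =>
        show Nat.ble (Nat.succ m) 1329227995784915872903807060280344576 = true ↔ _
        rw [Nat.ble_eq, Int.natAbs_negSucc]
        norm_num
    rw [h]
    simp

lemma bndN_iff {V : List Nat} : bndN V = true ↔ ∀ v ∈ V, v ≤ 2 ^ 120 := by
  induction V with
  | nil => simp [bndN]
  | cons v V ih =>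
    have e : bndN (v :: V) = band (Nat.ble v 1329227995784915872903807060280344576) (bndN V) := rfl
    rw [e, band_iff, ih, Nat.ble_eq]
    norm_num

/-- cast of a list -/
def castL (l : List Nat) : List Int := l.map Int.ofNat

lemma ndot_eq (A E : List Nat) :
    ((ndot A E : Nat) : Int) = dotI (castL A) (castL E) := by
  induction A generalizing E with
  | nil => rfl
  | cons a A ih =>
    cases E with
    | nil => rfl
    | cons b E =>
      show ((a * b + ndot A E : Nat) : Int) = (a : Int) * b + dotI (castL A) (castL E)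
      rw [← ih]
      push_cast
      ring

/-! ### linear combinations of models -/

/-- evaluation of a list of functions -/
def evalL (gs : List (ℝ → ℝ → ℝ)) (x y : ℝ) : List ℝ := gs.map fun g => g x y

variable {x0 x1 y0 y1 : ℝ}

theorem MdlL.dot {gs : List (ℝ → ℝ → ℝ)} {a b c d : List Int} {e : List Nat}
    (h : MdlL x0 x1 y0 y1 gs a b c d e) (w : List Int) :
    Mdl x0 x1 y0 y1 (fun x y => dotR w (evalL gs x y)) ((dotI w a : Int) / 2 ^ 44)
      ((dotI w b : Int) / 2 ^ 44) ((dotI w c : Int) / 2 ^ 44) ((dotI w d : Int) / 2 ^ 44)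
      ((dotI (absL w) (castL e) : Int) / 2 ^ 44) := by
  induction w generalizing gs a b c d e with
  | nil =>
    intro x _ y _ _ _
    have : bl x0 x1 y0 y1 x y ((0 : Int) / 2 ^ 44) ((0 : Int) / 2 ^ 44) ((0 : Int) / 2 ^ 44)
        ((0 : Int) / 2 ^ 44) = 0 := by unfold bl lin1; simp
    show |(0 : ℝ) - bl x0 x1 y0 y1 x y ((0 : Int) / 2 ^ 44) ((0 : Int) / 2 ^ 44)
      ((0 : Int) / 2 ^ 44) ((0 : Int) / 2 ^ 44)| ≤ ((0 : Int) : ℝ) / 2 ^ 44
    rw [this]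
    simp
  | cons w0 w ih =>
    match gs, a, b, c, d, e, h with
    | [], [], [], [], [], [], _ =>
      intro x _ y _ _ _
      have : bl x0 x1 y0 y1 x y ((0 : Int) / 2 ^ 44) ((0 : Int) / 2 ^ 44) ((0 : Int) / 2 ^ 44)
          ((0 : Int) / 2 ^ 44) = 0 := by unfold bl lin1; simp
      show |(0 : ℝ) - bl x0 x1 y0 y1 x y ((0 : Int) / 2 ^ 44) ((0 : Int) / 2 ^ 44)
        ((0 : Int) / 2 ^ 44) ((0 : Int) / 2 ^ 44)| ≤ ((0 : Int) : ℝ) / 2 ^ 44
      rw [this]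
      simp
    | g :: gs, a0 :: a, b0 :: b, c0 :: c, d0 :: d, e0 :: e, h =>
      have h1 := (h.1.const_mul (w0 : ℝ)).add (ih h.2)
      have ee : ∀ (v0 : Int) (v : List Int), ((dotI (w0 :: w) (v0 :: v) : Int) : ℝ) / 2 ^ 44 =
          (w0 : ℝ) * ((v0 : ℝ) / 2 ^ 44) + ((dotI w v : Int) : ℝ) / 2 ^ 44 := by
        intro v0 v
        have : dotI (w0 :: w) (v0 :: v) = w0 * v0 + dotI w v := rfl
        rw [this]
        push_cast
        ring
      rw [ee, ee, ee, ee]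
      have e2 : ((dotI (absL (w0 :: w)) (castL (e0 :: e)) : Int) : ℝ) / 2 ^ 44 =
          |(w0 : ℝ)| * ((e0 : ℝ) / 2 ^ 44) +
            ((dotI (absL w) (castL e) : Int) : ℝ) / 2 ^ 44 := by
        have : dotI (absL (w0 :: w)) (castL (e0 :: e)) =
          ((w0.natAbs : Nat) : Int) * (e0 : Int) + dotI (absL w) (castL e) := rfl
        rw [this]
        push_cast
        ring
      rw [e2]
      exact h1

/-! ### functionals as a list -/

/-- list of functions of the engine -/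
noncomputable def gsL (side : Bool) (fs : List Fn) (ps : List Po) : List (ℝ → ℝ → ℝ) :=
  (fun _ _ => 1) :: ((fs.map fun f => fun x y =>
    fxt f.x f.t (aff (A1 side) x y) (aff (A2 side) x y) (aff (A3 side) x y)) ++
    ps.map fun p => fun x y => p.R (s3 (3 - x - y) x y) (c3 (3 - x - y) x y))

theorem fun_mdlL {side k1 k2 k3 : Bool} {U1 U2 U3 E u1x u1y u2 u3 : Nat} {X0 X1 Y0 Y1 : Nat}
    (hx01 : x0 < x1) (hy01 : y0 < y1)
    (h1 : CF (A1 side) x0 x1 y0 y1 k1 U1 u1x u1y) (h2 : CF (A2 side) x0 x1 y0 y1 k2 U2 u2 0)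
    (h3 : CF (A3 side) x0 x1 y0 y1 k3 U3 0 u3)
    (hE : ∀ x ∈ Icc x0 x1, ∀ y ∈ Icc y0 y1, aff (A1 side) x y ^ (1 / 6 : ℝ) *
      aff (A2 side) x y ^ (1 / 6 : ℝ) * aff (A3 side) x y ^ (1 / 6 : ℝ) ≤ (E : ℝ) / 2 ^ 44)
    (hv : ∀ f : Fn, f.tn ≤ 30 → ∀ X ∈ [X0, X1], ∀ Y ∈ [Y0, Y1], ∀ x y : ℝ,
      x = (if X = X0 then x0 else x1) → y = (if Y = Y0 then y0 else y1) →
      |(fval side k1 k2 k3 (n1 side X Y) (n2 side X) (n2 side Y) f : ℝ) / 2 ^ 44 -
        fR k1 k2 k3 f (aff (A1 side) x y) (aff (A2 side) x y) (aff (A3 side) x y)| ≤ 1 / 2 ^ 26)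
    (hX : X0 ≠ X1) (hY : Y0 ≠ Y1)
    {tg : List (ℝ → ℝ → ℝ)} {ta tb tc td : List Int} {te : List Nat}
    (ht : MdlL x0 x1 y0 y1 tg ta tb tc td te) {fs : List Fn} (hf : ∀ f ∈ fs, gOK f) :
    MdlL x0 x1 y0 y1 ((fs.map fun f => fun x y =>
      fxt f.x f.t (aff (A1 side) x y) (aff (A2 side) x y) (aff (A3 side) x y)) ++ tg)
      (fvals side k1 k2 k3 (n1 side X0 Y0) (n2 side X0) (n2 side Y0) ta fs)
      (fvals side k1 k2 k3 (n1 side X0 Y1) (n2 side X0) (n2 side Y1) tb fs)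
      (fvals side k1 k2 k3 (n1 side X1 Y0) (n2 side X1) (n2 side Y0) tc fs)
      (fvals side k1 k2 k3 (n1 side X1 Y1) (n2 side X1) (n2 side Y1) td fs)
      (fers k1 k2 k3 U1 U2 U3 E u1x u1y u2 u3 te fs) := by
  induction fs with
  | nil => exact ht
  | cons f fs ih =>
    have hf0 := hf f (by simp)
    have ih' := ih fun g hg => hf g (by simp [hg])
    have m := fun_mdl hf0 hx01 hy01 h1 h2 h3 hE
    have v := hv f hf0.1
    have e00 := v X0 (by simp) Y0 (by simp) x0 y0 (by simp) (by simp)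
    have e01 := v X0 (by simp) Y1 (by simp) x0 y1 (by simp) (by simp [hY.symm])
    have e10 := v X1 (by simp) Y0 (by simp) x1 y0 (by simp [hX.symm]) (by simp)
    have e11 := v X1 (by simp) Y1 (by simp) x1 y1 (by simp [hX.symm]) (by simp [hY.symm])
    have m' := Mdl.perturb hx01 hy01 m e00 e01 e10 e11
    refine ⟨m'.mono (le_of_le_of_eq ?_ rfl), ih'⟩
    have : (1 : ℝ) / 2 ^ 26 = 262144 / 2 ^ 44 := by norm_num
    rw [this, ← add_div, div_le_div_iff_of_pos_right (by positivity)]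
    linarith

/-! ### the corner tests -/

lemma corner_spec {side k1 k2 k3 : Bool} {fs : List Fn} {ps : List Po} {P : List Int} {H : Nat}
    {HE : Int} {X Y : Nat} (h : corner side k1 k2 k3 fs ps P H HE X Y = true) :
    (∀ v ∈ vV side k1 k2 k3 fs ps X Y, v.natAbs ≤ 2 ^ 120) ∧
      ∃ T : Nat, (T : Int) = dotI P (vV side k1 k2 k3 fs ps X Y) + HE ∧ Nat.land T H = H := by
  unfold corner at h
  rw [band_iff] at h
  refine ⟨bndI_iff.mp h.1, ?_⟩
  have h2 := h.2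
  rw [fdot_eq, ia_eq] at h2
  rcases hz : dotI P (vV side k1 k2 k3 fs ps X Y) + HE with n | n
  · rw [hz] at h2
    exact ⟨n, rfl, Nat.eq_of_beq_eq_true h2⟩
  · rw [hz] at h2
    exact absurd h2 (by simp)

lemma vV_eq (side k1 k2 k3 : Bool) (fs : List Fn) (ps : List Po) (X Y : Nat) :
    vV side k1 k2 k3 fs ps X Y = Int.ofNat 17592186044416 ::
      fvals side k1 k2 k3 (n1 side X Y) (n2 side X) (n2 side Y) (pvals (sn X Y) (cn X Y) ps) fs := by
  unfold vV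
  simp only [st_eq']

lemma vE_eq (side k1 k2 k3 : Bool) (fs : List Fn) (ps : List Po)
    (l1 h1 l2 h2 l3 h3 X0 X1 Y0 Y1 : Nat) :
    vE side k1 k2 k3 fs ps l1 h1 l2 h2 l3 h3 X0 X1 Y0 Y1 =
      0 :: fers k1 k2 k3 (sqU side h1) (sqU side h2) (sqU side h3) (e6U side h1 h2 h3)
        (us (Nat.sub X1 X0) l1) (us (Nat.sub Y1 Y0) l1) (us (Nat.sub X1 X0) l2)
        (us (Nat.sub Y1 Y0) l3) (ePol ps X0 X1 Y0 Y1) fs := by
  unfold vE
  simp only [st_eq']

/-- data conditions: packed rows -/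
structure Packed (n : Nat) (ws : List (List Int)) (P : List Int) (A : List Nat) (H : Nat) : Prop where
  len : ∀ w ∈ ws, w.length = n
  size : ∀ w ∈ ws, (w.map Int.natAbs).sum ≤ 2 ^ 100
  hP : packc n ws = P
  hA : packc n (ws.map absL) = castL A
  hH : packN (ws.map fun _ => 2 ^ 255) = H

/-- the corner tests and the models give the inequalities on the cell -/
theorem corners_good {side pos k1 k2 k3 : Bool} {s0 : ℚ} {fs : List Fn} {ps : List Po}
    {n : Nat} {ws : List (List Int)} {P : List Int} {A : List Nat} {H : Nat}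
    (pk : Packed n ws P A H) {X0 X1 Y0 Y1 : Nat} {E : List Nat}
    (hX : X0 < X1) (hY : Y0 < Y1)
    (hb : ∀ w ∈ ws, ∀ x y : ℝ, dotR w (evalL (gsL side fs ps) x y) =
      dotR w (basis side pos (3 - x - y) x y))
    (hm : MdlL ((X0 : ℝ) / 2 ^ 48) ((X1 : ℝ) / 2 ^ 48) ((Y0 : ℝ) / 2 ^ 48) ((Y1 : ℝ) / 2 ^ 48)
      (gsL side fs ps) (vV side k1 k2 k3 fs ps X0 Y0) (vV side k1 k2 k3 fs ps X0 Y1)
      (vV side k1 k2 k3 fs ps X1 Y0) (vV side k1 k2 k3 fs ps X1 Y1) E)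
    (h : corners side k1 k2 k3 fs ps P A H E X0 X1 Y0 Y1 = true) :
    Good side pos s0 ws X0 X1 Y0 Y1 := by
  unfold corners at h
  rw [band_iff] at h
  obtain ⟨hE, h⟩ := h
  simp only [band_iff] at h
  obtain ⟨t00, t01, t10, t11⟩ := h
  have hE' : ∀ v ∈ castL E, v.natAbs ≤ 2 ^ 120 := by
    intro v hv
    unfold castL at hv
    rw [List.mem_map] at hv
    obtain ⟨a, ha, rfl⟩ := hv
    exact bndN_iff.mp hE a ha
  have test : ∀ X Y : Nat, corner side k1 k2 k3 fs ps P H (subN H (ndot A E)) X Y = true →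
      ∀ w ∈ ws, dotI (absL w) (castL E) ≤ dotI w (vV side k1 k2 k3 fs ps X Y) := by
    intro X Y ht
    obtain ⟨hV, T, hT, hl⟩ := corner_spec ht
    rw [← pk.hH] at hl hT
    refine packed_test pk.len pk.size hV hE' (T := T) ?_ hl
    rw [hT, subN_eq, ndot_eq, ← pk.hA, pk.hP]
    ring
  intro w hw x y a1 a2 a3 a4 a5 a6 a7 a8
  have hX' : (X0 : ℝ) / 2 ^ 48 < (X1 : ℝ) / 2 ^ 48 :=
    div_lt_div_of_pos_right (by exact_mod_cast hX) (by positivity)
  have hY' : (Y0 : ℝ) / 2 ^ 48 < (Y1 : ℝ) / 2 ^ 48 :=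
    div_lt_div_of_pos_right (by exact_mod_cast hY) (by positivity)
  have m := hm.dot w
  have c : ∀ X Y : Nat, corner side k1 k2 k3 fs ps P H (subN H (ndot A E)) X Y = true →
      ((dotI (absL w) (castL E) : Int) : ℝ) / 2 ^ 44 ≤
        ((dotI w (vV side k1 k2 k3 fs ps X Y) : Int) : ℝ) / 2 ^ 44 := by
    intro X Y ht
    have := test X Y ht w hw
    exact div_le_div_of_nonneg_right (by exact_mod_cast this) (by positivity)
  have key := Mdl.nonneg hX' hY' m (c _ _ t00) (c _ _ t01) (c _ _ t10) (c _ _ t11) x ⟨a1, a2⟩ y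
    ⟨a3, a4⟩ (by linarith) a5
  rw [← hb w hw]
  exact key

/-- all models of a cell -/
theorem all_mdlL {side k1 k2 k3 : Bool} {fs : List Fn} {ps : List Po}
    {X0 X1 Y0 Y1 l1 h1 l2 h2 l3 h3 : Nat} (hX : X0 < X1) (hY : Y0 < Y1)
    (hf : ∀ f ∈ fs, gOK f)
    (hj : ∀ p ∈ ps, p.j = 0 ∨ (p.j = 1 ∧ X1 ≤ 281474976710656 ∧ Y1 ≤ 281474976710656))
    (c1 : CF (A1 side) ((X0 : ℝ) / 2 ^ 48) ((X1 : ℝ) / 2 ^ 48) ((Y0 : ℝ) / 2 ^ 48)
      ((Y1 : ℝ) / 2 ^ 48) k1 (sqU side h1) (us (Nat.sub X1 X0) l1) (us (Nat.sub Y1 Y0) l1))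
    (c2 : CF (A2 side) ((X0 : ℝ) / 2 ^ 48) ((X1 : ℝ) / 2 ^ 48) ((Y0 : ℝ) / 2 ^ 48)
      ((Y1 : ℝ) / 2 ^ 48) k2 (sqU side h2) (us (Nat.sub X1 X0) l2) 0)
    (c3 : CF (A3 side) ((X0 : ℝ) / 2 ^ 48) ((X1 : ℝ) / 2 ^ 48) ((Y0 : ℝ) / 2 ^ 48)
      ((Y1 : ℝ) / 2 ^ 48) k3 (sqU side h3) 0 (us (Nat.sub Y1 Y0) l3))
    (hE : ∀ x ∈ Icc ((X0 : ℝ) / 2 ^ 48) ((X1 : ℝ) / 2 ^ 48),
      ∀ y ∈ Icc ((Y0 : ℝ) / 2 ^ 48) ((Y1 : ℝ) / 2 ^ 48), aff (A1 side) x y ^ (1 / 6 : ℝ) *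
      aff (A2 side) x y ^ (1 / 6 : ℝ) * aff (A3 side) x y ^ (1 / 6 : ℝ) ≤
        (e6U side h1 h2 h3 : ℝ) / 2 ^ 44)
    (hv : ∀ f : Fn, f.tn ≤ 30 → ∀ X Y : Nat, (X = X0 ∨ X = X1) → (Y = Y0 ∨ Y = Y1) →
      |(fval side k1 k2 k3 (n1 side X Y) (n2 side X) (n2 side Y) f : ℝ) / 2 ^ 44 -
        fR k1 k2 k3 f (aff (A1 side) ((X : ℝ) / 2 ^ 48) ((Y : ℝ) / 2 ^ 48))
          (aff (A2 side) ((X : ℝ) / 2 ^ 48) ((Y : ℝ) / 2 ^ 48))
          (aff (A3 side) ((X : ℝ) / 2 ^ 48) ((Y : ℝ) / 2 ^ 48))| ≤ 1 / 2 ^ 26) :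
    MdlL ((X0 : ℝ) / 2 ^ 48) ((X1 : ℝ) / 2 ^ 48) ((Y0 : ℝ) / 2 ^ 48) ((Y1 : ℝ) / 2 ^ 48)
      (gsL side fs ps) (vV side k1 k2 k3 fs ps X0 Y0) (vV side k1 k2 k3 fs ps X0 Y1)
      (vV side k1 k2 k3 fs ps X1 Y0) (vV side k1 k2 k3 fs ps X1 Y1)
      (vE side k1 k2 k3 fs ps l1 h1 l2 h2 l3 h3 X0 X1 Y0 Y1) := by
  have hX' : (X0 : ℝ) / 2 ^ 48 < (X1 : ℝ) / 2 ^ 48 :=
    div_lt_div_of_pos_right (by exact_mod_cast hX) (by positivity)
  have hY' : (Y0 : ℝ) / 2 ^ 48 < (Y1 : ℝ) / 2 ^ 48 :=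
    div_lt_div_of_pos_right (by exact_mod_cast hY) (by positivity)
  rw [vV_eq, vV_eq, vV_eq, vV_eq, vE_eq]
  refine ⟨?_, ?_⟩
  · intro x hx y hy _ _
    have e : (((Int.ofNat 17592186044416 : Int) : ℝ)) / 2 ^ 44 = 1 := by norm_num
    rw [e]
    have : bl ((X0 : ℝ) / 2 ^ 48) ((X1 : ℝ) / 2 ^ 48) ((Y0 : ℝ) / 2 ^ 48) ((Y1 : ℝ) / 2 ^ 48) x y
        1 1 1 1 = 1 := by
      unfold bl
      rw [lin1_const hY', lin1_const hX']
    rw [this]
    simp
  · refine fun_mdlL hX' hY' c1 c2 c3 hE ?_ hX.ne hY.ne (pol_mdlL hj hX hY) hf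
    intro f hft X hXm Y hYm x y ex ey
    have hXc : X = X0 ∨ X = X1 := by simpa using hXm
    have hYc : Y = Y0 ∨ Y = Y1 := by simpa using hYm
    have ex' : x = (X : ℝ) / 2 ^ 48 := by
      rw [ex]
      rcases hXc with rfl | rfl
      · simp
      · rw [if_neg hX.ne']
    have ey' : y = (Y : ℝ) / 2 ^ 48 := by
      rw [ey]
      rcases hYc with rfl | rfl
      · simp
      · rw [if_neg hY.ne']
    rw [ex', ey']
    exact hv f hft X Y hXc hYc

end Crest.Agent.R163.Win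
end

-- ▼ part R163/WinAsm0

/-!
Row 163, window engine: the basis functions of the data.
-/

set_option autoImplicit false

namespace Crest.Agent.R163.Win

open Set Crest.Agent.R163.Bern

lemma arg_A1 (side : Bool) (x y : ℝ) : aff (A1 side) x y = arg side (3 - x - y) := by
  cases side
  · simp only [aff, A1, arg, Bool.false_eq_true, if_false]; ring
  · simp only [aff, A1, arg, if_true]; ring

lemma arg_A2 (side : Bool) (x y : ℝ) : aff (A2 side) x y = arg side x := by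
  cases side
  · simp only [aff, A2, arg, Bool.false_eq_true, if_false]; ring
  · simp only [aff, A2, arg, if_true]; ring

lemma arg_A3 (side : Bool) (x y : ℝ) : aff (A3 side) x y = arg side y := by
  cases side
  · simp only [aff, A3, arg, Bool.false_eq_true, if_false]; ring
  · simp only [aff, A3, arg, if_true]; ring

lemma evalL_p (side : Bool) (x y : ℝ) :
    evalL (gsL side FS PSp) x y = basis side true (3 - x - y) x y := by
  have e0 : (⟨0, 0, 513⟩ : Fn).x = 1 / 2 ∧ (⟨0, 0, 513⟩ : Fn).t = 0 := by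
    constructor <;> norm_num [Fn.x, Fn.t]
  have e1 : (⟨0, 10, 725⟩ : Fn).x = 1 / 2 ∧ (⟨0, 10, 725⟩ : Fn).t = 1 / 2 := by
    constructor <;> norm_num [Fn.x, Fn.t]
  have e2 : (⟨0, 30, 1620⟩ : Fn).x = 1 / 2 ∧ (⟨0, 30, 1620⟩ : Fn).t = 3 / 2 := by
    constructor <;> norm_num [Fn.x, Fn.t]
  have e3 : (⟨1, 10, 683⟩ : Fn).x = 1 / 6 ∧ (⟨1, 10, 683⟩ : Fn).t = 1 / 2 := by
    constructor <;> norm_num [Fn.x, Fn.t]
  have e4 : (⟨2, 10, 616⟩ : Fn).x = 1 / 3 ∧ (⟨2, 10, 616⟩ : Fn).t = 1 / 2 := by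
    constructor <;> norm_num [Fn.x, Fn.t]
  simp only [evalL, gsL, FS, PSp, List.map_cons, List.map_nil, List.cons_append, List.nil_append,
    basis, basF, basP, if_true, Po.R, arg_A1, arg_A2, arg_A3, e0, e1, e2, e3, e4, pow_zero, pow_one,
    mul_one, div_one]

lemma evalL_m (side : Bool) (x y : ℝ) :
    evalL (gsL side FS PSm) x y = basis side false (3 - x - y) x y := by
  have e0 : (⟨0, 0, 513⟩ : Fn).x = 1 / 2 ∧ (⟨0, 0, 513⟩ : Fn).t = 0 := by
    constructor <;> norm_num [Fn.x, Fn.t]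
  have e1 : (⟨0, 10, 725⟩ : Fn).x = 1 / 2 ∧ (⟨0, 10, 725⟩ : Fn).t = 1 / 2 := by
    constructor <;> norm_num [Fn.x, Fn.t]
  have e2 : (⟨0, 30, 1620⟩ : Fn).x = 1 / 2 ∧ (⟨0, 30, 1620⟩ : Fn).t = 3 / 2 := by
    constructor <;> norm_num [Fn.x, Fn.t]
  have e3 : (⟨1, 10, 683⟩ : Fn).x = 1 / 6 ∧ (⟨1, 10, 683⟩ : Fn).t = 1 / 2 := by
    constructor <;> norm_num [Fn.x, Fn.t]
  have e4 : (⟨2, 10, 616⟩ : Fn).x = 1 / 3 ∧ (⟨2, 10, 616⟩ : Fn).t = 1 / 2 := by
    constructor <;> norm_num [Fn.x, Fn.t]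
  simp only [evalL, gsL, FS, PSm, List.map_cons, List.map_nil, List.cons_append, List.nil_append,
    basis, basF, basP, Bool.false_eq_true, if_false, Po.R, arg_A1, arg_A2, arg_A3, e0, e1, e2, e3,
    e4, pow_zero, pow_one, mul_one, div_one]

lemma FS_ok : ∀ f ∈ FS, gOK f := by
  unfold FS
  decide +kernel

end Crest.Agent.R163.Win
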