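import Crest.Agent.R163.WinAsm0
import Crest.Agent.R163.WinD0
import Crest.Agent.R163.WinPk
import Crest.Agent.R163.WinD1
import Crest.Agent.R163.WinD2
import Crest.Agent.R163.WinD3
import Crest.Agent.R163.WinD4
import Crest.Agent.R163.WinD5
import Crest.Agent.R163.WinD6
import Crest.Agent.R163.DGB4
import Crest.Agent.R163.DGB5
import Crest.Agent.R163.DGB6
import Crest.Agent.R163.DGB7
import Crest.Agent.R163.LocScalar
import Crest.Agent.R163.Mono
import Mathlib.Probability.Distributions.Poisson.PoissonLimitThm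
import Mathlib.Analysis.Normed.Group.Tannery
import Crest.Agent.R163.LocRec
import Crest.Agent.R163.LocSeq
import Crest.Agent.R163.Main
import Crest.Agent.R163.MonoPair
import Crest.Agent.R163.Q3Pair
import Crest.Agent.R163.LocPair
import Crest.Agent.R163.WinClose
import Crest.Agent.R163.CenRowsB
import Crest.Agent.R163.CenRowsM1
import Crest.Agent.R163.CenRowsM7
import Crest.Agent.R163.CenRowsM11

-- ▼ part R163/WinLeaf2
section

/-!
Row 163, window engine: soundness of the full test of a cell and of the tree test.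
-/

set_option autoImplicit false

namespace Crest.Agent.R163.Win

open Set Crest.Agent.R163.Bern

/-- what `WinCF` provides -/
def CellFacts : Prop := ∀ (side : Bool) (X0 X1 Y0 Y1 : Nat), X0 < X1 → Y0 < Y1 →
    X1 ≤ 422212465065984 → Y1 ≤ 281474976710656 →
    dom (lo1 side X0 X1 Y0 Y1) (hi1 side X0 X1 Y0 Y1) = true →
    dom (lo2 side X0 X1) (hi2 side X0 X1) = true →
    dom (lo2 side Y0 Y1) (hi2 side Y0 Y1) = true →
    CF (A1 side) ((X0 : ℝ) / 2 ^ 48) ((X1 : ℝ) / 2 ^ 48) ((Y0 : ℝ) / 2 ^ 48) ((Y1 : ℝ) / 2 ^ 48)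
      (Nat.ble 1 (lo1 side X0 X1 Y0 Y1)) (sqU side (hi1 side X0 X1 Y0 Y1))
      (us (Nat.sub X1 X0) (lo1 side X0 X1 Y0 Y1)) (us (Nat.sub Y1 Y0) (lo1 side X0 X1 Y0 Y1)) ∧
    CF (A2 side) ((X0 : ℝ) / 2 ^ 48) ((X1 : ℝ) / 2 ^ 48) ((Y0 : ℝ) / 2 ^ 48) ((Y1 : ℝ) / 2 ^ 48)
      (Nat.ble 1 (lo2 side X0 X1)) (sqU side (hi2 side X0 X1))
      (us (Nat.sub X1 X0) (lo2 side X0 X1)) 0 ∧
    CF (A3 side) ((X0 : ℝ) / 2 ^ 48) ((X1 : ℝ) / 2 ^ 48) ((Y0 : ℝ) / 2 ^ 48) ((Y1 : ℝ) / 2 ^ 48)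
      (Nat.ble 1 (lo2 side Y0 Y1)) (sqU side (hi2 side Y0 Y1)) 0
      (us (Nat.sub Y1 Y0) (lo2 side Y0 Y1)) ∧
    (∀ x ∈ Icc ((X0 : ℝ) / 2 ^ 48) ((X1 : ℝ) / 2 ^ 48),
      ∀ y ∈ Icc ((Y0 : ℝ) / 2 ^ 48) ((Y1 : ℝ) / 2 ^ 48), aff (A1 side) x y ^ (1 / 6 : ℝ) *
      aff (A2 side) x y ^ (1 / 6 : ℝ) * aff (A3 side) x y ^ (1 / 6 : ℝ) ≤
        (e6U side (hi1 side X0 X1 Y0 Y1) (hi2 side X0 X1) (hi2 side Y0 Y1) : ℝ) / 2 ^ 44) ∧
    (∀ f : Fn, f.tn ≤ 30 → ∀ X Y : Nat, (X = X0 ∨ X = X1) → (Y = Y0 ∨ Y = Y1) →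
      |(fval side (Nat.ble 1 (lo1 side X0 X1 Y0 Y1)) (Nat.ble 1 (lo2 side X0 X1))
        (Nat.ble 1 (lo2 side Y0 Y1)) (n1 side X Y) (n2 side X) (n2 side Y) f : ℝ) / 2 ^ 44 -
        fR (Nat.ble 1 (lo1 side X0 X1 Y0 Y1)) (Nat.ble 1 (lo2 side X0 X1))
          (Nat.ble 1 (lo2 side Y0 Y1)) f (aff (A1 side) ((X : ℝ) / 2 ^ 48) ((Y : ℝ) / 2 ^ 48))
          (aff (A2 side) ((X : ℝ) / 2 ^ 48) ((Y : ℝ) / 2 ^ 48))
          (aff (A3 side) ((X : ℝ) / 2 ^ 48) ((Y : ℝ) / 2 ^ 48))| ≤ 1 / 2 ^ 26)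

theorem full_good (CFs : CellFacts) {side pos : Bool} {s0 : ℚ} {fs : List Fn} {ps : List Po}
    {n XB : Nat} {ws : List (List Int)} {P : List Int} {A : List Nat} {H : Nat}
    (pk : Packed n ws P A H) (hf : ∀ f ∈ fs, gOK f)
    (hj : ∀ p ∈ ps, p.j = 0 ∨ (p.j = 1 ∧ XB ≤ 281474976710656)) (hXB : XB ≤ 422212465065984)
    (hb : ∀ x y : ℝ, evalL (gsL side fs ps) x y = basis side pos (3 - x - y) x y)
    (X0 X1 Y0 Y1 : Nat) (hX : X0 < X1) (hY : Y0 < Y1) (hX1 : X1 ≤ XB) (hY1 : Y1 ≤ 281474976710656)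
    (h : full side fs ps P A H X0 X1 Y0 Y1 = true) : Good side pos s0 ws X0 X1 Y0 Y1 := by
  unfold full at h
  simp only [st_eq', wb_eq, band_iff] at h
  obtain ⟨d1, d2, d3, h⟩ := h
  obtain ⟨c1, c2, c3, hE, hv⟩ := CFs side X0 X1 Y0 Y1 hX hY (hX1.trans hXB) hY1 d1 d2 d3
  refine corners_good pk hX hY (fun w _ x y => by rw [hb]) (all_mdlL hX hY hf ?_ c1 c2 c3 hE hv) h
  intro p hp
  rcases hj p hp with h | ⟨h, h'⟩
  · exact Or.inl h
  · exact Or.inr ⟨h, hX1.trans h', hY1⟩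

theorem tree_good (CFs : CellFacts) {side pos : Bool} {s0 : ℚ} {fs : List Fn} {ps : List Po}
    {n S XB : Nat} {ws : List (List Int)} {P : List Int} {A : List Nat} {H : Nat}
    (pk : Packed n ws P A H) (hS : (S : ℝ) ≤ 3 * 2 ^ 96 * s0) (hf : ∀ f ∈ fs, gOK f)
    (hj : ∀ p ∈ ps, p.j = 0 ∨ (p.j = 1 ∧ XB ≤ 281474976710656)) (hXB : XB ≤ 422212465065984)
    (hb : ∀ x y : ℝ, evalL (gsL side fs ps) x y = basis side pos (3 - x - y) x y)
    {t : Tr} {X0 X1 Y0 Y1 : Nat} (h : chk side S XB fs ps P A H t X0 X1 Y0 Y1 = true) :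
    Good side pos s0 ws X0 X1 Y0 Y1 :=
  chk_good (leaf_good hS (full_good CFs pk hf hj hXB hb)) t X0 X1 Y0 Y1 h

end Crest.Agent.R163.Win
end

-- ▼ part R163/WinD7
section

/-! Row 163, window engine: kernel checks, part 7 (generated). -/

set_option autoImplicit false
set_option maxRecDepth 1000000

namespace Crest.Agent.R163.Win


theorem cM11p_0 : chk true SM11 (nat_lit 281474976710656) FS PSp PM11p AM11p HM11p
    (.Y (nat_lit 196596255409587) (.X (nat_lit 196596255409587) (.Y (nat_lit 154156681379267) (.X (nat_lit 154156681379267) (.Y (nat_lit 132937287685617) (.X (nat_lit 132937287685617) (.Y (nat_lit 122327453892383) (.X (nat_lit 122327453892383) .L (.X (nat_lit 127632056785561) .L .L)) (.X (nat_lit 122327453892383) .L (.Y (nat_lit 127632056785561) .L .L))) (.X (nat_lit 143547243652073) (.Y (nat_lit 122327453892383) (.X (nat_lit 138242356105745) .L .L) (.X (nat_lit 138242356105745) .L .L)) (.Y (nat_lit 122327453892383)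 (.X (nat_lit 148851739859877) .L .L) (.X (nat_lit 148851739859877) .L .L)))) (.X (nat_lit 132937287685617) .L (.Y (nat_lit 143547243652073) (.X (nat_lit 143547243652073) (.Y (nat_lit 138242356105745) .L .L) (.X (nat_lit 148851739859877) .L .L)) (.X (nat_lit 143547243652073) .L (.Y (nat_lit 148851739859877) (.X (nat_lit 148851739859877) .L .L) (.X (nat_lit 148851739859877) .L .L)))))) (.X (nat_lit 175376701501749) (.Y (nat_lit 132937287685617) (.X (nat_lit 164766964665883) (.Y (nat_lit 122327453892383) (.X (nat_lit 159461646856717) .L .L) (.X (nat_lit 159461646856717) .L .L)) (.Y (nat_lit 122327453892383) (.X (nat_lit 170071841589043) .L .L) (.X (nat_lit 170071841589043) .L .L))) (.X (nat_lit 164766964665883) (.Y (nat_lit 143547243652073) (.X (nat_lit 159461646856717) (.Y (nat_lit 138242356105745) .L .L) (.Y (nat_lit 138242356105745) .L .L)) (.X (nat_lit 159461646856717) (.Y (nat_lit 148851739859877) .L .L) (.Y (nat_lit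 148851739859877) .L .L))) (.Y (nat_lit 143547243652073) (.X (nat_lit 170071841589043) (.Y (nat_lit 138242356105745) .L .L) (.Y (nat_lit 138242356105745) .L .L)) (.X (nat_lit 170071841589043) (.Y (nat_lit 148851739859877) .L .L) (.Y (nat_lit 148851739859877) .L .L))))) (.Y (nat_lit 132937287685617) (.X (nat_lit 185986321880255) (.Y (nat_lit 122327453892383) (.X (nat_lit 180681507506469) .L .L) (.X (nat_lit 180681507506469) (.Y (nat_lit 127632056785561) .L .L) (.Y (nat_lit 127632056785561) .L .L))) (.Y (nat_lit 122327453892383) (.X (nat_lit 191291513067629) .L .L) (.X (nat_lit 191291513067629) (.Y (nat_lit 127632056785561) .L .L) (.Y (nat_lit 127632056785561) .L .L)))) (.X (nat_lit 185986321880255) (.Y (nat_lit 143547243652073) (.X (nat_lit 180681507506469) (.Y (nat_lit 138242356105745) .L .L) (.Y (nat_lit 138242356105745) .L .L)) (.X (nat_lit 180681507506469) (.Y (nat_lit 148851739859877) .L .L) (.Y (nat_lit 148851739859877)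 .L .L))) (.Y (nat_lit 143547243652073) (.X (nat_lit 191291513067629) (.Y (nat_lit 138242356105745) .L .L) (.Y (nat_lit 138242356105745) .L .L)) (.X (nat_lit 191291513067629) (.Y (nat_lit 148851739859877) .L .L) (.Y (nat_lit 148851739859877) .L .L))))))) (.X (nat_lit 154156681379267) .L (.Y (nat_lit 175376701501749) (.X (nat_lit 175376701501749) (.Y (nat_lit 164766964665883) (.X (nat_lit 164766964665883) (.Y (nat_lit 159461646856717) (.X (nat_lit 159461646856717) .L .L) (.X (nat_lit 159461646856717) .L .L)) (.X (nat_lit 170071841589043) (.Y (nat_lit 159461646856717) .L .L) (.Y (nat_lit 159461646856717) .L .L))) (.X (nat_lit 164766964665883) .L (.Y (nat_lit 170071841589043) (.X (nat_lit 170071841589043) .L .L) (.X (nat_lit 170071841589043) .L (.Y (nat_lit 172724483066731) .L .L))))) (.X (nat_lit 185986321880255) (.Y (nat_lit 164766964665883) (.X (nat_lit 180681507506469) (.Y (nat_lit 159461646856717) .L .L) (.Y (nat_lit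 159461646856717) .L .L)) (.X (nat_lit 180681507506469) (.Y (nat_lit 170071841589043) (.X (nat_lit 178029430261565) .L .L) (.X (nat_lit 178029430261565) .L .L)) (.Y (nat_lit 170071841589043) (.X (nat_lit 183334077054027) .L .L) (.X (nat_lit 183334077054027) .L .L)))) (.Y (nat_lit 164766964665883) (.X (nat_lit 191291513067629) (.Y (nat_lit 159461646856717) .L (.X (nat_lit 188639329157861) .L .L)) (.Y (nat_lit 159461646856717) .L (.X (nat_lit 193944002054237) .L .L))) (.X (nat_lit 191291513067629) (.Y (nat_lit 170071841589043) (.X (nat_lit 188639329157861) .L .L) (.X (nat_lit 188639329157861) .L .L)) (.Y (nat_lit 170071841589043) (.X (nat_lit 193944002054237) .L .L) (.X (nat_lit 193944002054237) .L .L)))))) (.X (nat_lit 175376701501749) .L (.Y (nat_lit 185986321880255) (.X (nat_lit 185986321880255) (.Y (nat_lit 180681507506469) (.X (nat_lit 180681507506469) (.Y (nat_lit 178029430261565) .L .L) (.X (nat_lit 183334077054027)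 .L .L)) (.X (nat_lit 180681507506469) .L (.Y (nat_lit 183334077054027) .L .L))) (.X (nat_lit 191291513067629) (.Y (nat_lit 180681507506469) (.X (nat_lit 188639329157861) .L .L) .L) .L)) (.X (nat_lit 185986321880255) .L .L)))))) (.X (nat_lit 239036246245767) (.Y (nat_lit 154156681379267) (.X (nat_lit 217816302430783) (.Y (nat_lit 132937287685617) (.X (nat_lit 207206560971289) (.Y (nat_lit 122327453892383) (.X (nat_lit 201901463942947) .L .L) (.X (nat_lit 201901463942947) (.Y (nat_lit 127632056785561) .L .L) (.Y (nat_lit 127632056785561) .L .L))) (.Y (nat_lit 122327453892383) (.X (nat_lit 212511261073739) .L (.Y (nat_lit 117022477548993) .L .L)) (.X (nat_lit 212511261073739) (.Y (nat_lit 127632056785561) .L .L) (.Y (nat_lit 127632056785561) .L .L)))) (.X (nat_lit 207206560971289) (.Y (nat_lit 143547243652073) (.X (nat_lit 201901463942947) (.Y (nat_lit 138242356105745) .L .L) (.Y (nat_lit 138242356105745) .L .L)) (.X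 (nat_lit 201901463942947) (.Y (nat_lit 148851739859877) .L .L) (.Y (nat_lit 148851739859877) .L .L))) (.Y (nat_lit 143547243652073) (.X (nat_lit 212511261073739) (.Y (nat_lit 138242356105745) .L .L) (.Y (nat_lit 138242356105745) .L .L)) (.X (nat_lit 212511261073739) (.Y (nat_lit 148851739859877) .L .L) (.Y (nat_lit 148851739859877) .L .L))))) (.Y (nat_lit 132937287685617) (.X (nat_lit 228426363425713) (.Y (nat_lit 122327453892383) (.X (nat_lit 223120987026511) (.Y (nat_lit 117022477548993) .L .L) (.Y (nat_lit 117022477548993) .L .L)) (.X (nat_lit 223120987026511) (.Y (nat_lit 127632056785561) .L .L) (.Y (nat_lit 127632056785561) .L .L))) (.Y (nat_lit 122327453892383) (.X (nat_lit 233730869040083) (.Y (nat_lit 117022477548993) .L .L) (.Y (nat_lit 117022477548993) .L .L)) (.X (nat_lit 233730869040083) (.Y (nat_lit 127632056785561) .L .L) (.Y (nat_lit 127632056785561) .L .L)))) (.X (nat_lit 228426363425713) (.Y (nat_lit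 143547243652073) (.X (nat_lit 223120987026511) (.Y (nat_lit 138242356105745) .L .L) (.Y (nat_lit 138242356105745) .L .L)) (.X (nat_lit 223120987026511) (.Y (nat_lit 148851739859877) .L .L) (.Y (nat_lit 148851739859877) .L .L))) (.Y (nat_lit 143547243652073) (.X (nat_lit 233730869040083) (.Y (nat_lit 138242356105745) .L .L) (.Y (nat_lit 138242356105745) .L .L)) .L)))) (.X (nat_lit 217816302430783) (.Y (nat_lit 175376701501749) (.X (nat_lit 207206560971289) (.Y (nat_lit 164766964665883) (.X (nat_lit 201901463942947) (.Y (nat_lit 159461646856717) .L (.X (nat_lit 199249236951285) .L .L)) (.Y (nat_lit 159461646856717) .L (.X (nat_lit 204553576068331) .L .L))) (.X (nat_lit 201901463942947) (.Y (nat_lit 170071841589043) (.X (nat_lit 199249236951285) .L .L) .L) .L)) (.Y (nat_lit 164766964665883) (.X (nat_lit 212511261073739) (.Y (nat_lit 159461646856717) .L .L) (.Y (nat_lit 159461646856717) .L .L)) .L)) .L) .L)) (.Y (nat_lit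 154156681379267) (.X (nat_lit 260255678040001) (.Y (nat_lit 132937287685617) (.X (nat_lit 249645613797015) (.Y (nat_lit 122327453892383) (.X (nat_lit 244340984347583) (.Y (nat_lit 117022477548993) .L .L) (.Y (nat_lit 117022477548993) .L .L)) (.X (nat_lit 244340984347583) (.Y (nat_lit 127632056785561) .L .L) (.Y (nat_lit 127632056785561) .L .L))) (.Y (nat_lit 122327453892383) (.X (nat_lit 254950333846953) (.Y (nat_lit 117022477548993) .L .L) (.Y (nat_lit 117022477548993) .L .L)) (.X (nat_lit 254950333846953) (.Y (nat_lit 127632056785561) .L .L) (.Y (nat_lit 127632056785561) .L .L)))) (.X (nat_lit 249645613797015) (.Y (nat_lit 143547243652073) (.X (nat_lit 244340984347583) (.Y (nat_lit 138242356105745) .L .L) .L) .L) .L)) (.Y (nat_lit 132937287685617) (.X (nat_lit 270865408724417) (.Y (nat_lit 122327453892383) (.X (nat_lit 265561042963995) (.Y (nat_lit 117022477548993) .L .L) (.Y (nat_lit 117022477548993) .L .L)) .L)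 (.Y (nat_lit 122327453892383) (.X (nat_lit 276170705064391) (.Y (nat_lit 117022477548993) .L .L) (.Y (nat_lit 117022477548993) .L .L)) .L)) .L)) .L))) (.X (nat_lit 196596255409587) .L .L))
    (nat_lit 111717199642624) (nat_lit 281474976710656) (nat_lit 111717199642624) (nat_lit 281474976710656) = true := by
  decide +kernel

theorem cM11m_0 : chk true SM11 (nat_lit 422212465065984) FS PSm PM11m AM11m HM11m
    .L
    (nat_lit 281474976710656) (nat_lit 422212465065984) (nat_lit 111717199642624) (nat_lit 281474976710656) = true := by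
  decide +kernel

end Crest.Agent.R163.Win
end

-- ▼ part R163/WinAsm
section

/-!
Row 163, window engine: assembly of the kernel checks (generated).
-/

set_option autoImplicit false
set_option maxRecDepth 100000

namespace Crest.Agent.R163.Win

lemma PSp_ok : ∀ p ∈ PSp, p.j = 0 ∨ (p.j = 1 ∧ 281474976710656 ≤ 281474976710656) := by
  unfold PSp; decide

lemma PSm_ok : ∀ p ∈ PSm, p.j = 0 ∨ (p.j = 1 ∧ 422212465065984 ≤ 281474976710656) := by
  unfold PSm; decide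

lemma SB_le : ((SB : Nat) : ℝ) ≤ 3 * 2 ^ 96 * ((9 / 100 : ℚ) : ℝ) := by
  unfold SB; push_cast; norm_num

lemma tBp (CFs : CellFacts) {t : Tr} {X0 X1 Y0 Y1 : Nat}
    (h : chk false SB (nat_lit 281474976710656) FS PSp PBp ABp HBp t X0 X1 Y0 Y1 = true) :
    Good false true (9 / 100) (rowsB true) X0 X1 Y0 Y1 :=
  tree_good CFs pkBp SB_le FS_ok PSp_ok (by norm_num) (evalL_p false) h

theorem rBp (CFs : CellFacts) : Good false true (9 / 100) (rowsB true)
    (nat_lit 0) (nat_lit 281474976710656) (nat_lit 0) (nat_lit 281474976710656) :=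
  (Good.splitY (nat_lit 70368900064303) (Good.splitX (nat_lit 70368900064303) (Good.splitY (nat_lit 17592208417917) (Good.splitX (nat_lit 17592208417917) (tBp CFs cBp_0)
    (tBp CFs cBp_1))
    (tBp CFs cBp_2))
    (Good.splitX (nat_lit 175922061124267) (Good.splitX (nat_lit 123145539196135) (tBp CFs cBp_3)
    (tBp CFs cBp_4))
    (Good.splitY (nat_lit 17592208417917) (tBp CFs cBp_5)
    (tBp CFs cBp_6))))
    (Good.splitY (nat_lit 175922061124267) (Good.splitY (nat_lit 123145539196135) (Good.splitX (nat_lit 70368900064303) (tBp CFs cBp_7)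
    (Good.splitX (nat_lit 175922061124267) (tBp CFs cBp_8)
    (tBp CFs cBp_9)))
    (Good.splitX (nat_lit 70368900064303) (tBp CFs cBp_10)
    (Good.splitX (nat_lit 175922061124267) (tBp CFs cBp_11)
    (Good.splitX (nat_lit 228698491831029) (tBp CFs cBp_12)
    (tBp CFs cBp_13)))))
    (Good.splitX (nat_lit 70368900064303) (tBp CFs cBp_14)
    (Good.splitX (nat_lit 175922061124267) (tBp CFs cBp_15)
    (Good.splitY (nat_lit 228698491831029) (Good.splitX (nat_lit 228698491831029) (tBp CFs cBp_16)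
    (tBp CFs cBp_17))
    (tBp CFs cBp_18))))))

theorem outBp (CFs : CellFacts) : ∀ w ∈ rowsB true, OutOK false true (0) (9 / 100) w :=
  outOK_of_good_pos (Z := 0) (by norm_num) (rBp CFs)

lemma tBm (CFs : CellFacts) {t : Tr} {X0 X1 Y0 Y1 : Nat}
    (h : chk false SB (nat_lit 422212465065984) FS PSm PBm ABm HBm t X0 X1 Y0 Y1 = true) :
    Good false false (9 / 100) (rowsB false) X0 X1 Y0 Y1 :=
  tree_good CFs pkBm SB_le FS_ok PSm_ok (by norm_num) (evalL_m false) h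

theorem rBm (CFs : CellFacts) : Good false false (9 / 100) (rowsB false)
    (nat_lit 281474976710656) (nat_lit 422212465065984) (nat_lit 0) (nat_lit 281474976710656) :=
  (Good.splitX (nat_lit 351844899895973) (Good.splitY (nat_lit 70368900064303) (tBm CFs cBm_0)
    (Good.splitY (nat_lit 175922061124267) (Good.splitY (nat_lit 123145539196135) (tBm CFs cBm_1)
    (tBm CFs cBm_2))
    (tBm CFs cBm_3)))
    (Good.splitY (nat_lit 70368900064303) (Good.splitY (nat_lit 17592208417917) (Good.splitY (nat_lit 4398056427309) (tBm CFs cBm_4)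
    (tBm CFs cBm_5))
    (tBm CFs cBm_6))
    (tBm CFs cBm_7)))

theorem outBm (CFs : CellFacts) : ∀ w ∈ rowsB false, OutOK false false (0) (9 / 100) w :=
  outOK_of_good_neg (Z := 0) (by norm_num) (rBm CFs)

lemma SM1_le : ((SM1 : Nat) : ℝ) ≤ 3 * 2 ^ 96 * ((43 / 100 : ℚ) : ℝ) := by
  unfold SM1; push_cast; norm_num

lemma tM1p (CFs : CellFacts) {t : Tr} {X0 X1 Y0 Y1 : Nat}
    (h : chk true SM1 (nat_lit 281474976710656) FS PSp PM1p AM1p HM1p t X0 X1 Y0 Y1 = true) :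
    Good true true (43 / 100) (rowsM1 true) X0 X1 Y0 Y1 :=
  tree_good CFs pkM1p SM1_le FS_ok PSp_ok (by norm_num) (evalL_p true) h

theorem rM1p (CFs : CellFacts) : Good true true (43 / 100) (rowsM1 true)
    (nat_lit 0) (nat_lit 281474976710656) (nat_lit 0) (nat_lit 281474976710656) :=
  (Good.splitY (nat_lit 70368900064303) (Good.splitX (nat_lit 70368900064303) (Good.splitY (nat_lit 17592208417917) (Good.splitX (nat_lit 17592208417917) (tM1p CFs cM1p_0)
    (tM1p CFs cM1p_1))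
    (tM1p CFs cM1p_2))
    (Good.splitX (nat_lit 175922061124267) (tM1p CFs cM1p_3)
    (tM1p CFs cM1p_4)))
    (tM1p CFs cM1p_5))

theorem outM1p (CFs : CellFacts) : ∀ w ∈ rowsM1 true, OutOK true true (0) (43 / 100) w :=
  outOK_of_good_pos (Z := 0) (by norm_num) (rM1p CFs)

lemma tM1m (CFs : CellFacts) {t : Tr} {X0 X1 Y0 Y1 : Nat}
    (h : chk true SM1 (nat_lit 422212465065984) FS PSm PM1m AM1m HM1m t X0 X1 Y0 Y1 = true) :
    Good true false (43 / 100) (rowsM1 false) X0 X1 Y0 Y1 :=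
  tree_good CFs pkM1m SM1_le FS_ok PSm_ok (by norm_num) (evalL_m true) h

theorem rM1m (CFs : CellFacts) : Good true false (43 / 100) (rowsM1 false)
    (nat_lit 281474976710656) (nat_lit 422212465065984) (nat_lit 0) (nat_lit 281474976710656) :=
  (tM1m CFs cM1m_0)

theorem outM1m (CFs : CellFacts) : ∀ w ∈ rowsM1 false, OutOK true false (0) (43 / 100) w :=
  outOK_of_good_neg (Z := 0) (by norm_num) (rM1m CFs)

lemma SM7_le : ((SM7 : Nat) : ℝ) ≤ 3 * 2 ^ 96 * ((9 / 25 : ℚ) : ℝ) := by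
  unfold SM7; push_cast; norm_num

lemma tM7p (CFs : CellFacts) {t : Tr} {X0 X1 Y0 Y1 : Nat}
    (h : chk true SM7 (nat_lit 281474976710656) FS PSp PM7p AM7p HM7p t X0 X1 Y0 Y1 = true) :
    Good true true (9 / 25) (grpM7 true) X0 X1 Y0 Y1 :=
  tree_good CFs pkM7p SM7_le FS_ok PSp_ok (by norm_num) (evalL_p true) h

theorem rM7p (CFs : CellFacts) : Good true true (9 / 25) (grpM7 true)
    (nat_lit 68679748288512) (nat_lit 281474976710656) (nat_lit 68679748288512) (nat_lit 281474976710656) :=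
  (tM7p CFs cM7p_0)

theorem outM7p (CFs : CellFacts) : ∀ w ∈ grpM7 true, OutOK true true (61 / 250) (9 / 25) w :=
  outOK_of_good_pos (Z := 68679748288512) (by norm_num) (rM7p CFs)

lemma tM7m (CFs : CellFacts) {t : Tr} {X0 X1 Y0 Y1 : Nat}
    (h : chk true SM7 (nat_lit 422212465065984) FS PSm PM7m AM7m HM7m t X0 X1 Y0 Y1 = true) :
    Good true false (9 / 25) (grpM7 false) X0 X1 Y0 Y1 :=
  tree_good CFs pkM7m SM7_le FS_ok PSm_ok (by norm_num) (evalL_m true) h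

theorem rM7m (CFs : CellFacts) : Good true false (9 / 25) (grpM7 false)
    (nat_lit 281474976710656) (nat_lit 422212465065984) (nat_lit 68679748288512) (nat_lit 281474976710656) :=
  (tM7m CFs cM7m_0)

theorem outM7m (CFs : CellFacts) : ∀ w ∈ grpM7 false, OutOK true false (61 / 250) (9 / 25) w :=
  outOK_of_good_neg (Z := 68679748288512) (by norm_num) (rM7m CFs)

lemma SM11_le : ((SM11 : Nat) : ℝ) ≤ 3 * 2 ^ 96 * ((1 / 4 : ℚ) : ℝ) := by
  unfold SM11; push_cast; norm_num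

lemma tM11p (CFs : CellFacts) {t : Tr} {X0 X1 Y0 Y1 : Nat}
    (h : chk true SM11 (nat_lit 281474976710656) FS PSp PM11p AM11p HM11p t X0 X1 Y0 Y1 = true) :
    Good true true (1 / 4) (grpM11 true) X0 X1 Y0 Y1 :=
  tree_good CFs pkM11p SM11_le FS_ok PSp_ok (by norm_num) (evalL_p true) h

theorem rM11p (CFs : CellFacts) : Good true true (1 / 4) (grpM11 true)
    (nat_lit 111717199642624) (nat_lit 281474976710656) (nat_lit 111717199642624) (nat_lit 281474976710656) :=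
  (tM11p CFs cM11p_0)

theorem outM11p (CFs : CellFacts) : ∀ w ∈ grpM11 true, OutOK true true (3969 / 10000) (1 / 4) w :=
  outOK_of_good_pos (Z := 111717199642624) (by norm_num) (rM11p CFs)

lemma tM11m (CFs : CellFacts) {t : Tr} {X0 X1 Y0 Y1 : Nat}
    (h : chk true SM11 (nat_lit 422212465065984) FS PSm PM11m AM11m HM11m t X0 X1 Y0 Y1 = true) :
    Good true false (1 / 4) (grpM11 false) X0 X1 Y0 Y1 :=
  tree_good CFs pkM11m SM11_le FS_ok PSm_ok (by norm_num) (evalL_m true) h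

theorem rM11m (CFs : CellFacts) : Good true false (1 / 4) (grpM11 false)
    (nat_lit 281474976710656) (nat_lit 422212465065984) (nat_lit 111717199642624) (nat_lit 281474976710656) :=
  (tM11m CFs cM11m_0)

theorem outM11m (CFs : CellFacts) : ∀ w ∈ grpM11 false, OutOK true false (3969 / 10000) (1 / 4) w :=
  outOK_of_good_neg (Z := 111717199642624) (by norm_num) (rM11m CFs)

end Crest.Agent.R163.Win
end

-- ▼ part R163/DGFin
section

/-!
Row 163, density evolution: `chi < 1/5` for the critical antiferromagnetic trees, `b = 4, 5, 6, 7`.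
-/

set_option autoImplicit false

namespace Crest.Agent.R163.DG

open Crest.Agent.R163

theorem regLt4 : RegLt 4 (1 / 2) (1 / 5) := by
  have h := B4.regLt
  norm_num at h ⊢
  exact h

theorem regLt5 : RegLt 5 (161 / 360) (1 / 5) := by
  have h := B5.regLt
  norm_num at h ⊢
  exact h

theorem regLt6 : RegLt 6 (89 / 218) (1 / 5) := by
  have h := B6.regLt
  norm_num at h ⊢
  exact h

theorem regLt7 : RegLt 7 (223 / 590) (1 / 5) := by
  have h := B7.regLt
  norm_num at h ⊢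
  exact h

/-- **Density evolution**: `chi < 1/5` at some level of the critical trees, `b = 4, 5, 6, 7` -/
theorem regLt_crit {b : ℕ} (h4 : 4 ≤ b) (h7 : b ≤ 7) : RegLt b (1 / Real.sqrt b) (1 / 5) := by
  interval_cases b
  · rw [inv_sqrt_four]; exact regLt4
  · exact regLt5.crit (by norm_num) (by norm_num) (by norm_num) le_rfl
  · exact regLt6.crit (by norm_num) (by norm_num) (by norm_num) le_rfl
  · exact regLt7.crit (by norm_num) (by norm_num) (by norm_num) le_rfl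

end Crest.Agent.R163.DG
end

-- ▼ part R163/LocBox
section

/-!
Row 163, q = 3 antiferromagnetic local lemma: the numerical conditions of the ansatz on boxes, and
the contradiction for the parameter classes.
-/

set_option autoImplicit false

namespace Crest.Agent.R163

theorem box0 {p q : ℝ} (h1 : -1 / 4 ≤ p) (h2 : p ≤ 1 / 2) (h3 : 0 ≤ q) (h4 : q ≤ 17 / 125) :
    AnsC (5 / 8) (23 / 10) (73 / 100) (23 / 5 + 4 * q) p q (1 / 5) (22 / 5) (931 / 100) (2521 / 100)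
      (625 / 100) := by
  have u : 0 ≤ p + 1 / 4 := by linarith
  have v : 0 ≤ 1 / 2 - p := by linarith
  have z : 0 ≤ 17 / 125 - q := by linarith
  have uv := mul_nonneg u v
  have uq := mul_nonneg u h3
  have vq := mul_nonneg v h3
  have uz := mul_nonneg u z
  have vz := mul_nonneg v z
  have qz := mul_nonneg h3 z
  have uuv := mul_nonneg u uv
  have uvv := mul_nonneg uv v
  have uvq := mul_nonneg uv h3
  have uvz := mul_nonneg uv z
  have uqz := mul_nonneg u qz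
  have vqz := mul_nonneg v qz
  constructor <;> nlinarith

theorem boxB {p q : ℝ} (h1 : 0 ≤ p) (h2 : p ≤ 107 / 1000) (h3 : 0 ≤ q) (h4 : q ≤ 17 / 125) :
    AnsC (5 / 8) (23 / 10) (73 / 100) (23 / 5 + 4 * q) p q (1 / 5) (121 / 50) (83 / 20) (1121 / 50)
      (3 / 10) := by
  have v : 0 ≤ 107 / 1000 - p := by linarith
  have z : 0 ≤ 17 / 125 - q := by linarith
  have uv := mul_nonneg h1 v
  have uq := mul_nonneg h1 h3
  have vq := mul_nonneg v h3
  have uz := mul_nonneg h1 z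
  have vz := mul_nonneg v z
  have qz := mul_nonneg h3 z
  have uuv := mul_nonneg h1 uv
  have uvv := mul_nonneg uv v
  have uvq := mul_nonneg uv h3
  have uvz := mul_nonneg uv z
  have uqz := mul_nonneg h1 qz
  have vqz := mul_nonneg v qz
  constructor <;> nlinarith

theorem boxC {p q : ℝ} (h1 : 0 ≤ p) (h2 : p ≤ 531 / 5000) (h3 : 0 ≤ q) (h4 : q ≤ 49 / 400) :
    AnsC (5 / 8) (23 / 10) (73 / 100) (23 / 5 + 4 * q) p q (9 / 50) (219 / 100) (103 / 25) (2241 / 100)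
      (1 / 20) := by
  have v : 0 ≤ 531 / 5000 - p := by linarith
  have z : 0 ≤ 49 / 400 - q := by linarith
  have uv := mul_nonneg h1 v
  have uq := mul_nonneg h1 h3
  have vq := mul_nonneg v h3
  have uz := mul_nonneg h1 z
  have vz := mul_nonneg v z
  have qz := mul_nonneg h3 z
  have uuv := mul_nonneg h1 uv
  have uvv := mul_nonneg uv v
  have uvq := mul_nonneg uv h3
  have uvz := mul_nonneg uv z
  have uqz := mul_nonneg h1 qz
  have vqz := mul_nonneg v qz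
  constructor <;> nlinarith

theorem boxD {p q : ℝ} (h1 : 0 ≤ p) (h2 : p ≤ 531 / 5000) (h3 : 0 ≤ q) (h4 : q ≤ 57 / 500) :
    AnsC (5 / 8) (23 / 10) (73 / 100) (23 / 5 + 4 * q) p q (9 / 50) (213 / 100) (411 / 100) (2241 / 100)
      (1 / 100) := by
  have v : 0 ≤ 531 / 5000 - p := by linarith
  have z : 0 ≤ 57 / 500 - q := by linarith
  have uv := mul_nonneg h1 v
  have uq := mul_nonneg h1 h3
  have vq := mul_nonneg v h3
  have uz := mul_nonneg h1 z
  have vz := mul_nonneg v z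
  have qz := mul_nonneg h3 z
  have uuv := mul_nonneg h1 uv
  have uvv := mul_nonneg uv v
  have uvq := mul_nonneg uv h3
  have uvz := mul_nonneg uv z
  have uqz := mul_nonneg h1 qz
  have vqz := mul_nonneg v qz
  constructor <;> nlinarith

lemma AnsC.mono {al be be1 G p q r r' c1 c2 c3 c5 : ℝ} (h : AnsC al be be1 G p q r c1 c2 c3 c5)
    (hr : r' ≤ r) (hr0 : 0 ≤ r') : AnsC al be be1 G p q r' c1 c2 c3 c5 := by
  have key : ∀ A B c : ℝ, A ≤ c → A + r / 3 * B ≤ c → A + r' / 3 * B ≤ c := by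
    intro A B c h1 h2
    rcases le_total B 0 with hB | hB
    · have : r' / 3 * B ≤ 0 := mul_nonpos_of_nonneg_of_nonpos (by positivity) hB
      linarith
    · have : r' / 3 * B ≤ r / 3 * B := mul_le_mul_of_nonneg_right (by linarith) hB
      linarith
  exact { h with
    f1 := key _ _ _ h.e1 h.f1
    f2 := key _ _ _ h.e2 h.f2
    f3 := key _ _ _ h.e3 h.f3
    f4 := key _ _ _ h.e4 h.f4
    f5 := key _ _ _ h.e5 h.f5 }

section

variable {p q ξ T M D2 D3 Ki K w τ x0 r1 : ℝ}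

/-- two phases -/
theorem loc_fin1 (e q0 p1 : ℝ)
    (H : LocEnd (5 / 8) (23 / 10) (73 / 100) (23 / 5) 4 p q (1 / 5) r1 ξ ξ T M D2 D3)
    (F : LocFacts p q ξ T M D2 D3 Ki K w τ x0 r1)
    (hr1 : 0 ≤ r1) (hτ : 0 ≤ τ) (he0 : 0 ≤ e) (he : 1 + e / 2 * r1 ≤ e) (hw0 : 0 ≤ w)
    (n1 : 0 < τ - 4 * (1 / 2 + e * r1 / 6) * x0)
    (n2 : 23 / 5 * (1 / 2 + e * r1 / 6) * x0 ≤ q0 * (τ - 4 * (1 / 2 + e * r1 / 6) * x0))
    (n2' : q0 ≤ 17 / 125)
    (n3 : 0 < (3 - 2 * (23 / 10) * q0) / 2 - 2521 / 100 * r1 / 6)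
    (n4 : 3 * w * x0 < K + 1)
    (n5 : (3 + 2 * (73 / 100) * q0) / 2 * w * x0 ≤ p1 * (K + 1 - 3 * w * x0))
    (n6 : p1 ≤ 107 / 1000)
    (n7 : (-1 / 2 + 2 * p1 + p1 ^ 2 + 2 * (5 / 8) * q0) / 2 + 121 / 50 * r1 / 6 < 0) : False := by
  have a1 := H.q_crude F (by norm_num) (by norm_num) he0 he hr1 hτ
  have a2 : q ≤ q0 := le_of_mul_le_mul_right (a1.trans n2) n1
  have hq := F.q0
  have A0 := box0 F.le_p F.p_le_half hq (a2.trans n2')
  have hp := H.p_nonneg F A0 (by linarith) n4 hw0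
  have hwx : 0 ≤ w * x0 := mul_nonneg hw0 F.x00.le
  have a3 := H.p_le F (by norm_num) A0 hp hw0
  have a4 : (3 + 2 * (73 / 100) * q) / 2 * w * x0 ≤ (3 + 2 * (73 / 100) * q0) / 2 * w * x0 := by
    have := mul_le_mul_of_nonneg_right a2 hwx
    linarith
  have a5 : p ≤ p1 := le_of_mul_le_mul_right (a3.trans (a4.trans n5)) (by linarith)
  have A1 := boxB hp (a5.trans n6) hq (a2.trans n2')
  refine H.contra F A1 ?_
  have : p ^ 2 ≤ p1 ^ 2 := pow_le_pow_left₀ hp a5 2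
  linarith

/-- three phases, for Poisson with `θ ≥ 5` -/
theorem loc_fin2 (e q0 p1 q2 : ℝ)
    (H : LocEnd (5 / 8) (23 / 10) (73 / 100) (23 / 5) 4 p q (9 / 50) r1 ξ ξ T M D2 D3)
    (F : LocFacts p q ξ T M D2 D3 Ki K w τ x0 r1)
    (hr1 : 0 ≤ r1) (hτ : 0 ≤ τ) (he0 : 0 ≤ e) (he : 1 + e / 2 * r1 ≤ e) (hw0 : 0 ≤ w)
    (n1 : 0 < τ - 4 * (1 / 2 + e * r1 / 6) * x0)
    (n2 : 23 / 5 * (1 / 2 + e * r1 / 6) * x0 ≤ q0 * (τ - 4 * (1 / 2 + e * r1 / 6) * x0))
    (n2' : q0 ≤ 49 / 400)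
    (n3 : 0 < (3 - 2 * (23 / 10) * q0) / 2 - 2521 / 100 * r1 / 6)
    (n4 : 3 * w * x0 < K + 1)
    (n5 : (3 + 2 * (73 / 100) * q0) / 2 * w * x0 ≤ p1 * (K + 1 - 3 * w * x0))
    (n6 : p1 ≤ 531 / 5000)
    (m1 : 0 < τ - 4 / 2 * x0)
    (m2 : (23 / 5 / 2 + 1 / 20 * r1 / 6) * x0 ≤ q2 * (τ - 4 / 2 * x0))
    (m3 : q2 ≤ 57 / 500)
    (n7 : (-1 / 2 + 2 * p1 + p1 ^ 2 + 2 * (5 / 8) * q2) / 2 + 213 / 100 * r1 / 6 < 0) : False := by
  have a1 := H.q_crude F (by norm_num) (by norm_num) he0 he hr1 hτ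
  have a2 : q ≤ q0 := le_of_mul_le_mul_right (a1.trans n2) n1
  have hq := F.q0
  have A0 := (box0 F.le_p F.p_le_half hq (by linarith)).mono (r' := 9 / 50) (by norm_num)
    (by norm_num)
  have hp := H.p_nonneg F A0 (by linarith) n4 hw0
  have hwx : 0 ≤ w * x0 := mul_nonneg hw0 F.x00.le
  have a3 := H.p_le F (by norm_num) A0 hp hw0
  have a4 : (3 + 2 * (73 / 100) * q) / 2 * w * x0 ≤ (3 + 2 * (73 / 100) * q0) / 2 * w * x0 := by
    have := mul_le_mul_of_nonneg_right a2 hwx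
    linarith
  have a5 : p ≤ p1 := le_of_mul_le_mul_right (a3.trans (a4.trans n5)) (by linarith)
  have A1 := boxC hp (a5.trans n6) hq (a2.trans n2')
  have b1 := H.q_ref F (by norm_num) (by norm_num) A1 hr1 hτ
  have b2 : q ≤ q2 := le_of_mul_le_mul_right (b1.trans m2) m1
  have A2 := boxD hp (a5.trans n6) hq (b2.trans m3)
  refine H.contra F A2 ?_
  have : p ^ 2 ≤ p1 ^ 2 := pow_le_pow_left₀ hp a5 2
  linarith

/-- regular trees, `b = 4` -/
theorem loc_R4
    (H : LocEnd (5 / 8) (23 / 10) (73 / 100) (23 / 5) 4 p q (1 / 5) (1 / 10) ξ ξ T M D2 D3)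
    (F : LocFacts p q ξ T M D2 D3 Ki 2 (3 / 4) 4 (1 / 5) (1 / 10)) : False := by
  refine loc_fin1 (20 / 19) (133 / 1000) (94 / 1000) H F ?_ ?_ ?_ ?_ ?_ ?_ ?_ ?_ ?_ ?_ ?_ ?_ ?_ <;>
    norm_num

/-- regular trees, `5 ≤ b ≤ 7` -/
theorem loc_R5
    (H : LocEnd (5 / 8) (23 / 10) (73 / 100) (23 / 5) 4 p q (1 / 5) (1 / 7) ξ ξ T M D2 D3)
    (F : LocFacts p q ξ T M D2 D3 Ki (223 / 100) (6 / 7) 5 (1 / 5) (1 / 7)) : False := by
  refine loc_fin1 (14 / 13) (106 / 1000) (998 / 10000) H F ?_ ?_ ?_ ?_ ?_ ?_ ?_ ?_ ?_ ?_ ?_ ?_ ?_ <;>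
    norm_num

/-- regular trees, `7 ≤ b` -/
theorem loc_R7
    (H : LocEnd (5 / 8) (23 / 10) (73 / 100) (23 / 5) 4 p q (1 / 5) (1 / 5) ξ ξ T M D2 D3)
    (F : LocFacts p q ξ T M D2 D3 Ki (264 / 100) 1 7 (1 / 5) (1 / 5)) : False := by
  refine loc_fin1 (10 / 9) (76 / 1000) (103 / 1000) H F ?_ ?_ ?_ ?_ ?_ ?_ ?_ ?_ ?_ ?_ ?_ ?_ ?_ <;>
    norm_num

/-- Poisson, `4 ≤ θ`, threshold `3/20` -/
theorem loc_P4
    (H : LocEnd (5 / 8) (23 / 10) (73 / 100) (23 / 5) 4 p q (1 / 5) (3 / 20) ξ ξ T M D2 D3)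
    (F : LocFacts p q ξ T M D2 D3 Ki 2 1 3 (3 / 20) (3 / 20)) : False := by
  refine loc_fin1 (40 / 37) (1355 / 10000) (942 / 10000) H F ?_ ?_ ?_ ?_ ?_ ?_ ?_ ?_ ?_ ?_ ?_ ?_ ?_ <;>
    norm_num

/-- Poisson, `5 ≤ θ`, threshold `9/50` -/
theorem loc_P5
    (H : LocEnd (5 / 8) (23 / 10) (73 / 100) (23 / 5) 4 p q (9 / 50) (9 / 50) ξ ξ T M D2 D3)
    (F : LocFacts p q ξ T M D2 D3 Ki (2236 / 1000) 1 4 (9 / 50) (9 / 50)) : False := by
  refine loc_fin2 (100 / 91) (1221 / 10000) (10615 / 100000) (114 / 1000) H F ?_ ?_ ?_ ?_ ?_ ?_ ?_ ?_ ?_ ?_ ?_ ?_ ?_ ?_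
    ?_ ?_ <;> norm_num

/-- Poisson, `7 ≤ θ`, threshold `1/5` -/
theorem loc_P7
    (H : LocEnd (5 / 8) (23 / 10) (73 / 100) (23 / 5) 4 p q (1 / 5) (1 / 5) ξ ξ T M D2 D3)
    (F : LocFacts p q ξ T M D2 D3 Ki (264 / 100) 1 6 (1 / 5) (1 / 5)) : False := by
  refine loc_fin1 (10 / 9) (888 / 10000) (1031 / 10000) H F ?_ ?_ ?_ ?_ ?_ ?_ ?_ ?_ ?_ ?_ ?_ ?_ ?_ <;>
    norm_num

end

end Crest.Agent.R163
end

-- ▼ part R163/PoisDer
section

/-!
Row 163: derivative in `t` of `J φ (pois t L)`.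
-/

set_option autoImplicit false

namespace Crest.Agent.R163

/-- Poisson average of a sequence -/
noncomputable def pav' (a : ℕ → ℝ) (t : ℝ) : ℝ := ∑' n, pwt t n * a n





variable {q : ℕ}








/-- the smooth extension to all real `t` of `t ↦ J φ (pois t L)` -/
noncomputable def jp {Ω : Type*} (φ : (Fin q → ℝ) → ℝ) (L : Ω → Fin q → ℝ) (t : ℝ) : ℝ :=
  pav' (fun n => J φ (pw L n)) t







end Crest.Agent.R163
namespace Crest.Agent.R163.Hom
end Crest.Agent.R163.Hom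
end

-- ▼ part R163/PoisLim
section

/-!
Row 163: binomial averages converge to Poisson averages.
-/

set_option autoImplicit false

namespace Crest.Agent.R163

/-- binomial average of a sequence -/
noncomputable def bav (a : ℕ → ℝ) (N : ℕ) (p : ℝ) : ℝ :=
  ∑ n ∈ Finset.range (N + 1), (N.choose n : ℝ) * p ^ n * (1 - p) ^ (N - n) * a n

theorem tendsto_bav {a : ℕ → ℝ} {K : ℝ} (ha : ∀ n, |a n| ≤ K) {d : ℝ} (hd : 0 ≤ d) :
    Filter.Tendsto (fun N : ℕ => bav a N (d / N)) Filter.atTop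
      (nhds (∑' n, pwt d n * a n)) := by
  have hK : 0 ≤ K := (abs_nonneg _).trans (ha 0)
  have h0 : Filter.Tendsto (fun N : ℕ => (N : ℝ) * (d / N)) Filter.atTop (nhds d) := by
    refine tendsto_const_nhds.congr' ?_
    filter_upwards [Filter.eventually_gt_atTop 0] with N hN
    have : (N : ℝ) ≠ 0 := by exact_mod_cast hN.ne'
    field_simp
  have key : Filter.Tendsto (fun N : ℕ => ∑' n, (if n ≤ N then
      (N.choose n : ℝ) * (d / N) ^ n * (1 - d / N) ^ (N - n) * a n else 0)) Filter.atTop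
      (nhds (∑' n, pwt d n * a n)) := by
    refine tendsto_tsum_of_dominated_convergence (bound := fun n => d ^ n / (n.factorial : ℝ) * K)
      ((Real.summable_pow_div_factorial d).mul_right K) (fun n => ?_) ?_
    · have h1 := (ProbabilityTheory.tendsto_choose_mul_pow_of_tendsto_mul_atTop n h0).mul_const (a n)
      refine Filter.Tendsto.congr' ?_ h1
      filter_upwards [Filter.eventually_ge_atTop n] with N hN
      rw [if_pos hN]
    · filter_upwards [Filter.eventually_gt_atTop 0, Filter.eventually_ge_atTop ⌈d⌉₊] with N hN hN2 n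
      have hN' : (0 : ℝ) < N := by exact_mod_cast hN
      have hdN : d ≤ N := Nat.ceil_le.1 hN2
      have hp0 : 0 ≤ d / N := by positivity
      have hp1 : d / N ≤ 1 := (div_le_one hN').2 hdN
      split_ifs with h
      · rw [Real.norm_eq_abs, abs_mul, abs_of_nonneg (by
          have : 0 ≤ 1 - d / N := by linarith
          positivity)]
        refine mul_le_mul ?_ (ha n) (abs_nonneg _) (by positivity)
        have h1 : (N.choose n : ℝ) ≤ (N : ℝ) ^ n / (n.factorial : ℝ) := Nat.choose_le_pow_div n N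
        have h2 : (1 - d / N) ^ (N - n) ≤ 1 := pow_le_one₀ (by linarith) (by linarith)
        calc (N.choose n : ℝ) * (d / N) ^ n * (1 - d / N) ^ (N - n)
            ≤ (N : ℝ) ^ n / (n.factorial : ℝ) * (d / N) ^ n * 1 := by
              have : 0 ≤ 1 - d / N := by linarith
              gcongr
          _ = d ^ n / (n.factorial : ℝ) := by
              rw [div_pow]; field_simp
      · rw [norm_zero]
        positivity
  refine key.congr fun N => ?_
  unfold bav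
  rw [tsum_eq_sum (s := Finset.range (N + 1))]
  · refine Finset.sum_congr rfl fun n hn => ?_
    rw [if_pos (Nat.lt_succ_iff.1 (Finset.mem_range.1 hn))]
  · intro n hn
    rw [if_neg]
    intro h
    exact hn (Finset.mem_range.2 (Nat.lt_succ_iff.2 h))

end Crest.Agent.R163
end

-- ▼ part R163/LocBin
section

/-!
Row 163: binomial mixtures of sequences satisfying the recursion inequalities.
-/

set_option autoImplicit false

namespace Crest.Agent.R163

lemma bav_zero (a : ℕ → ℝ) (p : ℝ) : bav a 0 p = a 0 := by simp [bav]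

lemma bav_succ (a : ℕ → ℝ) (N : ℕ) (p : ℝ) :
    bav a (N + 1) p = (1 - p) * bav a N p + p * bav (fun n => a (n + 1)) N p := by
  unfold bav
  rw [Finset.sum_range_succ']
  simp only [Nat.choose_succ_succ', Nat.choose_zero_right, Nat.cast_add, Nat.cast_one,
    Nat.add_sub_add_right, pow_zero, Nat.sub_zero]
  have h1 : ∑ n ∈ Finset.range (N + 1), ((N.choose n : ℝ) + (N.choose (n + 1) : ℝ)) *
      p ^ (n + 1) * (1 - p) ^ (N - n) * a (n + 1) =
      p * ∑ n ∈ Finset.range (N + 1), (N.choose n : ℝ) * p ^ n * (1 - p) ^ (N - n) * a (n + 1) +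
      ∑ n ∈ Finset.range (N + 1), (N.choose (n + 1) : ℝ) * p ^ (n + 1) * (1 - p) ^ (N - n) *
        a (n + 1) := by
    rw [Finset.mul_sum, ← Finset.sum_add_distrib]
    refine Finset.sum_congr rfl fun n _ => ?_
    ring
  have h2 : ∑ n ∈ Finset.range (N + 1), (N.choose (n + 1) : ℝ) * p ^ (n + 1) *
      (1 - p) ^ (N - n) * a (n + 1) + 1 * 1 * (1 - p) ^ (N + 1) * a 0 =
      (1 - p) * ∑ n ∈ Finset.range (N + 1), (N.choose n : ℝ) * p ^ n * (1 - p) ^ (N - n) * a n := by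
    rw [Finset.sum_range_succ, Nat.choose_succ_self]
    rw [Finset.sum_range_succ' (fun n => (N.choose n : ℝ) * p ^ n * (1 - p) ^ (N - n) * a n)]
    rw [mul_add, Finset.mul_sum]
    have h3 : ∀ n ∈ Finset.range N, (N.choose (n + 1) : ℝ) * p ^ (n + 1) * (1 - p) ^ (N - n) *
        a (n + 1) = (1 - p) * ((N.choose (n + 1) : ℝ) * p ^ (n + 1) * (1 - p) ^ (N - (n + 1)) *
        a (n + 1)) := by
      intro n hn
      have hn' := Finset.mem_range.1 hn
      have : N - n = (N - (n + 1)) + 1 := by omega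
      rw [this, pow_succ]
      ring
    rw [Finset.sum_congr rfl h3]
    simp only [Nat.choose_zero_right, Nat.cast_one, pow_zero, Nat.sub_zero, Nat.cast_zero,
      zero_mul, add_zero, pow_succ]
    ring
  rw [h1, add_assoc, h2]
  ring

section

variable {e : ℝ}

lemma bav_weight_nonneg (h0 : 0 ≤ e) (h1 : e ≤ 1) (N n : ℕ) :
    0 ≤ (N.choose n : ℝ) * e ^ n * (1 - e) ^ (N - n) := by
  have : 0 ≤ 1 - e := by linarith
  positivity

lemma bav_mono (h0 : 0 ≤ e) (h1 : e ≤ 1) (N : ℕ) {a b : ℕ → ℝ} (h : ∀ n, a n ≤ b n) :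
    bav a N e ≤ bav b N e :=
  Finset.sum_le_sum fun n _ => mul_le_mul_of_nonneg_left (h n) (bav_weight_nonneg h0 h1 N n)

lemma bav_one (N : ℕ) (e : ℝ) : bav (fun _ => 1) N e = 1 := by
  induction N with
  | zero => simp [bav_zero]
  | succ N ih => rw [bav_succ, ih]; ring

lemma bav_aff (N : ℕ) (e c0 c1 c2 c3 : ℝ) (X T M : ℕ → ℝ) :
    bav (fun n => c0 + c1 * X n + c2 * T n + c3 * M n) N e =
      c0 + c1 * bav X N e + c2 * bav T N e + c3 * bav M N e := by
  have h := bav_one N e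
  have h2 : c0 = c0 * bav (fun _ => 1) N e := by rw [h, mul_one]
  rw [h2]
  unfold bav
  simp only [Finset.mul_sum, ← Finset.sum_add_distrib]
  refine Finset.sum_congr rfl fun n _ => ?_
  have h3 : ∑ i ∈ Finset.range (N + 1), (N.choose i : ℝ) * e ^ i * (1 - e) ^ (N - i) * 1 = 1 := h
  rw [← Finset.mul_sum, h3]
  ring

/-- Jensen -/
lemma bav_sq_le (h0 : 0 ≤ e) (h1 : e ≤ 1) (N : ℕ) (X : ℕ → ℝ) :
    bav X N e ^ 2 ≤ bav (fun n => X n ^ 2) N e := by
  set y := bav X N e with hy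
  have h := bav_mono h0 h1 N (a := fun n => -(y ^ 2) + (2 * y) * X n + 0 * X n + 0 * X n)
    (b := fun n => X n ^ 2) fun n => by nlinarith [sq_nonneg (X n - y)]
  rw [bav_aff] at h
  rw [← hy] at h
  nlinarith

end

/-- binomial mixtures satisfy the recursion with the scaled parameters -/
theorem LocRec.bin {al be be1 C D x t m : ℝ} {X T M : ℕ → ℝ} (h : LocRec al be be1 C D x t m X T M)
    {e : ℝ} (h0 : 0 ≤ e) (h1 : e ≤ 1) :
    LocRec al be be1 C D (e * x) (e * t) (e * m) (fun k => bav X k e) (fun k => bav T k e)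
      (fun k => bav M k e) where
  X0 := by rw [bav_zero, h.X0]
  T0 := by rw [bav_zero, h.T0]
  M0 := by rw [bav_zero, h.M0]
  K0 k := by
    have h2 := bav_mono h0 h1 k (a := fun n => X (n + 1))
      (b := fun n => x + (1 + x) * X n + 0 * T n + 0 * M n) fun n => by
        have := h.K0 n
        linarith
    rw [bav_aff] at h2
    rw [bav_succ]
    have h3 := mul_le_mul_of_nonneg_left h2 h0
    linarith
  K1 k := by
    have h2 := bav_mono h0 h1 k (a := fun n => X (n + 1))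
      (b := fun n => x + (1 - x / 2 + t + al * m) * X n + (-x - t) * T n + (al * x) * M n)
      fun n => by
        have := h.K1 n
        linarith
    rw [bav_aff] at h2
    rw [bav_succ]
    have h3 := mul_le_mul_of_nonneg_left h2 h0
    linarith
  K2 k := by
    have h2 := bav_mono h0 h1 k (b := fun n => X (n + 1))
      (a := fun n => x + (1 - x / 2 + t) * X n + (-x - t) * T n + 0 * M n)
      fun n => by
        have := h.K2 n
        linarith
    rw [bav_aff] at h2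
    rw [bav_succ]
    have h3 := mul_le_mul_of_nonneg_left h2 h0
    linarith
  T1 k := by
    have h2 := bav_mono h0 h1 k (b := fun n => T (n + 1))
      (a := fun n => -t + (3 * x + 3 * t - be * m) * X n + (1 - 3 * x) * T n + (-be * x) * M n)
      fun n => by
        have := h.T1 n
        linarith
    rw [bav_aff] at h2
    rw [bav_succ]
    have h3 := mul_le_mul_of_nonneg_left h2 h0
    linarith
  T2 k := by
    have h2 := bav_mono h0 h1 k (a := fun n => T (n + 1))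
      (b := fun n => -t + (3 * x + 3 * t + be1 * m) * X n + (1 - 3 * x) * T n + (be1 * x) * M n)
      fun n => by
        have := h.T2 n
        linarith
    rw [bav_aff] at h2
    rw [bav_succ]
    have h3 := mul_le_mul_of_nonneg_left h2 h0
    linarith
  MC k := by
    have h2 := bav_mono h0 h1 k (a := fun n => M (n + 1))
      (b := fun n => m + (C * x + D * m) * X n + 0 * T n + 1 * M n)
      fun n => by
        have := h.MC n
        linarith
    rw [bav_aff] at h2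
    rw [bav_succ]
    have h3 := mul_le_mul_of_nonneg_left h2 h0
    linarith
  Xmono k := by
    have h2 := bav_mono h0 h1 k (a := X) (b := fun n => X (n + 1)) h.Xmono
    rw [bav_succ]
    have h3 := mul_le_mul_of_nonneg_left h2 h0
    linarith
  Mmono k := by
    have h2 := bav_mono h0 h1 k (a := M) (b := fun n => M (n + 1)) h.Mmono
    rw [bav_succ]
    have h3 := mul_le_mul_of_nonneg_left h2 h0
    linarith
  TX k := bav_mono h0 h1 k h.TX
  XT k := by
    have h2 := bav_mono h0 h1 k (a := fun n => 0 + (-1 / 2) * X n + 0 * T n + 0 * M n) (b := T)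
      fun n => by
        have := h.XT n
        linarith
    rw [bav_aff] at h2
    linarith
  XM k := (bav_sq_le h0 h1 k X).trans (bav_mono h0 h1 k h.XM)
  MX k := by
    have h2 := bav_mono h0 h1 k (a := M) (b := fun n => 0 + 2 * X n + 0 * T n + 0 * M n)
      fun n => by
        have := h.MX n
        linarith
    rw [bav_aff] at h2
    linarith

lemma LocRec.abs_X_le {al be be1 C D x t m : ℝ} {X T M : ℕ → ℝ}
    (h : LocRec al be be1 C D x t m X T M) (k : ℕ) : |X k| ≤ 2 ∧ |T k| ≤ 2 ∧ |M k| ≤ 4 := by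
  have h1 := h.XM k
  have h2 := h.MX k
  have h3 := h.TX k
  have h4 := h.XT k
  have h5 : 0 ≤ X k := by linarith
  have h6 : X k ≤ 2 := by nlinarith
  have h7 : 0 ≤ M k := (sq_nonneg _).trans h1
  refine ⟨by rw [abs_of_nonneg h5]; exact h6, ?_, by rw [abs_of_nonneg h7]; linarith⟩
  rw [abs_le]
  constructor <;> linarith

/-- the Poisson averages as limits of binomial ones -/
theorem LocRec.pois {al be be1 C D x t m : ℝ} {X T M : ℕ → ℝ} (h : LocRec al be be1 C D x t m X T M)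
    {d : ℝ} (hd : 0 ≤ d) :
    Filter.Tendsto (fun N : ℕ => bav X N (d / N)) Filter.atTop (nhds (∑' n, pwt d n * X n)) ∧
    Filter.Tendsto (fun N : ℕ => bav T N (d / N)) Filter.atTop (nhds (∑' n, pwt d n * T n)) ∧
    Filter.Tendsto (fun N : ℕ => bav M N (d / N)) Filter.atTop (nhds (∑' n, pwt d n * M n)) :=
  ⟨tendsto_bav (fun n => (h.abs_X_le n).1) hd, tendsto_bav (fun n => (h.abs_X_le n).2.1) hd,
    tendsto_bav (fun n => (h.abs_X_le n).2.2) hd⟩

end Crest.Agent.R163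
end

-- ▼ part R163/LocLim
section

/-!
Row 163, q = 3 antiferromagnetic local lemma: the limit moments of the critical trees satisfy the
recursion inequalities `LocSeq`, `LocRec`.
-/

set_option autoImplicit false
set_option maxHeartbeats 400000

namespace Crest.Agent.R163

open Filter Topology

/-- the four functionals -/
noncomputable def F4 : Fin 4 → (Fin 3 → ℝ) → ℝ := ![avg, chi, cub3, sq]

lemma F4_bdd (i : Fin 4) : Bdd (F4 i) := by
  fin_cases i
  exacts [bdd_avg, bdd_chi, bdd_c3, bdd_sq]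

lemma F4_hom (i : Fin 4) : Hom (F4 i) := by
  fin_cases i
  exacts [fun a v _ _ => avg_smul a v, hom_chi, hom_c3, hom_sq]


/-- a bilinear expression in the four functionals -/
noncomputable def B4 (c : Fin 4 → Fin 4 → ℝ) (a b : Fin 4 → ℝ) : ℝ :=
  ∑ i, ∑ j, c i j * (a i * b j)

/-- normalized pairwise upper bound -/
def PUp (φ : (Fin 3 → ℝ) → ℝ) (c : Fin 4 → Fin 4 → ℝ) : Prop :=
  ∀ u v : Fin 3 → ℝ, (∀ i, 0 ≤ u i) → (∀ i, 0 ≤ v i) → (∀ i, v i ≤ 3 / 2) →
    avg u = 1 → avg v = 1 → orb φ u v ≤ B4 c (fun i => F4 i u) (fun j => F4 j v)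

/-- normalized pairwise lower bound -/
def PLo (φ : (Fin 3 → ℝ) → ℝ) (c : Fin 4 → Fin 4 → ℝ) : Prop :=
  ∀ u v : Fin 3 → ℝ, (∀ i, 0 ≤ u i) → (∀ i, 0 ≤ v i) → (∀ i, v i ≤ 3 / 2) →
    avg u = 1 → avg v = 1 → B4 c (fun i => F4 i u) (fun j => F4 j v) ≤ orb φ u v

lemma B4_smul (c : Fin 4 → Fin 4 → ℝ) {a b : ℝ} (ha : 0 ≤ a) (hb : 0 ≤ b) {u v : Fin 3 → ℝ}
    (hu : ∀ i, 0 ≤ u i) (hv : ∀ i, 0 ≤ v i) :
    B4 c (fun i => F4 i fun k => a * u k) (fun j => F4 j fun k => b * v k) =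
      a * b * B4 c (fun i => F4 i u) (fun j => F4 j v) := by
  unfold B4
  rw [Finset.mul_sum]
  refine Finset.sum_congr rfl fun i _ => ?_
  rw [Finset.mul_sum]
  refine Finset.sum_congr rfl fun j _ => ?_
  have e1 := F4_hom i a u ha hu
  have e2 := F4_hom j b v hb hv
  show c i j * (F4 i (fun k => a * u k) * F4 j (fun k => b * v k)) =
    a * b * (c i j * (F4 i u * F4 j v))
  rw [e1, e2]
  ring

lemma B4_zero_left (c : Fin 4 → Fin 4 → ℝ) (b : Fin 4 → ℝ) :
    B4 c (fun i => F4 i fun _ => 0) b = 0 := by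
  unfold B4
  refine Finset.sum_eq_zero fun i _ => Finset.sum_eq_zero fun j _ => ?_
  show c i j * (F4 i (fun _ => 0) * b j) = 0
  rw [(F4_hom i).zero]; ring

lemma B4_zero_right (c : Fin 4 → Fin 4 → ℝ) (a : Fin 4 → ℝ) :
    B4 c a (fun i => F4 i fun _ => 0) = 0 := by
  unfold B4
  refine Finset.sum_eq_zero fun i _ => Finset.sum_eq_zero fun j _ => ?_
  show c i j * (a i * F4 j (fun _ => 0)) = 0
  rw [(F4_hom j).zero]; ring

/-- passage from mean one vectors to all vectors -/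
lemma pair_hom {P : (Fin 3 → ℝ) → (Fin 3 → ℝ) → Prop} (hz1 : ∀ v, P (fun _ => 0) v)
    (hz2 : ∀ u, P u (fun _ => 0))
    (hs : ∀ (a b : ℝ) (u v : Fin 3 → ℝ), 0 < a → 0 < b → (∀ i, 0 ≤ u i) → (∀ i, 0 ≤ v i) →
      (∀ i, v i ≤ 3 / 2) → avg u = 1 → avg v = 1 → P (fun i => a * u i) (fun i => b * v i))
    {u v : Fin 3 → ℝ} (hu : ∀ i, 0 ≤ u i) (hv : ∀ i, 0 ≤ v i) (hv2 : ∀ i, v i ≤ 3 / 2 * avg v) :
    P u v := by
  obtain ⟨a, f, ha, hf, hf1, rfl⟩ := exists_norm hu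
  obtain ⟨b, g, hb, hg, hg1, rfl⟩ := exists_norm hv
  rcases ha.eq_or_lt with h | h
  · subst h
    simpa using hz1 _
  rcases hb.eq_or_lt with h' | h'
  · subst h'
    simpa using hz2 _
  refine hs a b f g h h' hf hg (fun i => ?_) hf1 hg1
  have h3 := hv2 i
  rw [avg_smul, hg1] at h3
  have h4 : b * g i ≤ b * (3 / 2) := by linarith
  exact le_of_mul_le_mul_left h4 h'

lemma PUp.hom {φ : (Fin 3 → ℝ) → ℝ} {c : Fin 4 → Fin 4 → ℝ} (H : PUp φ c) (hφ : Hom φ)
    {u v : Fin 3 → ℝ} (hu : ∀ i, 0 ≤ u i) (hv : ∀ i, 0 ≤ v i) (hv2 : ∀ i, v i ≤ 3 / 2 * avg v) :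
    orb φ u v ≤ B4 c (fun i => F4 i u) (fun j => F4 j v) := by
  refine pair_hom (P := fun u v => orb φ u v ≤ B4 c (fun i => F4 i u) (fun j => F4 j v))
    ?_ ?_ ?_ hu hv hv2
  · intro v; rw [hφ.orb_zero_left, B4_zero_left]
  · intro u; rw [hφ.orb_zero_right, B4_zero_right]
  · intro a b u v ha hb hu hv hv2 hu1 hv1
    rw [hφ.orb_smul ha.le hb.le hu hv, B4_smul c ha.le hb.le hu hv]
    exact mul_le_mul_of_nonneg_left (H u v hu hv hv2 hu1 hv1) (mul_pos ha hb).le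

lemma PLo.hom {φ : (Fin 3 → ℝ) → ℝ} {c : Fin 4 → Fin 4 → ℝ} (H : PLo φ c) (hφ : Hom φ)
    {u v : Fin 3 → ℝ} (hu : ∀ i, 0 ≤ u i) (hv : ∀ i, 0 ≤ v i) (hv2 : ∀ i, v i ≤ 3 / 2 * avg v) :
    B4 c (fun i => F4 i u) (fun j => F4 j v) ≤ orb φ u v := by
  refine pair_hom (P := fun u v => B4 c (fun i => F4 i u) (fun j => F4 j v) ≤ orb φ u v)
    ?_ ?_ ?_ hu hv hv2
  · intro v; rw [hφ.orb_zero_left, B4_zero_left]
  · intro u; rw [hφ.orb_zero_right, B4_zero_right]
  · intro a b u v ha hb hu hv hv2 hu1 hv1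
    rw [hφ.orb_smul ha.le hb.le hu hv, B4_smul c ha.le hb.le hu hv]
    exact mul_le_mul_of_nonneg_left (H u v hu hv hv2 hu1 hv1) (mul_pos ha hb).le

/-! ### law level -/

section law

attribute [local irreducible] orb

variable {Ω₁ Ω₂ : Type*} {L₁ : Ω₁ → Fin 3 → ℝ} {L₂ : Ω₂ → Fin 3 → ℝ}

lemma hasSum_B4 (c : Fin 4 → Fin 4 → ℝ) (h₁ : IsChan L₁) (h₂ : IsChan L₂) :
    HasSum (fun p : Ω₁ × Ω₂ => B4 c (fun i => F4 i (L₁ p.1)) (fun j => F4 j (L₂ p.2)))
      (B4 c (fun i => J (F4 i) L₁) (fun j => J (F4 j) L₂)) := by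
  unfold B4
  exact hasSum_sum fun i _ => hasSum_sum fun j _ =>
    (hasSum_mul_J h₁ h₂ (F4_bdd i) (F4_bdd j)).mul_left (c i j)

lemma PUp.law {φ : (Fin 3 → ℝ) → ℝ} {c : Fin 4 → Fin 4 → ℝ} (H : PUp φ c) (hφ : Hom φ)
    (hb : Bdd φ) (h₁ : IsChan L₁) (h₂ : IsChan L₂)
    (hb2 : ∀ o i, L₂ o i ≤ 3 / 2 * avg (L₂ o)) :
    J φ (mrg L₁ L₂) ≤ B4 c (fun i => J (F4 i) L₁) (fun j => J (F4 j) L₂) := by
  have e1 := J_mrg_orb h₁ h₂ hb
  have e2 := hasSum_B4 c h₁ h₂
  refine hasSum_le (fun p => ?_) e1 e2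
  exact H.hom hφ (h₁.nonneg p.1) (h₂.nonneg p.2) (hb2 p.2)

lemma PLo.law {φ : (Fin 3 → ℝ) → ℝ} {c : Fin 4 → Fin 4 → ℝ} (H : PLo φ c) (hφ : Hom φ)
    (hb : Bdd φ) (h₁ : IsChan L₁) (h₂ : IsChan L₂)
    (hb2 : ∀ o i, L₂ o i ≤ 3 / 2 * avg (L₂ o)) :
    B4 c (fun i => J (F4 i) L₁) (fun j => J (F4 j) L₂) ≤ J φ (mrg L₁ L₂) := by
  have e1 := J_mrg_orb h₁ h₂ hb
  have e2 := hasSum_B4 c h₁ h₂
  refine hasSum_le (fun p => ?_) e2 e1
  exact H.hom hφ (h₁.nonneg p.1) (h₂.nonneg p.2) (hb2 p.2)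

end law

/-! ### single channels -/

section single

variable {Ω : Type*} {L : Ω → Fin 3 → ℝ}

lemma IsChan.J_c3_le (h : IsChan L) : J cub3 L ≤ J chi L :=
  h.J_mono bdd_c3 bdd_chi fun _ hv => c3_le_chi hv

lemma IsChan.le_J_c3 (h : IsChan L) : -(J chi L) / 2 ≤ J cub3 L := by
  have := h.J_mono (bdd_chi.const_mul (-(1 / 2))) bdd_c3 fun v hv => by
    have := neg_chi_le_c3 hv
    linarith
  rw [J_const_mul] at this
  linarith

lemma IsChan.J_sq_le (h : IsChan L) : J sq L ≤ 2 * J chi L := by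
  have := h.J_mono bdd_sq (bdd_chi.const_mul 2) fun v hv => sq_le hv
  rwa [J_const_mul] at this

lemma IsChan.sq_le_J_sq (h : IsChan L) : J chi L ^ 2 ≤ J sq L := by
  have := h.J_mono ((bdd_chi.const_mul (2 * J chi L)).sub (bdd_avg.const_mul (J chi L ^ 2))) bdd_sq
    fun v hv => tangent_le_sq (J chi L) hv
  rw [h.J_sub (bdd_chi.const_mul _) (bdd_avg.const_mul _), J_const_mul, J_const_mul, h.J_avg]
    at this
  nlinarith

lemma IsChan.J_chi_le2 (h : IsChan L) : J chi L ≤ 2 := by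
  have := h.X_le
  norm_num at this
  exact this

lemma c3_one : cub3 (fun _ : Fin 3 => (1 : ℝ)) = 0 := by
  have h : avg (fun _ : Fin 3 => (1 : ℝ)) = 1 := by rw [avg_three]; norm_num
  rw [c3_norm h]; norm_num

lemma sq_one : sq (fun _ : Fin 3 => (1 : ℝ)) = 0 := by
  unfold sq; rw [chi_one]; norm_num

end single

/-! ### the limit moments -/

/-- abstract form of the limit moments: `X, T', M'` are the moments of the powers of the message
law, whose moments are `x = κ² ξ`, `-t = -κ³ T`, `m = κ⁴ M` -/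
structure LocLims (x t m : ℝ) (X T' M' : ℕ → ℝ) : Prop where
  X0 : X 0 = 0
  T0 : T' 0 = 0
  M0 : M' 0 = 0
  Xup : ∀ c, PUp chi c → ∀ k, X (k + 1) ≤ B4 c ![1, X k, T' k, M' k] ![1, x, -t, m]
  Xlo : ∀ c, PLo chi c → ∀ k, B4 c ![1, X k, T' k, M' k] ![1, x, -t, m] ≤ X (k + 1)
  Tup : ∀ c, PUp cub3 c → ∀ k, T' (k + 1) ≤ B4 c ![1, X k, T' k, M' k] ![1, x, -t, m]
  Tlo : ∀ c, PLo cub3 c → ∀ k, B4 c ![1, X k, T' k, M' k] ![1, x, -t, m] ≤ T' (k + 1)
  Mup : ∀ c, PUp sq c → ∀ k, M' (k + 1) ≤ B4 c ![1, X k, T' k, M' k] ![1, x, -t, m]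
  Mlo : ∀ c, PLo sq c → ∀ k, B4 c ![1, X k, T' k, M' k] ![1, x, -t, m] ≤ M' (k + 1)
  Xmono : ∀ k, X k ≤ X (k + 1)
  Mmono : ∀ k, M' k ≤ M' (k + 1)
  TX : ∀ k, T' k ≤ X k
  XT : ∀ k, -(X k) / 2 ≤ T' k
  XM : ∀ k, X k ^ 2 ≤ M' k
  MX : ∀ k, M' k ≤ 2 * X k
  X2 : ∀ k, X k ≤ 2

lemma tendsto_B4 (c : Fin 4 → Fin 4 → ℝ) {a b : ℕ → Fin 4 → ℝ} {A B : Fin 4 → ℝ}
    (ha : ∀ i, Tendsto (fun n => a n i) atTop (𝓝 (A i)))
    (hb : ∀ i, Tendsto (fun n => b n i) atTop (𝓝 (B i))) :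
    Tendsto (fun n => B4 c (a n) (b n)) atTop (𝓝 (B4 c A B)) := by
  unfold B4
  exact tendsto_finsetSum _ fun i _ => tendsto_finsetSum _ fun j _ =>
    ((ha i).mul (hb j)).const_mul _

/-- the limit moments of a decreasing sequence of channels and of the powers of its
antiferromagnetic messages -/
theorem exists_locLims {κ : ℝ}
    (h0 : 0 ≤ κ) (h1 : κ ≤ 1 / 2) {Ω : ℕ → Type*} {P : ∀ n, Ω n → Fin 3 → ℝ}
    (hP : ∀ n, IsChan (P n)) (hdec : ∀ n, CxLe (P (n + 1)) (P n)) :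
    ∃ (ξ T M : ℝ) (X T' M' : ℕ → ℝ),
      Tendsto (fun n => J chi (P n)) atTop (𝓝 ξ) ∧ Tendsto (fun n => J cub3 (P n)) atTop (𝓝 T) ∧
      Tendsto (fun n => J sq (P n)) atTop (𝓝 M) ∧
      (∀ k, Tendsto (fun n => J chi (pw (fun o => W (-κ) (P n o)) k)) atTop (𝓝 (X k))) ∧
      (∀ k, Tendsto (fun n => J cub3 (pw (fun o => W (-κ) (P n o)) k)) atTop (𝓝 (T' k))) ∧
      (∀ k, Tendsto (fun n => J sq (pw (fun o => W (-κ) (P n o)) k)) atTop (𝓝 (M' k))) ∧
      LocLims (κ ^ 2 * ξ) (κ ^ 3 * T) (κ ^ 4 * M) X T' M' := by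
  have hl : Adm 3 (-κ) := adm_three (by linarith) (by linarith)
  obtain ⟨ξ, hξ⟩ := tendsto_J hom_chi continuousOn_chi hP hdec
  obtain ⟨T, hT⟩ := tendsto_J hom_c3 continuousOn_c3 hP hdec
  obtain ⟨M, hM⟩ := tendsto_J hom_sq continuousOn_sq hP hdec
  have hR : ∀ n, IsChan (fun o => W (-κ) (P n o)) := fun n => (hP n).edge hl
  have hRd : ∀ n, CxLe (fun o => W (-κ) (P (n + 1) o)) (fun o => W (-κ) (P n o)) :=
    fun n => (hdec n).edge hl
  have hpc : ∀ k n, IsChan (pw (fun o => W (-κ) (P n o)) k) := fun k n => (hR n).pw k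
  have hpd : ∀ k n, CxLe (pw (fun o => W (-κ) (P (n + 1) o)) k) (pw (fun o => W (-κ) (P n o)) k) :=
    fun k n => (hRd n).pw (hR _) (hR _) k
  choose X hX using fun k => tendsto_J hom_chi continuousOn_chi (hpc k) (hpd k)
  choose T' hT' using fun k => tendsto_J hom_c3 continuousOn_c3 (hpc k) (hpd k)
  choose M' hM' using fun k => tendsto_J hom_sq continuousOn_sq (hpc k) (hpd k)
  refine ⟨ξ, T, M, X, T', M', hξ, hT, hM, hX, hT', hM', ?_⟩
  -- the single message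
  have hx : Tendsto (fun n => J chi (fun o => W (-κ) (P n o))) atTop (𝓝 (κ ^ 2 * ξ)) := by
    have := hξ.const_mul (κ ^ 2)
    refine this.congr fun n => ?_
    rw [(hP n).J_chi_edge]; ring
  have ht : Tendsto (fun n => J cub3 (fun o => W (-κ) (P n o))) atTop (𝓝 (-(κ ^ 3 * T))) := by
    have := (hT.const_mul (κ ^ 3)).neg
    refine this.congr fun n => ?_
    rw [IsChan.J_c3_edge]; ring
  have hm : Tendsto (fun n => J sq (fun o => W (-κ) (P n o))) atTop (𝓝 (κ ^ 4 * M)) := by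
    have := hM.const_mul (κ ^ 4)
    refine this.congr fun n => ?_
    rw [(hP n).J_sq_edge]; ring
  have hb : ∀ n o i, W (-κ) (P n o) i ≤ 3 / 2 * avg (W (-κ) (P n o)) := fun n o i =>
    W_le_three_half h0 h1 ((hP n).nonneg o) i
  have hsucc : ∀ (φ : (Fin 3 → ℝ) → ℝ) k n, J φ (pw (fun o => W (-κ) (P n o)) (k + 1)) =
      J φ (mrg (pw (fun o => W (-κ) (P n o)) k) (fun o => W (-κ) (P n o))) := by
    intro φ k n
    rw [J_pw_succ, J_mrg_comm]
  have z0 : ∀ {φ : (Fin 3 → ℝ) → ℝ} {a : ℝ}, φ (fun _ => 1) = 0 →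
      Tendsto (fun n => J φ (pw (fun o => W (-κ) (P n o)) 0)) atTop (𝓝 a) → a = 0 := by
    intro φ a hφ ha
    have : Tendsto (fun n => J φ (pw (fun o => W (-κ) (P n o)) 0)) atTop (𝓝 0) := by
      simp only [J_pw_zero, hφ]
      exact tendsto_const_nhds
    exact tendsto_nhds_unique ha this
  -- limits of the bilinear forms
  have hlim : ∀ (c : Fin 4 → Fin 4 → ℝ) (k : ℕ),
      Tendsto (fun n => B4 c (fun i => J (F4 i) (pw (fun o => W (-κ) (P n o)) k))
        (fun j => J (F4 j) (fun o => W (-κ) (P n o)))) atTop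
        (𝓝 (B4 c ![1, X k, T' k, M' k] ![1, κ ^ 2 * ξ, -(κ ^ 3 * T), κ ^ 4 * M])) := by
    intro c k
    refine tendsto_B4 c (fun i => ?_) (fun i => ?_)
    · fin_cases i
      · refine tendsto_const_nhds.congr fun n => ?_
        exact (hpc k n).J_avg.symm
      · exact hX k
      · exact hT' k
      · exact hM' k
    · fin_cases i
      · refine tendsto_const_nhds.congr fun n => ?_
        exact (hR n).J_avg.symm
      · exact hx
      · exact ht
      · exact hm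
  refine
    { X0 := z0 chi_one (hX 0)
      T0 := z0 c3_one (hT' 0)
      M0 := z0 sq_one (hM' 0)
      Xup := fun c H k => ?_
      Xlo := fun c H k => ?_
      Tup := fun c H k => ?_
      Tlo := fun c H k => ?_
      Mup := fun c H k => ?_
      Mlo := fun c H k => ?_
      Xmono := fun k => ?_
      Mmono := fun k => ?_
      TX := fun k => ?_
      XT := fun k => ?_
      XM := fun k => ?_
      MX := fun k => ?_
      X2 := fun k => ?_ }
  · refine le_of_tendsto_of_tendsto' (hX (k + 1)) (hlim c k) fun n => ?_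
    rw [hsucc]
    exact H.law hom_chi bdd_chi (hpc k n) (hR n) (hb n)
  · refine le_of_tendsto_of_tendsto' (hlim c k) (hX (k + 1)) fun n => ?_
    rw [hsucc]
    exact H.law hom_chi bdd_chi (hpc k n) (hR n) (hb n)
  · refine le_of_tendsto_of_tendsto' (hT' (k + 1)) (hlim c k) fun n => ?_
    rw [hsucc]
    exact H.law hom_c3 bdd_c3 (hpc k n) (hR n) (hb n)
  · refine le_of_tendsto_of_tendsto' (hlim c k) (hT' (k + 1)) fun n => ?_
    rw [hsucc]
    exact H.law hom_c3 bdd_c3 (hpc k n) (hR n) (hb n)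
  · refine le_of_tendsto_of_tendsto' (hM' (k + 1)) (hlim c k) fun n => ?_
    rw [hsucc]
    exact H.law hom_sq bdd_sq (hpc k n) (hR n) (hb n)
  · refine le_of_tendsto_of_tendsto' (hlim c k) (hM' (k + 1)) fun n => ?_
    rw [hsucc]
    exact H.law hom_sq bdd_sq (hpc k n) (hR n) (hb n)
  · exact le_of_tendsto_of_tendsto' (hX k) (hX (k + 1)) fun n => cxLe_pw_succ (hR n) k chi ch_chi
  · exact le_of_tendsto_of_tendsto' (hM' k) (hM' (k + 1)) fun n => cxLe_pw_succ (hR n) k sq ch_sq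
  · exact le_of_tendsto_of_tendsto' (hT' k) (hX k) fun n => (hpc k n).J_c3_le
  · exact le_of_tendsto_of_tendsto' ((hX k).neg.div_const 2) (hT' k) fun n => (hpc k n).le_J_c3
  · exact le_of_tendsto_of_tendsto' ((hX k).pow 2) (hM' k) fun n => (hpc k n).sq_le_J_sq
  · exact le_of_tendsto_of_tendsto' (hM' k) ((hX k).const_mul 2) fun n => (hpc k n).J_sq_le
  · exact le_of_tendsto' (hX k) fun n => (hpc k n).J_chi_le2

/-- the limit moments of the regular trees -/
theorem reg_locLims {κ : ℝ} (h0 : 0 ≤ κ) (h1 : κ ≤ 1 / 2) (b : ℕ) :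
    ∃ (ξ T M : ℝ) (X T' M' : ℕ → ℝ),
      Tendsto (fun n => J chi (reg 3 b (-κ) n)) atTop (𝓝 ξ) ∧
      Tendsto (fun n => J cub3 (reg 3 b (-κ) n)) atTop (𝓝 T) ∧
      Tendsto (fun n => J sq (reg 3 b (-κ) n)) atTop (𝓝 M) ∧
      LocLims (κ ^ 2 * ξ) (κ ^ 3 * T) (κ ^ 4 * M) X T' M' ∧
      X b = ξ ∧ T' b = T ∧ M' b = M := by
  have hl : Adm 3 (-κ) := adm_three (by linarith) (by linarith)
  obtain ⟨ξ, T, M, X, T', M', hξ, hT, hM, hX, hT', hM', hs⟩ := exists_locLims h0 h1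
    (fun n => reg_isChan b hl n) (fun n => cxLe_reg_succ b hl n)
  refine ⟨ξ, T, M, X, T', M', hξ, hT, hM, hs, ?_, ?_, ?_⟩
  · refine tendsto_nhds_unique ((hX b).congr fun n => ?_) ((tendsto_add_atTop_iff_nat 1).2 hξ)
    rw [J_reg_succ]
  · refine tendsto_nhds_unique ((hT' b).congr fun n => ?_) ((tendsto_add_atTop_iff_nat 1).2 hT)
    rw [J_reg_succ]
  · refine tendsto_nhds_unique ((hM' b).congr fun n => ?_) ((tendsto_add_atTop_iff_nat 1).2 hM)
    rw [J_reg_succ]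

lemma pwt_tsum_tendsto {d : ℝ} (hd : 0 ≤ d) {a : ℕ → ℕ → ℝ} {A : ℕ → ℝ} {K : ℝ}
    (hK : ∀ n k, |a n k| ≤ K) (h : ∀ k, Tendsto (fun n => a n k) atTop (𝓝 (A k))) :
    Tendsto (fun n => ∑' k, pwt d k * a n k) atTop (𝓝 (∑' k, pwt d k * A k)) := by
  refine tendsto_tsum_of_dominated_convergence (bound := fun k => pwt d k * K)
    ((pwt_hasSum d).summable.mul_right K) (fun k => (h k).const_mul _) ?_
  refine Eventually.of_forall fun n k => ?_
  rw [Real.norm_eq_abs, abs_mul, abs_of_nonneg (pwt_nonneg hd k)]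
  exact mul_le_mul_of_nonneg_left (hK n k) (pwt_nonneg hd k)

/-- the limit moments of the Poisson trees -/
theorem gw_locLims {κ d : ℝ} (h0 : 0 ≤ κ) (h1 : κ ≤ 1 / 2) (hd : 0 ≤ d) :
    ∃ (ξ T M : ℝ) (X T' M' : ℕ → ℝ),
      Tendsto (fun n => J chi (gw 3 (-κ) d n)) atTop (𝓝 ξ) ∧
      Tendsto (fun n => J cub3 (gw 3 (-κ) d n)) atTop (𝓝 T) ∧
      Tendsto (fun n => J sq (gw 3 (-κ) d n)) atTop (𝓝 M) ∧
      LocLims (κ ^ 2 * ξ) (κ ^ 3 * T) (κ ^ 4 * M) X T' M' ∧
      ∑' k, pwt d k * X k = ξ ∧ ∑' k, pwt d k * T' k = T ∧ ∑' k, pwt d k * M' k = M := by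
  have hl : Adm 3 (-κ) := adm_three (by linarith) (by linarith)
  obtain ⟨ξ, T, M, X, T', M', hξ, hT, hM, hX, hT', hM', hs⟩ := exists_locLims h0 h1
    (fun n => gw_isChan hl hd n) (fun n => cxLe_gw_succ hl hd n)
  have hR : ∀ n, IsChan (fun o => W (-κ) (gw 3 (-κ) d n o)) := fun n => (gw_isChan hl hd n).edge hl
  have hbX : ∀ n k, |J chi (pw (fun o => W (-κ) (gw 3 (-κ) d n o)) k)| ≤ 4 := by
    intro n k
    have h2 := ((hR n).pw k).X_nonneg
    have h3 := ((hR n).pw k).J_chi_le2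
    rw [abs_of_nonneg h2]; linarith
  have hbT : ∀ n k, |J cub3 (pw (fun o => W (-κ) (gw 3 (-κ) d n o)) k)| ≤ 4 := by
    intro n k
    have h2 := ((hR n).pw k).J_c3_le
    have h3 := ((hR n).pw k).J_chi_le2
    have h4 := ((hR n).pw k).le_J_c3
    exact abs_le.2 ⟨by linarith, by linarith⟩
  have hbM : ∀ n k, |J sq (pw (fun o => W (-κ) (gw 3 (-κ) d n o)) k)| ≤ 4 := by
    intro n k
    have h2 := ((hR n).pw k).J_sq_le
    have h3 := ((hR n).pw k).J_chi_le2
    have h4 := ((hR n).pw k).sq_le_J_sq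
    rw [abs_of_nonneg (le_trans (sq_nonneg _) h4)]
    linarith
  refine ⟨ξ, T, M, X, T', M', hξ, hT, hM, hs, ?_, ?_, ?_⟩
  · refine tendsto_nhds_unique (pwt_tsum_tendsto hd hbX hX)
      (((tendsto_add_atTop_iff_nat 1).2 hξ).congr fun n => ?_)
    rw [gw_succ]
    exact (J_pois hd (hR n) bdd_chi hom_chi).tsum_eq.symm
  · refine tendsto_nhds_unique (pwt_tsum_tendsto hd hbT hT')
      (((tendsto_add_atTop_iff_nat 1).2 hT).congr fun n => ?_)
    rw [gw_succ]
    exact (J_pois hd (hR n) bdd_c3 hom_c3).tsum_eq.symm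
  · refine tendsto_nhds_unique (pwt_tsum_tendsto hd hbM hM')
      (((tendsto_add_atTop_iff_nat 1).2 hM).congr fun n => ?_)
    rw [gw_succ]
    exact (J_pois hd (hR n) bdd_sq hom_sq).tsum_eq.symm

/-! ### the concrete structures -/

lemma B4_F4 {c : Fin 4 → Fin 4 → ℝ} {u v : Fin 3 → ℝ} (hu : avg u = 1) (hv : avg v = 1) :
    B4 c (fun i => F4 i u) (fun j => F4 j v) =
      c 0 0 + c 0 1 * chi v + c 0 2 * cub3 v + c 0 3 * chi v ^ 2 +
      (c 1 0 * chi u + c 1 1 * (chi u * chi v) + c 1 2 * (chi u * cub3 v)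
        + c 1 3 * (chi u * chi v ^ 2)) +
      (c 2 0 * cub3 u + c 2 1 * (cub3 u * chi v) + c 2 2 * (cub3 u * cub3 v)
        + c 2 3 * (cub3 u * chi v ^ 2)) +
      (c 3 0 * chi u ^ 2 + c 3 1 * (chi u ^ 2 * chi v) + c 3 2 * (chi u ^ 2 * cub3 v)
        + c 3 3 * (chi u ^ 2 * chi v ^ 2)) := by
  have e0 : F4 0 = avg := rfl
  have e1 : F4 1 = chi := rfl
  have e2 : F4 2 = cub3 := rfl
  have e3 : F4 3 = sq := rfl
  unfold B4
  simp only [Fin.sum_univ_four, e0, e1, e2, e3, hu, hv, sq_norm hu, sq_norm hv]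
  ring

lemma B4_vec (c : Fin 4 → Fin 4 → ℝ) (X T M x t m : ℝ) :
    B4 c ![1, X, T, M] ![1, x, -t, m] =
      c 0 0 + c 0 1 * x - c 0 2 * t + c 0 3 * m +
      (c 1 0 * X + c 1 1 * (X * x) - c 1 2 * (X * t) + c 1 3 * (X * m)) +
      (c 2 0 * T + c 2 1 * (T * x) - c 2 2 * (T * t) + c 2 3 * (T * m)) +
      (c 3 0 * M + c 3 1 * (M * x) - c 3 2 * (M * t) + c 3 3 * (M * m)) := by
  unfold B4
  simp only [Fin.sum_univ_four, Matrix.cons_val_zero, Matrix.cons_val_one, Matrix.cons_val]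
  ring

theorem LocLims.locRec {x t m : ℝ} {X T' M' : ℕ → ℝ} (L : LocLims x t m X T' M')
    {al be be1 C D : ℝ} (H : PairRec al be be1 C D) :
    LocRec al be be1 C D x t m X T' M' where
  X0 := L.X0
  T0 := L.T0
  M0 := L.M0
  K0 k := by
    have h := L.Xup ![![0, 1, 0, 0], ![1, 1, 0, 0], ![0, 0, 0, 0], ![0, 0, 0, 0]]
      (fun u v hu hv hv2 hu1 hv1 => by
        rw [B4_F4 hu1 hv1]
        simp only [Matrix.cons_val_zero, Matrix.cons_val_one, Matrix.cons_val]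
        linarith [H.K0 u v hu hv hv2 hu1 hv1]) k
    rw [B4_vec] at h
    simp only [Matrix.cons_val_zero, Matrix.cons_val_one, Matrix.cons_val] at h
    linarith
  K1 k := by
    have h := L.Xup ![![0, 1, 0, 0], ![1, -(1 / 2), -1, al], ![0, -1, 1, 0], ![0, al, 0, 0]]
      (fun u v hu hv hv2 hu1 hv1 => by
        rw [B4_F4 hu1 hv1]
        simp only [Matrix.cons_val_zero, Matrix.cons_val_one, Matrix.cons_val]
        linarith [H.K1 u v hu hv hv2 hu1 hv1]) k
    rw [B4_vec] at h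
    simp only [Matrix.cons_val_zero, Matrix.cons_val_one, Matrix.cons_val] at h
    linarith
  K2 k := by
    have h := L.Xlo ![![0, 1, 0, 0], ![1, -(1 / 2), -1, 0], ![0, -1, 1, 0], ![0, 0, 0, 0]]
      (fun u v hu hv hv2 hu1 hv1 => by
        rw [B4_F4 hu1 hv1]
        simp only [Matrix.cons_val_zero, Matrix.cons_val_one, Matrix.cons_val]
        linarith [H.K2 u v hu hv hv2 hu1 hv1]) k
    rw [B4_vec] at h
    simp only [Matrix.cons_val_zero, Matrix.cons_val_one, Matrix.cons_val] at h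
    linarith
  T1 k := by
    have h := L.Tlo ![![0, 0, 1, 0], ![0, 3, -3, -be], ![1, -3, 0, 0], ![0, -be, 0, 0]]
      (fun u v hu hv hv2 hu1 hv1 => by
        rw [B4_F4 hu1 hv1]
        simp only [Matrix.cons_val_zero, Matrix.cons_val_one, Matrix.cons_val]
        linarith [H.T1 u v hu hv hv2 hu1 hv1]) k
    rw [B4_vec] at h
    simp only [Matrix.cons_val_zero, Matrix.cons_val_one, Matrix.cons_val] at h
    linarith
  T2 k := by
    have h := L.Tup ![![0, 0, 1, 0], ![0, 3, -3, be1], ![1, -3, 0, 0], ![0, be1, 0, 0]]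
      (fun u v hu hv hv2 hu1 hv1 => by
        rw [B4_F4 hu1 hv1]
        simp only [Matrix.cons_val_zero, Matrix.cons_val_one, Matrix.cons_val]
        linarith [H.T2 u v hu hv hv2 hu1 hv1]) k
    rw [B4_vec] at h
    simp only [Matrix.cons_val_zero, Matrix.cons_val_one, Matrix.cons_val] at h
    linarith
  MC k := by
    have h := L.Mup ![![0, 0, 0, 1], ![0, C, 0, D], ![0, 0, 0, 0], ![1, 0, 0, 0]]
      (fun u v hu hv hv2 hu1 hv1 => by
        rw [B4_F4 hu1 hv1]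
        simp only [Matrix.cons_val_zero, Matrix.cons_val_one, Matrix.cons_val]
        linarith [H.MC u v hu hv hv2 hu1 hv1]) k
    rw [B4_vec] at h
    simp only [Matrix.cons_val_zero, Matrix.cons_val_one, Matrix.cons_val] at h
    linarith
  Xmono := L.Xmono
  Mmono := L.Mmono
  TX := L.TX
  XT := L.XT
  XM := L.XM
  MX := L.MX


/-- **regular trees** -/
theorem reg_locRec {al be be1 C D : ℝ} (H : PairRec al be be1 C D) {κ : ℝ}
    (h0 : 0 ≤ κ) (h1 : κ ≤ 1 / 2) (b : ℕ) :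
    ∃ (ξ T M : ℝ) (X T' M' : ℕ → ℝ),
      Tendsto (fun n => J chi (reg 3 b (-κ) n)) atTop (𝓝 ξ) ∧
      Tendsto (fun n => J sq (reg 3 b (-κ) n)) atTop (𝓝 M) ∧
      LocRec al be be1 C D (κ ^ 2 * ξ) (κ ^ 3 * T) (κ ^ 4 * M) X T' M' ∧
      X b = ξ ∧ T' b = T ∧ M' b = M := by
  obtain ⟨ξ, T, M, X, T', M', hξ, -, hM, hs, h⟩ := reg_locLims h0 h1 b
  exact ⟨ξ, T, M, X, T', M', hξ, hM, hs.locRec H, h⟩

/-- **Poisson trees** -/
theorem gw_locRec {al be be1 C D : ℝ} (H : PairRec al be be1 C D) {κ d : ℝ}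
    (h0 : 0 ≤ κ) (h1 : κ ≤ 1 / 2) (hd : 0 ≤ d) :
    ∃ (ξ T M : ℝ) (X T' M' : ℕ → ℝ),
      Tendsto (fun n => J chi (gw 3 (-κ) d n)) atTop (𝓝 ξ) ∧
      Tendsto (fun n => J sq (gw 3 (-κ) d n)) atTop (𝓝 M) ∧
      LocRec al be be1 C D (κ ^ 2 * ξ) (κ ^ 3 * T) (κ ^ 4 * M) X T' M' ∧
      ∑' k, pwt d k * X k = ξ ∧ ∑' k, pwt d k * T' k = T ∧ ∑' k, pwt d k * M' k = M := by
  obtain ⟨ξ, T, M, X, T', M', hξ, -, hM, hs, h⟩ := gw_locLims h0 h1 hd
  exact ⟨ξ, T, M, X, T', M', hξ, hM, hs.locRec H, h⟩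

end Crest.Agent.R163
end

-- ▼ part R163/AntiMain
section

/-!
Row 163: final assembly of S0244 from the local lemma and the finitely many certificates.
-/

set_option autoImplicit false

namespace Crest.Agent.R163

open Crest.ProbabilityR.Broadcast

/-- the local lemma for the critical antiferromagnetic regular tree -/
def LocReg (b : ℕ) (x0 : ℝ) : Prop :=
  RegLt b (1 / Real.sqrt b) x0 →
    Filter.Tendsto (advantage 3 b (-(1 / Real.sqrt b))) Filter.atTop (nhds 0)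

/-- the local lemma for the critical antiferromagnetic Poisson tree -/
def LocGw (d x0 : ℝ) : Prop :=
  GwLt (1 / Real.sqrt d) d x0 →
    Filter.Tendsto (gwAdvantage 3 (-(1 / Real.sqrt d)) d) Filter.atTop (nhds 0)

/-- S0244 from the local lemma and `χ < x0` at some level, with arbitrary thresholds -/
theorem main244_anti {xR : ℕ → ℝ} {xP : ℝ → ℝ}
    (locR : ∀ b : ℕ, 4 ≤ b → LocReg b (xR b)) (locP : ∀ d : ℝ, 4 ≤ d → LocGw d (xP d))
    (hR : ∀ b : ℕ, 4 ≤ b → RegLt b (1 / Real.sqrt b) (xR b))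
    (hP : ∀ d : ℝ, 4 ≤ d → GwLt (1 / Real.sqrt d) d (xP d)) :
    (∀ b : ℕ, 2 ≤ b → ∀ lam : ℝ, -(1 / 2 : ℝ) ≤ lam → lam ≤ 1 → (b : ℝ) * lam ^ 2 ≤ 1 →
      Filter.Tendsto (advantage 3 b lam) Filter.atTop (nhds 0)) ∧
    (∀ d : ℝ, 1 < d → ∀ lam : ℝ, -(1 / 2 : ℝ) ≤ lam → lam ≤ 1 → d * lam ^ 2 ≤ 1 →
      Filter.Tendsto (gwAdvantage 3 lam d) Filter.atTop (nhds 0)) := by
  refine main244 Q3.pairHyp3 ?_ (fun b hb => locR b (by omega) (hR b (by omega)))
    (fun d hd => locP d hd (hP d hd))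
  have h := locR 4 le_rfl (hR 4 le_rfl)
  rwa [inv_sqrt_four] at h


/-- all critical Poisson parameters in `[D₁, D₂]` are controlled -/
def GwCell (xP : ℝ → ℝ) (D₁ D₂ : ℝ) : Prop :=
  ∀ d : ℝ, D₁ ≤ d → d ≤ D₂ → GwLt (1 / Real.sqrt d) d (xP d)

/-- concatenation of cells -/
theorem GwCell.trans {xP : ℝ → ℝ} {D₁ D₂ D₃ : ℝ} (h : GwCell xP D₁ D₂) (h' : GwCell xP D₂ D₃) :
    GwCell xP D₁ D₃ := fun d h1 h3 => (le_total d D₂).elim (h d h1) fun h2 => h' d h2 h3





/-- the two threshold functions agreed in the notes (units `J chi`) -/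
noncomputable def xPs (d : ℝ) : ℝ := if d < 5 then 15 / 100 else if d < 7 then 18 / 100 else 1 / 5

lemma xPs_ge (d : ℝ) : 15 / 100 ≤ xPs d := by
  unfold xPs; split_ifs <;> norm_num



end Crest.Agent.R163
end

-- ▼ part R163/LocFinal
section

/-!
Row 163, q = 3: the antiferromagnetic local lemma at the critical parameters.
-/

set_option autoImplicit false

namespace Crest.Agent.R163

open Filter Topology Crest.ProbabilityR.Broadcast

/-- the end point facts for regular trees -/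
theorem reg_facts {b : ℕ} (hb : 4 ≤ b) {κ ξ T M : ℝ} {X T' M' : ℕ → ℝ} (hκ0 : 0 < κ)
    (hκ : κ ^ 2 * b = 1)
    (L : LocRec (5 / 8) (23 / 10) (73 / 100) (23 / 5) 4 (κ ^ 2 * ξ) (κ ^ 3 * T) (κ ^ 4 * M) X T' M')
    (hX : X b = ξ) (hT : T' b = T) (hM : M' b = M) (hξ0 : 0 < ξ) (hξ1 : ξ ≤ 1 / 5) :
    ∃ p q D2 D3 : ℝ, ∀ K w τ r1 : ℝ, 2 ≤ K → K ^ 2 ≤ b → τ ≤ b → ((b : ℝ) - 2) * ξ ≤ r1 * b →
      ((b : ℝ) - 1) ≤ w * b →
      LocEnd (5 / 8) (23 / 10) (73 / 100) (23 / 5) 4 p q (1 / 5) r1 ξ ξ T M D2 D3 ∧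
      LocFacts p q ξ T M D2 D3 (1 / κ) K w τ (1 / 5) r1 := by
  have hb0 : (4 : ℝ) ≤ b := by exact_mod_cast hb
  have hbp : (0 : ℝ) < b := by linarith
  have hk2 : κ ^ 2 = 1 / b := by field_simp; linarith
  obtain ⟨p, hp⟩ : ∃ p, p = κ * T / ξ := ⟨_, rfl⟩
  obtain ⟨q, hq⟩ : ∃ q, q = κ ^ 2 * M / ξ := ⟨_, rfl⟩
  have e1 : κ ^ 3 * T = p * (κ ^ 2 * ξ) := by rw [hp]; field_simp
  have e2 : κ ^ 4 * M = q * (κ ^ 2 * ξ) := by rw [hq]; field_simp
  rw [e1, e2] at L
  have hM0 : 0 ≤ M := by rw [← hM]; exact (sq_nonneg _).trans (L.XM b)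
  have hTX : T ≤ ξ := by rw [← hX, ← hT]; exact L.TX b
  have hXT : -ξ / 2 ≤ T := by rw [← hX, ← hT]; exact L.XT b
  have hTp : T = p * ξ * (1 / κ) := by rw [hp]; field_simp
  have hMq : M = q * ξ * (1 / κ) ^ 2 := by rw [hq]; field_simp
  have hq0 : 0 ≤ q := by rw [hq]; positivity
  have hκ1 : κ ≤ 1 / 2 := by
    have : κ ^ 2 ≤ (1 / 2) ^ 2 := by
      rw [hk2, div_le_iff₀ hbp]; linarith
    exact le_of_sq_le_sq this (by norm_num)
  have hp1 : -1 ≤ p := by
    rw [hp, le_div_iff₀ hξ0]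
    nlinarith
  clear e1 e2 hp hq
  obtain ⟨x, hx⟩ : ∃ x, x = κ ^ 2 * ξ := ⟨_, rfl⟩
  rw [← hx] at L
  have hx0 : 0 < x := by rw [hx]; positivity
  have hbx : (b : ℝ) * x = ξ := by rw [hx, ← mul_assoc, mul_comm (b : ℝ), hκ, one_mul]
  have hx4 : 4 * x ≤ ξ := by
    rw [← hbx]; exact mul_le_mul_of_nonneg_right hb0 hx0.le
  have hKi2 : (1 / κ) ^ 2 = b := by
    rw [one_div, inv_pow, hk2]
    field_simp
  clear hx hk2
  have hD2 : 0 < (b : ℝ) * (b - 1) * x ^ 2 := by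
    have : (0 : ℝ) < b - 1 := by linarith
    positivity
  have hD3 : 0 ≤ (b : ℝ) * (b - 1) * (b - 2) * x ^ 3 := by
    have h1 : (0 : ℝ) < b - 1 := by linarith
    have h2 : (0 : ℝ) < b - 2 := by linarith
    positivity
  refine ⟨p, q, (b : ℝ) * (b - 1) * x ^ 2, (b : ℝ) * (b - 1) * (b - 2) * x ^ 3, ?_⟩
  intro K w τ r1 hK2 hK hτ hr1' hw
  have hr1 : ((b : ℝ) - 2) * x ≤ r1 := by
    have : (b : ℝ) * (((b : ℝ) - 2) * x) ≤ b * r1 := by
      calc (b : ℝ) * (((b : ℝ) - 2) * x) = ((b : ℝ) - 2) * ((b : ℝ) * x) := by ring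
        _ = ((b : ℝ) - 2) * ξ := by rw [hbx]
        _ ≤ _ := by linarith
    exact le_of_mul_le_mul_left this hbp
  refine ⟨?_, ?_⟩
  · have := L.locEnd hx0.le (by linarith) (by norm_num) (by norm_num) (by norm_num) hq0 hp1
      (by positivity) (r := 1 / 5) (r1 := r1) b (by linarith) hr1
    rwa [hbx, hX, hT, hM] at this
  · have h1 : (b : ℝ) * (b - 1) * x ^ 2 = ((b : ℝ) - 1) * (ξ * x) := by
      rw [← hbx]; ring
    have h2 : ξ ^ 2 = b * (ξ * x) := by
      calc ξ ^ 2 = ξ * ξ := by ring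
        _ = ξ * ((b : ℝ) * x) := by rw [hbx]
        _ = _ := by ring
    have h3 : 0 ≤ ξ * x := by positivity
    refine ⟨hξ0, hξ1, hTp, hMq, ?_, hK2, hD2, hD3, ?_, ?_, ?_, hTX, hXT, hM0⟩
    · have h1 : K ^ 2 ≤ (1 / κ) ^ 2 := by rw [hKi2]; exact hK
      exact le_of_sq_le_sq h1 (by positivity)
    · have h1 := mul_le_mul_of_nonneg_right hr1 hD2.le
      calc (b : ℝ) * (b - 1) * (b - 2) * x ^ 3 = ((b : ℝ) - 2) * x * ((b : ℝ) * (b - 1) * x ^ 2) := by
            ring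
        _ ≤ _ := h1
    · rw [h1, h2]
      have := mul_le_mul_of_nonneg_right hw h3
      linarith
    · rw [hKi2, h1, h2]
      have h4 : 0 ≤ (((b : ℝ) - 1)) * (ξ * x) := by
        have : (0 : ℝ) < b - 1 := by linarith
        positivity
      have := mul_le_mul_of_nonneg_right hτ h4
      linarith

/-- no positive limit below the threshold, regular trees -/
theorem reg_no_limit {b : ℕ} (hb : 4 ≤ b) {κ ξ T M : ℝ} {X T' M' : ℕ → ℝ} (hκ0 : 0 < κ)
    (hκ : κ ^ 2 * b = 1)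
    (L : LocRec (5 / 8) (23 / 10) (73 / 100) (23 / 5) 4 (κ ^ 2 * ξ) (κ ^ 3 * T) (κ ^ 4 * M) X T' M')
    (hX : X b = ξ) (hT : T' b = T) (hM : M' b = M) (hξ0 : 0 < ξ) (hξ1 : ξ ≤ 1 / 5) : False := by
  obtain ⟨p, q, D2, D3, H⟩ := reg_facts hb hκ0 hκ L hX hT hM hξ0 hξ1
  rcases lt_or_ge b 7 with h7 | h7
  · rcases Nat.lt_or_ge b 5 with h5 | h5
    · have hb4 : (b : ℝ) = 4 := by exact_mod_cast (by omega : b = 4)
      rw [hb4] at H
      obtain ⟨HE, HF⟩ := H 2 (3 / 4) 4 (1 / 10) (by norm_num) (by norm_num) (by norm_num)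
        (by linarith) (by norm_num)
      exact loc_R4 HE HF
    · have hb5 : (5 : ℝ) ≤ b := by exact_mod_cast h5
      have hb7 : (b : ℝ) ≤ 6 := by exact_mod_cast (by omega : b ≤ 6)
      obtain ⟨HE, HF⟩ := H (223 / 100) (6 / 7) 5 (1 / 7) (by norm_num) (by norm_num; linarith)
        hb5 (by nlinarith) (by linarith)
      exact loc_R5 HE HF
  · have hb7 : (7 : ℝ) ≤ b := by exact_mod_cast h7
    obtain ⟨HE, HF⟩ := H (264 / 100) 1 7 (1 / 5) (by norm_num) (by norm_num; linarith)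
      hb7 (by nlinarith) (by linarith)
    exact loc_R7 HE HF

/-- the end point facts for Poisson trees -/
theorem gw_facts {d : ℝ} (hd : 4 ≤ d) {κ ξ T M : ℝ} {X T' M' : ℕ → ℝ} (hκ0 : 0 < κ)
    (hκ : κ ^ 2 * d = 1)
    (L : LocRec (5 / 8) (23 / 10) (73 / 100) (23 / 5) 4 (κ ^ 2 * ξ) (κ ^ 3 * T) (κ ^ 4 * M) X T' M')
    (hX : ∑' k, pwt d k * X k = ξ) (hT : ∑' k, pwt d k * T' k = T)
    (hM : ∑' k, pwt d k * M' k = M) (hξ0 : 0 < ξ) (hξ1 : ξ ≤ 1 / 5) :
    ∃ p q : ℝ, ∀ K τ x0 r : ℝ, 2 ≤ K → K ^ 2 ≤ d → τ ≤ d - 1 → ξ ≤ x0 → x0 ≤ r →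
      LocEnd (5 / 8) (23 / 10) (73 / 100) (23 / 5) 4 p q r x0 ξ ξ T M (ξ ^ 2) (ξ ^ 3) ∧
      LocFacts p q ξ T M (ξ ^ 2) (ξ ^ 3) (1 / κ) K 1 τ x0 x0 := by
  have hdp : (0 : ℝ) < d := by linarith
  have hk2 : κ ^ 2 = 1 / d := by field_simp; linarith
  obtain ⟨p, hp⟩ : ∃ p, p = κ * T / ξ := ⟨_, rfl⟩
  obtain ⟨q, hq⟩ : ∃ q, q = κ ^ 2 * M / ξ := ⟨_, rfl⟩
  have e1 : κ ^ 3 * T = p * (κ ^ 2 * ξ) := by rw [hp]; field_simp
  have e2 : κ ^ 4 * M = q * (κ ^ 2 * ξ) := by rw [hq]; field_simp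
  have hKi2 : (1 / κ) ^ 2 = d := by
    rw [one_div, inv_pow, hk2]
    field_simp
  have hκ1 : κ ≤ 1 / 2 := by
    have : κ ^ 2 ≤ (1 / 2) ^ 2 := by
      rw [hk2, div_le_iff₀ hdp]; linarith
    exact le_of_sq_le_sq this (by norm_num)
  have hsX := L.pois hdp.le
  rw [hX, hT, hM] at hsX
  obtain ⟨tX, tT, tM⟩ := hsX
  have hev : ∀ᶠ N : ℕ in atTop, d ≤ N := by
    filter_upwards [eventually_ge_atTop ⌈d⌉₊] with N hN
    exact (Nat.le_ceil d).trans (Nat.cast_le.2 hN)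
  have hbin : ∀ᶠ N : ℕ in atTop, LocRec (5 / 8) (23 / 10) (73 / 100) (23 / 5) 4 (ξ / N)
      (p * (ξ / N)) (q * (ξ / N)) (fun k => bav X k (d / N)) (fun k => bav T' k (d / N))
      (fun k => bav M' k (d / N)) := by
    filter_upwards [hev] with N hN
    have hN0 : (0 : ℝ) < N := hdp.trans_le hN
    have h1 := L.bin (e := d / N) (by positivity) ((div_le_one hN0).2 hN)
    have f1 : d / N * (κ ^ 2 * ξ) = ξ / N := by rw [hk2]; field_simp
    have f2 : d / N * (κ ^ 3 * T) = p * (ξ / N) := by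
      rw [e1, ← f1]; ring
    have f3 : d / N * (κ ^ 4 * M) = q * (ξ / N) := by
      rw [e2, ← f1]; ring
    rwa [f1, f2, f3] at h1
  have hM0 : 0 ≤ M := by
    refine ge_of_tendsto tM ?_
    filter_upwards [hbin] with N hN
    exact (sq_nonneg _).trans (hN.XM N)
  have hTX : T ≤ ξ := by
    refine le_of_tendsto_of_tendsto tT tX ?_
    filter_upwards [hbin] with N hN
    exact hN.TX N
  have hXT : -ξ / 2 ≤ T := by
    have t1 : Tendsto (fun N : ℕ => -(bav X N (d / N)) / 2) atTop (𝓝 (-ξ / 2)) :=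
      tX.neg.div_const 2
    refine le_of_tendsto_of_tendsto t1 tT ?_
    filter_upwards [hbin] with N hN
    exact hN.XT N
  have hTp : T = p * ξ * (1 / κ) := by rw [hp]; field_simp
  have hMq : M = q * ξ * (1 / κ) ^ 2 := by rw [hq]; field_simp
  have hq0 : 0 ≤ q := by rw [hq]; positivity
  have hp1 : -1 ≤ p := by
    rw [hp, le_div_iff₀ hξ0]
    nlinarith
  refine ⟨p, q, fun K τ x0 r hK2 hK hτ hx0 hr => ⟨?_, ?_⟩⟩
  · have tN : Tendsto (fun N : ℕ => (1 : ℝ) / N) atTop (𝓝 0) := tendsto_one_div_atTop_nhds_zero_nat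
    have t2 : Tendsto (fun N : ℕ => ξ ^ 2 * (1 - 1 / (N : ℝ))) atTop (𝓝 (ξ ^ 2)) := by
      have := (tendsto_const_nhds (x := (1 : ℝ))).sub tN
      have := this.const_mul (ξ ^ 2)
      simpa using this
    have t3 : Tendsto (fun N : ℕ => ξ ^ 3 * ((1 - 1 / (N : ℝ)) * (1 - 2 * (1 / (N : ℝ))))) atTop
        (𝓝 (ξ ^ 3)) := by
      have h1 := (tendsto_const_nhds (x := (1 : ℝ))).sub tN
      have h2 := (tendsto_const_nhds (x := (1 : ℝ))).sub (tN.const_mul 2)
      have := (h1.mul h2).const_mul (ξ ^ 3)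
      simpa using this
    refine LocEnd.lim ?_ tX tT tM t2 t3
    filter_upwards [hbin, hev] with N hN hdN
    have hN0 : (0 : ℝ) < N := hdp.trans_le hdN
    have hN4 : (4 : ℝ) ≤ N := hd.trans hdN
    have g0 : 0 ≤ ξ / N := by positivity
    have g1 : (N : ℝ) * (ξ / N) = ξ := by field_simp
    have g3 : 3 * (ξ / N) ≤ 1 := by
      have : 4 * (ξ / N) ≤ N * (ξ / N) := mul_le_mul_of_nonneg_right hN4 g0
      rw [g1] at this
      linarith
    have g4 : ((N : ℝ) - 3) * (ξ / N) ≤ r := by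
      have : ((N : ℝ) - 3) * (ξ / N) = N * (ξ / N) - 3 * (ξ / N) := by ring
      rw [this, g1]; linarith
    have g5 : ((N : ℝ) - 2) * (ξ / N) ≤ x0 := by
      have : ((N : ℝ) - 2) * (ξ / N) = N * (ξ / N) - 2 * (ξ / N) := by ring
      rw [this, g1]; linarith
    have h1 := hN.locEnd g0 g3 (by norm_num) (by norm_num) (by norm_num) hq0 hp1
      (by positivity) (r := r) (r1 := x0) N g4 g5
    rw [g1] at h1
    have E2 : (N : ℝ) * (N - 1) * (ξ / N) ^ 2 = ξ ^ 2 * (1 - 1 / (N : ℝ)) := by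
      field_simp
    have E3 : (N : ℝ) * (N - 1) * (N - 2) * (ξ / N) ^ 3
        = ξ ^ 3 * ((1 - 1 / (N : ℝ)) * (1 - 2 * (1 / (N : ℝ)))) := by
      field_simp
    rwa [E2, E3] at h1
  · refine ⟨hξ0, hx0, hTp, hMq, ?_, hK2, by positivity, by positivity, ?_, ?_, ?_, hTX, hXT, hM0⟩
    · have h1 : K ^ 2 ≤ (1 / κ) ^ 2 := by rw [hKi2]; exact hK
      exact le_of_sq_le_sq h1 (by positivity)
    · have : ξ * ξ ^ 2 ≤ x0 * ξ ^ 2 := mul_le_mul_of_nonneg_right hx0 (by positivity)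
      calc ξ ^ 3 = ξ * ξ ^ 2 := by ring
        _ ≤ _ := this
    · linarith
    · rw [hKi2]
      exact mul_le_mul_of_nonneg_right hτ (by positivity)

/-- no positive limit below the threshold, Poisson trees, `d ≥ 4` -/
theorem gw_no_limit4 {d : ℝ} (hd : 4 ≤ d) {κ ξ T M : ℝ} {X T' M' : ℕ → ℝ} (hκ0 : 0 < κ)
    (hκ : κ ^ 2 * d = 1)
    (L : LocRec (5 / 8) (23 / 10) (73 / 100) (23 / 5) 4 (κ ^ 2 * ξ) (κ ^ 3 * T) (κ ^ 4 * M) X T' M')
    (hX : ∑' k, pwt d k * X k = ξ) (hT : ∑' k, pwt d k * T' k = T)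
    (hM : ∑' k, pwt d k * M' k = M) (hξ0 : 0 < ξ) (hξ1 : ξ ≤ 3 / 20) : False := by
  obtain ⟨p, q, H⟩ := gw_facts hd hκ0 hκ L hX hT hM hξ0 (by linarith)
  obtain ⟨HE, HF⟩ := H 2 3 (3 / 20) (1 / 5) le_rfl (by linarith) (by linarith) hξ1 (by norm_num)
  exact loc_P4 HE HF

/-- no positive limit below the threshold, Poisson trees, `d ≥ 5` -/
theorem gw_no_limit5 {d : ℝ} (hd : 5 ≤ d) {κ ξ T M : ℝ} {X T' M' : ℕ → ℝ} (hκ0 : 0 < κ)
    (hκ : κ ^ 2 * d = 1)
    (L : LocRec (5 / 8) (23 / 10) (73 / 100) (23 / 5) 4 (κ ^ 2 * ξ) (κ ^ 3 * T) (κ ^ 4 * M) X T' M')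
    (hX : ∑' k, pwt d k * X k = ξ) (hT : ∑' k, pwt d k * T' k = T)
    (hM : ∑' k, pwt d k * M' k = M) (hξ0 : 0 < ξ) (hξ1 : ξ ≤ 9 / 50) : False := by
  obtain ⟨p, q, H⟩ := gw_facts (by linarith) hκ0 hκ L hX hT hM hξ0 (by linarith)
  obtain ⟨HE, HF⟩ := H (2236 / 1000) 4 (9 / 50) (9 / 50) (by norm_num) (by norm_num; linarith)
    (by linarith) hξ1 le_rfl
  exact loc_P5 HE HF

/-- no positive limit below the threshold, Poisson trees, `d ≥ 7` -/
theorem gw_no_limit7 {d : ℝ} (hd : 7 ≤ d) {κ ξ T M : ℝ} {X T' M' : ℕ → ℝ} (hκ0 : 0 < κ)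
    (hκ : κ ^ 2 * d = 1)
    (L : LocRec (5 / 8) (23 / 10) (73 / 100) (23 / 5) 4 (κ ^ 2 * ξ) (κ ^ 3 * T) (κ ^ 4 * M) X T' M')
    (hX : ∑' k, pwt d k * X k = ξ) (hT : ∑' k, pwt d k * T' k = T)
    (hM : ∑' k, pwt d k * M' k = M) (hξ0 : 0 < ξ) (hξ1 : ξ ≤ 1 / 5) : False := by
  obtain ⟨p, q, H⟩ := gw_facts (by linarith) hκ0 hκ L hX hT hM hξ0 (by linarith)
  obtain ⟨HE, HF⟩ := H (264 / 100) 6 (1 / 5) (1 / 5) (by norm_num) (by norm_num; linarith)
    (by linarith) hξ1 le_rfl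
  exact loc_P7 HE HF

/-- **Local lemma, regular trees.** -/
theorem locR {b : ℕ} (hb : 4 ≤ b) : LocReg b (1 / 5) := by
  rintro ⟨n0, hn0⟩
  have hb0 : (4 : ℝ) ≤ b := by exact_mod_cast hb
  have hbp : (0 : ℝ) < b := by linarith
  obtain ⟨κ, hκdef⟩ : ∃ κ, κ = 1 / Real.sqrt b := ⟨_, rfl⟩
  have hκ0 : 0 < κ := by rw [hκdef]; positivity
  have hκ : κ ^ 2 * b = 1 := by
    rw [hκdef, div_pow, Real.sq_sqrt hbp.le]; field_simp
  have hκ1 : κ ≤ 1 / 2 := by
    have : κ ^ 2 ≤ (1 / 2) ^ 2 := by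
      have h2 : κ ^ 2 = 1 / b := by field_simp; linarith
      rw [h2, div_le_iff₀ hbp]; linarith
    exact le_of_sq_le_sq this (by norm_num)
  rw [← hκdef] at hn0 ⊢
  have hadm := adm3_neg hκ0.le hκ1
  obtain ⟨ξ, T, M, X, T', M', tξ, -, L, hX, hT, hM⟩ := reg_locRec Loc.pairRec hκ0.le hκ1 b
  have hanti := chi_reg_anti b hadm
  have hξle : ξ ≤ 1 / 5 := (hanti.le_of_tendsto tξ n0).trans hn0.le
  have hξ0 : 0 ≤ ξ := ge_of_tendsto' tξ fun n => (reg_isChan b hadm n).X_nonneg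
  have hξ : ξ = 0 := by
    rcases hξ0.eq_or_lt with h | h
    · exact h.symm
    · exact (reg_no_limit hb hκ0 hκ L hX hT hM h hξle).elim
  have hfun : advantage 3 b (-κ) = fun ℓ => J tv (reg 3 b (-κ) ℓ) := by
    funext ℓ; exact advantage_eq 3 b (-κ) ℓ
  rw [hfun]
  refine tv_tendsto _ (fun ℓ => reg_isChan b hadm ℓ) ?_
  rw [hξ] at tξ
  exact tξ

/-- **Local lemma, Poisson trees.** -/
theorem locP {d : ℝ} (hd : 4 ≤ d) : LocGw d (xPs d) := by
  rintro ⟨n0, hn0⟩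
  have hdp : (0 : ℝ) < d := by linarith
  obtain ⟨κ, hκdef⟩ : ∃ κ, κ = 1 / Real.sqrt d := ⟨_, rfl⟩
  have hκ0 : 0 < κ := by rw [hκdef]; positivity
  have hκ : κ ^ 2 * d = 1 := by
    rw [hκdef, div_pow, Real.sq_sqrt hdp.le]; field_simp
  have hκ1 : κ ≤ 1 / 2 := by
    have : κ ^ 2 ≤ (1 / 2) ^ 2 := by
      have h2 : κ ^ 2 = 1 / d := by field_simp; linarith
      rw [h2, div_le_iff₀ hdp]; linarith
    exact le_of_sq_le_sq this (by norm_num)
  rw [← hκdef] at hn0 ⊢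
  have hadm := adm3_neg hκ0.le hκ1
  obtain ⟨ξ, T, M, X, T', M', tξ, -, L, hX, hT, hM⟩ := gw_locRec Loc.pairRec hκ0.le hκ1 hdp.le
  have hanti := chi_gw_anti hadm hdp.le
  have hξle : ξ ≤ xPs d := (hanti.le_of_tendsto tξ n0).trans hn0.le
  have hξ0 : 0 ≤ ξ := ge_of_tendsto' tξ fun n => (gw_isChan hadm hdp.le n).X_nonneg
  have hξ : ξ = 0 := by
    rcases hξ0.eq_or_lt with h | h
    · exact h.symm
    · exfalso
      unfold xPs at hξle
      split_ifs at hξle with h5 h7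
      · exact gw_no_limit4 hd hκ0 hκ L hX hT hM h (by linarith)
      · exact gw_no_limit5 (not_lt.1 h5) hκ0 hκ L hX hT hM h (by linarith)
      · exact gw_no_limit7 (not_lt.1 h7) hκ0 hκ L hX hT hM h hξle
  have hfun : gwAdvantage 3 (-κ) d = fun ℓ => J tv (gw 3 (-κ) d ℓ) := by
    funext ℓ; exact gwAdvantage_eq 3 (-κ) d ℓ
  rw [hfun]
  refine tv_tendsto _ (fun ℓ => gw_isChan hadm hdp.le ℓ) ?_
  rw [hξ] at tξ
  exact tξ

/-- S0244 from `χ < 1/5` (regular) and `χ < xPs d` (Poisson) at some level -/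
theorem main244_of_lt
    (hR : ∀ b : ℕ, 4 ≤ b → RegLt b (1 / Real.sqrt b) (1 / 5))
    (hP : ∀ d : ℝ, 4 ≤ d → GwLt (1 / Real.sqrt d) d (xPs d)) :
    (∀ b : ℕ, 2 ≤ b → ∀ lam : ℝ, -(1 / 2 : ℝ) ≤ lam → lam ≤ 1 → (b : ℝ) * lam ^ 2 ≤ 1 →
      Filter.Tendsto (advantage 3 b lam) Filter.atTop (nhds 0)) ∧
    (∀ d : ℝ, 1 < d → ∀ lam : ℝ, -(1 / 2 : ℝ) ≤ lam → lam ≤ 1 → d * lam ^ 2 ≤ 1 →
      Filter.Tendsto (gwAdvantage 3 lam d) Filter.atTop (nhds 0)) :=
  main244_anti (xR := fun _ => 1 / 5) (xP := xPs) (fun _ hb => locR hb) (fun _ hd => locP hd) hR hP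

end Crest.Agent.R163
end

-- ▼ part R163/WinFinal
section

/-!
Row 163 (S0244 antiferro): conclusion from the engine, the density evolution for `4 ≤ b ≤ 7` and the
local lemma.
-/

set_option autoImplicit false

namespace Crest.Agent.R163

open Crest.ProbabilityR.Broadcast

/-- all regular trees `b ≥ 4` -/
theorem Engine.reg (E : Engine) {b : ℕ} (hb : 4 ≤ b) : RegLt b (1 / Real.sqrt b) (1 / 5) := by
  rcases lt_or_ge b 8 with h | h
  · exact DG.regLt_crit hb (by omega)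
  rcases lt_or_ge b 11 with h' | h'
  · exact E.r7 (by omega) (by omega)
  · exact E.r11 h'

/-- all Poisson trees `d ≥ 4` -/
theorem Engine.gwP (E : Engine) {d : ℝ} (hd : 4 ≤ d) :
    GwLt (1 / Real.sqrt d) d (xPs d) := by
  obtain ⟨n, hn⟩ := E.gw hd
  exact ⟨n, hn.trans_le (le_trans (by norm_num) (xPs_ge d))⟩

/-- S0244 from the engine -/
theorem Engine.main (E : Engine) :
    (∀ b : ℕ, 2 ≤ b → ∀ lam : ℝ, -(1 / 2 : ℝ) ≤ lam → lam ≤ 1 → (b : ℝ) * lam ^ 2 ≤ 1 →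
      Filter.Tendsto (advantage 3 b lam) Filter.atTop (nhds 0)) ∧
    (∀ d : ℝ, 1 < d → ∀ lam : ℝ, -(1 / 2 : ℝ) ≤ lam → lam ≤ 1 → d * lam ^ 2 ≤ 1 →
      Filter.Tendsto (gwAdvantage 3 lam d) Filter.atTop (nhds 0)) :=
  main244_of_lt (fun _ hb => E.reg hb) (fun _ hd => E.gwP hd)

end Crest.Agent.R163
end

-- ▼ part R163/WinMain
section

/-!
Row 163: S0244 from the outer region of the window engine alone.
-/

set_option autoImplicit false

namespace Crest.Agent.R163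

open Crest.ProbabilityR.Broadcast Win

/-- outer region for some centre radius, for a list of rows -/
def OutRows (side pos : Bool) (zmin c : ℚ) (ws : List (List Int)) : Prop :=
  ∃ s ≤ c, ∀ w ∈ ws, OutOK side pos zmin s w

/-- THE OUTER REGION OF THE ENGINE: all that remains for S0244 -/
structure Outer : Prop where
  B : ∀ pos, OutRows false pos 0 (9 / 100) ((wPois ++ wR7 ++ wR11).map fun D => D.rowB pos)
  M1 : ∀ pos, OutRows true pos 0 (43 / 100)
    (wPois.map (fun D => D.rowM pos) ++ pinRows 183 560 pos)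
  M7 : ∀ pos, OutRows true pos (61 / 250) (9 / 25) (grpM7 pos)
  M11 : ∀ pos, OutRows true pos (3969 / 10000) (1 / 4) (grpM11 pos)

lemma OutRows.full {side pos : Bool} {zmin c : ℚ} {ws : List (List Int)}
    (h : OutRows side pos zmin c ws) (hz : zmin < 4 / 5) (hc : ∀ w ∈ ws, CenOK side pos c w) :
    ∀ w ∈ ws, Full side pos zmin w := by
  obtain ⟨s, hs, h1⟩ := h
  exact fun w hw => full_of hz (h1 w hw) (Cen.cenOK_mono (hc w hw) hs)

theorem Outer.engine (O : Outer) : Engine where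
  B pos := (O.B pos).full (by norm_num) fun w hw => by
    rw [List.mem_map] at hw
    obtain ⟨D, hD, rfl⟩ := hw
    refine Cen.cenB pos _ (List.mem_map_of_mem ?_)
    simp only [List.mem_append] at hD ⊢
    tauto
  M1 pos := (O.M1 pos).full (by norm_num) fun w hw => by
    refine Cen.cenM1 pos _ ?_
    rw [List.mem_append, List.mem_map] at hw
    rcases hw with ⟨D, hD, rfl⟩ | hw
    · exact List.mem_append_left _ (List.mem_map_of_mem (f := fun D : RawWin => D.rowM pos)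
        (List.mem_append_left _ hD))
    · exact List.mem_append_right _ hw
  M7 pos := (O.M7 pos).full (by norm_num) (Cen.cenM7 pos)
  M11 pos := (O.M11 pos).full (by norm_num) (Cen.cenM11 pos)


/-- **S0244 from the outer region.** -/
theorem Outer.main (O : Outer) :
    (∀ b : ℕ, 2 ≤ b → ∀ lam : ℝ, -(1 / 2 : ℝ) ≤ lam → lam ≤ 1 → (b : ℝ) * lam ^ 2 ≤ 1 →
      Filter.Tendsto (advantage 3 b lam) Filter.atTop (nhds 0)) ∧
    (∀ d : ℝ, 1 < d → ∀ lam : ℝ, -(1 / 2 : ℝ) ≤ lam → lam ≤ 1 → d * lam ^ 2 ≤ 1 →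
      Filter.Tendsto (gwAdvantage 3 lam d) Filter.atTop (nhds 0)) :=
  O.engine.main

end Crest.Agent.R163
end

-- ▼ part R163/WinOuter
section

/-!
Row 163: the outer region of the window engine.
-/

set_option autoImplicit false

namespace Crest.Agent.R163

open Win

theorem outer (CFs : CellFacts) : Outer where
  B pos := ⟨9 / 100, le_rfl, by
    cases pos
    · exact outBm CFs
    · exact outBp CFs⟩
  M1 pos := ⟨43 / 100, le_rfl, by
    cases pos
    · exact outM1m CFs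
    · exact outM1p CFs⟩
  M7 pos := ⟨9 / 25, le_rfl, by
    cases pos
    · exact outM7m CFs
    · exact outM7p CFs⟩
  M11 pos := ⟨1 / 4, le_rfl, by
    cases pos
    · exact outM11m CFs
    · exact outM11p CFs⟩

end Crest.Agent.R163
end

-- ▼ part R163/WinCFb

/-!
Row 163, window engine: the facts about the arguments on a cell.
-/

set_option autoImplicit false

namespace Crest.Agent.R163.Win

open Set Crest.Agent.R163.Bern

lemma dom_iff {lo hi : Nat} (h : dom lo hi = true) :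
    (lo = 0 ∨ 8192 ≤ lo) ∧ 8192 ≤ hi ∧ hi ≤ 2 ^ 50 := by
  unfold dom at h
  rw [band_iff, band_iff, bor_eq] at h
  obtain ⟨h1, h2, h3⟩ := h
  refine ⟨?_, Nat.le_of_ble_eq_true h2, ?_⟩
  · rcases h1 with h | h
    · exact Or.inl (Nat.eq_of_beq_eq_true h)
    · exact Or.inr (Nat.le_of_ble_eq_true h)
  · have := Nat.le_of_ble_eq_true h3
    norm_num
    exact this

lemma us_spec {d lo : Nat} (hlo : 0 < lo) : (d : ℝ) ≤ ((us d lo : Nat) : ℝ) / 2 ^ 20 * lo := by
  have h : us d lo = d * 1048576 / lo + 1 := rfl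
  rw [h]
  have h1 := Nat.lt_div_mul_add hlo (a := d * 1048576)
  have h2 : ((d * 1048576 : ℕ) : ℝ) < ((d * 1048576 / lo : ℕ) : ℝ) * lo + lo := by exact_mod_cast h1
  have h3 : (0 : ℝ) < 2 ^ 20 := by positivity
  rw [div_mul_eq_mul_div, le_div_iff₀ h3]
  push_cast at h2 ⊢
  have : (d : ℝ) * 2 ^ 20 = d * 1048576 := by norm_num
  rw [this]
  nlinarith

/-- one argument -/
lemma CF_of {side : Bool} {p : ℝ × ℝ × ℝ} {x0 x1 y0 y1 : ℝ} {lo hi dX dY ux uy : Nat}
    (hd : dom lo hi = true)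
    (hlo : ∀ x ∈ Icc x0 x1, ∀ y ∈ Icc y0 y1, (lo : ℝ) / den side ≤ aff p x y)
    (hhi : ∀ x ∈ Icc x0 x1, ∀ y ∈ Icc y0 y1, aff p x y ≤ (hi : ℝ) / den side)
    (hx : (|p.2.1| * (x1 - x0) = dX / den side ∧ ux = us dX lo) ∨ |p.2.1| * (x1 - x0) = 0)
    (hy : (|p.2.2| * (y1 - y0) = dY / den side ∧ uy = us dY lo) ∨ |p.2.2| * (y1 - y0) = 0) :
    CF p x0 x1 y0 y1 (Nat.ble 1 lo) (sqU side hi) ux uy := by
  obtain ⟨d1, d2, d3⟩ := dom_iff hd
  have hden := den_pos side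
  refine ⟨?_, ?_, ?_⟩
  · intro hk x hx' y hy'
    have h1 : 1 ≤ lo := Nat.le_of_ble_eq_true hk
    have hl : (0 : ℝ) < lo := by exact_mod_cast h1
    have ha : 0 < aff p x y := lt_of_lt_of_le (div_pos hl hden) (hlo x hx' y hy')
    have step : ∀ d u : Nat, u = us d lo → (d : ℝ) / den side ≤ (u / 2 ^ 20 : ℝ) * aff p x y := by
      intro d u hu
      rw [hu]
      have h2 := us_spec (d := d) (lo := lo) h1
      calc (d : ℝ) / den side ≤ ((us d lo : Nat) : ℝ) / 2 ^ 20 * lo / den side :=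
            div_le_div_of_nonneg_right h2 hden.le
        _ = ((us d lo : Nat) : ℝ) / 2 ^ 20 * (lo / den side) := by ring
        _ ≤ _ := mul_le_mul_of_nonneg_left (hlo x hx' y hy') (by positivity)
    refine ⟨ha, ?_, ?_⟩
    · rcases hx with ⟨h, hu⟩ | h
      · rw [h]; exact step _ _ hu
      · rw [h]; positivity
    · rcases hy with ⟨h, hu⟩ | h
      · rw [h]; exact step _ _ hu
      · rw [h]; positivity
  · intro x hx' y hy'
    exact le_trans (by positivity) (hlo x hx' y hy')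
  · intro x hx' y hy'
    exact (Real.sqrt_le_sqrt (hhi x hx' y hy')).trans (sqU_spec d2 d3)

lemma nn1 {side : Bool} {X Y : Nat} (h : X + Y ≤ 844424930131968) :
    ((n1 side X Y : Nat) : ℝ) / den side = aff (A1 side) ((X : ℝ) / 2 ^ 48) ((Y : ℝ) / 2 ^ 48) := by
  cases side
  · have e : n1 false X Y = 844424930131968 - (X + Y) := rfl
    rw [e, Nat.cast_sub h]
    simp only [den, aff, A1, Bool.false_eq_true, if_false]
    push_cast
    field_simp
    ring
  · have e : n1 true X Y = X + Y := rfl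
    rw [e]
    simp only [den, aff, A1, if_true]
    push_cast
    ring

lemma nn2 {side : Bool} {X : Nat} (h : X ≤ 844424930131968) (y : ℝ) :
    ((n2 side X : Nat) : ℝ) / den side = aff (A2 side) ((X : ℝ) / 2 ^ 48) y := by
  cases side
  · have e : n2 false X = X := rfl
    rw [e]
    simp only [den, aff, A2, Bool.false_eq_true, if_false]
    ring
  · have e : n2 true X = 844424930131968 - X := rfl
    rw [e, Nat.cast_sub h]
    simp only [den, aff, A2, if_true]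
    push_cast
    field_simp
    ring

lemma nn3 {side : Bool} {Y : Nat} (h : Y ≤ 844424930131968) (x : ℝ) :
    ((n2 side Y : Nat) : ℝ) / den side = aff (A3 side) x ((Y : ℝ) / 2 ^ 48) := by
  cases side
  · have e : n2 false Y = Y := rfl
    rw [e]
    simp only [den, aff, A3, Bool.false_eq_true, if_false]
    ring
  · have e : n2 true Y = 844424930131968 - Y := rfl
    rw [e, Nat.cast_sub h]
    simp only [den, aff, A3, if_true]
    push_cast
    field_simp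
    ring

lemma six_le {a b c a' b' c' : ℝ} (ha : 0 ≤ a) (hb : 0 ≤ b) (hc : 0 ≤ c) (ha' : a ≤ a')
    (hb' : b ≤ b') (hc' : c ≤ c') (pa : 0 < a') (pb : 0 < b') (pc : 0 < c') :
    a ^ (1 / 6 : ℝ) * b ^ (1 / 6 : ℝ) * c ^ (1 / 6 : ℝ) ≤
      Real.exp ((Real.log a' + Real.log b' + Real.log c') / 6) := by
  have e : Real.exp ((Real.log a' + Real.log b' + Real.log c') / 6) =
      a' ^ (1 / 6 : ℝ) * b' ^ (1 / 6 : ℝ) * c' ^ (1 / 6 : ℝ) := by
    rw [Real.rpow_def_of_pos pa, Real.rpow_def_of_pos pb, Real.rpow_def_of_pos pc,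
      ← Real.exp_add, ← Real.exp_add]
    congr 1
    ring
  rw [e]
  have h1 := Real.rpow_le_rpow ha ha' (by norm_num : (0 : ℝ) ≤ 1 / 6)
  have h2 := Real.rpow_le_rpow hb hb' (by norm_num : (0 : ℝ) ≤ 1 / 6)
  have h3 := Real.rpow_le_rpow hc hc' (by norm_num : (0 : ℝ) ≤ 1 / 6)
  gcongr

theorem cellFacts' : CellFacts := by
  intro side X0 X1 Y0 Y1 hX hY hX1 hY1 d1 d2 d3
  have p48 : (0 : ℝ) < 2 ^ 48 := by positivity
  have hX' : (X0 : ℝ) / 2 ^ 48 < (X1 : ℝ) / 2 ^ 48 :=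
    div_lt_div_of_pos_right (by exact_mod_cast hX) (by positivity)
  have hY' : (Y0 : ℝ) / 2 ^ 48 < (Y1 : ℝ) / 2 ^ 48 :=
    div_lt_div_of_pos_right (by exact_mod_cast hY) (by positivity)
  -- the three arguments at the corners
  have E1 : ∀ X Y : Nat, X ≤ X1 → Y ≤ Y1 → ((n1 side X Y : Nat) : ℝ) / den side =
      aff (A1 side) ((X : ℝ) / 2 ^ 48) ((Y : ℝ) / 2 ^ 48) := fun X Y h1 h2 => nn1 (by omega)
  have E2 : ∀ X : Nat, X ≤ X1 → ∀ y : ℝ, ((n2 side X : Nat) : ℝ) / den side =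
      aff (A2 side) ((X : ℝ) / 2 ^ 48) y := fun X h1 y => nn2 (by omega) y
  have E3 : ∀ Y : Nat, Y ≤ Y1 → ∀ x : ℝ, ((n2 side Y : Nat) : ℝ) / den side =
      aff (A3 side) x ((Y : ℝ) / 2 ^ 48) := fun Y h1 x => nn3 (by omega) x
  have q1lo : ∀ x ∈ Icc ((X0 : ℝ) / 2 ^ 48) ((X1 : ℝ) / 2 ^ 48),
      ∀ y ∈ Icc ((Y0 : ℝ) / 2 ^ 48) ((Y1 : ℝ) / 2 ^ 48),
      ((lo1 side X0 X1 Y0 Y1 : Nat) : ℝ) / den side ≤ aff (A1 side) x y := by
    intro x hx y hy
    cases side
    · have e : lo1 false X0 X1 Y0 Y1 = n1 false X1 Y1 := rfl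
      rw [e, E1 X1 Y1 le_rfl le_rfl]
      simp only [aff, A1, Bool.false_eq_true, if_false]
      linarith [hx.2, hy.2]
    · have e : lo1 true X0 X1 Y0 Y1 = n1 true X0 Y0 := rfl
      rw [e, E1 X0 Y0 hX.le hY.le]
      simp only [aff, A1, if_true]
      linarith [hx.1, hy.1]
  have q1hi : ∀ x ∈ Icc ((X0 : ℝ) / 2 ^ 48) ((X1 : ℝ) / 2 ^ 48),
      ∀ y ∈ Icc ((Y0 : ℝ) / 2 ^ 48) ((Y1 : ℝ) / 2 ^ 48),
      aff (A1 side) x y ≤ ((hi1 side X0 X1 Y0 Y1 : Nat) : ℝ) / den side := by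
    intro x hx y hy
    cases side
    · have e : hi1 false X0 X1 Y0 Y1 = n1 false X0 Y0 := rfl
      rw [e, E1 X0 Y0 hX.le hY.le]
      simp only [aff, A1, Bool.false_eq_true, if_false]
      linarith [hx.1, hy.1]
    · have e : hi1 true X0 X1 Y0 Y1 = n1 true X1 Y1 := rfl
      rw [e, E1 X1 Y1 le_rfl le_rfl]
      simp only [aff, A1, if_true]
      linarith [hx.2, hy.2]
  have q2lo : ∀ x ∈ Icc ((X0 : ℝ) / 2 ^ 48) ((X1 : ℝ) / 2 ^ 48),
      ∀ y ∈ Icc ((Y0 : ℝ) / 2 ^ 48) ((Y1 : ℝ) / 2 ^ 48),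
      ((lo2 side X0 X1 : Nat) : ℝ) / den side ≤ aff (A2 side) x y := by
    intro x hx y hy
    cases side
    · have e : lo2 false X0 X1 = n2 false X0 := rfl
      rw [e, E2 X0 hX.le y]
      simp only [aff, A2, Bool.false_eq_true, if_false]
      linarith [hx.1]
    · have e : lo2 true X0 X1 = n2 true X1 := rfl
      rw [e, E2 X1 le_rfl y]
      simp only [aff, A2, if_true]
      linarith [hx.2]
  have q2hi : ∀ x ∈ Icc ((X0 : ℝ) / 2 ^ 48) ((X1 : ℝ) / 2 ^ 48),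
      ∀ y ∈ Icc ((Y0 : ℝ) / 2 ^ 48) ((Y1 : ℝ) / 2 ^ 48),
      aff (A2 side) x y ≤ ((hi2 side X0 X1 : Nat) : ℝ) / den side := by
    intro x hx y hy
    cases side
    · have e : hi2 false X0 X1 = n2 false X1 := rfl
      rw [e, E2 X1 le_rfl y]
      simp only [aff, A2, Bool.false_eq_true, if_false]
      linarith [hx.2]
    · have e : hi2 true X0 X1 = n2 true X0 := rfl
      rw [e, E2 X0 hX.le y]
      simp only [aff, A2, if_true]
      linarith [hx.1]
  have q3lo : ∀ x ∈ Icc ((X0 : ℝ) / 2 ^ 48) ((X1 : ℝ) / 2 ^ 48),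
      ∀ y ∈ Icc ((Y0 : ℝ) / 2 ^ 48) ((Y1 : ℝ) / 2 ^ 48),
      ((lo2 side Y0 Y1 : Nat) : ℝ) / den side ≤ aff (A3 side) x y := by
    intro x hx y hy
    cases side
    · have e : lo2 false Y0 Y1 = n2 false Y0 := rfl
      rw [e, E3 Y0 hY.le x]
      simp only [aff, A3, Bool.false_eq_true, if_false]
      linarith [hy.1]
    · have e : lo2 true Y0 Y1 = n2 true Y1 := rfl
      rw [e, E3 Y1 le_rfl x]
      simp only [aff, A3, if_true]
      linarith [hy.2]
  have q3hi : ∀ x ∈ Icc ((X0 : ℝ) / 2 ^ 48) ((X1 : ℝ) / 2 ^ 48),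
      ∀ y ∈ Icc ((Y0 : ℝ) / 2 ^ 48) ((Y1 : ℝ) / 2 ^ 48),
      aff (A3 side) x y ≤ ((hi2 side Y0 Y1 : Nat) : ℝ) / den side := by
    intro x hx y hy
    cases side
    · have e : hi2 false Y0 Y1 = n2 false Y1 := rfl
      rw [e, E3 Y1 le_rfl x]
      simp only [aff, A3, Bool.false_eq_true, if_false]
      linarith [hy.2]
    · have e : hi2 true Y0 Y1 = n2 true Y0 := rfl
      rw [e, E3 Y0 hY.le x]
      simp only [aff, A3, if_true]
      linarith [hy.1]
  have dx : ((Nat.sub X1 X0 : Nat) : ℝ) = X1 - X0 := Nat.cast_sub hX.le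
  have dy : ((Nat.sub Y1 Y0 : Nat) : ℝ) = Y1 - Y0 := Nat.cast_sub hY.le
  have s1x : |(A1 side).2.1| * ((X1 : ℝ) / 2 ^ 48 - (X0 : ℝ) / 2 ^ 48) =
      ((Nat.sub X1 X0 : Nat) : ℝ) / den side := by
    rw [dx]
    cases side
    · simp only [A1, den, Bool.false_eq_true, if_false]
      rw [abs_neg, abs_one]; ring
    · simp only [A1, den, if_true]
      rw [abs_of_pos (by norm_num)]; ring
  have s1y : |(A1 side).2.2| * ((Y1 : ℝ) / 2 ^ 48 - (Y0 : ℝ) / 2 ^ 48) =
      ((Nat.sub Y1 Y0 : Nat) : ℝ) / den side := by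
    rw [dy]
    cases side
    · simp only [A1, den, Bool.false_eq_true, if_false]
      rw [abs_neg, abs_one]; ring
    · simp only [A1, den, if_true]
      rw [abs_of_pos (by norm_num)]; ring
  have s2x : |(A2 side).2.1| * ((X1 : ℝ) / 2 ^ 48 - (X0 : ℝ) / 2 ^ 48) =
      ((Nat.sub X1 X0 : Nat) : ℝ) / den side := by
    rw [dx]
    cases side
    · simp only [A2, den, Bool.false_eq_true, if_false]
      rw [abs_one]; ring
    · simp only [A2, den, if_true]
      rw [abs_neg, abs_of_pos (by norm_num)]; ring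
  have s2y : |(A2 side).2.2| * ((Y1 : ℝ) / 2 ^ 48 - (Y0 : ℝ) / 2 ^ 48) = 0 := by
    cases side <;> simp [A2]
  have s3x : |(A3 side).2.1| * ((X1 : ℝ) / 2 ^ 48 - (X0 : ℝ) / 2 ^ 48) = 0 := by
    cases side <;> simp [A3]
  have s3y : |(A3 side).2.2| * ((Y1 : ℝ) / 2 ^ 48 - (Y0 : ℝ) / 2 ^ 48) =
      ((Nat.sub Y1 Y0 : Nat) : ℝ) / den side := by
    rw [dy]
    cases side
    · simp only [A3, den, Bool.false_eq_true, if_false]
      rw [abs_one]; ring
    · simp only [A3, den, if_true]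
      rw [abs_neg, abs_of_pos (by norm_num)]; ring
  have c1 := CF_of (side := side) d1 q1lo q1hi (ux := us (Nat.sub X1 X0) (lo1 side X0 X1 Y0 Y1))
    (uy := us (Nat.sub Y1 Y0) (lo1 side X0 X1 Y0 Y1)) (Or.inl ⟨s1x, rfl⟩) (Or.inl ⟨s1y, rfl⟩)
  have c2 := CF_of (side := side) (dY := 0) d2 q2lo q2hi
    (ux := us (Nat.sub X1 X0) (lo2 side X0 X1)) (uy := 0) (Or.inl ⟨s2x, rfl⟩) (Or.inr s2y)
  have c3 := CF_of (side := side) (dX := 0) d3 q3lo q3hi (ux := 0)
    (uy := us (Nat.sub Y1 Y0) (lo2 side Y0 Y1)) (Or.inr s3x) (Or.inl ⟨s3y, rfl⟩)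
  obtain ⟨g1, g1', g1''⟩ := dom_iff d1
  obtain ⟨g2, g2', g2''⟩ := dom_iff d2
  obtain ⟨g3, g3', g3''⟩ := dom_iff d3
  have hden := den_pos side
  refine ⟨c1, c2, c3, ?_, ?_⟩
  · intro x hx y hy
    refine (six_le (c1.nn x hx y hy) (c2.nn x hx y hy) (c3.nn x hx y hy) (q1hi x hx y hy)
      (q2hi x hx y hy) (q3hi x hx y hy) ?_ ?_ ?_).trans
      (e6U_spec g1' g1'' g2' g2'' g3' g3'')
    · exact div_pos (Nat.cast_pos.mpr (by omega)) hden
    · exact div_pos (Nat.cast_pos.mpr (by omega)) hden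
    · exact div_pos (Nat.cast_pos.mpr (by omega)) hden
  · intro f hf X Y hXc hYc
    have hXl : X ≤ X1 := by rcases hXc with rfl | rfl <;> omega
    have hXg : X0 ≤ X := by rcases hXc with rfl | rfl <;> omega
    have hYl : Y ≤ Y1 := by rcases hYc with rfl | rfl <;> omega
    have hYg : Y0 ≤ Y := by rcases hYc with rfl | rfl <;> omega
    rw [← E1 X Y hXl hYl, ← E2 X hXl, ← E3 Y hYl]
    have l1 : lo1 side X0 X1 Y0 Y1 ≤ n1 side X Y := by
      cases side
      · show 844424930131968 - (X1 + Y1) ≤ 844424930131968 - (X + Y); omega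
      · show X0 + Y0 ≤ X + Y; omega
    have l2 : lo2 side X0 X1 ≤ n2 side X := by
      cases side
      · show X0 ≤ X; omega
      · show 844424930131968 - X1 ≤ 844424930131968 - X; omega
    have l3 : lo2 side Y0 Y1 ≤ n2 side Y := by
      cases side
      · show Y0 ≤ Y; omega
      · show 844424930131968 - Y1 ≤ 844424930131968 - Y; omega
    have u1 : n1 side X Y ≤ 2 ^ 50 := by
      cases side
      · show 844424930131968 - (X + Y) ≤ 2 ^ 50; omega
      · show X + Y ≤ 2 ^ 50; omega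
    have u2 : n2 side X ≤ 2 ^ 50 := by
      cases side
      · show X ≤ 2 ^ 50; omega
      · show 844424930131968 - X ≤ 2 ^ 50; omega
    have u3 : n2 side Y ≤ 2 ^ 50 := by
      cases side
      · show Y ≤ 2 ^ 50; omega
      · show 844424930131968 - Y ≤ 2 ^ 50; omega
    refine fval_spec hf ?_ ?_ ?_ u1 u2 u3
    · intro hk
      have := Nat.le_of_ble_eq_true hk
      rcases g1 with h | h <;> omega
    · intro hk
      have := Nat.le_of_ble_eq_true hk
      rcases g2 with h | h <;> omega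
    · intro hk
      have := Nat.le_of_ble_eq_true hk
      rcases g3 with h | h <;> omega

end Crest.Agent.R163.Win
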